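import Vale.Agent.P287.C8.Deh

/-!
The affine chart of a plane curve exists.
-/

namespace Vale.Agent.P287.C8

open MvPolynomial Module Vale.Agent.P287 Vale.Agent.P287.H925 Vale.Agent.P287.Theta

/-- **Existence of the affine chart.** -/
theorem exists_affChart {g : P3} {m : ℕ} (hg : g.IsHomogeneous m) (pg : Prime g) (hm : m ≠ 1) :
    ∃ (B : Type) (_ : CommRing B) (_ : IsDomain B) (_ : Algebra ℂ B), Nonempty (AffChart g B) := by
  have hcp : Prime (cr g) := prime_cr hg pg hm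
  have hprime : (Ideal.span {cr g} : Ideal (Polynomial (Polynomial ℂ))).IsPrime :=
    (Ideal.span_singleton_prime hcp.ne_zero).2 hcp
  let B : Type := Polynomial (Polynomial ℂ) ⧸ (Ideal.span {cr g} : Ideal _)
  let φ : P3 →ₐ[ℂ] B := (Ideal.Quotient.mkₐ ℂ (Ideal.span {cr g} : Ideal _)).comp cr
  have hφ : ∀ p, φ p = 0 ↔ cr g ∣ cr p := by
    intro p
    rw [← Ideal.mem_span_singleton]
    exact Ideal.Quotient.eq_zero_iff_mem
  let dh : RG g →ₐ[ℂ] B := Ideal.Quotient.liftₐ (Ideal.span {g}) φ (by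
    intro a ha
    obtain ⟨b, rfl⟩ := Ideal.mem_span_singleton'.1 ha
    rw [hφ, map_mul]
    exact dvd_mul_left _ _)
  have hdh : ∀ p, dh (q g p) = φ p := fun p => rfl
  refine ⟨B, inferInstance, inferInstance, inferInstance, ⟨⟨dh, ?_, ?_, ?_⟩⟩⟩
  · rw [hdh]
    change Ideal.Quotient.mk _ (cr (X 0)) = 1
    rw [cr_X0, map_one]
  · intro d x hx h0
    obtain ⟨p, hp, rfl⟩ := mem_gr.1 hx
    rw [hdh, hφ] at h0
    rw [Ideal.Quotient.eq_zero_iff_mem, Ideal.mem_span_singleton]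
    exact dvd_of_cr_dvd hg pg hm hp h0
  · intro b
    obtain ⟨b, rfl⟩ := Ideal.Quotient.mk_surjective b
    obtain ⟨d, hd⟩ := exists_homogenisation (crTo b)
    obtain ⟨p, hp, hp'⟩ := hd d le_rfl
    refine ⟨d, q g p, mem_gr.2 ⟨p, hp, rfl⟩, ?_⟩
    rw [hdh]
    change Ideal.Quotient.mk _ (cr p) = _
    congr 1
    rw [cr, AlgHom.comp_apply, hp', crInv_crTo]

end Vale.Agent.P287.C8
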