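import Vale.Agent.P287.C8.Basic
import Vale.Agent.P287.Theta.Similar

/-!
From a symmetric matrix with the same discriminant and a compatible square root to a similarity of
quadratic forms, by the glueing theorem.
-/

namespace Vale.Agent.P287.C8

open MvPolynomial Module Vale.Agent.P287 Vale.Agent.P287.H925 Vale.Agent.P287.Theta

/-- The hypotheses of the glueing theorem in the chart, from homogeneous data. -/
theorem chartData {k : ℕ} {M : Matrix (Fin 4) (Fin 4) P3} {M' A : Matrix (Fin k) (Fin k) P3}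
    {g b : P3} {m a : ℕ} {e : Fin k} {c0 : ℂ} (hc0 : c0 ≠ 0) (sM : M.IsSymm) (sM' : M'.IsSymm)
    (sA : A.IsSymm) (hMA : M' * A = M.det • (1 : Matrix (Fin k) (Fin k) P3))
    (hf : M.det.IsHomogeneous 6) (pf : Prime M.det) (hδ : (M.adjugate 0 0).IsHomogeneous 3)
    (δ0 : M.adjugate 0 0 ≠ 0) (hg : g.IsHomogeneous m) (hm : 2 ≤ m) (pg : Prime g)
    (hgf : ¬ g ∣ M.det) (hAh : (A e e).IsHomogeneous a) (hA : ¬ M.det ∣ A e e)
    (rA : ∀ i j, M.det ∣ A e e * A i j - A i e * A e j)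
    (hb : M.det ∣ b ^ 2 - M.adjugate 0 0 * g * A e e) (hdet : M'.det = C c0 * M.det)
    (hsq : ∃ (e : ℕ) (s c : P3), c.IsHomogeneous e ∧ ¬ g ∣ c ∧ g ∣ c ^ 2 * M.det - s ^ 2) :
    ChartData (M.map cr) (M'.map cr) (A.map cr) (cr g) (cr b) e c0 := by
  have hd0 : (M.map cr).det = cr M.det := det_map_cr M
  have hfh : ∀ {q : P3} {e : ℕ}, q.IsHomogeneous e → ¬ M.det ∣ q → ¬ cr M.det ∣ cr q :=
    fun hq hn hd => hn (dvd_of_cr_dvd hf pf (by norm_num) hq hd)
  have hfg : ¬ M.det ∣ g := fun h =>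
    hgf (pf.irreducible.associated_of_dvd pg.irreducible h).symm.dvd
  refine { hc0 := hc0, sM := map_symm (cr : P3 →+* Polynomial (Polynomial ℂ)) sM,
           sM' := map_symm (cr : P3 →+* Polynomial (Polynomial ℂ)) sM',
           sA := map_symm (cr : P3 →+* Polynomial (Polynomial ℂ)) sA, hMA := ?_,
           pf := ?_, df := ?_, pg := ?_, dg := ?_, hfg := ?_, hδ := ?_, hA := ?_, rA := ?_,
           hb := ?_, hdet := ?_, hsq := ?_ }
  · have h1 : M'.map cr * A.map cr = (M' * A).map cr := (Matrix.map_mul).symm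
    rw [h1, hMA, hd0]
    ext i j
    by_cases hij : i = j
    · subst hij
      simp
    · simp [Matrix.one_apply_ne hij]
  · rw [hd0]; exact prime_cr hf pf (by norm_num)
  · rw [hd0]; exact natDegree_cr_ne_zero hf pf (by norm_num)
  · exact prime_cr hg pg (by omega)
  · exact natDegree_cr_ne_zero hg pg (by omega)
  · rw [hd0]; exact hfh hg hfg
  · rw [hd0, adj_map_cr]
    exact hfh hδ (not_dvd_of_degree hf hδ δ0 (by norm_num))
  · rw [hd0]; exact hfh hAh hA
  · intro i j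
    rw [hd0]
    simp only [Matrix.map_apply, ← map_mul, ← map_sub]
    exact map_dvd cr (rA i j)
  · rw [hd0, adj_map_cr]
    simp only [Matrix.map_apply, ← map_mul, ← map_sub, ← map_pow]
    exact map_dvd cr hb
  · have h1 : (M'.map cr).det = cr M'.det := (AlgHom.map_det cr M').symm
    rw [h1, hdet, hd0, map_mul]
    congr 1
    exact cr.commutes c0
  · obtain ⟨e, s, c, hc, hgc, h⟩ := hsq
    refine ⟨cr s, cr c, fun h1 => hgc (dvd_of_cr_dvd hg pg (by omega) hc h1), ?_⟩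
    rw [hd0, ← map_pow, ← map_pow, ← map_mul, ← map_sub]
    exact map_dvd cr h

/-- entries of `M.map (aeval tvec)` through the chart -/
lemma map_cr_crMap {k : ℕ} (M : Matrix (Fin k) (Fin k) P3) :
    (M.map cr).map crMap = M.map (aeval tvec : P3 →ₐ[ℂ] RatK) := by
  refine Matrix.ext fun i j => ?_
  rw [Matrix.map_apply, Matrix.map_apply, Matrix.map_apply, crMap_cr]

/-- From a Lagrangian subspace of `Q ⊥ -γ G` to a similarity `Q ≃ γ G`, in dimension four. -/
theorem exists_similarity4 {K : Type*} [Field K] {Q G : Matrix (Fin 4) (Fin 4) K}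
    (hG0 : G.det ≠ 0) {γ : K} (hγ : γ ≠ 0) (U : Submodule K (Fin 4 ⊕ Fin 4 → K))
    (hU : ∀ x ∈ U, ∀ y ∈ U, (fun i => x (Sum.inl i)) ⬝ᵥ Q.mulVec (fun i => y (Sum.inl i)) -
      γ * ((fun i => x (Sum.inr i)) ⬝ᵥ G.mulVec (fun i => y (Sum.inr i))) = 0)
    (hd : finrank K U = 4) :
    (∃ v : Fin 4 → K, v ≠ 0 ∧ v ⬝ᵥ Q.mulVec v = 0) ∨
      ∃ φ : (Fin 4 → K) ≃ₗ[K] (Fin 4 → K),
        ∀ v, φ v ⬝ᵥ G.mulVec (φ v) = γ⁻¹ * (v ⬝ᵥ Q.mulVec v) := by
  by_cases hiso : ∃ v : Fin 4 → K, v ≠ 0 ∧ v ⬝ᵥ Q.mulVec v = 0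
  · exact Or.inl hiso
  right
  have han : ∀ v : Fin 4 → K, v ⬝ᵥ Q.mulVec v = 0 → v = 0 := by
    intro v hv
    by_contra h0
    exact hiso ⟨v, h0, hv⟩
  let p1 : U →ₗ[K] (Fin 4 → K) := (LinearMap.funLeft K K Sum.inl) ∘ₗ U.subtype
  let p2 : U →ₗ[K] (Fin 4 → K) := (LinearMap.funLeft K K Sum.inr) ∘ₗ U.subtype
  have hp2 : Function.Injective p2 := by
    rw [injective_iff_map_eq_zero]
    rintro ⟨u, hu⟩ hu2
    have hu2' : (fun i => u (Sum.inr i)) = (0 : Fin 4 → K) := hu2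
    have h3 := hU u hu u hu
    rw [hu2', Matrix.mulVec_zero, dotProduct_zero, mul_zero, sub_zero] at h3
    have h4 := han _ h3
    apply Subtype.ext
    funext j
    rcases j with j | j
    · exact congrFun h4 j
    · exact congrFun hu2' j
  have hfr : finrank K U = finrank K (Fin 4 → K) := by rw [hd]; simp
  have hp2s : Function.Surjective p2 :=
    (LinearMap.injective_iff_surjective_of_finrank_eq_finrank hfr).1 hp2
  have hp1 : Function.Injective p1 := by
    rw [injective_iff_map_eq_zero]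
    rintro ⟨u, hu⟩ hu1
    have hu1' : (fun i => u (Sum.inl i)) = (0 : Fin 4 → K) := hu1
    have h3 : ∀ w : Fin 4 → K, w ⬝ᵥ G.mulVec (fun i => u (Sum.inr i)) = 0 := by
      intro w
      obtain ⟨⟨y, hy⟩, rfl⟩ := hp2s w
      have h4 := hU y hy u hu
      rw [hu1', Matrix.mulVec_zero, dotProduct_zero, zero_sub, neg_eq_zero] at h4
      exact (mul_eq_zero.mp h4).resolve_left hγ
    have h5 : G.mulVec (fun i => u (Sum.inr i)) = 0 := by
      funext i
      have := h3 (Pi.single i 1)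
      rwa [single_one_dotProduct] at this
    have h6 : (fun i => u (Sum.inr i)) = (0 : Fin 4 → K) := by
      by_contra h7
      exact hG0 (Matrix.exists_mulVec_eq_zero_iff.1 ⟨_, h7, h5⟩)
    apply Subtype.ext
    funext j
    rcases j with j | j
    · exact congrFun hu1' j
    · exact congrFun h6 j
  let e1 : U ≃ₗ[K] (Fin 4 → K) := p1.linearEquivOfInjective hp1 hfr
  let e2 : U ≃ₗ[K] (Fin 4 → K) := p2.linearEquivOfInjective hp2 hfr
  refine ⟨e1.symm.trans e2, fun v => ?_⟩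
  obtain ⟨u, rfl⟩ := e1.surjective v
  rw [LinearEquiv.trans_apply, LinearEquiv.symm_apply_apply]
  have h4 := hU u.1 u.2 u.1 u.2
  have h5 : e1 u = fun i => u.1 (Sum.inl i) := rfl
  have h6 : e2 u = fun i => u.1 (Sum.inr i) := rfl
  rw [h5, h6]
  field_simp
  linear_combination -h4

/-- rank one modulo the discriminant -/
lemma rank_one {k : ℕ} {f u : P3} (pf : Prime f) (hfu : ¬ f ∣ u) {b : Fin k → P3}
    {A : Matrix (Fin k) (Fin k) P3} (hbA : ∀ i j, f ∣ b i * b j - u * A i j) (e i j : Fin k) :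
    f ∣ A e e * A i j - A i e * A e j := by
  have h : f ∣ u * (u * (A e e * A i j - A i e * A e j)) := by
    have h1 := ((hbA e e).mul_left (-(u * A i j))).add ((hbA i j).mul_left (-(b e * b e)))
    have h2 := ((hbA i e).mul_left (u * A e j)).add ((hbA e j).mul_left (b i * b e))
    refine (h1.add h2).trans (dvd_of_eq ?_)
    ring
  exact (pf.dvd_or_dvd ((pf.dvd_or_dvd h).resolve_left hfu)).resolve_left hfu

lemma not_dvd_diag {k : ℕ} {f u : P3} (pf : Prime f) {b : Fin k → P3}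
    {A : Matrix (Fin k) (Fin k) P3} (hbA : ∀ i j, f ∣ b i * b j - u * A i j) {e : Fin k}
    (hb : ¬ f ∣ b e) : ¬ f ∣ A e e := by
  intro h
  have h1 : f ∣ b e * b e := by
    have := (hbA e e).add (h.mul_left u)
    refine this.trans (dvd_of_eq ?_)
    ring
  exact (pf.dvd_or_dvd h1).elim hb hb

end Vale.Agent.P287.C8
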