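import Vale.Agent.P287.Theta.IsoFinal

/-!
Common definitions for the theorem on splitting curves: a smooth plane sextic `f`, a form `u`
meeting it with even multiplicities, square roots modulo `(u, f)`, and the lattices used in the
parity theorem.
-/

namespace Vale.Agent.P287.C8

open MvPolynomial Vale.Agent.P287 Vale.Agent.P287.H925 Vale.Agent.P287.Theta

/-- `f` is a smooth plane sextic and `u` a form of degree `e` not divisible by `f`, with even
intersection multiplicity with `f` at every point. -/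
structure EvenOn (f u : P3) (e : ℕ) : Prop where
  hf : f.IsHomogeneous 6
  sf : SmoothP f
  hu : u.IsHomogeneous e
  hfu : ¬ f ∣ u
  even : ∀ z : Fin 3 → ℂ, z ≠ 0 → eval z f = 0 → ∃ v ε : P3, eval z v ≠ 0 ∧ f ∣ v * u - ε ^ 2

/-- Forms of degree `d` whose square lies in `(u, f)` (they form a subspace if `EvenOn f u e`). -/
noncomputable def rt (f u : P3) (d : ℕ) : Submodule ℂ P3 :=
  Submodule.span ℂ {b | b.IsHomogeneous d ∧ b ^ 2 ∈ (Ideal.span {u, f} : Ideal P3)}

/-- The homogeneous coordinate ring of the plane curve `g = 0`. -/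
abbrev RG (g : P3) : Type := P3 ⧸ Ideal.span {g}

/-- the degree `d` part of `RG g` -/
noncomputable def gr (g : P3) (d : ℕ) : Submodule ℂ (RG g) :=
  (homogeneousSubmodule (Fin 3) ℂ d).map (Ideal.Quotient.mkₐ ℂ (Ideal.span {g})).toLinearMap

/-- the image of `rt f g d` in `RG g` -/
noncomputable def Jq (f g : P3) (d : ℕ) : Submodule ℂ (RG g) :=
  (rt f g d).map (Ideal.Quotient.mkₐ ℂ (Ideal.span {g})).toLinearMap

/-- a polynomial as an element of `RG g` -/
noncomputable abbrev q (g : P3) (p : P3) : RG g := Ideal.Quotient.mk (Ideal.span {g}) p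

/-- a matrix of polynomials over `RG g` -/
noncomputable abbrev qm (g : P3) (A : Matrix (Fin 3) (Fin 3) P3) : Matrix (Fin 3) (Fin 3) (RG g) :=
  A.map (Ideal.Quotient.mk (Ideal.span {g}))

/-- The lattice `W`: vectors `l` of degree `d` over `RG g` with `A l ∈ J`, where `A` is a symmetric
matrix of quartic forms of rank one on `f = 0`. -/
noncomputable def Wq (f g : P3) (A : Matrix (Fin 3) (Fin 3) P3) (d : ℕ) :
    Submodule ℂ (Fin 3 → RG g) where
  carrier := {l | (∀ i, l i ∈ gr g d) ∧ ∀ j, ((qm g A).mulVec l) j ∈ Jq f g (d + 4)}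
  add_mem' {a b} ha hb := ⟨fun i => add_mem (ha.1 i) (hb.1 i), fun j => by
    rw [Matrix.mulVec_add, Pi.add_apply]
    exact add_mem (ha.2 j) (hb.2 j)⟩
  zero_mem' := ⟨fun i => zero_mem _, fun j => by rw [Matrix.mulVec_zero]; exact zero_mem _⟩
  smul_mem' c a ha := ⟨fun i => Submodule.smul_mem _ c (ha.1 i), fun j => by
    rw [Matrix.mulVec_smul, Pi.smul_apply]
    exact Submodule.smul_mem _ c (ha.2 j)⟩

/-- The lattice `N`, kernel of the right multiplication by the isotropic pure quaternion `ℓ`: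
`(l, ψ) ℓ = (Q (l × ℓ) + ψ ℓ, - A(l, ℓ))`. -/
noncomputable def Nq (f g : P3) (Q A : Matrix (Fin 3) (Fin 3) P3) (ℓ : Fin 3 → RG g) (d : ℕ) :
    Submodule ℂ ((Fin 3 → RG g) × RG g) where
  carrier := {v | v.1 ∈ Wq f g A d ∧ v.2 ∈ Jq f g (d + 2) ∧
    (∀ i, ((qm g Q).mulVec (crossProduct v.1 ℓ)) i + v.2 * ℓ i = 0) ∧
    dotProduct ((qm g A).mulVec ℓ) v.1 = 0}
  add_mem' {a b} ha hb := ⟨add_mem ha.1 hb.1, add_mem ha.2.1 hb.2.1, fun i => by
    rw [Prod.fst_add, Prod.snd_add, map_add, LinearMap.add_apply, Matrix.mulVec_add, Pi.add_apply]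
    linear_combination ha.2.2.1 i + hb.2.2.1 i, by
    rw [Prod.fst_add, dotProduct_add, ha.2.2.2, hb.2.2.2, add_zero]⟩
  zero_mem' := ⟨zero_mem _, zero_mem _, fun i => by simp, by simp⟩
  smul_mem' c a ha := ⟨Submodule.smul_mem _ c ha.1, Submodule.smul_mem _ c ha.2.1, fun i => by
    have h1 := ha.2.2.1 i
    rw [Prod.smul_fst, Prod.smul_snd, LinearMap.map_smul_of_tower, LinearMap.smul_apply,
      Matrix.mulVec_smul, Pi.smul_apply, smul_mul_assoc, ← smul_add, h1, smul_zero], by
    rw [Prod.smul_fst, dotProduct_smul, ha.2.2.2, smul_zero]⟩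

end Vale.Agent.P287.C8
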