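import Vale.Agent.P287.C8.Basic
import Vale.Agent.P287.H925.Defs

/-!
The lattices for the parity theorem in even degree: `WM`, the self-dual lattice for the inverse of
the matrix of the quadric surface fibration, and `KM`, its intersection with an isotropic plane.
-/

namespace Vale.Agent.P287.C8

open MvPolynomial Vale.Agent.P287 Vale.Agent.P287.H925 Vale.Agent.P287.Theta

/-- a `4 × 4` matrix of polynomials over `RG g` -/
noncomputable abbrev qm4 (g : P3) (A : Matrix (Fin 4) (Fin 4) P3) : Matrix (Fin 4) (Fin 4) (RG g) :=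
  A.map (Ideal.Quotient.mk (Ideal.span {g}))

/-- The lattice of the vectors `l`, with `l i` of degree `d + wt i`, such that `A l ∈ J`; here
`A` is the adjugate of the matrix of the fibration, `A i j` a form of degree `5 - wt i - wt j`. -/
noncomputable def WM (f g : P3) (A : Matrix (Fin 4) (Fin 4) P3) (d : ℕ) :
    Submodule ℂ (Fin 4 → RG g) where
  carrier := {l | (∀ i, l i ∈ gr g (d + wt i)) ∧
    ∀ j, ((qm4 g A).mulVec l) j ∈ Jq f g (d + 5 - wt j)}
  add_mem' {a b} ha hb := ⟨fun i => add_mem (ha.1 i) (hb.1 i), fun j => by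
    rw [Matrix.mulVec_add, Pi.add_apply]
    exact add_mem (ha.2 j) (hb.2 j)⟩
  zero_mem' := ⟨fun i => zero_mem _, fun j => by rw [Matrix.mulVec_zero]; exact zero_mem _⟩
  smul_mem' c a ha := ⟨fun i => Submodule.smul_mem _ c (ha.1 i), fun j => by
    rw [Matrix.mulVec_smul, Pi.smul_apply]
    exact Submodule.smul_mem _ c (ha.2 j)⟩

/-- the `3 × 3` minors of three vectors -/
def minor3 {R : Type*} [CommRing R] (l u v : Fin 4 → R) (i j k : Fin 4) : R :=
  l i * (u j * v k - u k * v j) - l j * (u i * v k - u k * v i) + l k * (u i * v j - u j * v i)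

/-- The vectors `l`, with `l i` of degree `d + wt i`, in the plane spanned by `u` and `v`. -/
noncomputable def KM (g : P3) (u v : Fin 4 → RG g) (d : ℕ) : Submodule ℂ (Fin 4 → RG g) where
  carrier := {l | (∀ i, l i ∈ gr g (d + wt i)) ∧ ∀ i j k, minor3 l u v i j k = 0}
  add_mem' {a b} ha hb := ⟨fun i => add_mem (ha.1 i) (hb.1 i), fun i j k => by
    have h1 := ha.2 i j k
    have h2 := hb.2 i j k
    simp only [minor3, Pi.add_apply] at h1 h2 ⊢
    linear_combination h1 + h2⟩
  zero_mem' := ⟨fun i => zero_mem _, fun i j k => by simp [minor3]⟩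
  smul_mem' c a ha := ⟨fun i => Submodule.smul_mem _ c (ha.1 i), fun i j k => by
    have h1 := ha.2 i j k
    simp only [minor3, Pi.smul_apply, smul_mul_assoc] at h1 ⊢
    rw [← smul_sub, ← smul_add, h1, smul_zero]⟩

end Vale.Agent.P287.C8
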