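import Vale.Agent.P287.C8.Basic

/-!
Dimensions: forms in three variables, and the inequality of Bézout's theorem.
-/

namespace Vale.Agent.P287.C8

open MvPolynomial Vale.Agent.P287 Vale.Agent.P287.H925 Vale.Agent.P287.Theta

/-- the forms of degree `d` in three variables -/
abbrev HS (d : ℕ) : Submodule ℂ P3 := homogeneousSubmodule (Fin 3) ℂ d

instance finite_HS (d : ℕ) : Module.Finite ℂ (HS d) := Module.Finite.iff_fg.2
  (homogeneousSubmodule_fg (Fin 3) ℂ d)

theorem finrank_HS (d : ℕ) : Module.finrank ℂ (HS d) = (d + 2).choose 2 := by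
  have h1 : HS d = AddMonoidAlgebra.supported _ ℂ {v : Fin 3 →₀ ℕ | v.degree = d} :=
    homogeneousSubmodule_eq_finsupp_supported (Fin 3) ℂ d
  have hset : {v : Fin 3 →₀ ℕ | v.degree = d} =
      ((Finset.univ : Finset (Fin 3)).finsuppAntidiag d : Set (Fin 3 →₀ ℕ)) := by
    ext v
    simp [Finset.mem_finsuppAntidiag, Finsupp.degree_eq_sum]
  rw [h1, hset]
  have h2 := Module.finrank_eq_card_basis (basisRestrictSupport ℂ
    ((Finset.univ : Finset (Fin 3)).finsuppAntidiag d : Set (Fin 3 →₀ ℕ)))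
  refine Eq.trans h2 ?_
  have h3 : Fintype.card (((Finset.univ : Finset (Fin 3)).finsuppAntidiag d :
      Set (Fin 3 →₀ ℕ))) = ((Finset.univ : Finset (Fin 3)).finsuppAntidiag d).card := by
    exact Fintype.card_coe _
  rw [h3, Finset.card_finsuppAntidiag_nat_eq_choose]
  have h4 : (Finset.univ : Finset (Fin 3)).card + d - 1 = d + 2 := by
    simp; omega
  rw [h4]
  exact Nat.choose_symm_add

/-- arithmetic -/
lemma choose_arith {n e d : ℕ} (h : n + e ≤ d) :
    (d + 2).choose 2 + (d - e - n + 2).choose 2 = (d - e + 2).choose 2 + (d - n + 2).choose 2 +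
      n * e := by
  obtain ⟨k, rfl⟩ := Nat.exists_eq_add_of_le h
  have e1 : n + e + k - e - n = k := by omega
  have e2 : n + e + k - e = n + k := by omega
  have e3 : n + e + k - n = e + k := by omega
  rw [e1, e2, e3]
  have key : ∀ a : ℕ, 2 * (a + 2).choose 2 = (a + 2) * (a + 1) := by
    intro a
    have := Nat.choose_two_right (a + 2)
    have h2 : (a + 2) - 1 = a + 1 := by omega
    rw [h2] at this
    rw [this]
    exact Nat.mul_div_cancel' (by
      have := Nat.even_mul_succ_self (a + 1)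
      rw [mul_comm (a + 2)]
      exact this.two_dvd)
  have h1 := key (n + e + k)
  have h2 := key k
  have h3 := key (n + k)
  have h4 := key (e + k)
  nlinarith

section

variable {f u : P3} {n e : ℕ}

/-- `(p, q) ↦ u p + f q` -/
noncomputable def comb (u f : P3) (a b : ℕ) : (HS a) × (HS b) →ₗ[ℂ] P3 :=
  ((LinearMap.mulLeft ℂ u).comp (HS a).subtype).coprod
    ((LinearMap.mulLeft ℂ f).comp (HS b).subtype)

lemma comb_apply (u f : P3) (a b : ℕ) (p : (HS a) × (HS b)) :
    comb u f a b p = u * (p.1 : P3) + f * (p.2 : P3) := by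
  simp [comb]

lemma comb_range_le (hf : f.IsHomogeneous n) (hu : u.IsHomogeneous e) {d : ℕ} (hd : n + e ≤ d) :
    LinearMap.range (comb u f (d - e) (d - n)) ≤ HS d := by
  rintro _ ⟨⟨p, q⟩, rfl⟩
  rw [comb_apply]
  have h1 := hu.mul ((mem_homogeneousSubmodule _ _).1 p.2)
  have h2 := hf.mul ((mem_homogeneousSubmodule _ _).1 q.2)
  rw [Nat.add_sub_cancel' (by omega)] at h1 h2
  exact h1.add h2

/-- the Koszul relations -/
noncomputable def kos (hf : f.IsHomogeneous n) (hu : u.IsHomogeneous e) {a b c : ℕ}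
    (ha : n + c = a) (hb : e + c = b) : HS c →ₗ[ℂ] (HS a) × (HS b) :=
  ((LinearMap.mulLeft ℂ f).restrict (p := HS c) (q := HS a) (fun s hs => by
    subst ha
    exact hf.mul hs)).prod
  ((-(LinearMap.mulLeft ℂ u)).restrict (p := HS c) (q := HS b) (fun s hs => by
    subst hb
    exact (hu.mul hs).neg))

lemma ker_comb_le (hf : f.IsHomogeneous n) (pf : Prime f) (hu : u.IsHomogeneous e)
    (hfu : ¬ f ∣ u) {a b c : ℕ} (ha : n + c = a) (hb : e + c = b) :
    LinearMap.ker (comb u f a b) ≤ LinearMap.range (kos hf hu ha hb) := by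
  rintro ⟨⟨p, hp⟩, ⟨q, hq⟩⟩ h
  rw [LinearMap.mem_ker, comb_apply] at h
  change u * p + f * q = 0 at h
  have h1 : f ∣ u * p := ⟨-q, by linear_combination h⟩
  obtain ⟨s, hs⟩ := (pf.dvd_or_dvd h1).resolve_left hfu
  have hq' : q = -(u * s) := by
    have h2 : f * (q + u * s) = 0 := by
      rw [hs] at h
      linear_combination h
    have h3 := (mul_eq_zero.1 h2).resolve_left pf.ne_zero
    linear_combination h3
  have hsc : s.IsHomogeneous c := by
    by_cases hp0 : p = 0
    · have h3 : s = 0 := (mul_eq_zero.1 (hs.symm.trans hp0)).resolve_left pf.ne_zero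
      rw [h3]
      exact isHomogeneous_zero _ _ _
    · obtain ⟨m, hm, hsm⟩ := degree_le_of_mul hf (hs ▸ (mem_homogeneousSubmodule _ _).1 hp)
        (hs ▸ hp0)
      have : m = c := by omega
      rwa [← this]
  refine ⟨⟨s, hsc⟩, ?_⟩
  refine Prod.ext (Subtype.ext ?_) (Subtype.ext ?_)
  · exact hs.symm
  · exact hq'.symm

lemma finrank_comb (hf : f.IsHomogeneous n) (pf : Prime f) (hu : u.IsHomogeneous e)
    (hfu : ¬ f ∣ u) {d : ℕ} (hd : n + e ≤ d) :
    (d - e + 2).choose 2 + (d - n + 2).choose 2 ≤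
      Module.finrank ℂ (LinearMap.range (comb u f (d - e) (d - n))) +
        (d - e - n + 2).choose 2 := by
  have h1 := (comb u f (d - e) (d - n)).finrank_range_add_finrank_ker
  rw [Module.finrank_prod, finrank_HS, finrank_HS] at h1
  have ha : n + (d - e - n) = d - e := by omega
  have hb : e + (d - e - n) = d - n := by omega
  have h2 : Module.finrank ℂ (LinearMap.ker (comb u f (d - e) (d - n))) ≤
      (d - e - n + 2).choose 2 := by
    rw [← finrank_HS]
    exact (Submodule.finrank_mono (ker_comb_le hf pf hu hfu ha hb)).trans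
      (LinearMap.finrank_range_le _)
  omega

/-- The inequality of Bézout's theorem: the image of the forms of degree `d` under a linear map
which kills the ideal `(u, f)` has dimension at most `n e`. -/
theorem finrank_map_HS_le (hf : f.IsHomogeneous n) (pf : Prime f) (hu : u.IsHomogeneous e)
    (hfu : ¬ f ∣ u) {d : ℕ} (hd : n + e ≤ d) {Q : Type*} [AddCommGroup Q] [Module ℂ Q]
    (φ : P3 →ₗ[ℂ] Q) (h1 : ∀ p, φ (u * p) = 0) (h2 : ∀ p, φ (f * p) = 0) :
    Module.finrank ℂ ((HS d).map φ) ≤ n * e := by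
  set ψ : HS d →ₗ[ℂ] Q := φ.comp (HS d).subtype with hψ
  have hr : (HS d).map φ = LinearMap.range ψ := by
    rw [hψ, LinearMap.range_comp, Submodule.range_subtype]
  rw [hr]
  have h3 := ψ.finrank_range_add_finrank_ker
  rw [finrank_HS] at h3
  have h4 : (LinearMap.range (comb u f (d - e) (d - n))).comap (HS d).subtype ≤
      LinearMap.ker ψ := by
    rintro x hx
    obtain ⟨⟨p, q⟩, hpq⟩ := (Submodule.mem_comap.1 hx : _)
    rw [LinearMap.mem_ker, hψ, LinearMap.comp_apply, ← hpq, comb_apply, map_add, h1, h2, add_zero]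
  have h5 : Module.finrank ℂ ((LinearMap.range (comb u f (d - e) (d - n))).comap (HS d).subtype) =
      Module.finrank ℂ (LinearMap.range (comb u f (d - e) (d - n))) :=
    LinearEquiv.finrank_eq (Submodule.comapSubtypeEquivOfLe (comb_range_le hf hu hd))
  have h6 := Submodule.finrank_mono h4
  rw [h5] at h6
  have h7 := finrank_comb hf pf hu hfu hd
  have h8 := choose_arith hd
  omega

/-- Bézout, graded version. -/
theorem finrank_quot_HS_le (hf : f.IsHomogeneous n) (pf : Prime f) (hu : u.IsHomogeneous e)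
    (hfu : ¬ f ∣ u) {d : ℕ} (hd : n + e ≤ d) :
    Module.finrank ℂ ((HS d).map
      (Ideal.Quotient.mkₐ ℂ (Ideal.span {u, f} : Ideal P3)).toLinearMap) ≤ n * e := by
  refine finrank_map_HS_le hf pf hu hfu hd _ (fun p => ?_) (fun p => ?_)
  · exact Ideal.Quotient.eq_zero_iff_mem.2
      (Ideal.mul_mem_right _ _ (Ideal.subset_span (by simp)))
  · exact Ideal.Quotient.eq_zero_iff_mem.2
      (Ideal.mul_mem_right _ _ (Ideal.subset_span (by simp)))

/-- Bézout, affine version. -/
theorem bezout_affine (hf : f.IsHomogeneous n) (pf : Prime f) (hu : u.IsHomogeneous e)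
    (hfu : ¬ f ∣ u) :
    Module.Finite ℂ (Polynomial (Polynomial ℂ) ⧸ (Ideal.span {cr u, cr f} : Ideal _)) ∧
      Module.finrank ℂ (Polynomial (Polynomial ℂ) ⧸ (Ideal.span {cr u, cr f} : Ideal _)) ≤
        n * e := by
  set I : Ideal (Polynomial (Polynomial ℂ)) := Ideal.span {cr u, cr f} with hI
  set φ : P3 →ₗ[ℂ] Polynomial (Polynomial ℂ) ⧸ I :=
    ((Ideal.Quotient.mkₐ ℂ I).comp cr).toLinearMap with hφ
  have h1 : ∀ p, φ (u * p) = 0 := fun p => by
    refine Ideal.Quotient.eq_zero_iff_mem.2 ?_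
    change cr (u * p) ∈ I
    rw [map_mul]
    exact Ideal.mul_mem_right _ _ (Ideal.subset_span (by simp))
  have h2 : ∀ p, φ (f * p) = 0 := fun p => by
    refine Ideal.Quotient.eq_zero_iff_mem.2 ?_
    change cr (f * p) ∈ I
    rw [map_mul]
    exact Ideal.mul_mem_right _ _ (Ideal.subset_span (by simp))
  -- every finite set lies in the image of the forms of large degree
  have h3 : ∀ x : Polynomial (Polynomial ℂ) ⧸ I, ∃ D, ∀ d, D ≤ d → x ∈ (HS d).map φ := by
    intro x
    obtain ⟨a, rfl⟩ := Ideal.Quotient.mk_surjective x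
    obtain ⟨D, hD⟩ := exists_homogenisation (crTo a)
    refine ⟨D, fun d hd => ?_⟩
    obtain ⟨P, hP, hP'⟩ := hD d hd
    refine ⟨P, hP, ?_⟩
    change Ideal.Quotient.mk I (cr P) = _
    rw [cr, AlgHom.comp_apply, hP', crInv_crTo]
  have h4 : Module.rank ℂ (Polynomial (Polynomial ℂ) ⧸ I) ≤ (n * e : ℕ) := by
    refine rank_le fun s hs => ?_
    choose D hD using h3
    set d := n + e + s.sup D with hd
    have h5 : ∀ x ∈ s, x ∈ (HS d).map φ := fun x hx =>
      hD x d (le_trans (Finset.le_sup hx) (Nat.le_add_left _ _))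
    have h6 : Module.finrank ℂ ((HS d).map φ) ≤ n * e :=
      finrank_map_HS_le hf pf hu hfu (by omega) φ h1 h2
    have h7 : LinearIndependent ℂ (fun i : s => (⟨i.1, h5 i.1 i.2⟩ : (HS d).map φ)) := by
      refine LinearIndependent.of_comp ((HS d).map φ).subtype ?_
      exact hs
    have h8 := h7.fintype_card_le_finrank
    rw [Fintype.card_coe] at h8
    exact h8.trans h6
  have h5 : Module.Finite ℂ (Polynomial (Polynomial ℂ) ⧸ I) :=
    Module.rank_lt_aleph0_iff.1 (lt_of_le_of_lt h4 (Cardinal.natCast_lt_aleph0))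
  exact ⟨h5, Module.finrank_le_of_rank_le h4⟩

end

end Vale.Agent.P287.C8
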