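import Vale.Agent.P287.C8.Strict

/-!
The cokernel `T` of `∑ x i • l i + s : k ⊗ N → k ⊗ (B × J)` has odd dimension.
-/

namespace Vale.Agent.P287.C8

open MvPolynomial Module Vale.Agent.P287 Vale.Agent.P287.H925 Vale.Agent.P287.Theta
open scoped TensorProduct

section

variable {f g : P3} {Q : Matrix (Fin 3) (Fin 3) P3} {l : Fin 3 → RG g}
  {B : Type*} [CommRing B] [Algebra ℂ B] (D : AffChart g B)

/-- the projections of the lattice on the chart -/
noncomputable def pB (D : AffChart g B) (f : P3) (Q : Matrix (Fin 3) (Fin 3) P3)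
    (l : Fin 3 → RG g) : Option (Fin 3) → ↥(D.NB f Q l) →ₗ[ℂ] B × ↥(D.JB f)
  | none =>
    { toFun := fun v => (0, ⟨v.1.2, v.2.2.1⟩)
      map_add' := fun a b => Prod.ext (add_zero 0).symm rfl
      map_smul' := fun c a => Prod.ext (smul_zero c).symm rfl }
  | some i =>
    { toFun := fun v => (v.1.1 i, 0)
      map_add' := fun a b => Prod.ext rfl (add_zero 0).symm
      map_smul' := fun c a => Prod.ext rfl (smul_zero c).symm }

/-- the target on the chart -/
noncomputable def iM {e : ℕ} (H : EvenOn f g e)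
    (hX : ∀ z : Fin 3 → ℂ, eval z f = 0 → eval z g = 0 → z 0 = 0 → z = 0) (d : ℕ) :
    MT f g d →ₗ[ℂ] B × ↥(D.JB f) where
  toFun v := (D.dh v.1, ⟨D.dh v.2, (D.mem_Jq_iff H hX (Jq_le_gr H _ v.2.2)).1 v.2.2⟩)
  map_add' a b := Prod.ext (map_add D.dh _ _) (Subtype.ext (map_add D.dh _ _))
  map_smul' c a := Prod.ext (map_smul D.dh c _) (Subtype.ext (map_smul D.dh c _))

/-- the lattice on the chart -/
noncomputable def iN {e : ℕ} (H : EvenOn f g e)
    (hX : ∀ z : Fin 3 → ℂ, eval z f = 0 → eval z g = 0 → z 0 = 0 → z = 0)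
    (hQ : ∀ i j, (Q i j).IsHomogeneous 2) (hA : ∀ i j, (Q.adjugate i j).IsHomogeneous 4)
    {a : ℕ} (hl : ∀ i, l i ∈ gr g a) (d : ℕ) :
    NT f g Q l d →ₗ[ℂ] ↥(D.NB f Q l) where
  toFun w := ⟨PhiV D.dh w, (D.mem_Nq_iff H hX hQ hA hl w.2.1.1 (Jq_le_gr H _ w.2.2.1)).1 w.2⟩
  map_add' a b := Subtype.ext (map_add (PhiV D.dh) _ _)
  map_smul' c a := Subtype.ext (map_smul (PhiV D.dh) c _)

/-- multiplication by `X 0` on the target -/
noncomputable def mM {e : ℕ} (H : EvenOn f g e) (d : ℕ) : MT f g d →ₗ[ℂ] MT f g (d + 1) where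
  toFun v := (⟨q g (X 0) * v.1, by
      have := gr_mul (X0_mem g) v.1.2
      rwa [add_comm] at this⟩, ⟨q g (X 0) * v.2, by
      obtain ⟨p, hp, hpv⟩ := v.2.2
      have h1 := H.mul_mem_rt (isHomogeneous_X ℂ (0 : Fin 3)) hp
      rw [← hpv]
      refine ⟨X 0 * p, ?_, map_mul (Ideal.Quotient.mk (Ideal.span {g})) _ _⟩
      have e1 : 1 + (d + 2) = d + 1 + 2 := by ring
      rwa [e1] at h1⟩)
  map_add' a b := Prod.ext (Subtype.ext (mul_add _ _ _)) (Subtype.ext (mul_add _ _ _))
  map_smul' c a := Prod.ext (Subtype.ext (mul_smul_comm _ _ _)) (Subtype.ext (mul_smul_comm _ _ _))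

/-- multiplication by `X 0` on the lattice -/
noncomputable def mN {e : ℕ} (H : EvenOn f g e)
    (hX : ∀ z : Fin 3 → ℂ, eval z f = 0 → eval z g = 0 → z 0 = 0 → z = 0)
    (hQ : ∀ i j, (Q i j).IsHomogeneous 2) (hA : ∀ i j, (Q.adjugate i j).IsHomogeneous 4)
    {a : ℕ} (hl : ∀ i, l i ∈ gr g a) (d : ℕ) :
    NT f g Q l d →ₗ[ℂ] NT f g Q l (d + 1) where
  toFun w := ⟨(fun i => q g (X 0) * w.1.1 i, q g (X 0) * w.1.2), by
    have h1 : ∀ i, q g (X 0) * w.1.1 i ∈ gr g (d + 1) := fun i => by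
      have := gr_mul (X0_mem g) (w.2.1.1 i)
      rwa [add_comm] at this
    have h2 : q g (X 0) * w.1.2 ∈ gr g (d + 1 + 2) := by
      have := gr_mul (X0_mem g) (Jq_le_gr H _ w.2.2.1)
      have e1 : 1 + (d + 2) = d + 1 + 2 := by ring
      rwa [e1] at this
    rw [D.mem_Nq_iff H hX hQ hA hl h1 h2]
    have h3 : PhiV D.dh (fun i => q g (X 0) * w.1.1 i, q g (X 0) * w.1.2) = PhiV D.dh w := by
      rw [PhiV_apply, PhiV_apply]
      exact Prod.ext (funext fun i => D.dh_X0_mul _) (D.dh_X0_mul _)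
    rw [h3]
    exact (D.mem_Nq_iff H hX hQ hA hl w.2.1.1 (Jq_le_gr H _ w.2.2.1)).1 w.2⟩
  map_add' a b := Subtype.ext (Prod.ext (funext fun i => mul_add _ _ _) (mul_add _ _ _))
  map_smul' c a := Subtype.ext (Prod.ext
    (funext fun i => mul_smul_comm c (q g (X 0)) (a.1.1 i)) (mul_smul_comm c (q g (X 0)) a.1.2))

/-- the coefficients -/
def yv {k : Type*} [One k] (x : Fin 3 → k) : Option (Fin 3) → k
  | none => 1
  | some i => x i

variable {k : Type*} [Field k] [Algebra ℂ k]

/-- the map whose cokernel is `T` -/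
noncomputable def PiB (D : AffChart g B) (f : P3) (Q : Matrix (Fin 3) (Fin 3) P3)
    (l : Fin 3 → RG g) (x : Fin 3 → k) :
    (k ⊗[ℂ] ↥(D.NB f Q l)) →ₗ[k] (k ⊗[ℂ] (B × ↥(D.JB f))) :=
  ∑ j, yv x j • (pB D f Q l j).baseChange k

theorem odd_coker {e a : ℕ} (H : EvenOn f g e)
    (hX : ∀ z : Fin 3 → ℂ, eval z f = 0 → eval z g = 0 → z 0 = 0 → z = 0)
    (hQ : ∀ i j, (Q i j).IsHomogeneous 2) (hA : ∀ i j, (Q.adjugate i j).IsHomogeneous 4)
    (hl : ∀ i, l i ∈ gr g a)
    {BB : Type*} [CommRing BB] [Algebra ℂ BB] (φ : RG g →ₐ[ℂ] BB) (hφX : φ (q g (X 0)) = 0)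
    (hφk : ∀ d, ∀ y ∈ gr g (d + 1), φ y = 0 → ∃ z ∈ gr g d, y = q g (X 0) * z)
    (hφ0 : ∀ y ∈ gr g 0, φ y = 0 → y = 0) (x : Fin 3 → k)
    (hx : ∀ y : k ⊗[ℂ] BB, (∑ i, x i ⊗ₜ[ℂ] φ (l i)) * y = 0 → y = 0)
    (hu : IsUnit (φ (q g Q.det))) (n₀ c : ℕ)
    (hdim : ∀ d, n₀ ≤ d → Odd (finrank ℂ (MT f g d) + finrank ℂ (NT f g Q l d)))
    (hb : ∀ d, n₀ ≤ d → finrank ℂ (MT f g d) ≤ finrank ℂ (NT f g Q l d) + c) :
    FiniteDimensional k ((k ⊗[ℂ] (B × ↥(D.JB f))) ⧸ LinearMap.range (PiB D f Q l x)) ∧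
      Odd (finrank k ((k ⊗[ℂ] (B × ↥(D.JB f))) ⧸ LinearMap.range (PiB D f Q l x))) := by
  have fJ := finite_Jq H
  have fM : ∀ d, FiniteDimensional ℂ (MT f g d) := fun d => inferInstance
  have fN : ∀ d, FiniteDimensional ℂ (NT f g Q l d) := by
    intro d
    have := finite_Wq f g Q.adjugate d
    let E : NT f g Q l d →ₗ[ℂ] (Wq f g Q.adjugate d × Jq f g (d + 2)) :=
      { toFun := fun w => (⟨w.1.1, w.2.1⟩, ⟨w.1.2, w.2.2.1⟩)
        map_add' := fun _ _ => rfl
        map_smul' := fun _ _ => rfl }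
    refine FiniteDimensional.of_injective E ?_
    intro w w' h
    apply Subtype.ext
    exact Prod.ext (congrArg (fun v => (v.1 : Fin 3 → RG g)) h)
      (congrArg (fun v => (v.2 : RG g)) h)
  -- consequences of the vanishing of the image at infinity
  have key : ∀ (d : ℕ) (ν : k ⊗[ℂ] NT f g Q l d),
      ((rg g φ d).comp (LinearMap.fst ℂ _ _)).baseChange k
        (∑ j, yv x j • (pN f g Q l d j).baseChange k ν) = 0 →
      ((rj f g φ (d + 2)).comp (LinearMap.snd ℂ _ _)).baseChange k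
        (∑ j, yv x j • (pN f g Q l d j).baseChange k ν) = 0 → redK f g Q l φ d ν = 0 := by
    intro d ν h1 h2
    refine redK_eq_zero x hx hu d ν ?_ ?_
    · rw [map_sum, Fintype.sum_option] at h1
      have e0 : ((rg g φ d).comp (LinearMap.fst ℂ _ _)).baseChange k
          (yv x none • (pN f g Q l d none).baseChange k ν) = 0 := by
        rw [map_smul, baseChange_apply_apply]
        have : ((rg g φ d).comp (LinearMap.fst ℂ _ _)).comp (pN f g Q l d none) = 0 := by
          ext w
          exact map_zero φ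
        rw [this, LinearMap.baseChange_zero, LinearMap.zero_apply, smul_zero]
      rw [e0, zero_add] at h1
      rw [← h1]
      refine Finset.sum_congr rfl fun i _ => ?_
      rw [map_smul, baseChange_apply_apply]
      rfl
    · rw [map_sum, Fintype.sum_option] at h2
      have e0 : ∀ i, ((rj f g φ (d + 2)).comp (LinearMap.snd ℂ _ _)).baseChange k
          (yv x (some i) • (pN f g Q l d (some i)).baseChange k ν) = 0 := by
        intro i
        rw [map_smul, baseChange_apply_apply]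
        have : ((rj f g φ (d + 2)).comp (LinearMap.snd ℂ _ _)).comp
            (pN f g Q l d (some i)) = 0 := by
          ext w
          exact map_zero φ
        rw [this, LinearMap.baseChange_zero, LinearMap.zero_apply, smul_zero]
      rw [Finset.sum_eq_zero fun i _ => e0 i, add_zero, map_smul, baseChange_apply_apply] at h2
      have e1 : yv x none = (1 : k) := rfl
      rw [e1, one_smul] at h2
      exact h2
  refine finite_odd_coker (k := k) (mN D H hX hQ hA hl) (mM H) (iN D H hX hQ hA hl) (iM D H hX)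
    ?_ ?_ (pN f g Q l) (pB D f Q l) (yv x) ?_ ?_ ?_ ?_ ?_ ?_ ?_ n₀ c hdim hb
  · intro d w
    apply Subtype.ext
    change PhiV D.dh (fun i => q g (X 0) * w.1.1 i, q g (X 0) * w.1.2) = PhiV D.dh w
    rw [PhiV_apply, PhiV_apply]
    exact Prod.ext (funext fun i => D.dh_X0_mul _) (D.dh_X0_mul _)
  · intro d v
    exact Prod.ext (D.dh_X0_mul _) (Subtype.ext (D.dh_X0_mul _))
  · intro d j w
    rcases j with _ | i
    · exact Prod.ext (map_zero D.dh) rfl
    · exact Prod.ext rfl (Subtype.ext (map_zero D.dh))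
  · intro d j w
    rcases j with _ | i
    · exact Prod.ext (Subtype.ext (mul_zero _)) rfl
    · exact Prod.ext rfl (Subtype.ext (mul_zero _))
  · intro d
    rw [injective_iff_map_eq_zero]
    intro v hv
    refine Prod.ext (Subtype.ext ?_) (Subtype.ext ?_)
    · exact D.inj d _ v.1.2 (congrArg Prod.fst hv)
    · exact D.inj (d + 2) _ (Jq_le_gr H _ v.2.2) (congrArg (fun w => (w.2 : B)) hv)
  · -- strictness
    intro d ν v hν
    have h1 : redK f g Q l φ (d + 1) ν = 0 := by
      refine key (d + 1) ν ?_ ?_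
      · rw [hν, baseChange_apply_apply]
        have : ((rg g φ (d + 1)).comp (LinearMap.fst ℂ _ _)).comp (mM H d) = 0 := by
          apply LinearMap.ext
          intro w
          change φ (q g (X 0) * w.1) = 0
          rw [map_mul, hφX, zero_mul]
        rw [this, LinearMap.baseChange_zero, LinearMap.zero_apply]
      · rw [hν, baseChange_apply_apply]
        have : ((rj f g φ (d + 1 + 2)).comp (LinearMap.snd ℂ _ _)).comp (mM H d) = 0 := by
          apply LinearMap.ext
          intro w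
          change φ (q g (X 0) * w.2) = 0
          rw [map_mul, hφX, zero_mul]
        rw [this, LinearMap.baseChange_zero, LinearMap.zero_apply]
    let red : NT f g Q l (d + 1) →ₗ[ℂ] (Fin 3 → BB) × BB :=
      (LinearMap.pi fun i => (rg g φ (d + 1)).comp (cl f g Q l (d + 1) i)).prod
        ((rj f g φ (d + 1 + 2)).comp (cs f g Q l (d + 1)))
    have hred : red.baseChange k ν = 0 := by
      have h2 : red = (∑ i, ((LinearMap.inl ℂ (Fin 3 → BB) BB).comp
          (LinearMap.single ℂ (fun _ : Fin 3 => BB) i)).comp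
            ((rg g φ (d + 1)).comp (cl f g Q l (d + 1) i))) +
          (LinearMap.inr ℂ (Fin 3 → BB) BB).comp
            ((rj f g φ (d + 1 + 2)).comp (cs f g Q l (d + 1))) := by
        apply LinearMap.ext
        intro w
        rw [LinearMap.add_apply, LinearMap.sum_apply, Fin.sum_univ_three]
        refine Prod.ext (vec_ext ?_ ?_ ?_) ?_ <;> simp [red]
      rw [h2, LinearMap.baseChange_add, LinearMap.add_apply]
      have h3 : ∀ i, (((LinearMap.inl ℂ (Fin 3 → BB) BB).comp
          (LinearMap.single ℂ (fun _ : Fin 3 => BB) i)).comp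
            ((rg g φ (d + 1)).comp (cl f g Q l (d + 1) i))).baseChange k ν = 0 := by
        intro i
        rw [← baseChange_apply_apply]
        have h4 : ((rg g φ (d + 1)).comp (cl f g Q l (d + 1) i)).baseChange k ν = 0 :=
          congrFun (congrArg Prod.fst h1) i
        rw [h4, map_zero]
      have h5 : ((LinearMap.inr ℂ (Fin 3 → BB) BB).comp
            ((rj f g φ (d + 1 + 2)).comp (cs f g Q l (d + 1)))).baseChange k ν = 0 := by
        rw [← baseChange_apply_apply]
        have h4 : ((rj f g φ (d + 1 + 2)).comp (cs f g Q l (d + 1))).baseChange k ν = 0 :=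
          congrArg Prod.snd h1
        rw [h4, map_zero]
      rw [h5, add_zero, Fin.sum_univ_three, LinearMap.baseChange_add, LinearMap.baseChange_add,
        LinearMap.add_apply, LinearMap.add_apply, h3, h3, h3, add_zero, add_zero]
    refine baseChange_exact (φ := mN D H hX hQ hA hl d) (ψ := red) ?_ hred
    intro w
    constructor
    · intro hw
      have e1 : ∀ i, φ (w.1.1 i) = 0 := fun i => congrFun (congrArg Prod.fst hw) i
      have e2 : φ w.1.2 = 0 := congrArg Prod.snd hw
      choose y hy hyw using fun i => hφk d (w.1.1 i) (w.2.1.1 i) (e1 i)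
      obtain ⟨z, hz, hzw⟩ := hφk (d + 2) w.1.2 (by
        have := Jq_le_gr H _ w.2.2.1
        rwa [show d + 1 + 2 = d + 2 + 1 by ring] at this) e2
      have h6 : PhiV D.dh (y, z) = PhiV D.dh w := by
        rw [PhiV_apply, PhiV_apply]
        refine Prod.ext (funext fun i => ?_) ?_
        · change D.dh (y i) = D.dh (w.1.1 i)
          rw [hyw i, D.dh_X0_mul]
        · change D.dh z = D.dh w.1.2
          rw [hzw, D.dh_X0_mul]
      have h7 : ((y, z) : (Fin 3 → RG g) × RG g) ∈ Nq f g Q Q.adjugate l d := by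
        rw [D.mem_Nq_iff H hX hQ hA hl hy hz, h6]
        exact (D.mem_Nq_iff H hX hQ hA hl w.2.1.1 (Jq_le_gr H _ w.2.2.1)).1 w.2
      refine ⟨⟨(y, z), h7⟩, Subtype.ext (Prod.ext (funext fun i => (hyw i).symm) hzw.symm)⟩
    · rintro ⟨w, rfl⟩
      refine Prod.ext (funext fun i => ?_) ?_
      · change φ (q g (X 0) * w.1.1 i) = 0
        rw [map_mul, hφX, zero_mul]
      · change φ (q g (X 0) * w.1.2) = 0
        rw [map_mul, hφX, zero_mul]
  · -- degree zero
    intro ν hν
    have h1 : redK f g Q l φ 0 ν = 0 := key 0 ν (by rw [hν, map_zero]) (by rw [hν, map_zero])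
    have h2 : (cs f g Q l 0).baseChange k ν = 0 := by
      have h3 := congrArg ((LinearMap.snd ℂ (gr g 0) (Jq f g (0 + 2))).baseChange k) hν
      rw [map_zero, map_sum, Fintype.sum_option] at h3
      have e0 : ∀ i, ((LinearMap.snd ℂ (gr g 0) (Jq f g (0 + 2))).baseChange k)
          (yv x (some i) • (pN f g Q l 0 (some i)).baseChange k ν) = 0 := by
        intro i
        rw [map_smul, baseChange_apply_apply]
        have : (LinearMap.snd ℂ (gr g 0) (Jq f g (0 + 2))).comp (pN f g Q l 0 (some i)) = 0 := by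
          ext w
          rfl
        rw [this, LinearMap.baseChange_zero, LinearMap.zero_apply, smul_zero]
      rw [Finset.sum_eq_zero fun i _ => e0 i, add_zero, map_smul, baseChange_apply_apply] at h3
      have e1 : yv x none = (1 : k) := rfl
      rw [e1, one_smul] at h3
      exact h3
    let red : NT f g Q l 0 →ₗ[ℂ] (Fin 3 → BB) × ↥(Jq f g (0 + 2)) :=
      (LinearMap.pi fun i => (rg g φ 0).comp (cl f g Q l 0 i)).prod (cs f g Q l 0)
    have hinj : Function.Injective red := by
      rw [injective_iff_map_eq_zero]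
      intro w hw
      apply Subtype.ext
      refine Prod.ext (funext fun i => ?_) ?_
      · exact hφ0 _ (w.2.1.1 i) (congrFun (congrArg Prod.fst hw) i)
      · exact congrArg (fun v => (v.2 : RG g)) hw
    have hred : red.baseChange k ν = 0 := by
      have h2' : red = (∑ i, ((LinearMap.inl ℂ (Fin 3 → BB) ↥(Jq f g (0 + 2))).comp
          (LinearMap.single ℂ (fun _ : Fin 3 => BB) i)).comp
            ((rg g φ 0).comp (cl f g Q l 0 i))) +
          (LinearMap.inr ℂ (Fin 3 → BB) ↥(Jq f g (0 + 2))).comp (cs f g Q l 0) := by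
        apply LinearMap.ext
        intro w
        rw [LinearMap.add_apply, LinearMap.sum_apply, Fin.sum_univ_three]
        refine Prod.ext (vec_ext ?_ ?_ ?_) ?_ <;> simp [red]
      rw [h2', LinearMap.baseChange_add, LinearMap.add_apply]
      have h3 : ∀ i, (((LinearMap.inl ℂ (Fin 3 → BB) ↥(Jq f g (0 + 2))).comp
          (LinearMap.single ℂ (fun _ : Fin 3 => BB) i)).comp
            ((rg g φ 0).comp (cl f g Q l 0 i))).baseChange k ν = 0 := by
        intro i
        rw [← baseChange_apply_apply]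
        have h4 : ((rg g φ 0).comp (cl f g Q l 0 i)).baseChange k ν = 0 :=
          congrFun (congrArg Prod.fst h1) i
        rw [h4, map_zero]
      have h5 : ((LinearMap.inr ℂ (Fin 3 → BB) ↥(Jq f g (0 + 2))).comp
            (cs f g Q l 0)).baseChange k ν = 0 := by
        rw [← baseChange_apply_apply, h2, map_zero]
      rw [h5, add_zero, Fin.sum_univ_three, LinearMap.baseChange_add, LinearMap.baseChange_add,
        LinearMap.add_apply, LinearMap.add_apply, h3, h3, h3, add_zero, add_zero]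
    exact baseChange_injective hinj (by rw [hred, map_zero])
  · intro v
    obtain ⟨d₀, hd⟩ := D.exists_Nq H hX hQ hA hl v.2
    obtain ⟨w, hw, hwv⟩ := hd d₀ le_rfl
    exact ⟨d₀, ⟨w, hw⟩, Subtype.ext hwv⟩
  · intro v
    obtain ⟨d₁, h₁⟩ := D.exists_ge v.1
    obtain ⟨d₂, h₂⟩ := D.exists_ge (v.2 : B)
    obtain ⟨y, hy, hyv⟩ := h₁ (d₁ + d₂) (by omega)
    obtain ⟨z, hz, hzv⟩ := h₂ (d₁ + d₂ + 2) (by omega)
    have hz' : z ∈ Jq f g (d₁ + d₂ + 2) := by
      rw [D.mem_Jq_iff H hX hz, hzv]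
      exact v.2.2
    exact ⟨d₁ + d₂, (⟨y, hy⟩, ⟨z, hz'⟩), Prod.ext hyv (Subtype.ext hzv)⟩

end

end Vale.Agent.P287.C8
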