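import Vale.Agent.P287.C8.FiltDim

/-!
The dimension of the cokernel of a linear map `∑ y j • p j` over an extension field, for filtered
vector spaces over the ground field.
-/

namespace Vale.Agent.P287.C8

open Module TensorProduct

section

variable {K k : Type*} [Field K] [Field k] [Algebra K k]
  {V W U : Type*} [AddCommGroup V] [Module K V] [AddCommGroup W] [Module K W]
  [AddCommGroup U] [Module K U]

lemma baseChange_injective {φ : V →ₗ[K] W} (h : Function.Injective φ) :
    Function.Injective (φ.baseChange k) := by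
  rw [LinearMap.baseChange_eq_ltensor]
  exact Module.Flat.lTensor_preserves_injective_linearMap φ h

lemma baseChange_exact {φ : V →ₗ[K] W} {ψ : W →ₗ[K] U} (h : Function.Exact φ ψ)
    {w : k ⊗[K] W} (hw : ψ.baseChange k w = 0) : ∃ v, φ.baseChange k v = w := by
  have h1 := Module.Flat.lTensor_exact k h
  rw [LinearMap.baseChange_eq_ltensor] at hw
  obtain ⟨v, hv⟩ := (h1 w).1 hw
  exact ⟨v, by rw [LinearMap.baseChange_eq_ltensor]; exact hv⟩

lemma baseChange_apply_apply (φ : V →ₗ[K] W) (ψ : W →ₗ[K] U) (v : k ⊗[K] V) :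
    ψ.baseChange k (φ.baseChange k v) = (ψ.comp φ).baseChange k v := by
  rw [LinearMap.baseChange_comp]
  rfl

end

theorem finite_odd_coker {K k : Type*} [Field K] [Field k] [Algebra K k]
    {N M : ℕ → Type*} [∀ d, AddCommGroup (N d)] [∀ d, Module K (N d)]
    [∀ d, AddCommGroup (M d)] [∀ d, Module K (M d)]
    [∀ d, FiniteDimensional K (N d)] [∀ d, FiniteDimensional K (M d)]
    {NN MM : Type*} [AddCommGroup NN] [Module K NN] [AddCommGroup MM] [Module K MM]
    (μN : ∀ d, N d →ₗ[K] N (d + 1)) (μM : ∀ d, M d →ₗ[K] M (d + 1))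
    (ιN : ∀ d, N d →ₗ[K] NN) (ιM : ∀ d, M d →ₗ[K] MM)
    (hιμN : ∀ d x, ιN (d + 1) (μN d x) = ιN d x) (hιμM : ∀ d x, ιM (d + 1) (μM d x) = ιM d x)
    {J : Type*} [Fintype J] (p : ∀ d, J → N d →ₗ[K] M d) (pp : J → NN →ₗ[K] MM) (y : J → k)
    (hιp : ∀ d j x, ιM d (p d j x) = pp j (ιN d x))
    (hμp : ∀ d j x, μM d (p d j x) = p (d + 1) j (μN d x))
    (hinj : ∀ d, Function.Injective (ιM d))
    (hstrict : ∀ d (ν : k ⊗[K] N (d + 1)) (v : k ⊗[K] M d),
      (∑ j, y j • (p (d + 1) j).baseChange k ν) = (μM d).baseChange k v →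
        ∃ ν', (μN d).baseChange k ν' = ν)
    (hzero : ∀ ν : k ⊗[K] N 0, (∑ j, y j • (p 0 j).baseChange k ν) = 0 → ν = 0)
    (hUN : ∀ x : NN, ∃ d, ∃ w, ιN d w = x) (hUM : ∀ x : MM, ∃ d, ∃ w, ιM d w = x)
    (n₀ c : ℕ)
    (hdim : ∀ d, n₀ ≤ d → Odd (finrank K (M d) + finrank K (N d)))
    (hb : ∀ d, n₀ ≤ d → finrank K (M d) ≤ finrank K (N d) + c) :
    FiniteDimensional k ((k ⊗[K] MM) ⧸ LinearMap.range (∑ j, y j • (pp j).baseChange k)) ∧
      Odd (finrank k ((k ⊗[K] MM) ⧸ LinearMap.range (∑ j, y j • (pp j).baseChange k))) := by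
  classical
  set PB : (k ⊗[K] NN) →ₗ[k] (k ⊗[K] MM) := ∑ j, y j • (pp j).baseChange k with hPB
  let Pd : ∀ d, (k ⊗[K] N d) →ₗ[k] (k ⊗[K] M d) := fun d => ∑ j, y j • (p d j).baseChange k
  have hPB' : ∀ ν, PB ν = ∑ j, y j • (pp j).baseChange k ν := by
    intro ν
    rw [hPB, LinearMap.sum_apply]
    exact Finset.sum_congr rfl fun j _ => rfl
  have hPd' : ∀ d ν, Pd d ν = ∑ j, y j • (p d j).baseChange k ν := by
    intro d ν
    change (∑ j, y j • (p d j).baseChange k) ν = _
    rw [LinearMap.sum_apply]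
    exact Finset.sum_congr rfl fun j _ => rfl
  have comm1 : ∀ d ν, (ιM d).baseChange k (Pd d ν) = PB ((ιN d).baseChange k ν) := by
    intro d ν
    rw [hPB', hPd', map_sum]
    refine Finset.sum_congr rfl fun j _ => ?_
    rw [map_smul, baseChange_apply_apply, baseChange_apply_apply]
    congr 3
    exact LinearMap.ext fun x => hιp d j x
  have comm2 : ∀ d ν, (μM d).baseChange k (Pd d ν) = Pd (d + 1) ((μN d).baseChange k ν) := by
    intro d ν
    rw [hPd', hPd', map_sum]
    refine Finset.sum_congr rfl fun j _ => ?_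
    rw [map_smul, baseChange_apply_apply, baseChange_apply_apply]
    congr 3
    exact LinearMap.ext fun x => hμp d j x
  have commN : ∀ d ν, (ιN (d + 1)).baseChange k ((μN d).baseChange k ν) =
      (ιN d).baseChange k ν := by
    intro d ν
    rw [baseChange_apply_apply]
    congr 2
    exact LinearMap.ext fun x => hιμN d x
  have commM : ∀ d ν, (ιM (d + 1)).baseChange k ((μM d).baseChange k ν) =
      (ιM d).baseChange k ν := by
    intro d ν
    rw [baseChange_apply_apply]
    congr 2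
    exact LinearMap.ext fun x => hιμM d x
  have injM : ∀ d, Function.Injective ((ιM d).baseChange k) := fun d =>
    baseChange_injective (hinj d)
  have injμ : ∀ d, Function.Injective ((μM d).baseChange k) := by
    intro d a b hab
    apply injM d
    rw [← commM d a, ← commM d b, hab]
  have injP : ∀ d, Function.Injective (Pd d) := by
    intro d
    induction d with
    | zero =>
      rw [injective_iff_map_eq_zero]
      intro ν hν
      exact hzero ν (by rw [← hPd']; exact hν)
    | succ d ih =>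
      rw [injective_iff_map_eq_zero]
      intro ν hν
      obtain ⟨ν', rfl⟩ := hstrict d ν 0 (by rw [← hPd', hν, map_zero])
      rw [← comm2] at hν
      have h1 : Pd d ν' = 0 := injμ d (by rw [hν, map_zero])
      have h2 : ν' = 0 := ih (by rw [h1, map_zero])
      rw [h2, map_zero]
  -- the filtrations
  set E : ℕ → Submodule k (k ⊗[K] MM) := fun d => LinearMap.range ((ιM d).baseChange k) with hE
  set Pn : ℕ → Submodule k (k ⊗[K] MM) := fun d =>
    LinearMap.range (PB.comp ((ιN d).baseChange k)) with hPn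
  have hEm : ∀ d, E d ≤ E (d + 1) := by
    rintro d _ ⟨v, rfl⟩
    exact ⟨(μM d).baseChange k v, commM d v⟩
  have hPm : ∀ d, Pn d ≤ Pn (d + 1) := by
    rintro d _ ⟨v, rfl⟩
    exact ⟨(μN d).baseChange k v, by rw [LinearMap.comp_apply, commN]; rfl⟩
  have hEmm : Monotone E := monotone_nat_of_le_succ hEm
  have hdE : ∀ d, finrank k (E d) = finrank K (M d) := by
    intro d
    rw [hE]
    change finrank k (LinearMap.range ((ιM d).baseChange k)) = _
    rw [LinearMap.finrank_range_of_inj (injM d), Module.finrank_baseChange]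
  have hdP : ∀ d, finrank k (Pn d) = finrank K (N d) := by
    intro d
    rw [hPn]
    change finrank k (LinearMap.range (PB.comp ((ιN d).baseChange k))) = _
    rw [LinearMap.finrank_range_of_inj, Module.finrank_baseChange]
    intro a b hab
    rw [LinearMap.comp_apply, LinearMap.comp_apply, ← comm1, ← comm1] at hab
    exact injP d (injM d hab)
  have hNm : ∀ d, LinearMap.range ((ιN d).baseChange k) ≤
      LinearMap.range ((ιN (d + 1)).baseChange k) := by
    rintro d _ ⟨v, rfl⟩
    exact ⟨(μN d).baseChange k v, commN d v⟩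
  have hNmm : Monotone fun d => LinearMap.range ((ιN d).baseChange k) :=
    monotone_nat_of_le_succ hNm
  have hNu : ∀ ν : k ⊗[K] NN, ∃ d, ν ∈ LinearMap.range ((ιN d).baseChange k) := by
    intro ν
    induction ν using TensorProduct.induction_on with
    | zero => exact ⟨0, zero_mem _⟩
    | tmul a x =>
      obtain ⟨d, w, rfl⟩ := hUN x
      exact ⟨d, a ⊗ₜ w, by rw [LinearMap.baseChange_tmul]⟩
    | add a b ha hb =>
      obtain ⟨d, hd⟩ := ha
      obtain ⟨e, he⟩ := hb
      exact ⟨max d e, add_mem (hNmm (le_max_left d e) hd) (hNmm (le_max_right d e) he)⟩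
  have hMu : ∀ ν : k ⊗[K] MM, ∃ d, ν ∈ E d := by
    intro ν
    induction ν using TensorProduct.induction_on with
    | zero => exact ⟨0, zero_mem _⟩
    | tmul a x =>
      obtain ⟨d, w, rfl⟩ := hUM x
      exact ⟨d, a ⊗ₜ w, by rw [LinearMap.baseChange_tmul]⟩
    | add a b ha hb =>
      obtain ⟨d, hd⟩ := ha
      obtain ⟨e, he⟩ := hb
      exact ⟨max d e, add_mem (hEmm (le_max_left d e) hd) (hEmm (le_max_right d e) he)⟩
  refine finite_odd_quotient (LinearMap.range PB) E Pn n₀ c ?_ hEm ?_ ?_ hMu ?_ hPm ?_ ?_ ?_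
  · intro n
    rw [hE]
    infer_instance
  · rintro d _ ⟨v, rfl⟩
    rw [LinearMap.comp_apply, ← comm1]
    exact ⟨_, rfl⟩
  · rintro d _ ⟨v, rfl⟩
    exact ⟨_, rfl⟩
  · rintro _ ⟨ν, rfl⟩
    obtain ⟨d, w, rfl⟩ := hNu ν
    exact ⟨d, w, rfl⟩
  · rintro d - _ ⟨ν, rfl⟩ ⟨v, hv⟩
    rw [LinearMap.comp_apply, ← comm1, ← commM] at hv
    have h1 := injM (d + 1) hv
    obtain ⟨ν', rfl⟩ := hstrict d ν v (by rw [← hPd', h1])
    exact ⟨ν', by rw [LinearMap.comp_apply, LinearMap.comp_apply, commN]⟩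
  · intro d hd
    rw [hdE, hdP]
    exact hdim d hd
  · intro d hd
    rw [hdE, hdP]
    exact hb d hd

end Vale.Agent.P287.C8
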