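import Vale.Agent.P287.Theta.Even

/-!
The discriminant is a square on a smooth affine curve `y = γ(x)` on which everything is even.
-/

namespace Vale.Agent.P287.C8.Conic

open Polynomial IsLocalRing Vale.Agent.P287 Vale.Agent.P287.Theta

/-- division in the local ring of a smooth point -/
lemma even_of_rel {f : ℂ[X][X]} {x y : ℂ} (hf : Prime f) (hp : evalEval x y f = 0)
    (hsm : f ∉ (Ideal.span {C (X - C x), X - C (C y)} : Ideal ℂ[X][X]) ^ 2)
    {u v ε a s t : ℂ[X][X]} (hv : evalEval x y v ≠ 0) (hvu : f ∣ v * u - ε ^ 2)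
    (hfu : ¬ f ∣ u) (hs : ¬ f ∣ s) (h : f ∣ s ^ 2 * (u * a) - t ^ 2) :
    ∃ v' ε', evalEval x y v' ≠ 0 ∧ f ∣ v' * a - ε' ^ 2 := by
  have hD := isDomain_LocC hf hp
  have hP := isPrincipalIdealRing_LocC hf hp hsm
  have h0 : ∀ a, f ∣ a → evalEval x y a = 0 := by
    rintro _ ⟨b, rfl⟩
    rw [← coe_evalEvalRingHom, map_mul, coe_evalEvalRingHom, hp, zero_mul]
  have hε : ¬ f ∣ ε := by
    intro h1
    have h2 : f ∣ v * u := by
      have h3 : v * u = (v * u - ε ^ 2) + ε * ε := by ring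
      rw [h3]
      exact dvd_add hvu (h1.mul_right _)
    rcases hf.dvd_or_dvd h2 with h3 | h3
    · exact hv (h0 _ h3)
    · exact hfu h3
  have e1 : toLoc hp v * toLoc hp u = toLoc hp ε ^ 2 := by
    rw [← map_mul, ← map_pow, ← sub_eq_zero, ← map_sub]
    exact (toLoc_eq_zero hf).2 hvu
  have e2 : toLoc hp s ^ 2 * (toLoc hp u * toLoc hp a) = toLoc hp t ^ 2 := by
    rw [← map_mul, ← map_pow, ← map_pow, ← map_mul, ← sub_eq_zero, ← map_sub]
    exact (toLoc_eq_zero hf).2 h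
  have hU : IsUnit (toLoc hp v) := isUnit_toLoc.2 hv
  have e3 : (toLoc hp s * toLoc hp ε) ^ 2 * toLoc hp a = toLoc hp v * toLoc hp t ^ 2 := by
    rw [mul_pow, ← e1, ← e2]; ring
  have h2 : toLoc hp s * toLoc hp ε ∣ toLoc hp t := by
    have h3 : (toLoc hp s * toLoc hp ε) ^ 2 ∣ toLoc hp t ^ 2 := by
      obtain ⟨U, hU⟩ := hU
      rw [← hU] at e3
      exact (Units.dvd_mul_left).1 ⟨_, e3.symm⟩
    exact (UniqueFactorizationMonoid.pow_dvd_pow_iff_dvd two_ne_zero).1 h3
  obtain ⟨e, he⟩ := h2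
  have h4 : toLoc hp s * toLoc hp ε ≠ 0 := by
    refine mul_ne_zero ?_ ?_
    · exact fun h0 => hs ((toLoc_eq_zero hf).1 h0)
    · exact fun h0 => hε ((toLoc_eq_zero hf).1 h0)
  have e4 : toLoc hp a = toLoc hp v * e ^ 2 := by
    apply mul_left_cancel₀ (pow_ne_zero 2 h4)
    rw [e3, he]; ring
  obtain ⟨⟨p, q⟩, hpq⟩ := IsLocalization.surj (ptC f x y hp).primeCompl e
  obtain ⟨p, rfl⟩ := mkC_surjective f p
  obtain ⟨q', hq'⟩ := mkC_surjective f (q : CR f)
  have h5 : toLoc hp q' = algebraMap (CR f) (LocC f x y hp) q := by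
    rw [toLoc, RingHom.comp_apply, hq']
  have h6 : toLoc hp p = algebraMap (CR f) (LocC f x y hp) (mkC f p) := rfl
  have h7 : e * toLoc hp q' = toLoc hp p := by
    rw [h5, h6]; exact hpq
  have hq0 : evalEval x y q' ≠ 0 := by
    intro h8
    apply q.2
    rw [← hq']
    exact h8
  refine ⟨q' ^ 2 * v, v * p, ?_, ?_⟩
  · rw [← coe_evalEvalRingHom, map_mul, map_pow]
    exact mul_ne_zero (pow_ne_zero 2 hq0) hv
  · rw [← toLoc_eq_zero hf (hp := hp), map_sub, map_mul, map_mul, map_pow, map_pow, map_mul, ← h7,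
      e4]
    ring

/-- at a smooth point of `a` the quotient does not vanish -/
lemma quotient_ne_zero {f a v ε h : ℂ[X][X]} {x y : ℂ} (hp : evalEval x y f = 0)
    (ha : evalEval x y a = 0) (hder : evalEval x y (derivative a) ≠ 0)
    (hv : evalEval x y v ≠ 0) (e : v * a - ε ^ 2 = f * h) : evalEval x y h ≠ 0 := by
  intro hh
  rw [← coe_evalEvalRingHom] at hp ha hder hv hh
  have e1 := congrArg (evalEvalRingHom x y) e
  have e2 := congrArg (fun p => evalEvalRingHom x y (derivative p)) e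
  simp only [map_sub, map_mul, map_pow, derivative_mul, derivative_pow, map_add] at e1 e2
  rw [ha, hp] at e1
  have h1 : evalEvalRingHom x y ε = 0 := by
    have : evalEvalRingHom x y ε ^ 2 = 0 := by linear_combination -e1
    exact (pow_eq_zero_iff two_ne_zero).1 this
  rw [ha, hp, hh, h1] at e2
  have h2 : evalEvalRingHom x y v * evalEvalRingHom x y (derivative a) = 0 := by
    simpa using e2
  exact (mul_ne_zero hv hder) h2

lemma evalEval_graph (γ : ℂ[X]) (p : ℂ[X][X]) (x : ℂ) :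
    evalEval x (γ.eval x) p = (p.eval γ).eval x := by
  have h : evalEvalRingHom x (γ.eval x) = (evalRingHom x).comp (evalRingHom γ) := by
    apply Polynomial.ringHom_ext
    · intro a
      simp
    · simp
  exact RingHom.congr_fun h p

/-- **Square on a graph.** -/
theorem sq_on_graph {f a : ℂ[X][X]} {γ : ℂ[X]} (hfγ : f.eval γ ≠ 0) (haγ : a.eval γ = 0)
    (hder : ∀ x, evalEval x (γ.eval x) (derivative a) ≠ 0)
    (hev : ∀ x, evalEval x (γ.eval x) f = 0 → ∃ v ε, evalEval x (γ.eval x) v ≠ 0 ∧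
      f ∣ v * a - ε ^ 2) : ∃ Q, f.eval γ = Q ^ 2 := by
  refine exists_sq_of_even _ _ rfl hfγ fun x hx => ?_
  have hp : evalEval x (γ.eval x) f = 0 := by rw [evalEval_graph, hx]
  obtain ⟨v, ε, hv, h, hh⟩ := hev x hp
  have ha : evalEval x (γ.eval x) a = 0 := by rw [evalEval_graph, haγ, eval_zero]
  have h1 := quotient_ne_zero hp ha (hder x) hv hh
  rw [evalEval_graph] at h1
  have h2 := congrArg (Polynomial.eval γ) hh
  rw [eval_sub, eval_mul, eval_pow, haγ, mul_zero, zero_sub, eval_mul] at h2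
  have hh0 : h.eval γ ≠ 0 := by
    intro h3
    rw [h3, eval_zero] at h1
    exact h1 rfl
  have hε0 : ε.eval γ ≠ 0 := by
    intro h3
    rw [h3, zero_pow two_ne_zero, neg_zero] at h2
    exact mul_ne_zero hfγ hh0 h2.symm
  have h4 : f.eval γ * (-(h.eval γ)) = ε.eval γ * ε.eval γ := by linear_combination h2
  have h3 := congrArg (fun p : ℂ[X] => p.rootMultiplicity x) h4
  beta_reduce at h3
  have h5 : (-(h.eval γ)).rootMultiplicity x = 0 := by
    apply rootMultiplicity_eq_zero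
    rwa [IsRoot.def, eval_neg, neg_eq_zero]
  rw [rootMultiplicity_mul (mul_ne_zero hfγ (neg_ne_zero.2 hh0)),
    rootMultiplicity_mul (mul_ne_zero hε0 hε0), h5, add_zero] at h3
  exact ⟨_, h3⟩

end Vale.Agent.P287.C8.Conic
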