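import Vale.Agent.P287.Theta.LinChange
import Vale.Agent.P287.Theta.Similar

/-!
Normal forms of plane conics.
-/

namespace Vale.Agent.P287.C8.Conic

open MvPolynomial Vale.Agent.P287 Vale.Agent.P287.H925 Vale.Agent.P287.Theta

lemma exists_linear_coeff {h : P3} (hh : h.IsHomogeneous 1) :
    ∃ c : Fin 3 → ℂ, h = ∑ j, C (c j) * X j := by
  have h3 : h ∈ MvPolynomial.homogeneousSubmodule (Fin 3) ℂ 1 := hh
  rw [MvPolynomial.homogeneousSubmodule_one_eq_span_X, Submodule.mem_span_range_iff_exists_fun]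
    at h3
  obtain ⟨c, hc⟩ := h3
  exact ⟨c, by rw [← hc]; exact Finset.sum_congr rfl fun i _ => smul_eq_C_mul _ _⟩

lemma exists_gram {a : P3} (ha : a.IsHomogeneous 2) :
    ∃ S : Matrix (Fin 3) (Fin 3) ℂ, S.IsSymm ∧ a = ∑ i, ∑ j, C (S i j) * (X i * X j) := by
  have h1 : ∀ i, ∃ c : Fin 3 → ℂ, pderiv i a = ∑ j, C (c j) * X j := fun i =>
    exists_linear_coeff (ha.pderiv)
  choose c hc using h1
  have h2 := ha.sum_X_mul_pderiv
  simp only [hc, Fin.sum_univ_three] at h2
  obtain ⟨κ, hκ⟩ : ∃ κ : ℂ, κ * 4 = 1 := ⟨1 / 4, by norm_num⟩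
  have h5 : (C κ : P3) * 4 = 1 := by
    rw [show (4 : P3) = C 4 from (map_ofNat C 4).symm, ← C_mul, hκ, C_1]
  refine ⟨Matrix.of fun i j => κ * (c i j + c j i), ?_, ?_⟩
  · refine Matrix.ext fun i j => ?_
    rw [Matrix.transpose_apply, Matrix.of_apply, Matrix.of_apply, add_comm]
  · simp only [Fin.sum_univ_three, Matrix.of_apply, C_mul, C_add]
    have h6 : (2 : ℕ) • a = 2 * a := by rw [nsmul_eq_mul]; rfl
    rw [h6] at h2
    linear_combination (-(2 : P3) * C κ) * h2 - a * h5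

/-- the value of a quadratic form after a linear substitution -/
lemma eval_gram {a : P3} {S : Matrix (Fin 3) (Fin 3) ℂ}
    (h : a = ∑ i, ∑ j, C (S i j) * (X i * X j)) (z : Fin 3 → ℂ) :
    eval z a = z ⬝ᵥ S.mulVec z := by
  rw [h]
  simp only [map_sum, map_mul, eval_C, eval_X, dotProduct, Matrix.mulVec, Finset.mul_sum]
  exact Finset.sum_congr rfl fun i _ => Finset.sum_congr rfl fun j _ => by ring

lemma exists_diag {a : P3} (ha : a.IsHomogeneous 2) :
    ∃ P : Matrix (Fin 3) (Fin 3) ℂ, IsUnit P.det ∧ ∃ w : Fin 3 → ℂ,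
      lin P a = ∑ i, C (w i) * X i ^ 2 := by
  obtain ⟨S, hS, haS⟩ := exists_gram ha
  have hB : LinearMap.IsSymm (Matrix.toBilin' S) := by
    refine ⟨fun x y => ?_⟩
    rw [RingHom.id_apply, Matrix.toBilin'_apply', Matrix.toBilin'_apply', symm_bil hS]
  have : Invertible (2 : ℂ) := invertibleOfNonzero two_ne_zero
  obtain ⟨v', hv'⟩ := LinearMap.BilinForm.exists_orthogonal_basis hB
  have hd : Module.finrank ℂ (Fin 3 → ℂ) = 3 := by
    rw [Module.finrank_fintype_fun_eq_card, Fintype.card_fin]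
  obtain ⟨v, hv⟩ : ∃ v : Module.Basis (Fin 3) ℂ (Fin 3 → ℂ),
      ∀ i j, i ≠ j → Matrix.toBilin' S (v i) (v j) = 0 := by
    refine ⟨v'.reindex (finCongr hd), fun i j hij => ?_⟩
    rw [Module.Basis.reindex_apply, Module.Basis.reindex_apply]
    exact hv' (fun h => hij ((finCongr hd).symm.injective h))
  let P : Matrix (Fin 3) (Fin 3) ℂ := Matrix.of fun i j => v j i
  have h0 : ∀ z, P.mulVec z = ∑ j, z j • v j := by
    intro z
    funext i
    simp [P, Matrix.mulVec, dotProduct, mul_comm]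
  have hP : IsUnit P.det := by
    rw [isUnit_iff_ne_zero]
    intro hdet
    obtain ⟨z, hz, hz'⟩ := Matrix.exists_mulVec_eq_zero_iff.2 hdet
    rw [h0] at hz'
    exact hz (funext (Fintype.linearIndependent_iff.1 v.linearIndependent z hz'))
  refine ⟨P, hP, fun i => Matrix.toBilin' S (v i) (v i), ?_⟩
  apply MvPolynomial.funext
  intro z
  rw [eval_lin, eval_gram haS]
  rw [h0, ← Matrix.toBilin'_apply']
  simp only [map_sum, map_smul, LinearMap.sum_apply, LinearMap.smul_apply, map_mul, eval_C,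
    map_pow, eval_X, smul_eq_mul]
  refine Finset.sum_congr rfl fun i _ => ?_
  rw [Finset.sum_eq_single i]
  · ring
  · intro j _ hji
    rw [hv _ _ hji, mul_zero]
  · simp

/-- normalisation of a diagonal form -/
lemma exists_diag01 {a : P3} (ha : a.IsHomogeneous 2) :
    ∃ P : Matrix (Fin 3) (Fin 3) ℂ, IsUnit P.det ∧ ∃ w : Fin 3 → Prop, ∃ _ : DecidablePred w,
      lin P a = ∑ i, if w i then X i ^ 2 else 0 := by
  classical
  obtain ⟨P, hP, w, hw⟩ := exists_diag ha
  have h1 : ∀ i, ∃ d : ℂ, d ≠ 0 ∧ (w i ≠ 0 → d ^ 2 * w i = 1) := by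
    intro i
    by_cases h : w i = 0
    · exact ⟨1, one_ne_zero, fun h' => absurd h h'⟩
    · obtain ⟨d, hd⟩ := IsAlgClosed.exists_pow_nat_eq (w i)⁻¹ (n := 2) (by norm_num)
      refine ⟨d, ?_, fun _ => by rw [hd, inv_mul_cancel₀ h]⟩
      rintro rfl
      rw [zero_pow two_ne_zero] at hd
      exact inv_ne_zero h hd.symm
  choose d hd hdw using h1
  refine ⟨P * Matrix.diagonal d, ?_, fun i => w i ≠ 0, inferInstance, ?_⟩
  · rw [Matrix.det_mul, Matrix.det_diagonal]
    exact hP.mul (isUnit_iff_ne_zero.2 (Finset.prod_ne_zero_iff.2 fun i _ => hd i))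
  · rw [← lin_lin, hw, map_sum]
    refine Finset.sum_congr rfl fun i _ => ?_
    have h2 : lin (Matrix.diagonal d) (X i) = C (d i) * X i := by
      rw [lin_X, Finset.sum_eq_single i]
      · rw [Matrix.diagonal_apply_eq]
      · intro j _ hj
        rw [Matrix.diagonal_apply_ne _ hj.symm, C_0, zero_mul]
      · simp
    have h3 : lin (Matrix.diagonal d) (C (w i)) = C (w i) := (lin _).commutes _
    rw [map_mul, map_pow, h2, h3]
    split_ifs with h4
    · have h5 := congrArg (C : ℂ → P3) (hdw i h4)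
      rw [C_mul, C_pow, C_1] at h5
      linear_combination X i ^ 2 * h5
    · rw [not_not.1 h4, C_0, zero_mul]

lemma lin_inv_lin {P : Matrix (Fin 3) (Fin 3) ℂ} (hP : IsUnit P.det) (p : P3) :
    lin P⁻¹ (lin P p) = p := by
  rw [lin_lin, Matrix.mul_nonsing_inv _ hP, lin_one]

lemma lin_lin_inv {P : Matrix (Fin 3) (Fin 3) ℂ} (hP : IsUnit P.det) (p : P3) :
    lin P (lin P⁻¹ p) = p := by
  rw [lin_lin, Matrix.nonsing_inv_mul _ hP, lin_one]

lemma normal_aux {a D nf : P3} {P R : Matrix (Fin 3) (Fin 3) ℂ} (hP : IsUnit P.det)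
    (hR : IsUnit R.det) (h : lin P a = D) (hnf : lin R nf = D) :
    ∃ P' : Matrix (Fin 3) (Fin 3) ℂ, IsUnit P'.det ∧ lin P' a = nf := by
  refine ⟨P * R⁻¹, ?_, ?_⟩
  · rw [Matrix.det_mul]
    exact hP.mul ((Matrix.isUnit_nonsing_inv_det_iff).2 hR)
  · rw [← lin_lin, h, ← hnf, lin_inv_lin hR]

lemma sq_aux {a : P3} {P : Matrix (Fin 3) (Fin 3) ℂ} (hP : IsUnit P.det) {i : Fin 3}
    (h : lin P a = X i ^ 2) : ∃ l : P3, l.IsHomogeneous 1 ∧ a = l ^ 2 :=
  ⟨lin P⁻¹ (X i), lin_homogeneous _ (isHomogeneous_X _ _), by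
    rw [← map_pow, ← h, lin_inv_lin hP]⟩

/-- **Normal forms of plane conics.** -/
theorem normal_form {a : P3} (ha : a.IsHomogeneous 2) (ha0 : a ≠ 0) :
    (∃ l : P3, l.IsHomogeneous 1 ∧ a = l ^ 2) ∨
    (∃ P : Matrix (Fin 3) (Fin 3) ℂ, IsUnit P.det ∧ lin P a = X 2 * (X 2 - X 0)) ∨
    (∃ P : Matrix (Fin 3) (Fin 3) ℂ, IsUnit P.det ∧ lin P a = X 0 * X 2 - X 1 ^ 2) := by
  obtain ⟨P, hP, w, _, hw⟩ := exists_diag01 ha
  rw [Fin.sum_univ_three] at hw
  have hI : (C Complex.I : P3) ^ 2 = -1 := by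
    rw [← C_pow, Complex.I_sq, C_neg, C_1]
  by_cases h0 : w 0 <;> by_cases h1 : w 1 <;> by_cases h2 : w 2 <;>
    simp only [h0, h1, h2, if_true, if_false, add_zero, zero_add] at hw
  · -- rank three
    right; right
    refine normal_aux (R := Matrix.of ![![1, Complex.I, 0], ![0, 0, Complex.I],
      ![1, -Complex.I, 0]]) hP ?_ hw ?_
    · rw [isUnit_iff_ne_zero]
      simp [Matrix.det_fin_three]
    · simp only [map_sub, map_mul, map_pow, lin_X, Fin.sum_univ_three, Matrix.of_apply,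
        Matrix.cons_val_zero, Matrix.cons_val_one, Matrix.cons_val, C_0, C_1, C_neg]
      linear_combination (-X 1 ^ 2 - X 2 ^ 2) * hI
  · right; left
    refine normal_aux (R := Matrix.of ![![0, 2 * Complex.I, 0], ![0, 0, 1],
      ![1, Complex.I, 0]]) hP ?_ hw ?_
    · rw [isUnit_iff_ne_zero]
      simp [Matrix.det_fin_three]
    · simp only [map_sub, map_mul, lin_X, Fin.sum_univ_three, Matrix.of_apply,
        Matrix.cons_val_zero, Matrix.cons_val_one, Matrix.cons_val, C_0, C_1, map_ofNat]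
      linear_combination (-X 1 ^ 2) * hI
  · right; left
    refine normal_aux (R := Matrix.of ![![0, 0, 2 * Complex.I], ![0, 1, 0],
      ![1, 0, Complex.I]]) hP ?_ hw ?_
    · rw [isUnit_iff_ne_zero]
      simp [Matrix.det_fin_three]
    · simp only [map_sub, map_mul, lin_X, Fin.sum_univ_three, Matrix.of_apply,
        Matrix.cons_val_zero, Matrix.cons_val_one, Matrix.cons_val, C_0, C_1, map_ofNat]
      linear_combination (-X 2 ^ 2) * hI
  · exact Or.inl (sq_aux hP hw)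
  · right; left
    refine normal_aux (R := Matrix.of ![![0, 0, 2 * Complex.I], ![1, 0, 0],
      ![0, 1, Complex.I]]) hP ?_ hw ?_
    · rw [isUnit_iff_ne_zero]
      simp [Matrix.det_fin_three]
    · simp only [map_sub, map_mul, lin_X, Fin.sum_univ_three, Matrix.of_apply,
        Matrix.cons_val_zero, Matrix.cons_val_one, Matrix.cons_val, C_0, C_1, map_ofNat]
      linear_combination (-X 2 ^ 2) * hI
  · exact Or.inl (sq_aux hP hw)
  · exact Or.inl (sq_aux hP hw)
  · exfalso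
    apply ha0
    have h3 := lin_inv_lin hP a
    rw [hw, map_zero] at h3
    exact h3.symm

end Vale.Agent.P287.C8.Conic
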