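import Vale.Agent.P287.C8.Basic
import Vale.Agent.P287.C8.Quadric
import Vale.Agent.P287.C8.Graph

/-!
A conic which meets the smooth sextic `f` evenly, in the sense of square roots modulo u and f:
`f` is a square modulo the conic.
-/

namespace Vale.Agent.P287.C8

open MvPolynomial Vale.Agent.P287 Vale.Agent.P287.H925 Vale.Agent.P287.Theta

namespace Conic

variable {f u : P3} {e : ℕ}

lemma prime (H : EvenOn f u e) : Prime f := prime_of_smoothP H.hf (by norm_num) H.sf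

lemma evenOn_lin (H : EvenOn f u e) {P : Matrix (Fin 3) (Fin 3) ℂ} (hP : IsUnit P.det) :
    EvenOn (lin P f) (lin P u) e where
  hf := lin_homogeneous _ H.hf
  sf := H.sf.lin hP
  hu := lin_homogeneous _ H.hu
  hfu := fun h => H.hfu ((lin_dvd_lin hP).1 h)
  even := by
    intro z hz hfz
    rw [eval_lin] at hfz
    have hz' : P.mulVec z ≠ 0 := by
      intro h
      apply hz
      have h2 : P⁻¹.mulVec (P.mulVec z) = 0 := by rw [h, Matrix.mulVec_zero]
      rwa [Matrix.mulVec_mulVec, Matrix.nonsing_inv_mul _ hP, Matrix.one_mulVec] at h2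
    obtain ⟨v, ε, hv, h⟩ := H.even _ hz' hfz
    refine ⟨lin P v, lin P ε, by rwa [eval_lin], ?_⟩
    rw [← map_mul, ← map_pow, ← map_sub]
    exact (lin_dvd_lin hP).2 h

/-- local evenness in the chart -/
lemma affine_even (H : EvenOn f u e) {a s t : P3} {es : ℕ} (hs : s.IsHomogeneous es)
    (hfs : ¬ f ∣ s) (h : f ∣ s ^ 2 * (u * a) - t ^ 2) (x y : ℂ)
    (hp : Polynomial.evalEval x y (cr f) = 0) :
    ∃ v ε, Polynomial.evalEval x y v ≠ 0 ∧ cr f ∣ v * cr a - ε ^ 2 := by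
  have pf := prime H
  have hz : (![1, x, y] : Fin 3 → ℂ) ≠ 0 := fun h => one_ne_zero (congrFun h 0)
  obtain ⟨v, ε, hv, hvu⟩ := H.even _ hz (by rw [← evalEval_cr]; exact hp)
  refine even_of_rel (prime_cr H.hf pf (by norm_num)) hp (smooth_cr H.hf H.sf x y)
    (u := cr u) (v := cr v) (ε := cr ε) (s := cr s) (t := cr t) (by rwa [evalEval_cr]) ?_ ?_ ?_ ?_
  · rw [← map_mul, ← map_pow, ← map_sub]
    exact map_dvd cr hvu
  · exact fun hd => H.hfu (dvd_of_cr_dvd H.hf pf (by norm_num) H.hu hd)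
  · exact fun hd => hfs (dvd_of_cr_dvd H.hf pf (by norm_num) hs hd)
  · have := map_dvd cr h
    rwa [map_sub, map_mul, map_mul, map_pow, map_pow] at this

lemma cr_eval (γ : Polynomial ℂ) (p : P3) :
    (cr p).eval γ = aeval (![1, Polynomial.X, γ] : Fin 3 → Polynomial ℂ) p := by
  have h : (Polynomial.evalRingHom γ).comp (cr : P3 →+* Polynomial (Polynomial ℂ)) =
      ((aeval (![1, Polynomial.X, γ] : Fin 3 → Polynomial ℂ) : P3 →ₐ[ℂ] Polynomial ℂ) :
        P3 →+* Polynomial ℂ) := by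
    apply MvPolynomial.ringHom_ext
    · intro a
      rw [RingHom.comp_apply]
      have h1 : (cr : P3 →+* Polynomial (Polynomial ℂ)) (C a) =
          Polynomial.C (Polynomial.C a) := cr.commutes a
      rw [h1]
      simp
    · intro i
      rw [RingHom.comp_apply]
      fin_cases i
      · change Polynomial.eval γ (cr (X 0)) = _
        rw [cr_X0]; simp
      · change Polynomial.eval γ (cr (X 1)) = _
        rw [cr_X1]; simp
      · change Polynomial.eval γ (cr (X 2)) = _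
        rw [cr_X2]; simp
  exact RingHom.congr_fun h p

lemma graph_sq (H : EvenOn f u e) {a s t : P3} {es : ℕ} (ha : a.IsHomogeneous 2) (ha0 : a ≠ 0)
    (hs : s.IsHomogeneous es) (hfs : ¬ f ∣ s) (h : f ∣ s ^ 2 * (u * a) - t ^ 2)
    (γ : Polynomial ℂ) (haγ : (cr a).eval γ = 0)
    (hder : ∀ x, Polynomial.evalEval x (γ.eval x) (Polynomial.derivative (cr a)) ≠ 0) {k : ℕ}
    (hk1 : 1 ≤ k) (hk : γ.natDegree ≤ k) :
    ∃ Q : Polynomial ℂ, (cr f).eval γ = Q ^ 2 ∧ Q.natDegree ≤ 3 * k := by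
  have pf := prime H
  have hne : (cr f).eval γ ≠ 0 := by
    intro h0
    have h1 : (Polynomial.X - Polynomial.C γ) ∣ cr f := Polynomial.dvd_iff_isRoot.2 h0
    have h2 : (Polynomial.X - Polynomial.C γ) ∣ cr a := Polynomial.dvd_iff_isRoot.2 haγ
    have h3 : cr f ∣ cr a :=
      ((Polynomial.prime_X_sub_C γ).irreducible.associated_of_dvd
        (prime_cr H.hf pf (by norm_num)).irreducible h1).symm.dvd.trans h2
    exact not_dvd_of_degree H.hf ha ha0 (by norm_num)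
      (dvd_of_cr_dvd H.hf pf (by norm_num) ha h3)
  obtain ⟨Q, hQ⟩ := sq_on_graph hne haγ hder
    (fun x hx => affine_even H hs hfs h x (γ.eval x) hx)
  refine ⟨Q, hQ, ?_⟩
  have h1 : ((cr f).eval γ).natDegree ≤ 6 * k := by
    rw [cr_eval]
    refine MvPolynomial.aeval_natDegree_le f H.hf.totalDegree_le _ fun i => ?_
    fin_cases i
    · simp
    · simpa using hk1
    · simpa using hk
  rw [hQ, Polynomial.natDegree_pow] at h1
  omega

/-- lifting a divisibility from the chart -/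
lemma lift_dvd {p q : P3} {d e : ℕ} (hp : p.IsHomogeneous d) (hX : ¬ X 0 ∣ p)
    (hq : q.IsHomogeneous e) (h : cr p ∣ cr q) : p ∣ q := by
  obtain ⟨s, hs⟩ := h
  obtain ⟨m, hm⟩ := exists_homogenisation (crTo s)
  obtain ⟨S, hS, hS'⟩ := hm (m + e) (by omega)
  have hcS : cr S = s := by
    rw [cr, AlgHom.comp_apply, hS', crInv_crTo]
  have h1 : p * S - X 0 ^ (d + m) * q = 0 := by
    have h2 : (X 0 ^ (d + m) * q).IsHomogeneous (d + (m + e)) := by
      have := ((isHomogeneous_X ℂ (0 : Fin 3)).pow (d + m)).mul hq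
      have e1 : 1 * (d + m) + e = d + (m + e) := by ring
      rwa [e1] at this
    apply cr_inj ((hp.mul hS).sub h2)
    rw [map_sub, map_mul, map_mul, map_pow, cr_X0, one_pow, one_mul, hcS, hs, sub_self]
  have h2 : p ∣ q * X 0 ^ (d + m) := ⟨S, by rw [mul_comm]; exact (sub_eq_zero.1 h1).symm⟩
  have h3 : IsRelPrime p (X 0 ^ (d + m)) :=
    ((X_prime (R := ℂ) (i := (0 : Fin 3))).irreducible.isRelPrime_iff_not_dvd.2 hX).symm.pow_right
  exact h3.dvd_of_dvd_mul_right h2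

/-- the form of degree `3` with a given restriction to the parabola -/
lemma parabola (H : EvenOn f u e) {s t : P3} {es : ℕ} (hs : s.IsHomogeneous es) (hfs : ¬ f ∣ s)
    (h : f ∣ s ^ 2 * (u * (X 0 * X 2 - X 1 ^ 2)) - t ^ 2) :
    ∃ q : P3, q.IsHomogeneous 3 ∧ (X 0 * X 2 - X 1 ^ 2) ∣ f - q ^ 2 := by
  set a : P3 := X 0 * X 2 - X 1 ^ 2 with ha
  have hcr : cr a = Polynomial.X - Polynomial.C (Polynomial.X ^ 2) := by
    rw [ha, map_sub, map_mul, map_pow, cr_X0, cr_X1, cr_X2, one_mul, Polynomial.C_pow]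
  have hah : a.IsHomogeneous 2 :=
    ((isHomogeneous_X ℂ (0 : Fin 3)).mul (isHomogeneous_X ℂ (2 : Fin 3))).sub
      ((isHomogeneous_X ℂ (1 : Fin 3)).pow 2)
  have hXa : ¬ X 0 ∣ a := by
    rintro ⟨b, hb⟩
    have h1 := congrArg (eval ![0, 1, 0]) hb
    simp [ha] at h1
  have ha0 : a ≠ 0 := by
    intro h0
    exact hXa (h0 ▸ dvd_zero _)
  obtain ⟨Q, hQ, hQd⟩ := graph_sq H hah ha0 hs hfs h (Polynomial.X ^ 2)
    (by rw [hcr]; simp) (by
      intro x
      rw [hcr, Polynomial.derivative_sub, Polynomial.derivative_X, Polynomial.derivative_C,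
        sub_zero]
      simp) (k := 2) (by norm_num) (by simp)
  let mo : ℕ → P3 := fun i => X 1 ^ (i % 2) * X 2 ^ (i / 2) * X 0 ^ (3 - i % 2 - i / 2)
  have hmo : ∀ i, i < 7 → (mo i).IsHomogeneous 3 := by
    intro i hi
    have h1 := (((isHomogeneous_X ℂ (1 : Fin 3)).pow (i % 2)).mul
      ((isHomogeneous_X ℂ (2 : Fin 3)).pow (i / 2))).mul
      ((isHomogeneous_X ℂ (0 : Fin 3)).pow (3 - i % 2 - i / 2))
    have h2 : 1 * (i % 2) + 1 * (i / 2) + 1 * (3 - i % 2 - i / 2) = 3 := by omega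
    rwa [h2] at h1
  have hmoe : ∀ i, (cr (mo i)).eval (Polynomial.X ^ 2 : Polynomial ℂ) = Polynomial.X ^ i := by
    intro i
    simp only [mo, map_mul, map_pow, cr_X0, cr_X1, cr_X2, one_pow, mul_one, Polynomial.eval_mul,
      Polynomial.eval_pow, Polynomial.eval_C, Polynomial.eval_X]
    rw [← pow_mul, ← pow_add, Nat.mod_add_div]
  refine ⟨∑ i ∈ Finset.range 7, C (Q.coeff i) * mo i, ?_, ?_⟩
  · refine IsHomogeneous.sum _ _ _ fun i hi => ?_
    have h1 := (isHomogeneous_C (Fin 3) (Q.coeff i)).mul (hmo i (Finset.mem_range.1 hi))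
    rwa [zero_add] at h1
  · have hq : (cr (∑ i ∈ Finset.range 7, C (Q.coeff i) * mo i)).eval
        (Polynomial.X ^ 2 : Polynomial ℂ) = Q := by
      rw [map_sum, Polynomial.eval_finsetSum]
      conv_rhs => rw [Polynomial.as_sum_range' Q 7 (by omega)]
      refine Finset.sum_congr rfl fun i _ => ?_
      have hC : cr (C (Q.coeff i)) = Polynomial.C (Polynomial.C (Q.coeff i)) := cr.commutes _
      rw [map_mul, hC, Polynomial.eval_mul, Polynomial.eval_C, hmoe,
        Polynomial.C_mul_X_pow_eq_monomial]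
    refine lift_dvd (e := 6) hah hXa ?_ ?_
    · refine H.hf.sub ?_
      have h1 : (∑ i ∈ Finset.range 7, C (Q.coeff i) * mo i : P3).IsHomogeneous 3 := by
        refine IsHomogeneous.sum _ _ _ fun i hi => ?_
        have h1 := (isHomogeneous_C (Fin 3) (Q.coeff i)).mul (hmo i (Finset.mem_range.1 hi))
        rwa [zero_add] at h1
      exact h1.pow 2
    · rw [hcr, Polynomial.dvd_iff_isRoot, Polynomial.IsRoot.def, map_sub, map_pow,
        Polynomial.eval_sub, Polynomial.eval_pow, hq, hQ, sub_self]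

/-- the binary form with given coefficients -/
noncomputable def bin (n : ℕ) (c : ℕ → ℂ) : P3 :=
  ∑ i ∈ Finset.range (n + 1), C (c i) * X 1 ^ i * X 0 ^ (n - i)

lemma bin_hom (n : ℕ) (c : ℕ → ℂ) : (bin n c).IsHomogeneous n := by
  refine IsHomogeneous.sum _ _ _ fun i hi => ?_
  have h3 := (isHomogeneous_C_mul_X_pow (c i) (1 : Fin 3) i).mul
    ((isHomogeneous_X ℂ (0 : Fin 3)).pow (n - i))
  have h4 : i + 1 * (n - i) = n := by
    rw [Finset.mem_range] at hi
    omega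
  rwa [h4] at h3

lemma bin_eval (n : ℕ) (Q : Polynomial ℂ) (hQ : Q.natDegree ≤ n) (γ : Polynomial ℂ) :
    (cr (bin n Q.coeff)).eval γ = Q := by
  rw [bin, map_sum, Polynomial.eval_finsetSum]
  conv_rhs => rw [Polynomial.as_sum_range' Q (n + 1) (by omega)]
  refine Finset.sum_congr rfl fun i _ => ?_
  have hC : cr (C (Q.coeff i)) = Polynomial.C (Polynomial.C (Q.coeff i)) := cr.commutes _
  rw [map_mul, map_mul, map_pow, map_pow, hC, cr_X0, cr_X1, one_pow, mul_one, Polynomial.eval_mul,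
    Polynomial.eval_pow, Polynomial.eval_C, Polynomial.eval_C, Polynomial.C_mul_X_pow_eq_monomial]

lemma bin_top (n : ℕ) (c : ℕ → ℂ) : eval ![0, 1, 0] (bin n c) = c n := by
  rw [bin, map_sum, Finset.sum_eq_single n]
  · simp
  · intro i hi hin
    rw [Finset.mem_range] at hi
    have : n - i ≠ 0 := by omega
    simp [zero_pow this]
  · intro h
    exact absurd (Finset.mem_range.2 (Nat.lt_succ_self n)) h

lemma bin_succ (n : ℕ) (c : ℕ → ℂ) (hc : c (n + 1) = 0) : bin (n + 1) c = X 0 * bin n c := by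
  rw [bin, Finset.sum_range_succ, hc, C_0, zero_mul, zero_mul, add_zero, bin, Finset.mul_sum]
  refine Finset.sum_congr rfl fun i hi => ?_
  rw [Finset.mem_range] at hi
  have : n + 1 - i = (n - i) + 1 := by omega
  rw [this, pow_succ]
  ring

lemma bin_sub (n : ℕ) (c d : ℕ → ℂ) : bin n (fun i => c i - d i) = bin n c - bin n d := by
  rw [bin, bin, bin, ← Finset.sum_sub_distrib]
  refine Finset.sum_congr rfl fun i _ => ?_
  rw [C_sub]; ring

/-- two lines -/
lemma two_lines (H : EvenOn f u e) {s t : P3} {es : ℕ} (hs : s.IsHomogeneous es) (hfs : ¬ f ∣ s)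
    (h : f ∣ s ^ 2 * (u * (X 2 * (X 2 - X 0))) - t ^ 2) :
    ∃ q : P3, q.IsHomogeneous 3 ∧ X 2 * (X 2 - X 0) ∣ f - q ^ 2 := by
  set a : P3 := X 2 * (X 2 - X 0) with ha
  have hcr : cr a = Polynomial.X * (Polynomial.X - 1) := by
    rw [ha, map_mul, map_sub, cr_X0, cr_X2]
  have hah : a.IsHomogeneous 2 :=
    (isHomogeneous_X ℂ (2 : Fin 3)).mul ((isHomogeneous_X ℂ (2 : Fin 3)).sub
      (isHomogeneous_X ℂ (0 : Fin 3)))
  have ha0 : a ≠ 0 := by
    intro h0
    have h1 := congrArg (eval ![0, 0, 1]) h0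
    simp [ha] at h1
  have hl : (X 2 - X 0 : P3).IsHomogeneous 1 :=
    (isHomogeneous_X ℂ (2 : Fin 3)).sub (isHomogeneous_X ℂ (0 : Fin 3))
  obtain ⟨Q₀, hQ₀, hd₀⟩ := graph_sq H hah ha0 hs hfs h 0 (by rw [hcr]; simp)
    (by intro x; rw [hcr]; simp) (k := 1) le_rfl (by simp)
  obtain ⟨Q₁, hQ₁, hd₁⟩ := graph_sq H hah ha0 hs hfs h 1 (by rw [hcr]; simp)
    (by intro x; rw [hcr]; simp) (k := 1) le_rfl (by simp)
  have h0X : ¬ (X 0 : P3) ∣ X 2 := X_not_dvd_X (by decide)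
  have h0l : ¬ (X 0 : P3) ∣ X 2 - X 0 := fun h1 => h0X (by
    have := dvd_add h1 (dvd_refl (X 0 : P3))
    rwa [sub_add_cancel] at this)
  have hcl : cr (X 2 - X 0) = Polynomial.X - Polynomial.C 1 := by
    rw [map_sub, cr_X0, cr_X2, Polynomial.C_1]
  have D₀ : ∀ q : P3, q.IsHomogeneous 3 → (cr q).eval 0 = Q₀ → X 2 ∣ f - q ^ 2 := by
    intro q hq hq0
    refine lift_dvd (isHomogeneous_X ℂ (2 : Fin 3)) h0X (H.hf.sub (hq.pow 2)) ?_
    have : (Polynomial.X : Polynomial (Polynomial ℂ)) = Polynomial.X - Polynomial.C 0 := by simp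
    rw [cr_X2, this, Polynomial.dvd_iff_isRoot, Polynomial.IsRoot.def, map_sub, map_pow,
      Polynomial.eval_sub, Polynomial.eval_pow, hq0, hQ₀, sub_self]
  have D₁ : ∀ q : P3, q.IsHomogeneous 3 → (cr q).eval 1 ^ 2 = Q₁ ^ 2 →
      X 2 - X 0 ∣ f - q ^ 2 := by
    intro q hq hq0
    refine lift_dvd hl h0l (H.hf.sub (hq.pow 2)) ?_
    rw [hcl, Polynomial.dvd_iff_isRoot, Polynomial.IsRoot.def, map_sub, map_pow,
      Polynomial.eval_sub, Polynomial.eval_pow, hq0, hQ₁, sub_self]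
  -- the values at the common point
  have top : ∀ q : P3, (X 2 ∣ f - q ^ 2 ∨ X 2 - X 0 ∣ f - q ^ 2) →
      eval ![0, 1, 0] f = eval ![0, 1, 0] q ^ 2 := by
    rintro q (⟨b, hb⟩ | ⟨b, hb⟩)
    · have h1 := congrArg (eval ![0, 1, 0]) hb
      rw [map_sub, map_pow, map_mul, eval_X] at h1
      simpa [sub_eq_zero] using h1
    · have h1 := congrArg (eval ![0, 1, 0]) hb
      rw [map_sub, map_pow, map_mul, map_sub, eval_X, eval_X] at h1
      simpa [sub_eq_zero] using h1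
  have t₀ := top _ (Or.inl (D₀ _ (bin_hom 3 _) (bin_eval 3 Q₀ (by omega) 0)))
  have t₁ := top _ (Or.inr (D₁ _ (bin_hom 3 _) (by rw [bin_eval 3 Q₁ (by omega) 1])))
  rw [bin_top] at t₀ t₁
  obtain ⟨R, hR, hRd, hR3⟩ : ∃ R : Polynomial ℂ, R ^ 2 = Q₁ ^ 2 ∧ R.natDegree ≤ 3 ∧
      R.coeff 3 = Q₀.coeff 3 := by
    rcases sq_eq_sq_iff_eq_or_eq_neg.1 (t₁.symm.trans t₀) with h1 | h1
    · exact ⟨Q₁, rfl, by omega, h1⟩
    · refine ⟨-Q₁, by ring, by rw [Polynomial.natDegree_neg]; omega, ?_⟩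
      rw [Polynomial.coeff_neg, h1, neg_neg]
  let w : P3 := bin 2 (fun i => R.coeff i - Q₀.coeff i)
  have hw : X 0 * w = bin 3 R.coeff - bin 3 Q₀.coeff := by
    rw [← bin_sub, ← bin_succ]
    rw [hR3, sub_self]
  have hq : (bin 3 Q₀.coeff + X 2 * w).IsHomogeneous 3 :=
    (bin_hom 3 _).add ((isHomogeneous_X ℂ (2 : Fin 3)).mul (bin_hom 2 _))
  refine ⟨bin 3 Q₀.coeff + X 2 * w, hq, ?_⟩
  have k₀ := D₀ _ hq (by
    rw [map_add, map_mul, cr_X2, Polynomial.eval_add, Polynomial.eval_mul, Polynomial.eval_X,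
      zero_mul, add_zero, bin_eval 3 _ (by omega)])
  have k₁ := D₁ _ hq (by
    have h1 := congrArg (fun p => (cr p).eval (1 : Polynomial ℂ)) hw
    simp only [map_mul, map_sub, cr_X0, one_mul, Polynomial.eval_sub] at h1
    rw [bin_eval 3 _ hRd, bin_eval 3 _ (by omega)] at h1
    rw [map_add, map_mul, cr_X2, Polynomial.eval_add, Polynomial.eval_mul, Polynomial.eval_X,
      one_mul, h1, bin_eval 3 _ (by omega), add_sub_cancel, hR])
  refine IsRelPrime.mul_dvd ?_ k₀ k₁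
  refine (X_prime (R := ℂ) (i := (2 : Fin 3))).irreducible.isRelPrime_iff_not_dvd.2 ?_
  intro h1
  have h2 : (X 2 : P3) ∣ X 0 := by
    have := dvd_sub (dvd_refl (X 2 : P3)) h1
    rwa [sub_sub_cancel] at this
  exact X_not_dvd_X (k := ℂ) (by decide) h2

end Conic

/-- **Touching conics.** -/
theorem conic_sq {f u a s t : P3} {e es : ℕ} (H : EvenOn f u e) (ha : a.IsHomogeneous 2)
    (ha0 : a ≠ 0) (hs : s.IsHomogeneous es) (hfs : ¬ f ∣ s) (h : f ∣ s ^ 2 * (u * a) - t ^ 2) :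
    (∃ l : P3, l.IsHomogeneous 1 ∧ a = l ^ 2) ∨
      ∃ q : P3, q.IsHomogeneous 3 ∧ a ∣ f - q ^ 2 := by
  rcases Conic.normal_form ha ha0 with h1 | ⟨P, hP, h1⟩ | ⟨P, hP, h1⟩
  · exact Or.inl h1
  · right
    have H' := Conic.evenOn_lin H hP
    obtain ⟨q, hq, hq'⟩ := Conic.two_lines H' (s := lin P s) (t := lin P t)
      (lin_homogeneous P hs) (fun hd => hfs ((lin_dvd_lin hP).1 hd)) (by
        rw [← h1, ← map_mul, ← map_pow, ← map_pow, ← map_mul, ← map_sub]
        exact (lin_dvd_lin hP).2 h)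
    refine ⟨lin P⁻¹ q, lin_homogeneous _ hq, ?_⟩
    rw [← lin_dvd_lin hP, h1, map_sub, map_pow, Conic.lin_lin_inv hP]
    exact hq'
  · right
    have H' := Conic.evenOn_lin H hP
    obtain ⟨q, hq, hq'⟩ := Conic.parabola H' (s := lin P s) (t := lin P t)
      (lin_homogeneous P hs) (fun hd => hfs ((lin_dvd_lin hP).1 hd)) (by
        rw [← h1, ← map_mul, ← map_pow, ← map_pow, ← map_mul, ← map_sub]
        exact (lin_dvd_lin hP).2 h)
    refine ⟨lin P⁻¹ q, lin_homogeneous _ hq, ?_⟩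
    rw [← lin_dvd_lin hP, h1, map_sub, map_pow, Conic.lin_lin_inv hP]
    exact hq'

end Vale.Agent.P287.C8
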