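import Vale.Agent.P287.C8.Basic

/-!
Invariance of the lattices of `C8/Basic.lean` under linear changes of the homogeneous coordinates.
-/

namespace Vale.Agent.P287.C8

open MvPolynomial Module Vale.Agent.P287 Vale.Agent.P287.H925 Vale.Agent.P287.Theta

variable {T : Matrix (Fin 3) (Fin 3) ℂ}

lemma isUnit_det_inv (hT : IsUnit T.det) : IsUnit (T⁻¹).det := by
  rwa [Matrix.isUnit_nonsing_inv_det_iff]

lemma lin_inv_lin (hT : IsUnit T.det) (p : P3) : lin T⁻¹ (lin T p) = p := by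
  rw [lin_lin, Matrix.mul_nonsing_inv _ hT, lin_one]

lemma lin_lin_inv (hT : IsUnit T.det) (p : P3) : lin T (lin T⁻¹ p) = p := by
  rw [lin_lin, Matrix.nonsing_inv_mul _ hT, lin_one]

lemma mulVec_ne_zero (hT : IsUnit T.det) {z : Fin 3 → ℂ} (hz : z ≠ 0) : T.mulVec z ≠ 0 := by
  intro h
  apply hz
  have h3 : T⁻¹.mulVec (T.mulVec z) = 0 := by rw [h, Matrix.mulVec_zero]
  rwa [Matrix.mulVec_mulVec, Matrix.nonsing_inv_mul _ hT, Matrix.one_mulVec] at h3

lemma EvenOn.lin {f u : P3} {e : ℕ} (H : EvenOn f u e) (hT : IsUnit T.det) :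
    EvenOn (lin T f) (lin T u) e where
  hf := lin_homogeneous T H.hf
  sf := H.sf.lin hT
  hu := lin_homogeneous T H.hu
  hfu := fun h => H.hfu ((lin_dvd_lin hT).1 h)
  even := by
    intro z hz hfz
    rw [eval_lin] at hfz
    obtain ⟨v, ε, hv, hd⟩ := H.even _ (mulVec_ne_zero hT hz) hfz
    refine ⟨Theta.lin T v, Theta.lin T ε, by rwa [eval_lin], ?_⟩
    have := (lin_dvd_lin hT).2 hd
    rwa [map_sub, map_mul, map_pow] at this

/-- smoothness of `g` at the points of `f` is invariant -/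
lemma nice_lin {f g : P3} (hT : IsUnit T.det)
    (h : ∀ z : Fin 3 → ℂ, z ≠ 0 → eval z f = 0 → eval z g = 0 → ∃ i, eval z (pderiv i g) ≠ 0)
    (z : Fin 3 → ℂ) (hz : z ≠ 0) (hf : eval z (lin T f) = 0) (hg : eval z (lin T g) = 0) :
    ∃ i, eval z (pderiv i (lin T g)) ≠ 0 := by
  by_contra hcon
  push Not at hcon
  rw [eval_lin] at hf hg
  obtain ⟨i, hi⟩ := h _ (mulVec_ne_zero hT hz) hf hg
  apply hi
  have h2 : Matrix.vecMul (fun i => eval (T.mulVec z) (pderiv i g)) T = 0 := by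
    funext j
    have h3 := hcon j
    rw [pderiv_lin, map_sum] at h3
    rw [Matrix.vecMul, dotProduct, Pi.zero_apply, ← h3]
    refine Finset.sum_congr rfl fun i _ => ?_
    rw [map_mul, eval_C, eval_lin, mul_comm]
  have h4 : Matrix.vecMul (Matrix.vecMul (fun i => eval (T.mulVec z) (pderiv i g)) T) T⁻¹ = 0 := by
    rw [h2, Matrix.zero_vecMul]
  rw [Matrix.vecMul_vecMul, Matrix.mul_nonsing_inv _ hT, Matrix.vecMul_one] at h4
  exact congrFun h4 i

/-- the double plane splits over `lin T g` -/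
lemma split_lin {f g : P3} (hT : IsUnit T.det)
    (h : ∃ (e : ℕ) (s c : P3), c.IsHomogeneous e ∧ ¬ g ∣ c ∧ g ∣ c ^ 2 * f - s ^ 2) :
    ∃ (e : ℕ) (s c : P3), c.IsHomogeneous e ∧ ¬ lin T g ∣ c ∧
      lin T g ∣ c ^ 2 * lin T f - s ^ 2 := by
  obtain ⟨e, s, c, hc, hgc, h⟩ := h
  refine ⟨e, lin T s, lin T c, lin_homogeneous T hc, fun h => hgc ((lin_dvd_lin hT).1 h), ?_⟩
  rw [← map_pow, ← map_pow, ← map_mul, ← map_sub]
  exact (lin_dvd_lin hT).2 h

section Maps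

lemma map_homog (hT : IsUnit T.det) (d : ℕ) :
    (homogeneousSubmodule (Fin 3) ℂ d).map (lin T).toLinearMap =
      homogeneousSubmodule (Fin 3) ℂ d := by
  apply le_antisymm
  · rintro _ ⟨p, hp, rfl⟩
    exact lin_homogeneous T hp
  · intro p hp
    exact ⟨lin T⁻¹ p, lin_homogeneous _ hp, lin_lin_inv hT p⟩

lemma rt_lin (hT : IsUnit T.det) (f u : P3) (d : ℕ) :
    rt (lin T f) (lin T u) d = (rt f u d).map (lin T).toLinearMap := by
  rw [rt, rt, Submodule.map_span]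
  congr 1
  apply Set.Subset.antisymm
  · rintro b ⟨hb1, hb2⟩
    refine ⟨lin T⁻¹ b, ⟨lin_homogeneous _ hb1, ?_⟩, lin_lin_inv hT b⟩
    have h := lin_mem_span (A := T⁻¹) hb2
    rwa [lin_inv_lin hT, lin_inv_lin hT, map_pow] at h
  · rintro _ ⟨b, ⟨hb1, hb2⟩, rfl⟩
    refine ⟨lin_homogeneous T hb1, ?_⟩
    have h := lin_mem_span (A := T) hb2
    rwa [map_pow] at h

/-- the isomorphism of homogeneous coordinate rings given by a change of coordinates -/
noncomputable def qe (hT : IsUnit T.det) (g : P3) : RG g ≃ₐ[ℂ] RG (lin T g) :=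
  Ideal.quotientEquivAlg (Ideal.span {g}) (Ideal.span {lin T g}) (linEquiv T hT) (by
    rw [Ideal.map_span, Set.image_singleton]; rfl)

lemma qe_mk (hT : IsUnit T.det) (g p : P3) : qe hT g (q g p) = q (lin T g) (lin T p) := rfl

lemma qe_comp (hT : IsUnit T.det) (g : P3) :
    (qe hT g).toLinearMap.comp (Ideal.Quotient.mkₐ ℂ (Ideal.span {g})).toLinearMap =
      (Ideal.Quotient.mkₐ ℂ (Ideal.span {lin T g})).toLinearMap.comp (lin T).toLinearMap := rfl

lemma gr_lin (hT : IsUnit T.det) (g : P3) (d : ℕ) :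
    gr (lin T g) d = (gr g d).map (qe hT g).toLinearMap := by
  rw [gr, gr, ← Submodule.map_comp, qe_comp, Submodule.map_comp, map_homog hT]

lemma Jq_lin (hT : IsUnit T.det) (f g : P3) (d : ℕ) :
    Jq (lin T f) (lin T g) d = (Jq f g d).map (qe hT g).toLinearMap := by
  rw [Jq, Jq, ← Submodule.map_comp, qe_comp, Submodule.map_comp, rt_lin hT]

lemma mem_gr_lin (hT : IsUnit T.det) {g : P3} {d : ℕ} {x : RG g} :
    qe hT g x ∈ gr (lin T g) d ↔ x ∈ gr g d := by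
  rw [gr_lin hT]
  constructor
  · rintro ⟨y, hy, h⟩
    have : y = x := (qe hT g).injective h
    rwa [← this]
  · intro h
    exact ⟨x, h, rfl⟩

lemma mem_Jq_lin (hT : IsUnit T.det) {f g : P3} {d : ℕ} {x : RG g} :
    qe hT g x ∈ Jq (lin T f) (lin T g) d ↔ x ∈ Jq f g d := by
  rw [Jq_lin hT]
  constructor
  · rintro ⟨y, hy, h⟩
    have : y = x := (qe hT g).injective h
    rwa [← this]
  · intro h
    exact ⟨x, h, rfl⟩

/-- componentwise application of `qe` -/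
noncomputable def qe3 (hT : IsUnit T.det) (g : P3) :
    (Fin 3 → RG g) ≃ₗ[ℂ] (Fin 3 → RG (lin T g)) :=
  LinearEquiv.piCongrRight fun _ => (qe hT g).toLinearEquiv

lemma qe3_apply (hT : IsUnit T.det) (g : P3) (v : Fin 3 → RG g) (i : Fin 3) :
    qe3 hT g v i = qe hT g (v i) := rfl

lemma qm_lin (hT : IsUnit T.det) (g : P3) (A : Matrix (Fin 3) (Fin 3) P3) :
    qm (lin T g) (A.map (lin T)) = (qm g A).map (qe hT g) := rfl

lemma mulVec_lin (hT : IsUnit T.det) (g : P3) (A : Matrix (Fin 3) (Fin 3) P3)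
    (v : Fin 3 → RG g) (i : Fin 3) :
    ((qm (lin T g) (A.map (lin T))).mulVec (qe3 hT g v)) i = qe hT g (((qm g A).mulVec v) i) := by
  rw [qm_lin hT]
  exact (RingHom.map_mulVec ((qe hT g : RG g ≃ₐ[ℂ] RG (lin T g)) : RG g →+* RG (lin T g))
    (qm g A) v i).symm

lemma dotProduct_lin (hT : IsUnit T.det) (g : P3) (v w : Fin 3 → RG g) :
    dotProduct (qe3 hT g v) (qe3 hT g w) = qe hT g (dotProduct v w) := by
  simp only [dotProduct, map_sum, map_mul, qe3_apply]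

lemma cross_lin (hT : IsUnit T.det) (g : P3) (v w : Fin 3 → RG g) :
    crossProduct (qe3 hT g v) (qe3 hT g w) = qe3 hT g (crossProduct v w) := by
  funext i
  rw [qe3_apply, cross_apply, cross_apply]
  fin_cases i <;> simp [qe3_apply]

lemma Wq_lin (hT : IsUnit T.det) (f g : P3) (A : Matrix (Fin 3) (Fin 3) P3) (d : ℕ) :
    Wq (lin T f) (lin T g) (A.map (lin T)) d = (Wq f g A d).map (qe3 hT g).toLinearMap := by
  have key : ∀ v : Fin 3 → RG g, qe3 hT g v ∈ Wq (lin T f) (lin T g) (A.map (lin T)) d ↔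
      v ∈ Wq f g A d := by
    intro v
    change ((∀ i, qe3 hT g v i ∈ gr (lin T g) d) ∧ ∀ j,
      ((qm (lin T g) (A.map (lin T))).mulVec (qe3 hT g v)) j ∈ Jq (lin T f) (lin T g) (d + 4)) ↔
      ((∀ i, v i ∈ gr g d) ∧ ∀ j, ((qm g A).mulVec v) j ∈ Jq f g (d + 4))
    simp only [mulVec_lin hT, qe3_apply, mem_gr_lin hT, mem_Jq_lin hT]
  ext v
  obtain ⟨w, rfl⟩ := (qe3 hT g).surjective v
  rw [key]
  constructor
  · intro h
    exact ⟨w, h, rfl⟩
  · rintro ⟨y, hy, h⟩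
    have : y = w := (qe3 hT g).injective h
    rwa [← this]

lemma Nq_lin (hT : IsUnit T.det) (f g : P3) (Q A : Matrix (Fin 3) (Fin 3) P3)
    (ℓ : Fin 3 → RG g) (d : ℕ) :
    Nq (lin T f) (lin T g) (Q.map (lin T)) (A.map (lin T)) (qe3 hT g ℓ) d =
      (Nq f g Q A ℓ d).map (LinearEquiv.prodCongr (qe3 hT g) (qe hT g).toLinearEquiv).toLinearMap := by
  have hW : ∀ v : Fin 3 → RG g, qe3 hT g v ∈ Wq (lin T f) (lin T g) (A.map (lin T)) d ↔
      v ∈ Wq f g A d := by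
    intro v
    rw [Wq_lin hT]
    constructor
    · rintro ⟨y, hy, h⟩
      have : y = v := (qe3 hT g).injective h
      rwa [← this]
    · intro h
      exact ⟨v, h, rfl⟩
  have key : ∀ v : (Fin 3 → RG g) × RG g, (qe3 hT g v.1, qe hT g v.2) ∈
      Nq (lin T f) (lin T g) (Q.map (lin T)) (A.map (lin T)) (qe3 hT g ℓ) d ↔
      v ∈ Nq f g Q A ℓ d := by
    intro v
    change (qe3 hT g v.1 ∈ Wq (lin T f) (lin T g) (A.map (lin T)) d ∧
      qe hT g v.2 ∈ Jq (lin T f) (lin T g) (d + 2) ∧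
      (∀ i, ((qm (lin T g) (Q.map (lin T))).mulVec
        (crossProduct (qe3 hT g v.1) (qe3 hT g ℓ))) i + qe hT g v.2 * qe3 hT g ℓ i = 0) ∧
      dotProduct ((qm (lin T g) (A.map (lin T))).mulVec (qe3 hT g ℓ)) (qe3 hT g v.1) = 0) ↔
      (v.1 ∈ Wq f g A d ∧ v.2 ∈ Jq f g (d + 2) ∧
      (∀ i, ((qm g Q).mulVec (crossProduct v.1 ℓ)) i + v.2 * ℓ i = 0) ∧
      dotProduct ((qm g A).mulVec ℓ) v.1 = 0)
    have h1 : (qm (lin T g) (A.map (lin T))).mulVec (qe3 hT g ℓ) =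
        qe3 hT g ((qm g A).mulVec ℓ) := funext fun i => mulVec_lin hT g A ℓ i
    rw [h1, dotProduct_lin, cross_lin, hW, mem_Jq_lin hT]
    simp only [mulVec_lin hT, qe3_apply, ← map_mul, ← map_add, EmbeddingLike.map_eq_zero_iff]
  ext ⟨v, x⟩
  obtain ⟨v, rfl⟩ := (qe3 hT g).surjective v
  obtain ⟨x, rfl⟩ := (qe hT g).surjective x
  rw [key (v, x)]
  constructor
  · intro h
    exact ⟨(v, x), h, rfl⟩
  · rintro ⟨y, hy, h⟩
    have h1 : y = (v, x) :=
      (LinearEquiv.prodCongr (qe3 hT g) (qe hT g).toLinearEquiv).injective h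
    rwa [← h1]

end Maps

section Finrank

variable (hT : IsUnit T.det) (f g : P3) (Q A : Matrix (Fin 3) (Fin 3) P3)
include hT

theorem finrank_gr_lin (d : ℕ) : finrank ℂ (gr (lin T g) d) = finrank ℂ (gr g d) := by
  rw [gr_lin hT]
  exact LinearEquiv.finrank_map_eq (qe hT g).toLinearEquiv _

theorem finrank_Jq_lin (d : ℕ) :
    finrank ℂ (Jq (lin T f) (lin T g) d) = finrank ℂ (Jq f g d) := by
  rw [Jq_lin hT]
  exact LinearEquiv.finrank_map_eq (qe hT g).toLinearEquiv _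

theorem finrank_rt_lin (d : ℕ) :
    finrank ℂ (rt (lin T f) (lin T g) d) = finrank ℂ (rt f g d) := by
  rw [rt_lin hT]
  exact LinearEquiv.finrank_map_eq (linEquiv T hT).toLinearEquiv _

theorem finrank_Wq_lin (d : ℕ) :
    finrank ℂ (Wq (lin T f) (lin T g) (A.map (lin T)) d) = finrank ℂ (Wq f g A d) := by
  rw [Wq_lin hT]
  exact LinearEquiv.finrank_map_eq (qe3 hT g) _

theorem finrank_Nq_lin (ℓ : Fin 3 → RG g) (d : ℕ) :
    finrank ℂ (Nq (lin T f) (lin T g) (Q.map (lin T)) (A.map (lin T)) (qe3 hT g ℓ) d) =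
      finrank ℂ (Nq f g Q A ℓ d) := by
  rw [Nq_lin hT]
  exact LinearEquiv.finrank_map_eq
    (LinearEquiv.prodCongr (qe3 hT g) (qe hT g).toLinearEquiv) _

end Finrank

section Data

lemma isSymm_lin {n : ℕ} {A : Matrix (Fin n) (Fin n) P3} (h : A.IsSymm) :
    (A.map (lin T)).IsSymm := by
  rw [Matrix.IsSymm, ← Matrix.transpose_map, h.eq]

lemma homog_lin {n : ℕ} {A : Matrix (Fin n) (Fin n) P3} {e : Fin n → Fin n → ℕ}
    (h : ∀ i j, (A i j).IsHomogeneous (e i j)) (i j) : ((A.map (lin T)) i j).IsHomogeneous (e i j) :=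
  lin_homogeneous T (h i j)

lemma mul_eq_lin {n : ℕ} {Q A : Matrix (Fin n) (Fin n) P3} {f : P3}
    (h : Q * A = f • (1 : Matrix (Fin n) (Fin n) P3)) :
    Q.map (lin T) * A.map (lin T) = lin T f • (1 : Matrix (Fin n) (Fin n) P3) := by
  have h1 : (Q * A).map (lin T) = (f • (1 : Matrix (Fin n) (Fin n) P3)).map (lin T) := by rw [h]
  rw [Matrix.map_mul] at h1
  rw [h1]
  ext1 i j
  by_cases hij : i = j
  · subst hij; simp
  · simp [Matrix.one_apply_ne hij]

lemma det_lin {n : ℕ} (A : Matrix (Fin n) (Fin n) P3) :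
    (A.map (lin T)).det = lin T A.det := (AlgHom.map_det (lin T) A).symm

lemma adj_lin {n : ℕ} (A : Matrix (Fin n) (Fin n) P3) :
    (A.map (lin T)).adjugate = A.adjugate.map (lin T) := by
  ext1 i j
  exact (congrFun (congrFun (AlgHom.map_adjugate (lin T) A) i) j).symm

lemma qe3_mk (hT : IsUnit T.det) (g : P3) (l : Fin 3 → P3) :
    qe3 hT g (fun i => q g (l i)) = fun i => q (lin T g) (lin T (l i)) := rfl

lemma qe3_eq_zero (hT : IsUnit T.det) {g : P3} {ℓ : Fin 3 → RG g} : qe3 hT g ℓ = 0 ↔ ℓ = 0 :=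
  (qe3 hT g).map_eq_zero_iff

end Data

end Vale.Agent.P287.C8
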