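import Vale.Agent.P287.C8.Basic

/-!
The common zeros of a prime form `g` and a form `h` not divisible by it are finitely many points
of the projective plane; coordinates in general position.
-/

namespace Vale.Agent.P287.C8

open MvPolynomial Vale.Agent.P287 Vale.Agent.P287.H925 Vale.Agent.P287.Theta

/-- restriction to the line through the origin and `z` -/
noncomputable def lineMap (z : Fin 3 → ℂ) : P3 →ₐ[ℂ] Polynomial ℂ :=
  aeval fun i => Polynomial.C (z i) * Polynomial.X

lemma eval_lineMap (z : Fin 3 → ℂ) (t : ℂ) (p : P3) :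
    Polynomial.eval t (lineMap z p) = eval (fun i => t * z i) p := by
  have h : (Polynomial.aeval t : Polynomial ℂ →ₐ[ℂ] ℂ).comp (lineMap z) =
      aeval (fun i => t * z i) := by
    apply algHom_ext
    intro i
    rw [AlgHom.comp_apply, lineMap, aeval_X, aeval_X, map_mul, Polynomial.aeval_C,
      Polynomial.aeval_X, mul_comm]
    rfl
  have h1 := DFunLike.congr_fun h p
  rw [AlgHom.comp_apply, Polynomial.coe_aeval_eq_eval] at h1
  rw [eval_eq_aeval]
  exact h1

lemma eval_smul_of_homog {p : P3} {d : ℕ} (hp : p.IsHomogeneous d) (t : ℂ) (z : Fin 3 → ℂ) :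
    eval (fun i => t * z i) p = t ^ d * eval z p := by
  rw [eval_eq_aeval, eval_eq_aeval]
  exact aeval_scale hp t z

lemma eval_smul' {p : P3} {d : ℕ} (hp : p.IsHomogeneous d) (t : ℂ) (z : Fin 3 → ℂ) :
    eval (t • z) p = t ^ d * eval z p :=
  eval_smul_of_homog hp t z

/-- a form vanishing at `z` vanishes on the line through `z` -/
lemma lineMap_eq_zero {p : P3} {d : ℕ} (hp : p.IsHomogeneous d) {z : Fin 3 → ℂ}
    (hz : eval z p = 0) : lineMap z p = 0 := by
  apply Polynomial.funext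
  intro t
  rw [eval_lineMap, eval_smul_of_homog hp, hz, mul_zero, Polynomial.eval_zero]

/-- the prime ideal of the line through `z` -/
noncomputable def lineIdeal (z : Fin 3 → ℂ) : Ideal P3 := RingHom.ker (lineMap z)

instance (z : Fin 3 → ℂ) : (lineIdeal z).IsPrime := RingHom.ker_isPrime _

lemma X_mul_sub_mem (z : Fin 3 → ℂ) (i j : Fin 3) :
    C (z i) * X j - C (z j) * X i ∈ lineIdeal z := by
  change lineMap z _ = 0
  simp only [lineMap, map_sub, map_mul, aeval_X, algHom_C, Polynomial.algebraMap_eq]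
  ring

lemma eq_smul_of_lineIdeal_eq {z w : Fin 3 → ℂ} (hz : z ≠ 0) (h : lineIdeal w = lineIdeal z) :
    ∃ c : ℂ, w = c • z := by
  obtain ⟨i, hi⟩ : ∃ i, z i ≠ 0 := by
    by_contra hcon
    push Not at hcon
    exact hz (funext hcon)
  refine ⟨w i / z i, ?_⟩
  funext j
  have h1 := X_mul_sub_mem z i j
  rw [← h] at h1
  have h2 := congrArg (Polynomial.eval 1) (show lineMap w _ = 0 from h1)
  rw [eval_lineMap, Polynomial.eval_zero] at h2
  simp only [map_sub, map_mul, eval_C, eval_X, one_mul] at h2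
  rw [Pi.smul_apply, smul_eq_mul, div_mul_eq_mul_div, eq_div_iff hi]
  linear_combination h2

/-- A prime containing a prime form and a form not divisible by it, and contained in the ideal of
a line, is the ideal of the line. -/
lemma eq_lineIdeal {g h : P3} (hp : Prime g) (hgh : ¬ g ∣ h) {z : Fin 3 → ℂ} (hz : z ≠ 0)
    {p : Ideal P3} [hpp : p.IsPrime] (hg : g ∈ p) (hh : h ∈ p) (hle : p ≤ lineIdeal z) :
    p = lineIdeal z := by
  by_contra hne
  have h1 : ringKrullDim P3 = 3 := by
    rw [MvPolynomial.ringKrullDim_of_isNoetherianRing]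
    simp
  have hgp : (Ideal.span {g}).IsPrime := (Ideal.span_singleton_prime hp.ne_zero).2 hp
  have hbp : (⊥ : Ideal P3).IsPrime := Ideal.isPrime_bot
  let p0 : PrimeSpectrum P3 := ⟨⊥, hbp⟩
  let p1 : PrimeSpectrum P3 := ⟨Ideal.span {g}, hgp⟩
  let p2 : PrimeSpectrum P3 := ⟨p, hpp⟩
  let p3 : PrimeSpectrum P3 := ⟨lineIdeal z, inferInstance⟩
  let p4 : PrimeSpectrum P3 := ⟨lineIdeal 0, inferInstance⟩
  have l1 : p0 < p1 := by
    rw [← PrimeSpectrum.asIdeal_lt_asIdeal]
    refine bot_lt_iff_ne_bot.2 ?_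
    rw [Ne, Ideal.span_singleton_eq_bot]
    exact hp.ne_zero
  have l2 : p1 < p2 := by
    rw [← PrimeSpectrum.asIdeal_lt_asIdeal]
    refine lt_of_le_of_ne ?_ ?_
    · rw [Ideal.span_singleton_le_iff_mem]
      exact hg
    · intro h2
      apply hgh
      rw [← Ideal.mem_span_singleton]
      change h ∈ p1.asIdeal
      rw [h2]
      exact hh
  have l3 : p2 < p3 := by
    rw [← PrimeSpectrum.asIdeal_lt_asIdeal]
    exact lt_of_le_of_ne hle hne
  have l4 : p3 < p4 := by
    rw [← PrimeSpectrum.asIdeal_lt_asIdeal]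
    refine lt_of_le_of_ne ?_ ?_
    · intro a ha
      change lineMap 0 a = 0
      have h2 := congrArg (Polynomial.eval 0) (show lineMap z a = 0 from ha)
      rw [eval_lineMap, Polynomial.eval_zero] at h2
      apply Polynomial.funext
      intro t
      rw [eval_lineMap, Polynomial.eval_zero, ← h2]
      congr 2
      funext i
      simp
    · intro h2
      obtain ⟨c, hc⟩ := eq_smul_of_lineIdeal_eq hz (w := z) rfl
      obtain ⟨i, hi⟩ : ∃ i, z i ≠ 0 := by
        by_contra hcon
        push Not at hcon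
        exact hz (funext hcon)
      have h3 : (X i : P3) ∈ lineIdeal 0 := by
        change lineMap 0 (X i) = 0
        simp [lineMap]
      have h4 : (X i : P3) ∈ lineIdeal z := by
        change (X i : P3) ∈ p3.asIdeal
        rw [h2]
        exact h3
      have h5 := congrArg (Polynomial.eval 1) (show lineMap z (X i) = 0 from h4)
      rw [eval_lineMap, Polynomial.eval_zero, eval_X, one_mul] at h5
      exact hi h5
  let s : LTSeries (PrimeSpectrum P3) :=
    ((((RelSeries.singleton _ p0).snoc p1 (by simpa using l1)).snoc p2 (by simpa using l2)).snoc p3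
      (by simpa using l3)).snoc p4 (by simpa using l4)
  have h2 := Order.LTSeries.length_le_krullDim s
  have h3 : s.length = 4 := by simp [s]
  rw [h3] at h2
  change ((4 : ℕ) : WithBot ℕ∞) ≤ ringKrullDim P3 at h2
  rw [h1] at h2
  exact absurd h2 (by decide)

theorem finite_zeros {g h : P3} {m n : ℕ} (hg : g.IsHomogeneous m) (hp : Prime g)
    (hh : h.IsHomogeneous n) (hgh : ¬ g ∣ h) :
    ∃ S : Finset (Fin 3 → ℂ), (∀ s ∈ S, s ≠ 0 ∧ eval s g = 0 ∧ eval s h = 0) ∧
      ∀ z : Fin 3 → ℂ, z ≠ 0 → eval z g = 0 → eval z h = 0 → ∃ s ∈ S, ∃ c : ℂ, z = c • s := by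
  classical
  set T : Set (Ideal P3) := {I | ∃ z : Fin 3 → ℂ, z ≠ 0 ∧ eval z g = 0 ∧ eval z h = 0 ∧
    lineIdeal z = I} with hT
  have hTf : T.Finite := by
    refine (Ideal.finite_minimalPrimes_of_isNoetherianRing P3 (Ideal.span {g, h})).subset ?_
    rintro I ⟨z, hz, hzg, hzh, rfl⟩
    have h1 : Ideal.span {g, h} ≤ lineIdeal z := by
      rw [Ideal.span_le]
      rintro a (rfl | rfl)
      · exact lineMap_eq_zero hg hzg
      · exact lineMap_eq_zero hh hzh
    obtain ⟨p, hpm, hpz⟩ := Ideal.exists_minimalPrimes_le h1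
    have hpp : p.IsPrime := hpm.1.1
    have h2 : Ideal.span {g, h} ≤ p := hpm.1.2
    rw [← eq_lineIdeal hp hgh hz (h2 (Ideal.subset_span (by simp)))
      (h2 (Ideal.subset_span (by simp))) hpz]
    exact hpm
  choose! r hr using fun I (hI : I ∈ T) => hI
  refine ⟨hTf.toFinset.image r, ?_, ?_⟩
  · intro s hs
    obtain ⟨I, hI, rfl⟩ := Finset.mem_image.1 hs
    obtain ⟨h1, h2, h3, _⟩ := hr I (hTf.mem_toFinset.1 hI)
    exact ⟨h1, h2, h3⟩
  · intro z hz hzg hzh
    have hI : lineIdeal z ∈ T := ⟨z, hz, hzg, hzh, rfl⟩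
    obtain ⟨h1, _, _, h4⟩ := hr _ hI
    refine ⟨r (lineIdeal z), Finset.mem_image.2 ⟨_, hTf.mem_toFinset.2 hI, rfl⟩, ?_⟩
    exact eq_smul_of_lineIdeal_eq h1 h4.symm

/-- a vector outside finitely many planes -/
lemma exists_dot_ne (S : Finset (Fin 3 → ℂ)) (hS : ∀ s ∈ S, s ≠ 0) :
    ∃ c : Fin 3 → ℂ, ∀ s ∈ S, c ⬝ᵥ s ≠ 0 := by
  classical
  have h1 : (∏ s ∈ S, ∑ i, C (s i) * X i : P3) ≠ 0 := by
    rw [Finset.prod_ne_zero_iff]
    intro s hs h0
    apply hS s hs
    funext i
    have h2 := congrArg (eval (Pi.single i 1)) h0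
    simpa [Pi.single_apply] using h2
  obtain ⟨c, hc⟩ : ∃ c, eval c (∏ s ∈ S, ∑ i, C (s i) * X i : P3) ≠ 0 := by
    by_contra hcon
    push Not at hcon
    exact h1 (MvPolynomial.funext fun z => by rw [hcon, map_zero])
  refine ⟨c, fun s hs h0 => hc ?_⟩
  rw [map_prod]
  refine Finset.prod_eq_zero hs ?_
  rw [map_sum, ← h0, dotProduct]
  refine Finset.sum_congr rfl fun i _ => ?_
  rw [map_mul, eval_C, eval_X, mul_comm]

/-- The vector product. -/
lemma cross_dot (a b : Fin 3 → ℂ) : crossProduct a b ⬝ᵥ a = 0 ∧ crossProduct a b ⬝ᵥ b = 0 := by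
  constructor
  · rw [dotProduct_comm, dot_self_cross]
  · rw [dotProduct_comm, dot_cross_self]

lemma smul_of_cross_eq_zero {a b : Fin 3 → ℂ} (hb : b ≠ 0) (h : crossProduct a b = 0) :
    ∃ c : ℂ, a = c • b := by
  obtain ⟨i, hi⟩ : ∃ i, b i ≠ 0 := by
    by_contra hcon
    push Not at hcon
    exact hb (funext hcon)
  have h0 := congrFun h 0
  have h1 := congrFun h 1
  have h2 := congrFun h 2
  simp only [cross_apply, Matrix.cons_val_zero, Matrix.cons_val_one, Matrix.cons_val_two,
    Matrix.tail_cons, Matrix.head_cons, Pi.zero_apply, sub_eq_zero] at h0 h1 h2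
  refine ⟨a i / b i, ?_⟩
  funext j
  rw [Pi.smul_apply, smul_eq_mul, div_mul_eq_mul_div, eq_div_iff hi]
  fin_cases i <;> fin_cases j <;>
    simp only [Fin.mk_one, Fin.zero_eta, Fin.reduceFinMk, Fin.isValue] at * <;>
    first | rfl | linear_combination h0 | linear_combination -h0 | linear_combination h1 |
      linear_combination -h1 | linear_combination h2 | linear_combination -h2

/-- General position with respect to finitely many points: given a form `g` and finitely many
zeros of it, there are coordinates in which `g (0, 0, 1) ≠ 0` and no point of the line `z₀ = 0`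
is one of the given points. -/
theorem exists_coord_finset {g : P3} {m : ℕ} (hg : g.IsHomogeneous m) (hg0 : g ≠ 0)
    (S : Finset (Fin 3 → ℂ)) (hS : ∀ s ∈ S, s ≠ 0 ∧ eval s g = 0) :
    ∃ P : Matrix (Fin 3) (Fin 3) ℂ, IsUnit P.det ∧ eval ![0, 0, 1] (lin P g) ≠ 0 ∧
      ∀ z : Fin 3 → ℂ, z ≠ 0 → z 0 = 0 → ∀ s ∈ S, ∀ c : ℂ, P.mulVec z ≠ c • s := by
  classical
  -- a point outside the curve
  obtain ⟨w, hw, hwg⟩ : ∃ w : Fin 3 → ℂ, w ≠ 0 ∧ eval w g ≠ 0 := by
    by_contra hcon
    push Not at hcon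
    have h1 : X 0 * g = 0 := by
      apply MvPolynomial.funext
      intro z
      rw [map_mul, map_zero, eval_X]
      by_cases hz : z = 0
      · rw [hz]; simp
      · rw [hcon z hz, mul_zero]
    rcases mul_eq_zero.1 h1 with h2 | h2
    · exact X_ne_zero 0 h2
    · exact hg0 h2
  -- an auxiliary vector
  obtain ⟨a, ha⟩ : ∃ a : Fin 3 → ℂ, crossProduct a w ≠ 0 := by
    by_contra hcon
    push Not at hcon
    have h1 := hcon ![1, 0, 0]
    have h2 := hcon ![0, 1, 0]
    have e1 := congrFun h1 1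
    have e2 := congrFun h1 2
    have e3 := congrFun h2 0
    simp [cross_apply] at e1 e2 e3
    apply hw
    funext i
    fin_cases i
    · have e4 := congrFun h2 2
      simpa [cross_apply] using e4
    · simpa using e2
    · simpa using e3
  obtain ⟨v, hv⟩ := exists_dot_ne (insert (crossProduct a w) (S.image fun s => crossProduct s w))
    (by
      intro s' hs'
      rcases Finset.mem_insert.1 hs' with rfl | hs'
      · exact ha
      · obtain ⟨s, hs, rfl⟩ := Finset.mem_image.1 hs'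
        intro h0
        obtain ⟨c, hc⟩ := smul_of_cross_eq_zero hw h0
        have h1 := (hS s hs).2
        rw [hc, eval_smul' hg] at h1
        rcases mul_eq_zero.1 h1 with h2 | h2
        · have h3 : c = 0 := eq_zero_of_pow_eq_zero h2
          rw [h3, zero_smul] at hc
          exact (hS s hs).1 hc
        · exact hwg h2)
  set c := crossProduct w v with hc
  have hcv : c ⬝ᵥ v = 0 := (cross_dot w v).2
  have hcw : c ⬝ᵥ w = 0 := (cross_dot w v).1
  have hcs : ∀ s, v ⬝ᵥ crossProduct s w = c ⬝ᵥ s := by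
    intro s
    rw [triple_product_permutation, dotProduct_comm]
  have hc0 : c ≠ 0 := by
    intro h0
    apply hv _ (Finset.mem_insert_self _ _)
    rw [hcs, h0, zero_dotProduct]
  obtain ⟨u, hu⟩ := exists_dot_ne {c} (by
    intro s hs
    rw [Finset.mem_singleton.1 hs]
    exact hc0)
  have hu' : c ⬝ᵥ u ≠ 0 := by
    rw [dotProduct_comm]
    exact hu c (Finset.mem_singleton_self c)
  set P : Matrix (Fin 3) (Fin 3) ℂ := (Matrix.of ![u, v, w]).transpose with hP
  have hPz : ∀ z, P.mulVec z = z 0 • u + z 1 • v + z 2 • w := by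
    intro z
    funext i
    simp [hP, Matrix.mulVec, dotProduct, Fin.sum_univ_three, mul_comm]
  have hdet : P.det = - (c ⬝ᵥ u) := by
    rw [hP, Matrix.det_transpose]
    have h1 := triple_product_eq_det u v w
    have h2 : (Matrix.of ![u, v, w] : Matrix (Fin 3) (Fin 3) ℂ) = ![u, v, w] := rfl
    rw [h2, ← h1, ← cross_anticomm w v, dotProduct_neg, ← hc, dotProduct_comm]
  refine ⟨P, ?_, ?_, ?_⟩
  · rw [hdet, isUnit_iff_ne_zero]
    exact neg_ne_zero.2 hu'
  · rw [eval_lin, hPz]
    simpa using hwg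
  · intro z hz hz0 s hs κ hκ
    have h1 : c ⬝ᵥ P.mulVec z = 0 := by
      rw [hPz, hz0, zero_smul, zero_add, dotProduct_add, dotProduct_smul, dotProduct_smul, hcv, hcw,
        smul_zero, smul_zero, add_zero]
    have h2 : P.mulVec z ≠ 0 := by
      intro h3
      apply hz
      have h4 := congrArg (P⁻¹).mulVec h3
      rwa [Matrix.mulVec_zero, Matrix.mulVec_mulVec, Matrix.nonsing_inv_mul, Matrix.one_mulVec] at h4
      rw [hdet, isUnit_iff_ne_zero]
      exact neg_ne_zero.2 hu'
    rw [hκ, dotProduct_smul, ← hcs] at h1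
    rcases mul_eq_zero.1 h1 with h3 | h3
    · rw [hκ, h3, zero_smul] at h2
      exact h2 rfl
    · exact hv _ (Finset.mem_insert_of_mem (Finset.mem_image_of_mem _ hs)) h3

/-- General position: coordinates in which `g (0, 0, 1) ≠ 0` and `h` has no zero on `g = 0` at
infinity (`z₀ = 0`). -/
theorem exists_coord {g h : P3} {m n : ℕ} (hg : g.IsHomogeneous m) (hp : Prime g)
    (hh : h.IsHomogeneous n) (hgh : ¬ g ∣ h) :
    ∃ P : Matrix (Fin 3) (Fin 3) ℂ, IsUnit P.det ∧ eval ![0, 0, 1] (lin P g) ≠ 0 ∧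
      ∀ z : Fin 3 → ℂ, z ≠ 0 → z 0 = 0 → eval z (lin P g) = 0 → eval z (lin P h) ≠ 0 := by
  obtain ⟨S, hS, hS'⟩ := finite_zeros hg hp hh hgh
  obtain ⟨P, hP, h1, h2⟩ := exists_coord_finset hg hp.ne_zero S fun s hs =>
    ⟨(hS s hs).1, (hS s hs).2.1⟩
  refine ⟨P, hP, h1, fun z hz hz0 hzg hzh => ?_⟩
  rw [eval_lin] at hzg hzh
  have h3 : P.mulVec z ≠ 0 := by
    intro h3
    apply hz
    have h4 := congrArg (P⁻¹).mulVec h3
    rwa [Matrix.mulVec_zero, Matrix.mulVec_mulVec, Matrix.nonsing_inv_mul _ hP,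
      Matrix.one_mulVec] at h4
  obtain ⟨s, hs, c, hc⟩ := hS' _ h3 hzg hzh
  exact h2 z hz hz0 s hs c hc

end Vale.Agent.P287.C8
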