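import Vale.Agent.P287.C8.Even
import Vale.Agent.P287.C8.Inv
import Vale.Agent.P287.C8.Bezout
import Vale.Agent.P287.C8.Zeros

/-!
Counting square roots modulo `(u, f)`: the forms of degree `d` whose square lies in `(u, f)` have
codimension at most `3 e` in the forms of degree `d`.
-/

namespace Vale.Agent.P287.C8

open Polynomial IsLocalRing Vale.Agent.P287 Vale.Agent.P287.H925 Vale.Agent.P287.Theta

section Dedekind

variable {f : ℂ[X][X]}

/-- nonzero primes of the coordinate ring of a smooth affine curve are points -/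
lemma prime_eq_ptC (hf : Prime f)
    (hsm : ∀ x y : ℂ, evalEval x y f = 0 →
      f ∉ (Ideal.span {C (X - C x), X - C (C y)} : Ideal ℂ[X][X]) ^ 2)
    {P : Ideal (CR f)} (hP0 : P ≠ ⊥) (hP : P.IsPrime) :
    ∃ (x y : ℂ) (hp : evalEval x y f = 0), P = ptC f x y hp := by
  have := isDomain_CR hf
  have h1 : P.comap (mkC f) ≠ ⊤ := by
    intro h
    apply hP.ne_top
    rw [Ideal.eq_top_iff_one]
    have : (1 : ℂ[X][X]) ∈ P.comap (mkC f) := by rw [h]; trivial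
    rw [Ideal.mem_comap, map_one] at this
    exact this
  obtain ⟨x, y, hxy⟩ := exists_common_point _ h1
  have hp : evalEval x y f = 0 := by
    apply hxy
    rw [Ideal.mem_comap, mkC_eq_zero.2 dvd_rfl]
    exact zero_mem _
  have hle : P ≤ ptC f x y hp := by
    intro a ha
    obtain ⟨a, rfl⟩ := mkC_surjective f a
    rw [mk_mem_ptC]
    exact hxy a ha
  refine ⟨x, y, hp, ?_⟩
  have hd := isDomain_LocC hf hp
  have hpid := isPrincipalIdealRing_LocC hf hp (hsm x y hp)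
  have hdis : Disjoint ((ptC f x y hp).primeCompl : Set (CR f)) (P : Set (CR f)) := by
    rw [Set.disjoint_left]
    intro a ha ha'
    exact ha (hle ha')
  have h2 : (P.map (algebraMap (CR f) (LocC f x y hp))).IsPrime :=
    IsLocalization.isPrime_of_isPrime_disjoint (ptC f x y hp).primeCompl _ P hP hdis
  have h3 : (P.map (algebraMap (CR f) (LocC f x y hp))) ≠ ⊥ := by
    intro h
    apply hP0
    have hinj : Function.Injective (algebraMap (CR f) (LocC f x y hp)) :=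
      IsLocalization.injective _ (Ideal.primeCompl_le_nonZeroDivisors (ptC f x y hp))
    exact (Ideal.map_eq_bot_iff_of_injective hinj).1 h
  have h4 : (P.map (algebraMap (CR f) (LocC f x y hp))).IsMaximal := h2.isMaximal h3
  have h5 := IsLocalRing.eq_maximalIdeal h4
  have h6 := IsLocalization.under_map_of_isPrime_disjoint (ptC f x y hp).primeCompl
    (LocC f x y hp) hP hdis
  rw [h5] at h6
  rw [← h6]
  exact Localization.AtPrime.under_maximalIdeal

theorem isDedekindDomain_CR (hf : Prime f)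
    (hsm : ∀ x y : ℂ, evalEval x y f = 0 →
      f ∉ (Ideal.span {C (X - C x), X - C (C y)} : Ideal ℂ[X][X]) ^ 2) :
    IsDedekindDomain (CR f) := by
  have hdom := isDomain_CR hf
  have : IsDedekindDomainDvr (CR f) :=
    { (inferInstance : IsNoetherianRing (CR f)) with
      is_dvr_at_nonzero_prime := by
        intro P hP0 hP
        obtain ⟨x, y, hp, rfl⟩ := prime_eq_ptC hf hsm hP0 hP
        have hd := isDomain_LocC hf hp
        have hpid := isPrincipalIdealRing_LocC hf hp (hsm x y hp)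
        refine { hpid with not_a_field' := ?_ }
        intro h
        exact IsLocalization.AtPrime.not_isField (CR f) hP0 (LocC f x y hp)
          (IsLocalRing.isField_iff_maximalIdeal_eq.2 h) }
  infer_instance

end Dedekind

section SqrtIdeal

variable {f u : ℂ[X][X]}

lemma mem_span_iff_mkC {a : ℂ[X][X]} :
    a ∈ (Ideal.span {u, f} : Ideal ℂ[X][X]) ↔ mkC f a ∈ (Ideal.span {mkC f u} : Ideal (CR f)) := by
  rw [Ideal.mem_span_singleton, Ideal.mem_span_pair]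
  constructor
  · rintro ⟨p, q, rfl⟩
    refine ⟨mkC f p, ?_⟩
    rw [map_add, map_mul, map_mul, mkC_eq_zero.2 dvd_rfl, mul_zero, add_zero, mul_comm]
  · rintro ⟨c, hc⟩
    obtain ⟨c, rfl⟩ := mkC_surjective f c
    rw [← sub_eq_zero, ← map_mul, ← map_sub, mkC_eq_zero] at hc
    obtain ⟨q, hq⟩ := hc
    exact ⟨c, q, by linear_combination -hq⟩

/-- the product of two square roots modulo `(u, f)` -/
lemma mul_mem_aff (hf : Prime f)
    (hsm : ∀ x y : ℂ, evalEval x y f = 0 →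
      f ∉ (Ideal.span {C (X - C x), X - C (C y)} : Ideal ℂ[X][X]) ^ 2)
    (hu : ¬ f ∣ u) {a b : ℂ[X][X]} (ha : a ^ 2 ∈ (Ideal.span {u, f} : Ideal ℂ[X][X]))
    (hb : b ^ 2 ∈ (Ideal.span {u, f} : Ideal ℂ[X][X])) :
    a * b ∈ (Ideal.span {u, f} : Ideal ℂ[X][X]) := by
  obtain ⟨p, q, hpq⟩ := Ideal.mem_span_pair.1 ha
  obtain ⟨r, s, hrs⟩ := Ideal.mem_span_pair.1 hb
  obtain ⟨d, hd⟩ := sqrt_dvd f hf hsm (a * b) u (p * r) hu (by
    refine ⟨q * b ^ 2 + p * u * s, ?_⟩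
    linear_combination -b ^ 2 * hpq - p * u * hrs)
  obtain ⟨t, ht⟩ := hd
  exact Ideal.mem_span_pair.2 ⟨d, t, by linear_combination -ht⟩

/-- The ideal of the square roots modulo `(u, f)`. -/
noncomputable def sqJ (f u : ℂ[X][X])
    (hmul : ∀ a b : ℂ[X][X], a ^ 2 ∈ (Ideal.span {u, f} : Ideal ℂ[X][X]) →
      b ^ 2 ∈ (Ideal.span {u, f} : Ideal ℂ[X][X]) → a * b ∈ (Ideal.span {u, f} : Ideal ℂ[X][X])) :
    Ideal ℂ[X][X] where
  carrier := {s | s ^ 2 ∈ (Ideal.span {u, f} : Ideal ℂ[X][X])}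
  add_mem' := by
    intro a b ha hb
    rw [Set.mem_ofPred_eq] at ha hb ⊢
    have h1 := hmul a b ha hb
    have h2 : (a + b) ^ 2 = a ^ 2 + (2 * (a * b) + b ^ 2) := by ring
    rw [h2]
    exact add_mem ha (add_mem (Ideal.mul_mem_left _ _ h1) hb)
  zero_mem' := by
    rw [Set.mem_ofPred_eq, zero_pow two_ne_zero]
    exact zero_mem _
  smul_mem' := by
    intro r a ha
    rw [Set.mem_ofPred_eq] at ha ⊢
    rw [smul_eq_mul, mul_pow]
    exact Ideal.mul_mem_left _ _ ha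

variable {J : Ideal ℂ[X][X]}

lemma mkC_mem_map (hJ : ∀ s, s ∈ J ↔ s ^ 2 ∈ (Ideal.span {u, f} : Ideal ℂ[X][X])) (s : ℂ[X][X]) :
    mkC f s ∈ J.map (mkC f) ↔ s ∈ J := by
  constructor
  · intro h
    rw [Ideal.mem_map_iff_of_surjective _ (mkC_surjective f)] at h
    obtain ⟨t, ht, hts⟩ := h
    rw [← sub_eq_zero, ← map_sub, mkC_eq_zero] at hts
    have h1 : t - s ∈ J := by
      rw [hJ]
      obtain ⟨q, hq⟩ := hts
      rw [hq, pow_two, mul_assoc]
      exact Ideal.mul_mem_right _ _ (Ideal.subset_span (by simp))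
    have := J.sub_mem ht h1
    rwa [sub_sub_cancel] at this
  · exact fun h => Ideal.mem_map_of_mem _ h

lemma mem_sq (hJ : ∀ s, s ∈ J ↔ s ^ 2 ∈ (Ideal.span {u, f} : Ideal ℂ[X][X]))
    (hev : ∀ x y : ℂ, evalEval x y f = 0 →
      ∃ v ε : ℂ[X][X], evalEval x y v ≠ 0 ∧ f ∣ v * u - ε ^ 2) :
    mkC f u ∈ J.map (mkC f) * J.map (mkC f) := by
  by_contra hcon
  have hK : (J.map (mkC f) * J.map (mkC f)).colon {mkC f u} ≠ ⊤ := by
    intro h
    have h1 : (1 : CR f) ∈ (J.map (mkC f) * J.map (mkC f)).colon {mkC f u} := by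
      rw [h]; trivial
    rw [Submodule.mem_colon_singleton, one_smul] at h1
    exact hcon h1
  have hK' : ((J.map (mkC f) * J.map (mkC f)).colon {mkC f u}).comap (mkC f) ≠ ⊤ := by
    intro h
    apply hK
    have h1 : (1 : ℂ[X][X]) ∈
        ((J.map (mkC f) * J.map (mkC f)).colon {mkC f u}).comap (mkC f) := by
      rw [h]; trivial
    rw [Ideal.mem_comap, map_one] at h1
    rwa [Ideal.eq_top_iff_one]
  obtain ⟨x, y, hxy⟩ := exists_common_point _ hK'
  have hp : evalEval x y f = 0 := by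
    apply hxy
    rw [Ideal.mem_comap, mkC_eq_zero.2 dvd_rfl]
    exact zero_mem _
  obtain ⟨v, ε, hv, q, hq⟩ := hev x y hp
  apply hv
  apply hxy
  rw [Ideal.mem_comap, Submodule.mem_colon_singleton, smul_eq_mul]
  have h1 : mkC f v * mkC f u = mkC f ε * mkC f ε := by
    rw [← map_mul, ← map_mul, ← sub_eq_zero, ← map_sub, mkC_eq_zero]
    exact ⟨q, by rw [← hq]; ring⟩
  rw [h1]
  have h2 : mkC f ε ∈ J.map (mkC f) := by
    rw [mkC_mem_map hJ, hJ, Ideal.mem_span_pair]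
    exact ⟨v, -q, by linear_combination hq⟩
  exact Ideal.mul_mem_mul h2 h2

lemma sq_le (hJ : ∀ s, s ∈ J ↔ s ^ 2 ∈ (Ideal.span {u, f} : Ideal ℂ[X][X]))
    (hmul : ∀ a b : ℂ[X][X], a ^ 2 ∈ (Ideal.span {u, f} : Ideal ℂ[X][X]) →
      b ^ 2 ∈ (Ideal.span {u, f} : Ideal ℂ[X][X]) → a * b ∈ (Ideal.span {u, f} : Ideal ℂ[X][X])) :
    J.map (mkC f) * J.map (mkC f) ≤ Ideal.span {mkC f u} := by
  rw [Ideal.mul_le]
  intro r hr s hs
  obtain ⟨r, rfl⟩ := mkC_surjective f r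
  obtain ⟨s, rfl⟩ := mkC_surjective f s
  rw [mkC_mem_map hJ] at hr hs
  rw [← map_mul, ← mem_span_iff_mkC]
  exact hmul _ _ ((hJ _).1 hr) ((hJ _).1 hs)

lemma mul_mem_of_sup {A : Type*} [CommRing A] {j : Ideal A} {u₀ b s : A}
    (hb : Ideal.span {u₀} ⊔ Ideal.span {b} = j) (hs : s * b ∈ Ideal.span {u₀}) {t : A}
    (ht : t ∈ j) : s * t ∈ Ideal.span {u₀} := by
  rw [← hb, Submodule.mem_sup] at ht
  obtain ⟨t₁, ht₁, t₂, ht₂, rfl⟩ := ht
  rw [mul_add]
  refine add_mem (Ideal.mul_mem_left _ _ ht₁) ?_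
  obtain ⟨c, rfl⟩ := Ideal.mem_span_singleton.1 ht₂
  rw [← mul_assoc]
  exact Ideal.mul_mem_right _ _ hs

lemma mem_of_mul_mem {A : Type*} [CommRing A] [IsDomain A] {j : Ideal A} {u₀ b s : A}
    (h0 : u₀ ≠ 0) (hj : u₀ ∈ j * j) (hb : Ideal.span {u₀} ⊔ Ideal.span {b} = j)
    (hs : s * b ∈ Ideal.span {u₀}) : s ∈ j := by
  have h2 : ∀ t ∈ j * j, s * t ∈ Ideal.span {u₀} * j := by
    intro t ht
    refine Submodule.mul_induction_on ht ?_ ?_
    · intro a ha b' hb'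
      rw [← mul_assoc]
      exact Ideal.mul_mem_mul (mul_mem_of_sup hb hs ha) hb'
    · intro a b' ha hb'
      rw [mul_add]
      exact add_mem ha hb'
  have h3 := h2 _ hj
  rw [Ideal.mem_span_singleton_mul] at h3
  obtain ⟨z, hz, hz'⟩ := h3
  rw [mul_comm s] at hz'
  rw [← mul_left_cancel₀ h0 hz']
  exact hz

/-- The square root of the ideal `(u, f)` of a curve meeting `f = 0` evenly. -/
theorem exists_sqrt_gen (hf : Prime f)
    (hsm : ∀ x y : ℂ, evalEval x y f = 0 →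
      f ∉ (Ideal.span {C (X - C x), X - C (C y)} : Ideal ℂ[X][X]) ^ 2)
    (hu : ¬ f ∣ u)
    (hev : ∀ x y : ℂ, evalEval x y f = 0 →
      ∃ v ε : ℂ[X][X], evalEval x y v ≠ 0 ∧ f ∣ v * u - ε ^ 2)
    (hJ : ∀ s, s ∈ J ↔ s ^ 2 ∈ (Ideal.span {u, f} : Ideal ℂ[X][X])) :
    ∃ b ∈ J,
      (∀ s, s ∈ J ↔ s * b ∈ (Ideal.span {u, f} : Ideal ℂ[X][X])) ∧
      (∀ s ∈ J, ∃ t, s - t * b ∈ (Ideal.span {u, f} : Ideal ℂ[X][X])) := by
  have hded := isDedekindDomain_CR hf hsm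
  have hmul : ∀ a b : ℂ[X][X], a ^ 2 ∈ (Ideal.span {u, f} : Ideal ℂ[X][X]) →
      b ^ 2 ∈ (Ideal.span {u, f} : Ideal ℂ[X][X]) → a * b ∈ (Ideal.span {u, f} : Ideal ℂ[X][X]) :=
    fun a b ha hb => mul_mem_aff hf hsm hu ha hb
  have hjj' := mem_sq hJ hev
  have huj : Ideal.span {mkC f u} ≤ J.map (mkC f) := by
    rw [Ideal.span_singleton_le_iff_mem, mkC_mem_map hJ, hJ, pow_two]
    exact Ideal.mul_mem_left _ _ (Ideal.subset_span (by simp))
  have hu0 : mkC f u ≠ 0 := fun h => hu (mkC_eq_zero.1 h)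
  obtain ⟨b₀, hb₀⟩ := IsDedekindDomain.exists_sup_span_eq huj (by
    rw [Ne, Ideal.zero_eq_bot, Ideal.span_singleton_eq_bot]
    exact hu0)
  obtain ⟨b, rfl⟩ := mkC_surjective f b₀
  have hbJ : b ∈ J := by
    rw [← mkC_mem_map hJ, ← hb₀]
    exact Ideal.mem_sup_right (Ideal.mem_span_singleton_self _)
  refine ⟨b, hbJ, ?_, ?_⟩
  · intro s
    refine ⟨fun hs => hmul _ _ ((hJ _).1 hs) ((hJ _).1 hbJ), fun hs => ?_⟩
    rw [← mkC_mem_map hJ]
    refine mem_of_mul_mem hu0 hjj' hb₀ ?_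
    rw [← map_mul]
    exact mem_span_iff_mkC.1 hs
  · intro s hs
    have h1 : mkC f s ∈ J.map (mkC f) := (mkC_mem_map hJ s).2 hs
    rw [← hb₀, Submodule.mem_sup] at h1
    obtain ⟨t₁, ht₁, t₂, ht₂, h⟩ := h1
    obtain ⟨c, rfl⟩ := Ideal.mem_span_singleton.1 ht₂
    obtain ⟨c, rfl⟩ := mkC_surjective f c
    refine ⟨c, ?_⟩
    rw [mem_span_iff_mkC, map_sub, map_mul, ← h, mul_comm (mkC f c), add_sub_cancel_right]
    exact ht₁

/-- `S/J` has half the dimension of `S/(u, f)`. -/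
theorem two_mul_finrank_le (hf : Prime f)
    (hsm : ∀ x y : ℂ, evalEval x y f = 0 →
      f ∉ (Ideal.span {C (X - C x), X - C (C y)} : Ideal ℂ[X][X]) ^ 2)
    (hu : ¬ f ∣ u)
    (hev : ∀ x y : ℂ, evalEval x y f = 0 →
      ∃ v ε : ℂ[X][X], evalEval x y v ≠ 0 ∧ f ∣ v * u - ε ^ 2)
    (hJ : ∀ s, s ∈ J ↔ s ^ 2 ∈ (Ideal.span {u, f} : Ideal ℂ[X][X]))
    (hfin : Module.Finite ℂ (ℂ[X][X] ⧸ (Ideal.span {u, f} : Ideal ℂ[X][X]))) :
      Module.Finite ℂ (ℂ[X][X] ⧸ J) ∧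
      2 * Module.finrank ℂ (ℂ[X][X] ⧸ J) =
        Module.finrank ℂ (ℂ[X][X] ⧸ (Ideal.span {u, f} : Ideal ℂ[X][X])) := by
  obtain ⟨b, hbJ, hJb, hgen⟩ := exists_sqrt_gen hf hsm hu hev hJ
  have hIJ : (Ideal.span {u, f} : Ideal ℂ[X][X]) ≤ J := by
    intro s hs
    rw [hJ, pow_two]
    exact Ideal.mul_mem_left _ _ hs
  -- the projection
  set π : (ℂ[X][X] ⧸ (Ideal.span {u, f} : Ideal ℂ[X][X])) →ₐ[ℂ] (ℂ[X][X] ⧸ J) :=
    Ideal.Quotient.factorₐ ℂ hIJ with hπ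
  have hπs : Function.Surjective π := Ideal.Quotient.factor_surjective hIJ
  have hfJ : Module.Finite ℂ (ℂ[X][X] ⧸ J) := Module.Finite.of_surjective π.toLinearMap hπs
  refine ⟨hfJ, ?_⟩
  -- multiplication by `b`
  let μ : ℂ[X][X] →ₗ[ℂ] (ℂ[X][X] ⧸ (Ideal.span {u, f} : Ideal ℂ[X][X])) :=
    (Ideal.Quotient.mkₐ ℂ (Ideal.span {u, f} : Ideal ℂ[X][X])).toLinearMap.comp
      (LinearMap.mulRight ℂ b)
  have hμ : ∀ s, μ s = Ideal.Quotient.mk _ (s * b) := fun _ => rfl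
  let φ : (ℂ[X][X] ⧸ J) →ₗ[ℂ] (ℂ[X][X] ⧸ (Ideal.span {u, f} : Ideal ℂ[X][X])) :=
    (J.restrictScalars ℂ).liftQ μ (by
      intro s hs
      rw [LinearMap.mem_ker, hμ, Ideal.Quotient.eq_zero_iff_mem]
      exact (hJb s).1 hs)
  have hφ : ∀ s, φ (Ideal.Quotient.mk J s) = Ideal.Quotient.mk _ (s * b) := fun _ => rfl
  have hφi : Function.Injective φ := by
    rw [← LinearMap.ker_eq_bot, LinearMap.ker_eq_bot']
    intro s hs
    obtain ⟨s, rfl⟩ := Ideal.Quotient.mk_surjective s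
    rw [hφ, Ideal.Quotient.eq_zero_iff_mem] at hs
    rw [Ideal.Quotient.eq_zero_iff_mem]
    exact (hJb s).2 hs
  have hker : LinearMap.range φ = LinearMap.ker π.toLinearMap := by
    ext x
    obtain ⟨x, rfl⟩ := Ideal.Quotient.mk_surjective x
    constructor
    · rintro ⟨s, hs⟩
      obtain ⟨s, rfl⟩ := Ideal.Quotient.mk_surjective s
      rw [hφ] at hs
      rw [← hs, LinearMap.mem_ker]
      change Ideal.Quotient.mk J (s * b) = 0
      rw [Ideal.Quotient.eq_zero_iff_mem]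
      exact Ideal.mul_mem_left _ _ hbJ
    · intro hx
      have hx' : Ideal.Quotient.mk J x = 0 := hx
      rw [Ideal.Quotient.eq_zero_iff_mem] at hx'
      obtain ⟨t, ht⟩ := hgen x hx'
      refine ⟨Ideal.Quotient.mk J t, ?_⟩
      rw [hφ]
      exact ((Ideal.Quotient.eq).2 ht).symm
  have h1 := LinearMap.finrank_range_add_finrank_ker π.toLinearMap
  rw [← hker, LinearMap.finrank_range_of_inj hφi, LinearMap.range_eq_top.2 hπs, finrank_top] at h1
  omega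

end SqrtIdeal

section Count

variable {f u : P3} {e : ℕ}

/-- a form whose restriction to the chart is a square root modulo `(u, f)` -/
lemma EvenOn.mem_rt_of_cr (H : EvenOn f u e)
    (hX : ∀ z : Fin 3 → ℂ, z ≠ 0 → z 0 = 0 → MvPolynomial.eval z f = 0 →
      MvPolynomial.eval z u ≠ 0) {b : P3} {d : ℕ} (hb : b.IsHomogeneous d)
    (h : cr b ^ 2 ∈ (Ideal.span {cr u, cr f} : Ideal ℂ[X][X])) : b ∈ rt f u d := by
  obtain ⟨p, q, hpq⟩ := Ideal.mem_span_pair.1 h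
  obtain ⟨m, hm⟩ := exists_homogenisation (crTo p)
  obtain ⟨P, hP, hP'⟩ := hm (m + 2 * d) (by omega)
  have hcP : cr P = p := by rw [cr, AlgHom.comp_apply, hP', crInv_crTo]
  have h1 : (MvPolynomial.X 0 ^ (e + m) * b ^ 2 - u * P).IsHomogeneous (e + (m + 2 * d)) := by
    have h6 := ((MvPolynomial.isHomogeneous_X ℂ (0 : Fin 3)).pow (e + m)).mul (hb.pow 2)
    have e3 : 1 * (e + m) + d * 2 = e + (m + 2 * d) := by ring
    rw [e3] at h6
    exact h6.sub (H.hu.mul hP)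
  have h2 : cr f ∣ cr (MvPolynomial.X 0 ^ (e + m) * b ^ 2 - u * P) := by
    rw [map_sub, map_mul, map_mul, map_pow, map_pow, cr_X0, one_pow, one_mul, hcP]
    exact ⟨q, by linear_combination -hpq⟩
  obtain ⟨s, hs⟩ := dvd_of_cr_dvd H.hf H.pf (by norm_num) h1 h2
  have h3 : MvPolynomial.X 0 ^ (e + m) * b ^ 2 ∈ (Ideal.span {u, f} : Ideal P3) :=
    Ideal.mem_span_pair.2 ⟨P, s, by linear_combination -hs⟩
  rw [H.mem_rt]
  refine ⟨hb, H.nzd ?_ (hb.pow 2) h3⟩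
  intro z hz hzu hzX
  by_contra hz0
  refine hX z hz0 ?_ hz hzu
  rw [map_pow, MvPolynomial.eval_X] at hzX
  by_contra h0
  exact pow_ne_zero _ h0 hzX

theorem EvenOn.count_aux (H : EvenOn f u e)
    (hX : ∀ z : Fin 3 → ℂ, z ≠ 0 → z 0 = 0 → MvPolynomial.eval z f = 0 →
      MvPolynomial.eval z u ≠ 0) (d : ℕ) :
    Module.finrank ℂ (MvPolynomial.homogeneousSubmodule (Fin 3) ℂ d) ≤
      Module.finrank ℂ (rt f u d) + 3 * e := by
  obtain ⟨hfin, hle⟩ := bezout_affine H.hf H.pf H.hu H.hfu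
  have hp : Prime (cr f) := prime_cr H.hf H.pf (by norm_num)
  have hsm := smooth_cr H.hf H.sf
  have hu : ¬ cr f ∣ cr u := fun h => H.hfu (dvd_of_cr_dvd H.hf H.pf (by norm_num) H.hu h)
  have hev : ∀ x y : ℂ, evalEval x y (cr f) = 0 →
      ∃ v ε : ℂ[X][X], evalEval x y v ≠ 0 ∧ cr f ∣ v * cr u - ε ^ 2 := by
    intro x y hxy
    rw [evalEval_cr] at hxy
    obtain ⟨v, ε, hv, hd⟩ := H.even ![1, x, y] (fun h => by simpa using congrFun h 0) hxy
    refine ⟨cr v, cr ε, by rwa [evalEval_cr], ?_⟩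
    have := map_dvd cr hd
    rwa [map_sub, map_mul, map_pow] at this
  have hmul : ∀ a b : ℂ[X][X], a ^ 2 ∈ (Ideal.span {cr u, cr f} : Ideal ℂ[X][X]) →
      b ^ 2 ∈ (Ideal.span {cr u, cr f} : Ideal ℂ[X][X]) →
      a * b ∈ (Ideal.span {cr u, cr f} : Ideal ℂ[X][X]) :=
    fun a b ha hb => mul_mem_aff hp (fun x y _ => hsm x y) hu ha hb
  obtain ⟨hfJ, hdim⟩ := two_mul_finrank_le hp (fun x y _ => hsm x y) hu hev
    (J := sqJ (cr f) (cr u) hmul) (fun s => Iff.rfl) hfin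
  -- the map to the quotient
  set φ : HS d →ₗ[ℂ] (ℂ[X][X] ⧸ sqJ (cr f) (cr u) hmul) :=
    ((Ideal.Quotient.mkₐ ℂ (sqJ (cr f) (cr u) hmul)).comp cr).toLinearMap.comp
      (HS d).subtype with hφ
  have h1 := φ.finrank_range_add_finrank_ker
  have h2 : Module.finrank ℂ (LinearMap.range φ) ≤ 3 * e :=
    (Submodule.finrank_le _).trans (by omega)
  have h3 : Module.finrank ℂ (LinearMap.ker φ) ≤ Module.finrank ℂ (rt f u d) := by
    have h4 : (LinearMap.ker φ).map (HS d).subtype ≤ rt f u d := by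
      rintro _ ⟨b, hb, rfl⟩
      have hb' : Ideal.Quotient.mk (sqJ (cr f) (cr u) hmul) (cr (b : P3)) = 0 := hb
      rw [Ideal.Quotient.eq_zero_iff_mem] at hb'
      exact H.mem_rt_of_cr hX b.2 hb'
    have h5 : Module.Finite ℂ (rt f u d) :=
      Submodule.finiteDimensional_of_le (H.rt_le d)
    rw [← Submodule.finrank_map_subtype_eq]
    exact Submodule.finrank_mono h4
  change Module.finrank ℂ (HS d) ≤ _
  omega

/-- **Count of the square roots modulo `(u, f)`.** -/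
theorem EvenOn.count (H : EvenOn f u e) (d : ℕ) :
    Module.finrank ℂ (MvPolynomial.homogeneousSubmodule (Fin 3) ℂ d) ≤
      Module.finrank ℂ (rt f u d) + 3 * e := by
  obtain ⟨P, hP, -, h⟩ := exists_coord H.hf H.pf H.hu H.hfu
  rw [← finrank_rt_lin hP f u d]
  exact (H.lin hP).count_aux h d

end Count

end Vale.Agent.P287.C8
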