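import Vale.Agent.P287.C8.Basic

/-!
Elementary properties of the square roots modulo `(u, f)`.
-/

namespace Vale.Agent.P287.C8

open MvPolynomial Vale.Agent.P287 Vale.Agent.P287.H925 Vale.Agent.P287.Theta

section General

variable {f u : P3} {d e n : ℕ}

lemma hc_mul_dvd {f : P3} {d : ℕ} (hf : f.IsHomogeneous d) (q : P3) (n : ℕ) :
    f ∣ homogeneousComponent n (f * q) := by
  by_cases hd : d ≤ n
  · obtain ⟨k, rfl⟩ := Nat.exists_eq_add_of_le hd
    rw [hc_mul hf]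
    exact dvd_mul_right _ _
  · have h3 : f * q = ∑ i ∈ Finset.range (q.totalDegree + 1), f * homogeneousComponent i q := by
      rw [← Finset.mul_sum, sum_homogeneousComponent]
    rw [h3, map_sum]
    refine Finset.dvd_sum fun i _ => ?_
    rw [homogeneousComponent_of_mem (hf.mul (homogeneousComponent_isHomogeneous i q)), if_neg]
    · exact dvd_zero _
    · omega

lemma hc_mul_lt {f : P3} {d : ℕ} (hf : f.IsHomogeneous d) (q : P3) {n : ℕ} (hd : n < d) :
    homogeneousComponent n (f * q) = 0 := by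
  have h3 : f * q = ∑ i ∈ Finset.range (q.totalDegree + 1), f * homogeneousComponent i q := by
    rw [← Finset.mul_sum, sum_homogeneousComponent]
  rw [h3, map_sum]
  refine Finset.sum_eq_zero fun i _ => ?_
  rw [homogeneousComponent_of_mem (hf.mul (homogeneousComponent_isHomogeneous i q)), if_neg]
  omega

/-- A form of small degree in `(u, f)` is a multiple of `f`. -/
lemma dvd_of_mem_of_lt (hf : f.IsHomogeneous d) (hu : u.IsHomogeneous e) {b : P3}
    (hb : b.IsHomogeneous n) (hn : n < e) (h : b ∈ (Ideal.span {u, f} : Ideal P3)) : f ∣ b := by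
  obtain ⟨p, q, hpq⟩ := Ideal.mem_span_pair.1 h
  have h1 := congrArg (homogeneousComponent n) hpq
  rw [map_add, homogeneousComponent_eq_self hb, mul_comm p, hc_mul_lt hu p hn, zero_add,
    mul_comm q] at h1
  rw [← h1]
  exact hc_mul_dvd hf q n

lemma mem_span_of_dvd {u f b : P3} (h : f ∣ b) : b ∈ (Ideal.span {u, f} : Ideal P3) := by
  obtain ⟨q, rfl⟩ := h
  exact Ideal.mul_mem_right _ _ (Ideal.subset_span (by simp))

/-- The product of two square roots modulo `(u, f)`. -/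
theorem mul_mem_span' {b₁ b₂ : P3} {d₁ d₂ : ℕ} (hf : f.IsHomogeneous d) (hd : 2 ≤ d)
    (hp : Prime f) (hs : SmoothP f) (hu : u.IsHomogeneous e) (hfu : ¬ f ∣ u)
    (hb₁ : b₁.IsHomogeneous d₁) (hb₂ : b₂.IsHomogeneous d₂)
    (h11 : b₁ ^ 2 ∈ (Ideal.span {u, f} : Ideal P3)) (h22 : b₂ ^ 2 ∈ (Ideal.span {u, f} : Ideal P3)) :
    b₁ * b₂ ∈ (Ideal.span {u, f} : Ideal P3) := by
  by_cases h1 : e ≤ d₁ + d₂
  · obtain ⟨n, hn⟩ := Nat.exists_eq_add_of_le h1
    have h2 := hb₁.mul hb₂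
    rw [hn] at h2
    exact mul_mem_span hf hd hp hs hu hfu h2 h11 h22
  · by_cases h2 : d₁ + d₁ < e
    · have h3 : f ∣ b₁ := by
        apply hp.dvd_of_dvd_pow (n := 2)
        refine dvd_of_mem_of_lt hf hu (n := d₁ + d₁) ?_ h2 h11
        rw [pow_two]
        exact hb₁.mul hb₁
      exact mem_span_of_dvd (h3.mul_right _)
    · have h3 : f ∣ b₂ := by
        apply hp.dvd_of_dvd_pow (n := 2)
        refine dvd_of_mem_of_lt hf hu (n := d₂ + d₂) ?_ (by omega) h22
        rw [pow_two]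
        exact hb₂.mul hb₂
      exact mem_span_of_dvd (h3.mul_left _)

/-- If `t, u, f` have no common zero, then `t` is a non zero divisor modulo `(u, f)`. -/
theorem nzd {t b : P3} (hf : f.IsHomogeneous d) (hd : 2 ≤ d) (hp : Prime f)
    (hu : u.IsHomogeneous e) (hfu : ¬ f ∣ u)
    (ht : ∀ z : Fin 3 → ℂ, eval z f = 0 → eval z u = 0 → eval z t = 0 → z = 0)
    (hb : b.IsHomogeneous n) (h : t * b ∈ (Ideal.span {u, f} : Ideal P3)) :
    b ∈ (Ideal.span {u, f} : Ideal P3) := by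
  refine mem_span_of_locally hf hd hp hfu fun A hA => ?_
  have hf' := lin_homogeneous A hf
  have hp' := (prime_lin hA).2 hp
  have hu' := lin_homogeneous A hu
  have hb' := lin_homogeneous A hb
  -- the three polynomials generate the unit ideal in the chart
  have h1 : (Ideal.span {cr (lin A t), cr (lin A u), cr (lin A f)} :
      Ideal (Polynomial (Polynomial ℂ))) = ⊤ := by
    by_contra hne
    obtain ⟨x, y, hxy⟩ := exists_common_point _ hne
    have h2 : ∀ p : P3, cr (lin A p) ∈ (Ideal.span {cr (lin A t), cr (lin A u), cr (lin A f)} :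
        Ideal (Polynomial (Polynomial ℂ))) → eval (A.mulVec ![1, x, y]) p = 0 := by
      intro p hp
      have h3 := hxy _ hp
      rwa [evalEval_cr, eval_lin] at h3
    have h3 := ht _ (h2 f (Ideal.subset_span (by simp))) (h2 u (Ideal.subset_span (by simp)))
      (h2 t (Ideal.subset_span (by simp)))
    have h4 : A⁻¹.mulVec (A.mulVec ![1, x, y]) = 0 := by rw [h3, Matrix.mulVec_zero]
    rw [Matrix.mulVec_mulVec, Matrix.nonsing_inv_mul _ hA, Matrix.one_mulVec] at h4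
    have := congrFun h4 0
    simp at this
  have h2 : (1 : Polynomial (Polynomial ℂ)) ∈
      (Ideal.span {cr (lin A t), cr (lin A u), cr (lin A f)} :
      Ideal (Polynomial (Polynomial ℂ))) := by rw [h1]; trivial
  obtain ⟨α, w, hw, hαw⟩ := Ideal.mem_span_insert.1 h2
  obtain ⟨β, γ, rfl⟩ := Ideal.mem_span_pair.1 hw
  obtain ⟨p, q, hpq⟩ := Ideal.mem_span_pair.1 h
  have hpq' := congrArg (fun s => cr (lin A s)) hpq
  simp only [map_add, map_mul] at hpq'
  -- membership in the chart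
  set D : Polynomial (Polynomial ℂ) := α * cr (lin A p) + β * cr (lin A b) with hD
  have h3 : cr (lin A f) ∣ cr (lin A b) - cr (lin A u) * D := by
    refine ⟨α * cr (lin A q) + γ * cr (lin A b), ?_⟩
    rw [hD]
    linear_combination cr (lin A b) * hαw - α * hpq'
  obtain ⟨m, hm⟩ := exists_homogenisation (crTo D)
  obtain ⟨D', hD', hD''⟩ := hm (m + n) (by omega)
  have hcD : cr D' = D := by rw [cr, AlgHom.comp_apply, hD'', crInv_crTo]
  have h4 : cr (lin A f) ∣ cr (X 0 ^ (e + m) * lin A b - lin A u * D') := by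
    rw [map_sub, map_mul, map_mul, map_pow, cr_X0, one_pow, one_mul, hcD]
    exact h3
  have h5 : (X 0 ^ (e + m) * lin A b - lin A u * D').IsHomogeneous (e + (m + n)) := by
    have h6 := ((isHomogeneous_X ℂ (0 : Fin 3)).pow (e + m)).mul hb'
    have e3 : 1 * (e + m) + n = e + (m + n) := by ring
    rw [e3] at h6
    exact h6.sub (hu'.mul hD')
  obtain ⟨q, hq⟩ := dvd_of_cr_dvd hf' hp' (by omega) h5 h4
  exact ⟨e + m, Ideal.mem_span_pair.2 ⟨D', q, by linear_combination -hq⟩⟩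

end General

namespace EvenOn

variable {f u : P3} {e : ℕ}

lemma pf (H : EvenOn f u e) : Prime f := prime_of_smoothP H.hf (by norm_num) H.sf

lemma mul_mem (H : EvenOn f u e) {b₁ b₂ : P3} {d₁ d₂ : ℕ} (hb₁ : b₁.IsHomogeneous d₁)
    (hb₂ : b₂.IsHomogeneous d₂) (h₁ : b₁ ^ 2 ∈ (Ideal.span {u, f} : Ideal P3))
    (h₂ : b₂ ^ 2 ∈ (Ideal.span {u, f} : Ideal P3)) : b₁ * b₂ ∈ (Ideal.span {u, f} : Ideal P3) :=
  mul_mem_span' H.hf (by norm_num) H.pf H.sf H.hu H.hfu hb₁ hb₂ h₁ h₂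

lemma mem_rt (H : EvenOn f u e) {b : P3} {d : ℕ} :
    b ∈ rt f u d ↔ b.IsHomogeneous d ∧ b ^ 2 ∈ (Ideal.span {u, f} : Ideal P3) := by
  constructor
  · intro h
    induction h using Submodule.span_induction with
    | mem x hx => exact hx
    | zero =>
      refine ⟨isHomogeneous_zero _ _ _, ?_⟩
      rw [zero_pow two_ne_zero]
      exact zero_mem _
    | add x y _ _ hx hy =>
      refine ⟨hx.1.add hy.1, ?_⟩
      have h1 := H.mul_mem hx.1 hy.1 hx.2 hy.2
      have h2 : (x + y) ^ 2 = x ^ 2 + (2 * (x * y) + y ^ 2) := by ring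
      rw [h2]
      exact add_mem hx.2 (add_mem (Ideal.mul_mem_left _ _ h1) hy.2)
    | smul c x _ hx =>
      refine ⟨?_, ?_⟩
      · rw [smul_eq_C_mul]
        have := (isHomogeneous_C (Fin 3) c).mul hx.1
        rwa [zero_add] at this
      · rw [smul_pow, smul_eq_C_mul]
        exact Ideal.mul_mem_left _ _ hx.2
  · exact fun h => Submodule.subset_span h

lemma rt_le (H : EvenOn f u e) (d : ℕ) : rt f u d ≤ homogeneousSubmodule (Fin 3) ℂ d :=
  fun _ hb => (H.mem_rt.1 hb).1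

/-- products of elements of `rt` lie in `(u, f)` -/
lemma rt_mul_mem (H : EvenOn f u e) {b₁ b₂ : P3} {d₁ d₂ : ℕ} (hb₁ : b₁ ∈ rt f u d₁)
    (hb₂ : b₂ ∈ rt f u d₂) : b₁ * b₂ ∈ (Ideal.span {u, f} : Ideal P3) :=
  H.mul_mem (H.mem_rt.1 hb₁).1 (H.mem_rt.1 hb₂).1 (H.mem_rt.1 hb₁).2 (H.mem_rt.1 hb₂).2

/-- `rt` is stable under multiplication by forms -/
lemma mul_mem_rt (H : EvenOn f u e) {a b : P3} {m d : ℕ} (ha : a.IsHomogeneous m)
    (hb : b ∈ rt f u d) : a * b ∈ rt f u (m + d) := by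
  rw [H.mem_rt] at hb ⊢
  refine ⟨ha.mul hb.1, ?_⟩
  rw [mul_pow]
  exact Ideal.mul_mem_left _ _ hb.2

lemma mul_f_mem_rt (H : EvenOn f u e) {a : P3} {m : ℕ} (ha : a.IsHomogeneous m) :
    f * a ∈ rt f u (6 + m) := by
  rw [H.mem_rt]
  refine ⟨H.hf.mul ha, mem_span_of_dvd ?_⟩
  rw [pow_two, mul_assoc]
  exact dvd_mul_right _ _

lemma mul_u_mem_rt (H : EvenOn f u e) {a : P3} {m : ℕ} (ha : a.IsHomogeneous m) :
    u * a ∈ rt f u (e + m) := by
  rw [H.mem_rt]
  refine ⟨H.hu.mul ha, ?_⟩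
  rw [pow_two, mul_assoc]
  exact Ideal.mul_mem_right _ _ (Ideal.subset_span (by simp))

/-- forms of small degree in `rt` are multiples of `f` -/
lemma dvd_of_mem_rt (H : EvenOn f u e) {b : P3} {d : ℕ} (hd : 2 * d < e) (hb : b ∈ rt f u d) :
    f ∣ b := by
  rw [H.mem_rt] at hb
  apply H.pf.dvd_of_dvd_pow (n := 2)
  refine dvd_of_mem_of_lt H.hf H.hu (n := d + d) ?_ (by omega) hb.2
  rw [pow_two]
  exact hb.1.mul hb.1

lemma nzd (H : EvenOn f u e) {t b : P3} {n : ℕ}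
    (ht : ∀ z : Fin 3 → ℂ, eval z f = 0 → eval z u = 0 → eval z t = 0 → z = 0)
    (hb : b.IsHomogeneous n) (h : t * b ∈ (Ideal.span {u, f} : Ideal P3)) :
    b ∈ (Ideal.span {u, f} : Ideal P3) :=
  C8.nzd H.hf (by norm_num) H.pf H.hu H.hfu ht hb h

lemma nzd_rt (H : EvenOn f u e) {t b : P3} {m n d : ℕ}
    (ht : ∀ z : Fin 3 → ℂ, eval z f = 0 → eval z u = 0 → eval z t = 0 → z = 0)
    (htm : t.IsHomogeneous m) (hb : b.IsHomogeneous n) (h : t * b ∈ rt f u d) : b ∈ rt f u n := by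
  rw [H.mem_rt] at h ⊢
  refine ⟨hb, ?_⟩
  have h1 : t * (t * b ^ 2) ∈ (Ideal.span {u, f} : Ideal P3) := by
    have h2 := h.2
    rwa [mul_pow, pow_two t, mul_assoc] at h2
  exact H.nzd ht (hb.pow 2) (H.nzd ht (htm.mul (hb.pow 2)) h1)

/-- products of forms meeting the sextic evenly -/
lemma mul (H : EvenOn f u e) {v : P3} {e' : ℕ} (H' : EvenOn f v e') :
    EvenOn f (u * v) (e + e') where
  hf := H.hf
  sf := H.sf
  hu := H.hu.mul H'.hu
  hfu := fun h => (H.pf.dvd_or_dvd h).elim H.hfu H'.hfu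
  even := fun z hz hfz => by
    obtain ⟨v₁, ε₁, h₁, h₁'⟩ := H.even z hz hfz
    obtain ⟨v₂, ε₂, h₂, h₂'⟩ := H'.even z hz hfz
    refine ⟨v₁ * v₂, ε₁ * ε₂, by rw [map_mul]; exact mul_ne_zero h₁ h₂, ?_⟩
    have e1 : v₁ * v₂ * (u * v) - (ε₁ * ε₂) ^ 2 =
        (v₁ * u - ε₁ ^ 2) * (v₂ * v) + (v₂ * v - ε₂ ^ 2) * ε₁ ^ 2 := by ring
    rw [e1]
    exact dvd_add (h₁'.mul_right _) (h₂'.mul_right _)

lemma C_mul (H : EvenOn f u e) {c : ℂ} (hc : c ≠ 0) : EvenOn f (C c * u) e where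
  hf := H.hf
  sf := H.sf
  hu := by
    have := (isHomogeneous_C (Fin 3) c).mul H.hu
    rwa [zero_add] at this
  hfu := fun h => by
    rcases H.pf.dvd_or_dvd h with h1 | h1
    · exact H.pf.not_isUnit (isUnit_of_dvd_unit h1 ((isUnit_iff_ne_zero.2 hc).map C))
    · exact H.hfu h1
  even := fun z hz hfz => by
    obtain ⟨v₁, ε₁, h₁, h₁'⟩ := H.even z hz hfz
    refine ⟨v₁ * C c⁻¹, ε₁, ?_, ?_⟩
    · rw [map_mul, eval_C]
      exact mul_ne_zero h₁ (inv_ne_zero hc)
    · have e1 : v₁ * C c⁻¹ * (C c * u) - ε₁ ^ 2 = v₁ * u - ε₁ ^ 2 := by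
        have : (C c⁻¹ * C c : P3) = 1 := by
          rw [← map_mul, inv_mul_cancel₀ hc, map_one]
        linear_combination (v₁ * u) * this
      rw [e1]
      exact h₁'

end EvenOn

end Vale.Agent.P287.C8
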