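import Vale.Agent.P287.C8.Dim
import Vale.Agent.P287.C8.Zeros
import Vale.Agent.P287.Theta.QuadMap

/-!
A ternary quadratic form with homogeneous entries has a nontrivial homogeneous zero on a plane
curve (Tsen), and coordinates adapted to it.
-/

namespace Vale.Agent.P287.C8

open MvPolynomial Module Vale.Agent.P287 Vale.Agent.P287.H925 Vale.Agent.P287.Theta

variable {g : P3} {m e : ℕ}

lemma gr_mul {a b : ℕ} {x y : RG g} (hx : x ∈ gr g a) (hy : y ∈ gr g b) :
    x * y ∈ gr g (a + b) := by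
  obtain ⟨p, hp, rfl⟩ := mem_gr.1 hx
  obtain ⟨s, hs, rfl⟩ := mem_gr.1 hy
  exact mem_gr.2 ⟨p * s, hp.mul hs, map_mul _ _ _⟩

/-- the bilinear form of `A` on vectors of degree `d` over the curve -/
noncomputable def bilGr (A : Matrix (Fin 3) (Fin 3) P3) (hA : ∀ i j, (A i j).IsHomogeneous e)
    (g : P3) (d : ℕ) :
    (Fin 3 → gr g d) →ₗ[ℂ] (Fin 3 → gr g d) →ₗ[ℂ] gr g (d + (e + d)) :=
  LinearMap.mk₂ ℂ
    (fun u v => ⟨∑ i, ∑ j, (u i : RG g) * (q g (A i j) * (v j : RG g)),
      Submodule.sum_mem _ fun i _ => Submodule.sum_mem _ fun j _ =>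
        gr_mul (u i).2 (gr_mul (mem_gr.2 ⟨_, hA i j, rfl⟩) (v j).2)⟩)
    (fun u u' v => by
      apply Subtype.ext
      simp only [Pi.add_apply, Submodule.coe_add, add_mul, Finset.sum_add_distrib])
    (fun c u v => by
      apply Subtype.ext
      simp only [Pi.smul_apply, Submodule.coe_smul, smul_mul_assoc, Finset.smul_sum])
    (fun u v v' => by
      apply Subtype.ext
      simp only [Pi.add_apply, Submodule.coe_add, mul_add, Finset.sum_add_distrib])
    (fun c u v => by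
      apply Subtype.ext
      simp only [Pi.smul_apply, Submodule.coe_smul, mul_smul_comm, Finset.smul_sum])

/-- Tsen's theorem for ternary quadratic forms over the function field of a plane curve, in
homogeneous form. -/
theorem exists_isotropic (hg : g.IsHomogeneous m) (hg0 : g ≠ 0) (hm : 0 < m)
    (A : Matrix (Fin 3) (Fin 3) P3) (hA : ∀ i j, (A i j).IsHomogeneous e) :
    ∃ (a : ℕ) (l : Fin 3 → P3), (∀ i, (l i).IsHomogeneous a) ∧ (∃ i, ¬ g ∣ l i) ∧
      g ∣ l ⬝ᵥ A.mulVec l := by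
  have hlt : finrank ℂ (gr g (m + e + (e + (m + e)))) < finrank ℂ (Fin 3 → gr g (m + e)) := by
    rw [finrank_pi_fintype]
    simp only [Finset.sum_const, Finset.card_univ, Fintype.card_fin, smul_eq_mul]
    have h1 := finrank_gr_ge hg hg0 e
    have h2 := finrank_gr_ge hg hg0 (e + (e + (m + e)))
    rw [show m + (e + (e + (m + e))) = m + e + (e + (m + e)) by ring] at h2
    nlinarith
  obtain ⟨u, hu, huu⟩ := exists_isotropic_of_finrank_lt (bilGr A hA g (m + e)) hlt
  choose l hl hlu using fun i => mem_gr.1 (u i).2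
  refine ⟨m + e, l, hl, ?_, ?_⟩
  · by_contra hcon
    push Not at hcon
    apply hu
    funext i
    apply Subtype.ext
    rw [← hlu i]
    exact Ideal.Quotient.eq_zero_iff_mem.2 (Ideal.mem_span_singleton.2 (hcon i))
  · rw [← Ideal.mem_span_singleton, ← Ideal.Quotient.eq_zero_iff_mem]
    have h1 : ∑ i, ∑ j, (u i : RG g) * (q g (A i j) * (u j : RG g)) = 0 :=
      congrArg Subtype.val huu
    rw [← h1]
    simp only [dotProduct, Matrix.mulVec, map_sum, map_mul, Finset.mul_sum]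
    refine Finset.sum_congr rfl fun i _ => Finset.sum_congr rfl fun j _ => ?_
    rw [← hlu i, ← hlu j]

/-- The same over the coordinate ring. -/
theorem exists_isotropic_RG (hg : g.IsHomogeneous m) (hg0 : g ≠ 0) (hm : 0 < m)
    (A : Matrix (Fin 3) (Fin 3) P3) (hA : ∀ i j, (A i j).IsHomogeneous e) :
    ∃ (a : ℕ) (l : Fin 3 → RG g), (∀ i, l i ∈ gr g a) ∧ l ≠ 0 ∧
      dotProduct ((qm g A).mulVec l) l = 0 := by
  obtain ⟨a, l, hl, ⟨i, hi⟩, hz⟩ := exists_isotropic hg hg0 hm A hA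
  refine ⟨a, fun i => q g (l i), fun i => mem_gr.2 ⟨l i, hl i, rfl⟩, ?_, ?_⟩
  · intro h0
    apply hi
    rw [← Ideal.mem_span_singleton, ← Ideal.Quotient.eq_zero_iff_mem]
    exact congrFun h0 i
  · rw [← Ideal.mem_span_singleton, ← Ideal.Quotient.eq_zero_iff_mem] at hz
    rw [← hz, dotProduct_comm]
    simp only [dotProduct, Matrix.mulVec, map_sum, map_mul, Matrix.map_apply]

/-- Data adapted to the parity theorem: an isotropic vector, and coordinates in which `g` is monic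
in the last variable and neither `f` nor some entry of the isotropic vector has a zero on the curve
at infinity. -/
theorem exists_isotropic_coord {f : P3} {n : ℕ} (hf : f.IsHomogeneous n)
    (hg : g.IsHomogeneous m) (hp : Prime g) (hgf : ¬ g ∣ f) (hm : 0 < m)
    (A : Matrix (Fin 3) (Fin 3) P3) (hA : ∀ i j, (A i j).IsHomogeneous e) :
    ∃ (a : ℕ) (l : Fin 3 → P3) (P : Matrix (Fin 3) (Fin 3) ℂ) (i : Fin 3),
      (∀ i, (l i).IsHomogeneous a) ∧ g ∣ l ⬝ᵥ A.mulVec l ∧ IsUnit P.det ∧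
      eval ![0, 0, 1] (lin P g) ≠ 0 ∧ ∀ z : Fin 3 → ℂ, z ≠ 0 → z 0 = 0 → eval z (lin P g) = 0 →
        eval z (lin P f) ≠ 0 ∧ eval z (lin P (l i)) ≠ 0 := by
  obtain ⟨a, l, hl, ⟨i, hi⟩, hz⟩ := exists_isotropic hg hp.ne_zero hm A hA
  obtain ⟨P, hP, h1, h2⟩ := exists_coord hg hp (hf.mul (hl i))
    (fun h => (hp.dvd_or_dvd h).elim hgf hi)
  refine ⟨a, l, P, i, hl, hz, hP, h1, fun z hz0 hz1 hz2 => ?_⟩
  have h3 := h2 z hz0 hz1 hz2
  rw [map_mul, map_mul] at h3
  exact ⟨left_ne_zero_of_mul h3, right_ne_zero_of_mul h3⟩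

end Vale.Agent.P287.C8
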