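import Mathlib

/-!
The quaternion algebra attached to a symmetric `3 × 3` matrix `Q` over a commutative ring: the
module `R³ ⊕ R` with the product `(l, s)(m, t) = (s m + t l + Q (l × m), s t - A(l, m))`, where `A`
is the adjugate of `Q`, and the right multiplication by an isotropic pure quaternion.
-/

namespace Vale.Agent.P287.C8

open Matrix Module

section Quat

variable {R : Type*} [CommRing R]

/-- the quaternion product -/
def qmul (Q : Matrix (Fin 3) (Fin 3) R) (v w : (Fin 3 → R) × R) : (Fin 3 → R) × R :=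
  (v.2 • w.1 + w.2 • v.1 + Q.mulVec (crossProduct v.1 w.1),
    v.2 * w.2 - dotProduct v.1 (Q.adjugate.mulVec w.1))

/-- the polar form of the norm, with `qpol v v` equal to the norm of `v` -/
def qpol (Q : Matrix (Fin 3) (Fin 3) R) (v w : (Fin 3 → R) × R) : R :=
  v.2 * w.2 + dotProduct v.1 (Q.adjugate.mulVec w.1)

/-- the conjugate -/
def qconj (v : (Fin 3 → R) × R) : (Fin 3 → R) × R := (-v.1, v.2)

lemma exists_entries {Q : Matrix (Fin 3) (Fin 3) R} (hQ : Q.IsSymm) :
    ∃ a b c d e f : R, Q = !![a, b, c; b, d, e; c, e, f] := by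
  refine ⟨Q 0 0, Q 0 1, Q 0 2, Q 1 1, Q 1 2, Q 2 2, ?_⟩
  rw [← hQ.apply 0 1, ← hQ.apply 0 2, ← hQ.apply 1 2]
  conv_lhs => rw [Matrix.eta_fin_three Q]
  rw [hQ.apply 0 1, hQ.apply 0 2, hQ.apply 1 2]

lemma vec_ext {a b : Fin 3 → R} (h0 : a 0 = b 0) (h1 : a 1 = b 1) (h2 : a 2 = b 2) : a = b := by
  funext i
  fin_cases i
  · exact h0
  · exact h1
  · exact h2

lemma mulVec_three (a b c d e f g h i : R) (v : Fin 3 → R) :
    (!![a, b, c; d, e, f; g, h, i]).mulVec v =
      ![a * v 0 + b * v 1 + c * v 2, d * v 0 + e * v 1 + f * v 2, g * v 0 + h * v 1 + i * v 2] := by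
  refine vec_ext ?_ ?_ ?_ <;>
    simp [Matrix.mulVec, dotProduct, Fin.sum_univ_three]

lemma dot_three (v w : Fin 3 → R) : dotProduct v w = v 0 * w 0 + v 1 * w 1 + v 2 * w 2 := by
  rw [dotProduct, Fin.sum_univ_three]

/-- components of the product -/
lemma qmul_assoc {Q : Matrix (Fin 3) (Fin 3) R} (hQ : Q.IsSymm) (u v w : (Fin 3 → R) × R) :
    qmul Q (qmul Q u v) w = qmul Q u (qmul Q v w) := by
  obtain ⟨a, b, c, d, e, f, rfl⟩ := exists_entries hQ
  simp only [qmul, Matrix.adjugate_fin_three_of, mulVec_three, cross_apply, dot_three]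
  refine Prod.ext (vec_ext ?_ ?_ ?_) ?_ <;>
    simp only [Pi.add_apply, Pi.smul_apply, smul_eq_mul, Matrix.cons_val_zero,
      Matrix.cons_val_one, Matrix.cons_val_two, Matrix.head_cons, Matrix.tail_cons,
      Matrix.cons_val] <;> ring

lemma qpol_comm {Q : Matrix (Fin 3) (Fin 3) R} (hQ : Q.IsSymm) (v w : (Fin 3 → R) × R) :
    qpol Q v w = qpol Q w v := by
  obtain ⟨a, b, c, d, e, f, rfl⟩ := exists_entries hQ
  simp only [qpol, Matrix.adjugate_fin_three_of, mulVec_three, dot_three]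
  simp only [Matrix.cons_val_zero, Matrix.cons_val_one, Matrix.cons_val_two, Matrix.head_cons,
    Matrix.tail_cons, Matrix.cons_val]
  ring

lemma conj_qmul {Q : Matrix (Fin 3) (Fin 3) R} (hQ : Q.IsSymm) (v : (Fin 3 → R) × R) :
    qmul Q (qconj v) v = (0, qpol Q v v) := by
  obtain ⟨a, b, c, d, e, f, rfl⟩ := exists_entries hQ
  simp only [qmul, qpol, qconj, Matrix.adjugate_fin_three_of, mulVec_three, cross_apply, dot_three]
  refine Prod.ext (vec_ext ?_ ?_ ?_) ?_ <;>
    simp only [Pi.add_apply, Pi.smul_apply, Pi.neg_apply, Pi.zero_apply, smul_eq_mul,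
      Matrix.cons_val_zero, Matrix.cons_val_one, Matrix.cons_val_two, Matrix.head_cons,
      Matrix.tail_cons, Matrix.cons_val] <;> ring

lemma qmul_conj {Q : Matrix (Fin 3) (Fin 3) R} (hQ : Q.IsSymm) (v : (Fin 3 → R) × R) :
    qmul Q v (qconj v) = (0, qpol Q v v) := by
  obtain ⟨a, b, c, d, e, f, rfl⟩ := exists_entries hQ
  simp only [qmul, qpol, qconj, Matrix.adjugate_fin_three_of, mulVec_three, cross_apply, dot_three]
  refine Prod.ext (vec_ext ?_ ?_ ?_) ?_ <;>
    simp only [Pi.add_apply, Pi.smul_apply, Pi.neg_apply, Pi.zero_apply, smul_eq_mul,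
      Matrix.cons_val_zero, Matrix.cons_val_one, Matrix.cons_val_two, Matrix.head_cons,
      Matrix.tail_cons, Matrix.cons_val] <;> ring

/-- the norm is multiplicative -/
lemma qpol_qmul {Q : Matrix (Fin 3) (Fin 3) R} (hQ : Q.IsSymm) (v w : (Fin 3 → R) × R) :
    qpol Q (qmul Q v w) (qmul Q v w) = qpol Q v v * qpol Q w w := by
  obtain ⟨a, b, c, d, e, f, rfl⟩ := exists_entries hQ
  simp only [qmul, qpol, Matrix.adjugate_fin_three_of, mulVec_three, cross_apply, dot_three]
  simp only [Pi.add_apply, Pi.smul_apply, smul_eq_mul, Matrix.cons_val_zero, Matrix.cons_val_one,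
    Matrix.cons_val_two, Matrix.head_cons, Matrix.tail_cons, Matrix.cons_val]
  ring

lemma qmul_scalar (Q : Matrix (Fin 3) (Fin 3) R) (v : (Fin 3 → R) × R) (c : R) :
    qmul Q v (0, c) = c • v := by
  refine Prod.ext (vec_ext ?_ ?_ ?_) ?_ <;> simp [qmul, mul_comm]

lemma scalar_qmul (Q : Matrix (Fin 3) (Fin 3) R) (v : (Fin 3 → R) × R) (c : R) :
    qmul Q (0, c) v = c • v := by
  refine Prod.ext (vec_ext ?_ ?_ ?_) ?_ <;> simp [qmul]

/-- product of pure quaternions, symmetrised -/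
lemma pure_add {Q : Matrix (Fin 3) (Fin 3) R} (hQ : Q.IsSymm) (l m : Fin 3 → R) :
    qmul Q (l, 0) (m, 0) + qmul Q (m, 0) (l, 0) =
      (0, -(2 * dotProduct l (Q.adjugate.mulVec m))) := by
  obtain ⟨a, b, c, d, e, f, rfl⟩ := exists_entries hQ
  simp only [qmul, Matrix.adjugate_fin_three_of, mulVec_three, cross_apply, dot_three]
  refine Prod.ext (vec_ext ?_ ?_ ?_) ?_ <;>
    simp only [Prod.fst_add, Prod.snd_add, Pi.add_apply, Pi.smul_apply, Pi.zero_apply, smul_eq_mul,
      Matrix.cons_val_zero, Matrix.cons_val_one, Matrix.cons_val_two, Matrix.head_cons,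
      Matrix.tail_cons, Matrix.cons_val] <;> ring

/-- right multiplication -/
def rho (Q : Matrix (Fin 3) (Fin 3) R) (w : (Fin 3 → R) × R) :
    ((Fin 3 → R) × R) →ₗ[R] ((Fin 3 → R) × R) where
  toFun v := qmul Q v w
  map_add' u v := by
    refine Prod.ext ?_ ?_
    · simp only [qmul, Prod.fst_add, Prod.snd_add, map_add, LinearMap.add_apply, add_smul,
        smul_add, Matrix.mulVec_add]
      abel
    · simp only [qmul, Prod.fst_add, Prod.snd_add, add_mul, add_dotProduct]
      ring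
  map_smul' c v := by
    refine Prod.ext ?_ ?_
    · simp only [qmul, Prod.smul_fst, Prod.smul_snd, map_smul, LinearMap.smul_apply,
        Matrix.mulVec_smul, RingHom.id_apply, smul_add, smul_eq_mul, mul_smul]
      rw [smul_comm w.2 c v.1]
    · simp only [qmul, Prod.smul_snd, Prod.smul_fst, smul_dotProduct, smul_eq_mul,
        RingHom.id_apply]
      ring

lemma rho_apply (Q : Matrix (Fin 3) (Fin 3) R) (w v : (Fin 3 → R) × R) :
    rho Q w v = qmul Q v w := rfl

variable {Q : Matrix (Fin 3) (Fin 3) R} {l : Fin 3 → R}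

lemma rho_rho (hQ : Q.IsSymm) (h0 : dotProduct l (Q.adjugate.mulVec l) = 0)
    (v : (Fin 3 → R) × R) : rho Q (l, 0) (rho Q (l, 0) v) = 0 := by
  rw [rho_apply, rho_apply, qmul_assoc hQ]
  have h1 : qmul Q (l, 0) (l, 0) = (0, 0) := by
    refine Prod.ext ?_ ?_
    · simp [qmul]
    · simp [qmul, h0]
  rw [h1, qmul_scalar, zero_smul]

/-- **Exactness** of the right multiplication by an isotropic pure quaternion. -/
theorem ker_rho (hQ : Q.IsSymm) (h2 : IsUnit (2 : R)) {l₀ : Fin 3 → R}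
    (h0 : dotProduct l (Q.adjugate.mulVec l) = 0)
    (h1 : dotProduct l (Q.adjugate.mulVec l₀) = 1) :
    LinearMap.ker (rho Q (l, 0)) = LinearMap.range (rho Q (l, 0)) := by
  apply le_antisymm
  · intro v hv
    rw [LinearMap.mem_ker, rho_apply] at hv
    obtain ⟨c, hc⟩ := h2.exists_left_inv
    have h3 : qmul Q v (qmul Q (l, 0) (l₀, 0) + qmul Q (l₀, 0) (l, 0)) =
        qmul Q (qmul Q v (l₀, 0)) (l, 0) := by
      have h4 : qmul Q v (qmul Q (l, 0) (l₀, 0) + qmul Q (l₀, 0) (l, 0)) =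
          qmul Q v (qmul Q (l, 0) (l₀, 0)) + qmul Q v (qmul Q (l₀, 0) (l, 0)) := by
        refine Prod.ext ?_ ?_
        · simp only [qmul, Prod.fst_add, Prod.snd_add, map_add, add_smul, smul_add,
            Matrix.mulVec_add]
          abel
        · simp only [qmul, Prod.fst_add, Prod.snd_add, mul_add, Matrix.mulVec_add,
            dotProduct_add]
          ring
      rw [h4, ← qmul_assoc hQ, hv, ← qmul_assoc hQ]
      have h5 : qmul Q (0 : (Fin 3 → R) × R) (l₀, 0) = 0 := (rho Q (l₀, 0)).map_zero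
      rw [h5, zero_add]
    rw [pure_add hQ, h1, mul_one, qmul_scalar] at h3
    refine ⟨-c • qmul Q v (l₀, 0), ?_⟩
    rw [map_smul, rho_apply, ← h3, smul_smul]
    have h6 : -c * -2 = 1 := by rw [neg_mul_neg]; exact hc
    rw [h6, one_smul]
  · rintro _ ⟨v, rfl⟩
    rw [LinearMap.mem_ker]
    exact rho_rho hQ h0 v

/-- the norm vanishes on the kernel -/
lemma qpol_self_of_ker (hQ : Q.IsSymm) {l₀ : Fin 3 → R}
    (h1 : dotProduct l (Q.adjugate.mulVec l₀) = 1) {v : (Fin 3 → R) × R}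
    (hv : qmul Q v (l, 0) = 0) : qpol Q v v = 0 := by
  have h3 : qmul Q (qconj v) (qmul Q v (l, 0)) = qpol Q v v • ((l, 0) : (Fin 3 → R) × R) := by
    rw [← qmul_assoc hQ, conj_qmul hQ, scalar_qmul]
  rw [hv] at h3
  have h4 : qmul Q (qconj v) (0 : (Fin 3 → R) × R) = 0 := by
    have := qmul_scalar Q (qconj v) 0
    rw [zero_smul] at this
    exact this
  rw [h4] at h3
  have h5 : (0 : Fin 3 → R) = qpol Q v v • l := congrArg Prod.fst h3
  have h6 : qpol Q v v * dotProduct l (Q.adjugate.mulVec l₀) = 0 := by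
    rw [← smul_eq_mul, ← smul_dotProduct, ← h5, zero_dotProduct]
  rwa [h1, mul_one] at h6

/-- the polar form of the norm vanishes on the kernel -/
theorem qpol_of_ker (hQ : Q.IsSymm) (h2 : IsUnit (2 : R)) {l₀ : Fin 3 → R}
    (h1 : dotProduct l (Q.adjugate.mulVec l₀) = 1) {v w : (Fin 3 → R) × R}
    (hv : qmul Q v (l, 0) = 0) (hw : qmul Q w (l, 0) = 0) : qpol Q v w = 0 := by
  have hvw : qmul Q (v + w) (l, 0) = 0 := by
    rw [← rho_apply, map_add, rho_apply, rho_apply, hv, hw, add_zero]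
  have e1 := qpol_self_of_ker hQ h1 hv
  have e2 := qpol_self_of_ker hQ h1 hw
  have e3 := qpol_self_of_ker hQ h1 hvw
  have e4 : qpol Q (v + w) (v + w) = qpol Q v v + qpol Q w w + 2 * qpol Q v w := by
    have e5 : qpol Q (v + w) (v + w) = qpol Q v v + qpol Q w w + (qpol Q v w + qpol Q w v) := by
      simp only [qpol, Prod.fst_add, Prod.snd_add, Matrix.mulVec_add, dotProduct_add,
        add_dotProduct]
      ring
    rw [e5, qpol_comm hQ w v]
    ring
  rw [e1, e2, e3, zero_add, zero_add] at e4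
  exact (h2.mul_right_eq_zero).1 e4.symm

/-- the equations defining the kernel of the right multiplication by a pure quaternion -/
lemma qmul_pure_eq_zero_iff (Q : Matrix (Fin 3) (Fin 3) R) (l : Fin 3 → R)
    (v : (Fin 3 → R) × R) : qmul Q v (l, 0) = 0 ↔
      (∀ i, (Q.mulVec (crossProduct v.1 l)) i + v.2 * l i = 0) ∧
        dotProduct (Q.adjugate.mulVec l) v.1 = 0 := by
  rw [Prod.ext_iff, funext_iff]
  simp only [qmul, zero_smul, add_zero, mul_zero, zero_sub, Prod.fst_zero, Prod.snd_zero,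
    Pi.zero_apply, Pi.add_apply, Pi.smul_apply, smul_eq_mul, neg_eq_zero]
  rw [dotProduct_comm v.1]
  refine and_congr_left fun _ => forall_congr' fun i => ?_
  rw [add_comm]

/-- the product is compatible with ring homomorphisms -/
lemma qmul_map {S : Type*} [CommRing S] (φ : R →+* S) (Q : Matrix (Fin 3) (Fin 3) R)
    (v w : (Fin 3 → R) × R) :
    qmul (Q.map φ) (fun i => φ (v.1 i), φ v.2) (fun i => φ (w.1 i), φ w.2) =
      (fun i => φ ((qmul Q v w).1 i), φ (qmul Q v w).2) := by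
  have hadj : (Q.map φ).adjugate = Q.adjugate.map φ := (RingHom.map_adjugate φ Q).symm
  have hc : crossProduct (fun i => φ (v.1 i)) (fun i => φ (w.1 i)) =
      fun i => φ ((crossProduct v.1 w.1) i) := by
    rw [cross_apply, cross_apply]
    refine vec_ext ?_ ?_ ?_ <;> simp
  have hm : ∀ (B : Matrix (Fin 3) (Fin 3) R) (x : Fin 3 → R),
      (B.map φ).mulVec (fun i => φ (x i)) = fun i => φ (B.mulVec x i) := by
    intro B x
    funext i
    exact (RingHom.map_mulVec φ B x i).symm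
  refine Prod.ext ?_ ?_
  · funext i
    simp only [qmul, Pi.add_apply, Pi.smul_apply, smul_eq_mul, map_add, map_mul, hc, hm]
  · simp only [qmul, hadj, hm, map_sub, map_mul, dotProduct, map_sum]

/-- the norm is compatible with ring homomorphisms -/
lemma qpol_map {S : Type*} [CommRing S] (φ : R →+* S) (Q : Matrix (Fin 3) (Fin 3) R)
    (v w : (Fin 3 → R) × R) :
    qpol (Q.map φ) (fun i => φ (v.1 i), φ v.2) (fun i => φ (w.1 i), φ w.2) =
      φ (qpol Q v w) := by
  have hadj : (Q.map φ).adjugate = Q.adjugate.map φ := (RingHom.map_adjugate φ Q).symm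
  have hm : ∀ (B : Matrix (Fin 3) (Fin 3) R) (x : Fin 3 → R),
      (B.map φ).mulVec (fun i => φ (x i)) = fun i => φ (B.mulVec x i) := by
    intro B x
    funext i
    exact (RingHom.map_mulVec φ B x i).symm
  simp only [qpol, hadj, hm, map_add, map_mul, dotProduct, map_sum]

/-- a vector with `A(l, l₀) = 1` -/
lemma exists_dual (hf : IsUnit Q.det) {i : Fin 3} (hi : IsUnit (l i)) :
    ∃ l₀ : Fin 3 → R, dotProduct l (Q.adjugate.mulVec l₀) = 1 := by
  obtain ⟨u, hu⟩ := (hf.mul hi).exists_left_inv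
  refine ⟨u • Q.mulVec (Pi.single i 1), ?_⟩
  rw [Matrix.mulVec_smul, Matrix.mulVec_mulVec, Matrix.adjugate_mul, dotProduct_smul,
    Matrix.smul_mulVec, Matrix.one_mulVec, dotProduct_smul, dotProduct_single_one, smul_eq_mul,
    smul_eq_mul]
  exact hu

section Dim

variable [Algebra ℂ R] [Module.Finite ℂ R]

/-- right multiplication over `ℂ` -/
def rhoC (Q : Matrix (Fin 3) (Fin 3) R) (w : (Fin 3 → R) × R) :
    ((Fin 3 → R) × R) →ₗ[ℂ] ((Fin 3 → R) × R) := (rho Q w).restrictScalars ℂ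

lemma rhoC_apply (Q : Matrix (Fin 3) (Fin 3) R) (w v : (Fin 3 → R) × R) :
    rhoC Q w v = qmul Q v w := rfl

omit [Module.Finite ℂ R] in
lemma isUnit_two : IsUnit (2 : R) := by
  have h : IsUnit (algebraMap ℂ R 2) := (isUnit_iff_ne_zero.2 two_ne_zero).map (algebraMap ℂ R)
  rwa [map_ofNat] at h

lemma finrank_quat : finrank ℂ ((Fin 3 → R) × R) = 4 * finrank ℂ R := by
  rw [finrank_prod, finrank_pi_fintype]
  simp only [Finset.sum_const, Finset.card_univ, Fintype.card_fin, smul_eq_mul]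
  ring

/-- the kernel of the right multiplication has half the dimension -/
theorem finrank_ker_rhoC (hQ : Q.IsSymm) {l₀ : Fin 3 → R}
    (h0 : dotProduct l (Q.adjugate.mulVec l) = 0)
    (h1 : dotProduct l (Q.adjugate.mulVec l₀) = 1) :
    finrank ℂ (LinearMap.ker (rhoC Q (l, 0))) = 2 * finrank ℂ R := by
  have h2 := LinearMap.finrank_range_add_finrank_ker (rhoC Q (l, 0))
  have h3 : LinearMap.range (rhoC Q (l, 0)) = LinearMap.ker (rhoC Q (l, 0)) := by
    have h4 := ker_rho hQ isUnit_two h0 h1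
    ext v
    have h5 : v ∈ LinearMap.ker (rho Q (l, 0)) ↔ v ∈ LinearMap.range (rho Q (l, 0)) := by rw [h4]
    exact h5.symm
  rw [h3, finrank_quat] at h2
  omega

end Dim

end Quat

/-- `A` is the adjugate of `Q` as soon as `Q A = (det Q) 1` over a domain -/
lemma eq_adjugate_of_mul {S : Type*} [CommRing S] [IsDomain S] {n : ℕ}
    {Q A : Matrix (Fin n) (Fin n) S} (hd : Q.det ≠ 0)
    (h : Q * A = Q.det • (1 : Matrix (Fin n) (Fin n) S)) : A = Q.adjugate := by
  have h1 : Q.adjugate * (Q * A) = Q.det • A := by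
    rw [← Matrix.mul_assoc, Matrix.adjugate_mul, Matrix.smul_mul, Matrix.one_mul]
  rw [h, Matrix.mul_smul, Matrix.mul_one] at h1
  exact (smul_right_injective _ hd h1).symm

end Vale.Agent.P287.C8
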