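import Vale.Agent.P287.C8.ParCore
import Vale.Agent.P287.C8.Quat
import Vale.Agent.P287.C8.IsoVec
import Vale.Agent.P287.C8.Even

/-!
The parity theorem in graded form, over an abstract artinian chart at infinity.
-/

set_option linter.unusedSectionVars false

namespace Vale.Agent.P287.C8

open MvPolynomial Module Vale.Agent.P287 Vale.Agent.P287.H925 Vale.Agent.P287.Theta

section finrank

variable {k M N : Type*} [Field k] [AddCommGroup M] [Module k M] [AddCommGroup N] [Module k N]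

lemma finrank_map_of_injOn (Φ : M →ₗ[k] N) (p : Submodule k M)
    (h : ∀ x ∈ p, Φ x = 0 → x = 0) : finrank k (p.map Φ) = finrank k p := by
  have h1 : Function.Injective (Φ.domRestrict p) := by
    rw [injective_iff_map_eq_zero]
    intro x hx
    exact Subtype.ext (h x x.2 hx)
  rw [← LinearMap.finrank_range_of_inj h1, LinearMap.range_domRestrict]

lemma finrank_prod_submodule (p : Submodule k M) (s : Submodule k N) [FiniteDimensional k p]
    [FiniteDimensional k s] : finrank k (p.prod s) = finrank k p + finrank k s := by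
  rw [← finrank_prod]
  exact LinearEquiv.finrank_eq
    { toFun := fun x => (⟨x.1.1, x.2.1⟩, ⟨x.1.2, x.2.2⟩)
      invFun := fun x => ⟨(x.1, x.2), x.1.2, x.2.2⟩
      map_add' := fun _ _ => rfl
      map_smul' := fun _ _ => rfl
      left_inv := fun _ => rfl
      right_inv := fun _ => rfl }

end finrank

variable {f g : P3} {Q A : Matrix (Fin 3) (Fin 3) P3}

lemma Jq_le_gr {e : ℕ} (H : EvenOn f g e) (d : ℕ) : Jq f g d ≤ gr g d :=
  Submodule.map_mono (H.rt_le d)

lemma finite_Jq {e : ℕ} (H : EvenOn f g e) (d : ℕ) : FiniteDimensional ℂ (Jq f g d) :=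
  Submodule.finiteDimensional_of_le (Jq_le_gr H d)

lemma finite_Wq (f g : P3) (A : Matrix (Fin 3) (Fin 3) P3) (d : ℕ) :
    FiniteDimensional ℂ (Wq f g A d) := by
  let e : Wq f g A d →ₗ[ℂ] (Fin 3 → gr g d) :=
    { toFun := fun l i => ⟨l.1 i, l.2.1 i⟩
      map_add' := fun _ _ => rfl
      map_smul' := fun _ _ => rfl }
  refine FiniteDimensional.of_injective e ?_
  intro x y hxy
  apply Subtype.ext
  funext i
  exact congrArg Subtype.val (congrFun hxy i)

/-- componentwise extension of an algebra homomorphism -/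
noncomputable def PhiV {BB : Type*} [CommRing BB] [Algebra ℂ BB] (φ : RG g →ₐ[ℂ] BB) :
    ((Fin 3 → RG g) × RG g) →ₗ[ℂ] VV BB :=
  LinearMap.prodMap (LinearMap.pi fun i => φ.toLinearMap.comp (LinearMap.proj i)) φ.toLinearMap

lemma PhiV_apply {BB : Type*} [CommRing BB] [Algebra ℂ BB] (φ : RG g →ₐ[ℂ] BB)
    (v : (Fin 3 → RG g) × RG g) : PhiV φ v = (fun i => φ (v.1 i), φ v.2) := rfl

section graded

variable {r a n : ℕ} {l : Fin 3 → RG g} {BB : Type*} [CommRing BB] [Algebra ℂ BB]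
  [FiniteDimensional ℂ BB]

/-- right multiplication by a pure quaternion, in the graded ring -/
lemma qmul_gr (hQ : ∀ i j, (Q i j).IsHomogeneous 2) (hA : ∀ i j, (Q.adjugate i j).IsHomogeneous 4)
    (hl : ∀ i, l i ∈ gr g a) {v : (Fin 3 → RG g) × RG g} {d : ℕ} (hv1 : ∀ i, v.1 i ∈ gr g d)
    (hv2 : v.2 ∈ gr g (d + 2)) :
    (∀ i, (qmul (qm g Q) v (l, 0)).1 i ∈ gr g (d + a + 2)) ∧
      (qmul (qm g Q) v (l, 0)).2 ∈ gr g (d + a + 4) := by
  have hadj : (qm g Q).adjugate = Q.adjugate.map (Ideal.Quotient.mk (Ideal.span {g})) :=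
    (RingHom.map_adjugate _ Q).symm
  constructor
  · intro i
    have h1 : (qmul (qm g Q) v (l, 0)).1 i =
        v.2 * l i + (qm g Q).mulVec (crossProduct v.1 l) i := by
      simp [qmul]
    rw [h1]
    refine add_mem ?_ ?_
    · have h2 := gr_mul hv2 (hl i)
      rwa [show d + 2 + a = d + a + 2 by ring] at h2
    · rw [Matrix.mulVec, dotProduct]
      refine Submodule.sum_mem _ fun j _ => ?_
      have h3 : crossProduct v.1 l j ∈ gr g (d + a) := by
        rw [cross_apply]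
        fin_cases j <;> exact sub_mem (gr_mul (hv1 _) (hl _)) (gr_mul (hv1 _) (hl _))
      have h4 := gr_mul (mem_gr.2 ⟨_, hQ i j, rfl⟩) h3
      rwa [show 2 + (d + a) = d + a + 2 by ring] at h4
  · have h1 : (qmul (qm g Q) v (l, 0)).2 = - dotProduct v.1 ((qm g Q).adjugate.mulVec l) := by
      simp [qmul]
    rw [h1, hadj]
    refine neg_mem ?_
    rw [dotProduct]
    refine Submodule.sum_mem _ fun i _ => ?_
    rw [Matrix.mulVec, dotProduct, Finset.mul_sum]
    refine Submodule.sum_mem _ fun j _ => ?_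
    have h3 := gr_mul (hv1 i) (gr_mul (mem_gr.2 ⟨_, hA i j, rfl⟩) (hl j))
    rwa [show d + (4 + a) = d + a + 4 by ring] at h3

theorem parity_graded (H : EvenOn f g (2 * r + 1)) (sQ : Q.IsSymm)
    (hQ : ∀ i j, (Q i j).IsHomogeneous 2) (hA : ∀ i j, (Q.adjugate i j).IsHomogeneous 4)
    (hdet : Q.det = f) (hl : ∀ i, l i ∈ gr g a)
    (hll : dotProduct l ((qm g Q).adjugate.mulVec l) = 0)
    (φ : RG g →ₐ[ℂ] BB) (lam : BB →ₗ[ℂ] ℂ) (hlam : ∀ a, (∀ b, lam (a * b) = 0) → a = 0)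
    (hdim : finrank ℂ BB = 2 * ((2 * r + 1) * n))
    (hdeg : ∀ x ∈ gr g (2 * r + 2 * n - 2), lam (φ x) = 0)
    (htt : ∀ b, φ (q g (X 0) ^ n) * b = 0 ↔ ∃ c, b = φ (q g (X 0) ^ n) * c)
    (hinj : ∀ d < 2 * n, ∀ x ∈ gr g d, φ x = 0 → x = 0)
    (hdiv : ∀ d, ∀ x ∈ gr g (n + d), (∃ c, φ x = φ (q g (X 0) ^ n) * c) →
      ∃ y ∈ gr g d, x = q g (X 0) ^ n * y)
    (hfu : IsUnit (φ (q g f))) {i₀ : Fin 3} (hlu : IsUnit (φ (l i₀)))
    (hX : ∀ x : RG g, q g (X 0) ^ n * x = 0 → x = 0)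
    (hJJ : ∀ s ∈ Jq f g (r + 2 + n), ∀ s' ∈ Jq f g (r + 2 + n),
      ∃ h ∈ gr g (2 * r + 2 * n - 2), s * s' = q g f * h)
    (hWW : ∀ w ∈ Wq f g Q.adjugate (r + n), ∀ w' ∈ Wq f g Q.adjugate (r + n),
      ∃ h ∈ gr g (2 * r + 2 * n - 2), dotProduct ((qm g Q.adjugate).mulVec w) w' = q g f * h)
    (hJn : ∀ x ∈ gr g (r + 2), q g (X 0) ^ n * x ∈ Jq f g (r + 2 + n) ↔ x ∈ Jq f g (r + 2))
    (hWn : ∀ w : Fin 3 → RG g, (∀ i, w i ∈ gr g r) →
      (q g (X 0) ^ n • w ∈ Wq f g Q.adjugate (r + n) ↔ w ∈ Wq f g Q.adjugate r))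
    (hJc : (2 * r + 1) * n ≤ finrank ℂ (Jq f g (r + 2 + n)))
    (hWc : 3 * ((2 * r + 1) * n) ≤ finrank ℂ (Wq f g Q.adjugate (r + n)))
    (hn : r + a + 4 < n) :
    finrank ℂ (Jq f g (r + 2 + n)) = (2 * r + 1) * n ∧
      Even (finrank ℂ (Nq f g Q Q.adjugate l (r + n)) + finrank ℂ (Wq f g Q.adjugate r) +
        finrank ℂ (Jq f g (r + 2))) := by
  classical
  have fJ := finite_Jq H
  have fW := finite_Wq f g Q.adjugate
  have hadjq : qm g Q.adjugate = (qm g Q).adjugate := RingHom.map_adjugate _ Q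
  set Qm : Matrix (Fin 3) (Fin 3) BB := (qm g Q).map φ with hQm
  have sQm : Qm.IsSymm := by
    rw [Matrix.IsSymm, hQm, ← Matrix.transpose_map, ← Matrix.transpose_map, sQ.eq]
  have hadjm : Qm.adjugate = (qm g Q).adjugate.map φ := (RingHom.map_adjugate (φ : RG g →+* BB) _).symm
  have sAm : Qm.adjugate.IsSymm := by
    rw [Matrix.IsSymm, Matrix.adjugate_transpose, sQm.eq]
  have hdetm : Qm.det = φ (q g f) := by
    rw [hQm, ← hdet]
    have h1 : (qm g Q).det = q g Q.det := (RingHom.map_det _ Q).symm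
    rw [← h1]
    exact (RingHom.map_det (φ : RG g →+* BB) _).symm
  obtain ⟨c, hc⟩ := hfu.exists_left_inv
  set lm : Fin 3 → BB := fun i => φ (l i) with hlm
  have hllm : dotProduct lm (Qm.adjugate.mulVec lm) = 0 := by
    have h1 : Qm.adjugate.mulVec lm = fun i => φ ((qm g Q).adjugate.mulVec l i) := by
      rw [hadjm]
      funext i
      exact (RingHom.map_mulVec (φ : RG g →+* BB) _ l i).symm
    rw [h1]
    have h2 := congrArg φ hll
    rw [map_zero, dotProduct, map_sum] at h2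
    rw [← h2, dotProduct]
    exact Finset.sum_congr rfl fun i _ => (map_mul _ _ _).symm
  obtain ⟨l₀, hl₀⟩ := exists_dual (Q := Qm) (l := lm) (by rw [hdetm]; exact hfu) (i := i₀) hlu
  have h2u : IsUnit (2 : BB) := isUnit_two
  -- the endomorphisms
  set ρ : VV BB →ₗ[ℂ] VV BB := rhoC Qm (lm, 0) with hρ
  set ρ₀ : VV BB →ₗ[ℂ] VV BB := (-(1 / 2) : ℂ) • rhoC Qm (l₀, 0) with hρ₀
  have hρρ : ∀ v, ρ (ρ v) = 0 := fun v => rho_rho sQm hllm v
  have hρρ₀ : ∀ v, ρ (ρ₀ v) + ρ₀ (ρ v) = v := by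
    intro v
    have h1 : rhoC Qm (lm, 0) (rhoC Qm (l₀, 0) v) + rhoC Qm (l₀, 0) (rhoC Qm (lm, 0) v) =
        (-2 : BB) • v := by
      rw [rhoC_apply, rhoC_apply, rhoC_apply, rhoC_apply, qmul_assoc sQm, qmul_assoc sQm]
      have h3 : ∀ x y : VV BB, qmul Qm v x + qmul Qm v y = qmul Qm v (x + y) := by
        intro x y
        refine Prod.ext ?_ ?_
        · simp only [qmul, Prod.fst_add, Prod.snd_add, map_add, add_smul, smul_add,
            Matrix.mulVec_add]
          abel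
        · simp only [qmul, Prod.fst_add, Prod.snd_add, mul_add, Matrix.mulVec_add,
            dotProduct_add]
          ring
      rw [h3, add_comm, pure_add sQm, hl₀, mul_one, qmul_scalar]
    rw [hρ₀, LinearMap.smul_apply, map_smul, LinearMap.smul_apply, ← smul_add, hρ, h1]
    have h4 : ((-2 : BB) • v) = ((-2 : ℂ) • v) := by
      rw [← algebraMap_smul BB (-2 : ℂ) v]
      congr 1
      rw [map_neg, map_ofNat]
    rw [h4, smul_smul]
    norm_num
  have hmulV : ∀ (t : BB) (v : VV BB), mulV t v = t • v := fun t v => rfl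
  have hρt : ∀ (w : VV BB) (v : VV BB), rhoC Qm w (mulV (φ (q g (X 0) ^ n)) v) =
      mulV (φ (q g (X 0) ^ n)) (rhoC Qm w v) := by
    intro w v
    rw [hmulV, hmulV]
    exact (rho Qm w).map_smul _ v
  have hnf : ∀ v w : VV BB, nf Qm.adjugate v w = qpol Qm w v := by
    intro v w
    rw [nf, qpol, mul_comm, dotProduct_comm]
  have hρn : ∀ v w, nf Qm.adjugate (ρ v) (ρ w) = 0 := by
    intro v w
    rw [hnf]
    exact qpol_of_ker sQm h2u hl₀ (hρρ w) (hρρ v)
  -- the second Lagrangian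
  set P : Submodule ℂ ((Fin 3 → RG g) × RG g) :=
    (Wq f g Q.adjugate (r + n)).prod (Jq f g (r + 2 + n)) with hP
  have hPmem : ∀ v, v ∈ P ↔ v.1 ∈ Wq f g Q.adjugate (r + n) ∧ v.2 ∈ Jq f g (r + 2 + n) :=
    fun v => Iff.rfl
  have hΦinj : ∀ {d e : ℕ}, d < 2 * n → e < 2 * n → ∀ v : (Fin 3 → RG g) × RG g,
      (∀ i, v.1 i ∈ gr g d) → v.2 ∈ gr g e → PhiV φ v = 0 → v = 0 := by
    intro d e hd he v h1 h2 h3
    rw [PhiV_apply] at h3
    refine Prod.ext (funext fun i => ?_) ?_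
    · exact hinj d hd _ (h1 i) (congrFun (congrArg Prod.fst h3) i)
    · exact hinj e he _ h2 (congrArg Prod.snd h3)
  have hPinj : ∀ v ∈ P, PhiV φ v = 0 → v = 0 := by
    intro v hv h0
    exact hΦinj (d := r + n) (e := r + 2 + n) (by omega) (by omega) v (hv.1.1)
      (Jq_le_gr H _ hv.2) h0
  have hPd : finrank ℂ (P.map (PhiV φ)) =
      finrank ℂ (Wq f g Q.adjugate (r + n)) + finrank ℂ (Jq f g (r + 2 + n)) := by
    rw [finrank_map_of_injOn _ _ hPinj, hP]
    have := fW (r + n)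
    have := fJ (r + 2 + n)
    exact finrank_prod_submodule _ _
  have hL₂ : ∀ v ∈ P.map (PhiV φ), ∀ w ∈ P.map (PhiV φ), lam (c * nf Qm.adjugate v w) = 0 := by
    rintro _ ⟨v, hv, rfl⟩ _ ⟨w, hw, rfl⟩
    obtain ⟨h, hh, hvw⟩ := hJJ _ hv.2 _ hw.2
    obtain ⟨h', hh', hvw'⟩ := hWW _ hv.1 _ hw.1
    have h1 : nf Qm.adjugate (PhiV φ v) (PhiV φ w) = φ (q g f) * φ (h + h') := by
      rw [nf, PhiV_apply, PhiV_apply, ← map_mul, hvw]
      have h2 : dotProduct (Qm.adjugate.mulVec fun i => φ (v.1 i)) (fun i => φ (w.1 i)) =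
          φ (dotProduct ((qm g Q.adjugate).mulVec v.1) w.1) := by
        have h3 : (Qm.adjugate.mulVec fun i => φ (v.1 i)) =
            fun i => φ ((qm g Q).adjugate.mulVec v.1 i) := by
          rw [hadjm]
          funext i
          exact (RingHom.map_mulVec (φ : RG g →+* BB) _ v.1 i).symm
        rw [h3, hadjq, dotProduct, dotProduct, map_sum]
        exact Finset.sum_congr rfl fun i _ => (map_mul _ _ _).symm
      rw [h2, hvw', ← map_add, ← map_mul, mul_add]
    rw [h1, ← mul_assoc, hc, one_mul]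
    exact hdeg _ (add_mem hh hh')
  obtain ⟨hd2, heven⟩ := parity_abstract (h := (2 * r + 1) * n) lam hlam hdim hc htt
    (Qm := Qm) (Am := Qm.adjugate) sAm (by rw [Matrix.mul_adjugate, hdetm]) ρ ρ₀ (hρt _)
    (fun v => by rw [hρ₀, LinearMap.smul_apply, LinearMap.smul_apply, map_smul, hρt])
    hρρ hρρ₀ hρn (P.map (PhiV φ)) hL₂ (by rw [hPd]; omega)
  rw [hPd] at hd2
  refine ⟨by omega, ?_⟩
  -- the first intersection
  have hI1 : finrank ℂ ↥(LinearMap.range (mulV (φ (q g (X 0) ^ n))) ⊓ P.map (PhiV φ)) =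
      finrank ℂ (Wq f g Q.adjugate r) + finrank ℂ (Jq f g (r + 2)) := by
    set P₀ : Submodule ℂ ((Fin 3 → RG g) × RG g) :=
      (Wq f g Q.adjugate r).prod (Jq f g (r + 2)) with hP₀
    set Ψ : ((Fin 3 → RG g) × RG g) →ₗ[ℂ] VV BB :=
      (mulV (φ (q g (X 0) ^ n))).comp (PhiV φ) with hΨ
    have hΨ' : ∀ v, Ψ v = PhiV φ (q g (X 0) ^ n • v.1, q g (X 0) ^ n * v.2) := by
      intro v
      rw [hΨ, LinearMap.comp_apply, PhiV_apply, PhiV_apply]
      refine Prod.ext (funext fun i => ?_) ?_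
      · rw [mulV_fst]
        exact (map_mul φ _ _).symm
      · rw [mulV_snd]
        exact (map_mul φ _ _).symm
    have hXg : ∀ d, ∀ x ∈ gr g d, q g (X 0) ^ n * x ∈ gr g (n + d) := by
      intro d x hx
      have h1 : q g (X 0) ^ n ∈ gr g n := by
        refine mem_gr.2 ⟨X 0 ^ n, ?_, map_pow _ _ _⟩
        have := (isHomogeneous_X ℂ (0 : Fin 3)).pow n
        rwa [one_mul] at this
      exact gr_mul h1 hx
    have h1 : LinearMap.range (mulV (φ (q g (X 0) ^ n))) ⊓ P.map (PhiV φ) = P₀.map Ψ := by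
      apply le_antisymm
      · rintro _ ⟨⟨w, hw⟩, v, hv, rfl⟩
        have hv1 : ∀ i, ∃ y ∈ gr g r, v.1 i = q g (X 0) ^ n * y := by
          intro i
          refine hdiv r (v.1 i) ?_ ⟨w.1 i, ?_⟩
          · rw [add_comm]; exact hv.1.1 i
          · have := congrFun (congrArg Prod.fst hw) i
            exact this.symm
        have hv2 : ∃ y ∈ gr g (r + 2), v.2 = q g (X 0) ^ n * y := by
          refine hdiv (r + 2) v.2 ?_ ⟨w.2, ?_⟩
          · rw [add_comm n]; exact Jq_le_gr H _ hv.2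
          · have := congrArg Prod.snd hw
            exact this.symm
        choose y hy hvy using hv1
        obtain ⟨z, hz, hvz⟩ := hv2
        have hvy' : v.1 = q g (X 0) ^ n • y := funext hvy
        refine ⟨(y, z), ⟨?_, ?_⟩, ?_⟩
        · exact (hWn y hy).1 (by rw [← hvy']; exact hv.1)
        · exact (hJn z hz).1 (by rw [← hvz]; exact hv.2)
        · rw [hΨ', ← hvy', ← hvz]
      · rintro _ ⟨v, hv, rfl⟩
        refine ⟨⟨PhiV φ v, rfl⟩, ⟨(q g (X 0) ^ n • v.1, q g (X 0) ^ n * v.2), ⟨?_, ?_⟩, ?_⟩⟩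
        · exact (hWn v.1 hv.1.1).2 hv.1
        · exact (hJn v.2 (Jq_le_gr H _ hv.2)).2 hv.2
        · exact (hΨ' v).symm
    rw [h1, finrank_map_of_injOn]
    · have := fW r
      have := fJ (r + 2)
      exact finrank_prod_submodule _ _
    · intro v hv h0
      rw [hΨ'] at h0
      have h2 := hΦinj (d := n + r) (e := n + (r + 2)) (by omega) (by omega) _
        (fun i => hXg r _ (hv.1.1 i)) (hXg (r + 2) _ (Jq_le_gr H _ hv.2)) h0
      refine Prod.ext (funext fun i => ?_) ?_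
      · exact hX _ (congrFun (congrArg Prod.fst h2) i)
      · exact hX _ (congrArg Prod.snd h2)
  -- the second intersection
  have hI2 : finrank ℂ ↥(P.map (PhiV φ) ⊓ LinearMap.ker ρ) =
      finrank ℂ (Nq f g Q Q.adjugate l (r + n)) := by
    have h1 : P.map (PhiV φ) ⊓ LinearMap.ker ρ =
        (Nq f g Q Q.adjugate l (r + n)).map (PhiV φ) := by
      have h5 : ∀ v : (Fin 3 → RG g) × RG g, ρ (PhiV φ v) =
          PhiV φ (qmul (qm g Q) v (l, 0)) := by
        intro v
        have h6 := qmul_map (φ : RG g →+* BB) (qm g Q) v (l, 0)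
        rw [hρ, rhoC_apply, PhiV_apply, PhiV_apply]
        have h7 : ((fun i => (φ : RG g →+* BB) ((l, (0 : RG g)).1 i)),
            (φ : RG g →+* BB) (l, (0 : RG g)).2) = ((lm, 0) : VV BB) := by
          refine Prod.ext rfl ?_
          exact map_zero _
        rw [h7] at h6
        exact h6
      have h8 : ∀ v ∈ P, v ∈ Nq f g Q Q.adjugate l (r + n) ↔ qmul (qm g Q) v (l, 0) = 0 := by
        intro v hv
        rw [qmul_pure_eq_zero_iff, ← hadjq]
        constructor
        · intro h9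
          exact ⟨h9.2.2.1, h9.2.2.2⟩
        · intro h9
          refine ⟨hv.1, ?_, h9.1, h9.2⟩
          have h10 := hv.2
          rwa [show r + 2 + n = r + n + 2 by ring] at h10
      apply le_antisymm
      · rintro _ ⟨⟨v, hv, rfl⟩, hk⟩
        refine ⟨v, (h8 v hv).2 ?_, rfl⟩
        rw [SetLike.mem_coe, LinearMap.mem_ker, h5] at hk
        have hg := qmul_gr (v := v) (d := r + n) hQ hA hl hv.1.1 (by
          have := Jq_le_gr H _ hv.2
          rwa [show r + 2 + n = r + n + 2 by ring] at this)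
        exact hΦinj (by omega) (by omega) _ hg.1 hg.2 hk
      · rintro _ ⟨v, hv, rfl⟩
        have hvP : v ∈ P := by
          refine ⟨hv.1, ?_⟩
          have := hv.2.1
          rwa [show r + n + 2 = r + 2 + n by ring] at this
        refine ⟨⟨v, hvP, rfl⟩, ?_⟩
        rw [SetLike.mem_coe, LinearMap.mem_ker, h5, (h8 v hvP).1 hv, map_zero]
    rw [h1, finrank_map_of_injOn]
    intro v hv h0
    refine hPinj v ⟨hv.1, ?_⟩ h0
    have := hv.2.1
    rwa [show r + n + 2 = r + 2 + n by ring] at this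
  rw [hI1, hI2] at heven
  rw [Nat.even_iff] at heven ⊢
  omega

end graded

end Vale.Agent.P287.C8
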