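import Vale.Agent.P287.C8.Quat

/-!
Left multiplication by the pure quaternions `Q r`, and the Lagrange identity for the adjugate.
-/

namespace Vale.Agent.P287.C8

open Matrix Module

variable {R : Type*} [CommRing R] {Q : Matrix (Fin 3) (Fin 3) R}

lemma det_entries (a b c d e f : R) : (!![a, b, c; b, d, e; c, e, f] : Matrix (Fin 3) (Fin 3) R).det =
    a * d * f - a * e * e - b * b * f + b * e * c + c * b * e - c * d * c := by
  rw [Matrix.det_fin_three]
  rfl

/-- left multiplication by `Q r` -/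
lemma qmul_left (hQ : Q.IsSymm) (r : Fin 3 → R) (v : (Fin 3 → R) × R) :
    qmul Q (Q.mulVec r, 0) v = (v.2 • Q.mulVec r + crossProduct r (Q.adjugate.mulVec v.1),
      -(Q.det * dotProduct r v.1)) := by
  obtain ⟨a, b, c, d, e, f, rfl⟩ := exists_entries hQ
  rw [det_entries]
  simp only [qmul, Matrix.adjugate_fin_three_of, mulVec_three, cross_apply, dot_three]
  refine Prod.ext (vec_ext ?_ ?_ ?_) ?_ <;>
    simp only [Pi.add_apply, Pi.smul_apply, smul_eq_mul, Matrix.cons_val_zero,
      Matrix.cons_val_one, Matrix.cons_val_two, Matrix.head_cons, Matrix.tail_cons,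
      Matrix.cons_val] <;> ring

lemma adj_qmul_left (hQ : Q.IsSymm) (r : Fin 3 → R) (v : (Fin 3 → R) × R) :
    Q.adjugate.mulVec (v.2 • Q.mulVec r + crossProduct r (Q.adjugate.mulVec v.1)) =
      Q.det • (v.2 • r + crossProduct (Q.mulVec r) v.1) := by
  obtain ⟨a, b, c, d, e, f, rfl⟩ := exists_entries hQ
  rw [det_entries]
  simp only [Matrix.adjugate_fin_three_of, mulVec_three, cross_apply]
  refine vec_ext ?_ ?_ ?_ <;>
    simp only [Pi.add_apply, Pi.smul_apply, smul_eq_mul, Matrix.cons_val_zero,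
      Matrix.cons_val_one, Matrix.cons_val_two, Matrix.head_cons, Matrix.tail_cons,
      Matrix.cons_val] <;> ring

lemma adj_lagrange (hQ : Q.IsSymm) (r z : Fin 3 → R) :
    dotProduct r (Q.adjugate.mulVec r) * dotProduct z (Q.adjugate.mulVec z) -
      (dotProduct r (Q.adjugate.mulVec z)) ^ 2 =
      Q.det * dotProduct (crossProduct r z) (Q.mulVec (crossProduct r z)) := by
  obtain ⟨a, b, c, d, e, f, rfl⟩ := exists_entries hQ
  rw [det_entries]
  simp only [Matrix.adjugate_fin_three_of, mulVec_three, cross_apply, dot_three]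
  simp only [Matrix.cons_val_zero, Matrix.cons_val_one, Matrix.cons_val_two, Matrix.head_cons,
    Matrix.tail_cons, Matrix.cons_val]
  ring

lemma qmul_add_left (Q : Matrix (Fin 3) (Fin 3) R) (u v w : (Fin 3 → R) × R) :
    qmul Q (u + v) w = qmul Q u w + qmul Q v w := (rho Q w).map_add u v

lemma qmul_smul_left (Q : Matrix (Fin 3) (Fin 3) R) (c : R) (v w : (Fin 3 → R) × R) :
    qmul Q (c • v) w = c • qmul Q v w := (rho Q w).map_smul c v

lemma qmul_add_right (Q : Matrix (Fin 3) (Fin 3) R) (u v w : (Fin 3 → R) × R) :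
    qmul Q u (v + w) = qmul Q u v + qmul Q u w := by
  refine Prod.ext ?_ ?_
  · simp only [qmul, Prod.fst_add, Prod.snd_add, map_add, add_smul, smul_add,
      Matrix.mulVec_add]
    abel
  · simp only [qmul, Prod.fst_add, Prod.snd_add, mul_add, Matrix.mulVec_add,
      dotProduct_add]
    ring

lemma qmul_smul_right (Q : Matrix (Fin 3) (Fin 3) R) (c : R) (v w : (Fin 3 → R) × R) :
    qmul Q v (c • w) = c • qmul Q v w := by
  refine Prod.ext ?_ ?_
  · simp only [qmul, Prod.smul_fst, Prod.smul_snd, map_smul, Matrix.mulVec_smul, smul_add,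
      smul_eq_mul, mul_smul]
    rw [smul_comm v.2 c w.1]
  · simp only [qmul, Prod.smul_snd, Prod.smul_fst, Matrix.mulVec_smul, dotProduct_smul,
      smul_eq_mul]
    ring

/-- the left multiplication by a quaternion, as a linear map -/
def lambdaL (Q : Matrix (Fin 3) (Fin 3) R) (w : (Fin 3 → R) × R) :
    ((Fin 3 → R) × R) →ₗ[R] ((Fin 3 → R) × R) where
  toFun v := qmul Q w v
  map_add' u v := qmul_add_right Q w u v
  map_smul' c v := qmul_smul_right Q c w v

lemma lambdaL_apply (Q : Matrix (Fin 3) (Fin 3) R) (w v : (Fin 3 → R) × R) :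
    lambdaL Q w v = qmul Q w v := rfl

end Vale.Agent.P287.C8
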