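import Vale.Agent.P287.C8.Even
import Vale.Agent.P287.C8.QuatLeft
import Vale.Agent.P287.C8.ParGraded

/-!
The affine chart `X₀ = 1` of the curve `g = 0`, the ideal `J` of square roots modulo `f` and the
lattice `N` there.
-/

namespace Vale.Agent.P287.C8

open MvPolynomial Module Vale.Agent.P287 Vale.Agent.P287.H925 Vale.Agent.P287.Theta

/-- an affine chart `X₀ = 1` of the plane curve `g = 0` -/
structure AffChart (g : P3) (B : Type*) [CommRing B] [Algebra ℂ B] where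
  /-- dehomogenisation -/
  dh : RG g →ₐ[ℂ] B
  dh0 : dh (q g (X 0)) = 1
  inj : ∀ d, ∀ x ∈ gr g d, dh x = 0 → x = 0
  surj : ∀ b, ∃ d, ∃ x ∈ gr g d, dh x = b

lemma X0pow_mem (g : P3) (n : ℕ) : q g (X 0) ^ n ∈ gr g n := by
  refine mem_gr.2 ⟨X 0 ^ n, ?_, map_pow _ _ _⟩
  have := (isHomogeneous_X ℂ (0 : Fin 3)).pow n
  rwa [one_mul] at this

lemma X0_mem (g : P3) : q g (X 0) ∈ gr g 1 := mem_gr.2 ⟨X 0, isHomogeneous_X _ _, rfl⟩

namespace AffChart

variable {g : P3} {B : Type*} [CommRing B] [Algebra ℂ B] (D : AffChart g B)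

lemma dh_pow_mul (n : ℕ) (x : RG g) : D.dh (q g (X 0) ^ n * x) = D.dh x := by
  rw [map_mul, map_pow, D.dh0, one_pow, one_mul]

lemma dh_X0_mul (x : RG g) : D.dh (q g (X 0) * x) = D.dh x := by
  rw [map_mul, D.dh0, one_mul]

lemma exists_ge (b : B) : ∃ d₀, ∀ d, d₀ ≤ d → ∃ x ∈ gr g d, D.dh x = b := by
  obtain ⟨d₀, x, hx, rfl⟩ := D.surj b
  refine ⟨d₀, fun d hd => ?_⟩
  obtain ⟨e, rfl⟩ := Nat.exists_eq_add_of_le' hd
  exact ⟨q g (X 0) ^ e * x, gr_mul (X0pow_mem g e) hx, D.dh_pow_mul e x⟩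

lemma eq_of_dh {d : ℕ} {x y : RG g} (hx : x ∈ gr g d) (hy : y ∈ gr g d)
    (h : D.dh x = D.dh y) : x = y := by
  rw [← sub_eq_zero]
  exact D.inj d _ (sub_mem hx hy) (by rw [map_sub, h, sub_self])

/-- the map from forms to the chart -/
noncomputable def psi : P3 →+* B :=
  (D.dh : RG g →+* B).comp (Ideal.Quotient.mk (Ideal.span {g}))

lemma psi_apply (p : P3) : D.psi p = D.dh (q g p) := rfl

lemma psi_X0 : D.psi (X 0) = 1 := D.dh0

lemma psi_g : D.psi g = 0 := by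
  rw [psi_apply]
  have h1 : q g g = 0 := Ideal.Quotient.eq_zero_iff_mem.2 (Ideal.mem_span_singleton_self g)
  rw [h1, map_zero]

variable {f : P3} {e : ℕ}

lemma dvd_sq_iff (H : EvenOn f g e)
    (hX : ∀ z : Fin 3 → ℂ, eval z f = 0 → eval z g = 0 → z 0 = 0 → z = 0)
    {p : P3} {d : ℕ} (hp : p.IsHomogeneous d) :
    D.psi f ∣ D.psi p ^ 2 ↔ p ^ 2 ∈ (Ideal.span {g, f} : Ideal P3) := by
  constructor
  · rintro ⟨c, hc⟩
    obtain ⟨n, y, hy, rfl⟩ := D.surj c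
    obtain ⟨s, hs, rfl⟩ := mem_gr.1 hy
    have h1 : q g (X 0 ^ (6 + n) * p ^ 2) = q g (X 0 ^ (d * 2) * (f * s)) := by
      apply D.eq_of_dh (d := (6 + n) + d * 2)
      · refine mem_gr.2 ⟨_, ?_, rfl⟩
        have h2 := ((isHomogeneous_X ℂ (0 : Fin 3)).pow (6 + n)).mul (hp.pow 2)
        rwa [one_mul] at h2
      · refine mem_gr.2 ⟨_, ?_, rfl⟩
        have h2 := ((isHomogeneous_X ℂ (0 : Fin 3)).pow (d * 2)).mul (H.hf.mul hs)
        rwa [one_mul, add_comm] at h2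
      · rw [← psi_apply, ← psi_apply, map_mul, map_mul, map_pow, map_pow, map_pow, psi_X0, one_pow,
          one_pow, one_mul, one_mul, map_mul, hc]
        rfl
    have h2 : X 0 ^ (6 + n) * p ^ 2 ∈ (Ideal.span {g, f} : Ideal P3) := by
      have h3 := Ideal.Quotient.eq.1 h1
      obtain ⟨t, ht⟩ := Ideal.mem_span_singleton.1 h3
      exact Ideal.mem_span_pair.2 ⟨t, X 0 ^ (d * 2) * s, by linear_combination -ht⟩
    refine H.nzd (t := X 0 ^ (6 + n)) (fun z h3 h4 h5 => hX z h3 h4 ?_) (hp.pow 2) h2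
    rw [map_pow, eval_X] at h5
    exact eq_zero_of_pow_eq_zero h5
  · intro h
    obtain ⟨a, b, hab⟩ := Ideal.mem_span_pair.1 h
    refine ⟨D.psi b, ?_⟩
    rw [← map_pow, ← hab, map_add, map_mul, map_mul, psi_g, mul_zero, zero_add, mul_comm]

/-- the ideal of square roots modulo `f` -/
noncomputable def JB (f : P3) : Ideal B := Ideal.span {b | D.psi f ∣ b ^ 2}

lemma dvd_mul_of_sq (H : EvenOn f g e)
    (hX : ∀ z : Fin 3 → ℂ, eval z f = 0 → eval z g = 0 → z 0 = 0 → z = 0) {b b' : B}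
    (h : D.psi f ∣ b ^ 2) (h' : D.psi f ∣ b' ^ 2) : D.psi f ∣ b * b' := by
  obtain ⟨d, x, hx, rfl⟩ := D.surj b
  obtain ⟨p, hp, rfl⟩ := mem_gr.1 hx
  obtain ⟨d', x', hx', rfl⟩ := D.surj b'
  obtain ⟨p', hp', rfl⟩ := mem_gr.1 hx'
  rw [← psi_apply] at h h' ⊢
  have h1 := H.mul_mem hp hp' ((D.dvd_sq_iff H hX hp).1 h) ((D.dvd_sq_iff H hX hp').1 h')
  obtain ⟨a, b, hab⟩ := Ideal.mem_span_pair.1 h1
  refine ⟨D.psi b, ?_⟩
  rw [← psi_apply, ← map_mul, ← hab, map_add, map_mul, map_mul, psi_g, mul_zero, zero_add,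
    mul_comm]

lemma mem_JB (H : EvenOn f g e)
    (hX : ∀ z : Fin 3 → ℂ, eval z f = 0 → eval z g = 0 → z 0 = 0 → z = 0) {b : B} :
    b ∈ D.JB f ↔ D.psi f ∣ b ^ 2 := by
  constructor
  · intro h
    induction h using Submodule.span_induction with
    | mem x hx => exact hx
    | zero => rw [zero_pow two_ne_zero]; exact dvd_zero _
    | add x y _ _ hx hy =>
      have h1 := D.dvd_mul_of_sq H hX hx hy
      have h2 : (x + y) ^ 2 = x ^ 2 + (2 * (x * y) + y ^ 2) := by ring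
      rw [h2]
      exact dvd_add hx (dvd_add (h1.mul_left _) hy)
    | smul c x _ hx =>
      rw [smul_eq_mul, mul_pow]
      exact hx.mul_left _
  · exact fun h => Ideal.subset_span h

lemma f_mul_mem_JB (b : B) : D.psi f * b ∈ D.JB f := by
  refine Ideal.subset_span ?_
  change D.psi f ∣ (D.psi f * b) ^ 2
  rw [mul_pow, pow_two, mul_assoc]
  exact dvd_mul_right _ _

lemma exists_mul_eq (H : EvenOn f g e)
    (hX : ∀ z : Fin 3 → ℂ, eval z f = 0 → eval z g = 0 → z 0 = 0 → z = 0) {b b' : B}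
    (h : b ∈ D.JB f) (h' : b' ∈ D.JB f) : ∃ u, b * b' = D.psi f * u :=
  D.dvd_mul_of_sq H hX ((D.mem_JB H hX).1 h) ((D.mem_JB H hX).1 h')

lemma mem_Jq_iff (H : EvenOn f g e)
    (hX : ∀ z : Fin 3 → ℂ, eval z f = 0 → eval z g = 0 → z 0 = 0 → z = 0) {d : ℕ} {x : RG g}
    (hx : x ∈ gr g d) : x ∈ Jq f g d ↔ D.dh x ∈ D.JB f := by
  rw [D.mem_JB H hX]
  constructor
  · rintro ⟨p, hp, rfl⟩
    have h1 := H.mem_rt.1 hp
    exact (D.dvd_sq_iff H hX h1.1).2 h1.2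
  · intro h
    obtain ⟨p, hp, rfl⟩ := mem_gr.1 hx
    rw [← psi_apply] at h
    exact ⟨p, H.mem_rt.2 ⟨hp, (D.dvd_sq_iff H hX hp).1 h⟩, rfl⟩

/-- the matrix `Q` on the chart -/
noncomputable def QB (Q : Matrix (Fin 3) (Fin 3) P3) : Matrix (Fin 3) (Fin 3) B := Q.map D.psi

variable {Q : Matrix (Fin 3) (Fin 3) P3}

lemma QB_isSymm (sQ : Q.IsSymm) : (D.QB Q).IsSymm := by
  rw [Matrix.IsSymm, QB, ← Matrix.transpose_map, sQ.eq]

lemma QB_eq : D.QB Q = (qm g Q).map D.dh := by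
  ext i j
  rfl

lemma QB_det : (D.QB Q).det = D.psi Q.det := (RingHom.map_det D.psi Q).symm

lemma QB_adjugate : (D.QB Q).adjugate = D.QB Q.adjugate := (RingHom.map_adjugate D.psi Q).symm

/-- an element of the lattice `N` on the chart -/
noncomputable def NB (f : P3) (Q : Matrix (Fin 3) (Fin 3) P3) (l : Fin 3 → RG g) :
    Submodule B ((Fin 3 → B) × B) where
  carrier := {v | (∀ i, ((D.QB Q).adjugate.mulVec v.1) i ∈ D.JB f) ∧ v.2 ∈ D.JB f ∧
    qmul (D.QB Q) v (fun i => D.dh (l i), 0) = 0}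
  zero_mem' := by
    refine ⟨fun i => ?_, zero_mem _, ?_⟩
    · rw [Prod.fst_zero, Matrix.mulVec_zero]
      exact zero_mem _
    · exact (rho (D.QB Q) _).map_zero
  add_mem' := by
    intro u v hu hv
    refine ⟨fun i => ?_, add_mem hu.2.1 hv.2.1, ?_⟩
    · rw [Prod.fst_add, Matrix.mulVec_add]
      exact add_mem (hu.1 i) (hv.1 i)
    · rw [qmul_add_left, hu.2.2, hv.2.2, add_zero]
  smul_mem' := by
    intro c v hv
    refine ⟨fun i => ?_, (D.JB f).mul_mem_left _ hv.2.1, ?_⟩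
    · rw [Prod.smul_fst, Matrix.mulVec_smul]
      exact (D.JB f).mul_mem_left _ (hv.1 i)
    · rw [qmul_smul_left, hv.2.2, smul_zero]

lemma mem_NB {l : Fin 3 → RG g} {v : (Fin 3 → B) × B} : v ∈ D.NB f Q l ↔
    (∀ i, ((D.QB Q).adjugate.mulVec v.1) i ∈ D.JB f) ∧ v.2 ∈ D.JB f ∧
    qmul (D.QB Q) v (fun i => D.dh (l i), 0) = 0 := Iff.rfl

/-- comparison of the graded lattice with the lattice on the chart -/
lemma mem_Nq_iff (H : EvenOn f g e)
    (hX : ∀ z : Fin 3 → ℂ, eval z f = 0 → eval z g = 0 → z 0 = 0 → z = 0)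
    (hQ : ∀ i j, (Q i j).IsHomogeneous 2) (hA : ∀ i j, (Q.adjugate i j).IsHomogeneous 4)
    {a : ℕ} {l : Fin 3 → RG g} (hl : ∀ i, l i ∈ gr g a) {d : ℕ} {w : (Fin 3 → RG g) × RG g}
    (hw1 : ∀ i, w.1 i ∈ gr g d) (hw2 : w.2 ∈ gr g (d + 2)) :
    w ∈ Nq f g Q Q.adjugate l d ↔ PhiV D.dh w ∈ D.NB f Q l := by
  have hadjq : qm g Q.adjugate = (qm g Q).adjugate := RingHom.map_adjugate _ Q
  have hadjB : (D.QB Q).adjugate = (qm g Q.adjugate).map D.dh := by
    rw [QB_adjugate, QB_eq]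
  have h1 : ∀ i, ((D.QB Q).adjugate.mulVec (PhiV D.dh w).1) i =
      D.dh (((qm g Q.adjugate).mulVec w.1) i) := by
    intro i
    rw [hadjB]
    exact (RingHom.map_mulVec (D.dh : RG g →+* B) _ w.1 i).symm
  have h2 : ∀ i, ((qm g Q.adjugate).mulVec w.1) i ∈ gr g (d + 4) := by
    intro i
    rw [Matrix.mulVec, dotProduct]
    refine Submodule.sum_mem _ fun j _ => ?_
    have h3 := gr_mul (mem_gr.2 ⟨_, hA i j, rfl⟩) (hw1 j)
    rwa [add_comm] at h3
  have h3 : qmul (D.QB Q) (PhiV D.dh w) (fun i => D.dh (l i), 0) =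
      PhiV D.dh (qmul (qm g Q) w (l, 0)) := by
    have h6 := qmul_map (D.dh : RG g →+* B) (qm g Q) w (l, 0)
    have h7 : ((fun i => (D.dh : RG g →+* B) ((l, (0 : RG g)).1 i)),
        (D.dh : RG g →+* B) (l, (0 : RG g)).2) = ((fun i => D.dh (l i), 0) : (Fin 3 → B) × B) := by
      refine Prod.ext rfl ?_
      exact map_zero _
    rw [h7] at h6
    rw [QB_eq]
    exact h6
  have h4 : qmul (D.QB Q) (PhiV D.dh w) (fun i => D.dh (l i), 0) = 0 ↔
      qmul (qm g Q) w (l, 0) = 0 := by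
    rw [h3]
    constructor
    · intro h5
      have hg := qmul_gr hQ hA hl hw1 hw2
      rw [PhiV_apply] at h5
      refine Prod.ext (funext fun i => ?_) ?_
      · exact D.inj _ _ (hg.1 i) (congrFun (congrArg Prod.fst h5) i)
      · exact D.inj _ _ hg.2 (congrArg Prod.snd h5)
    · intro h5
      rw [h5, map_zero]
  rw [D.mem_NB, h4, qmul_pure_eq_zero_iff, ← hadjq]
  constructor
  · rintro ⟨hW, hJ, hE⟩
    refine ⟨fun i => ?_, (D.mem_Jq_iff H hX hw2).1 hJ, hE⟩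
    rw [h1]
    exact (D.mem_Jq_iff H hX (h2 i)).1 (hW.2 i)
  · rintro ⟨hW, hJ, hE⟩
    refine ⟨⟨hw1, fun i => ?_⟩, (D.mem_Jq_iff H hX hw2).2 hJ, hE⟩
    refine (D.mem_Jq_iff H hX (h2 i)).2 ?_
    rw [← h1]
    exact hW i

/-- homogenisation of elements of `N` -/
lemma exists_Nq (H : EvenOn f g e)
    (hX : ∀ z : Fin 3 → ℂ, eval z f = 0 → eval z g = 0 → z 0 = 0 → z = 0)
    (hQ : ∀ i j, (Q i j).IsHomogeneous 2) (hA : ∀ i j, (Q.adjugate i j).IsHomogeneous 4)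
    {a : ℕ} {l : Fin 3 → RG g} (hl : ∀ i, l i ∈ gr g a) {v : (Fin 3 → B) × B}
    (hv : v ∈ D.NB f Q l) :
    ∃ d₀, ∀ d, d₀ ≤ d → ∃ w ∈ Nq f g Q Q.adjugate l d, PhiV D.dh w = v := by
  choose d₁ h₁ using fun i => D.exists_ge (v.1 i)
  obtain ⟨d₂, h₂⟩ := D.exists_ge v.2
  refine ⟨d₁ 0 + d₁ 1 + d₁ 2 + d₂, fun d hd => ?_⟩
  have h3 : ∀ i, d₁ i ≤ d := by
    intro i
    fin_cases i <;> simp only [Fin.zero_eta, Fin.mk_one, Fin.reduceFinMk] <;> omega
  choose x hx hxv using fun i => h₁ i d (h3 i)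
  obtain ⟨y, hy, hyv⟩ := h₂ (d + 2) (by omega)
  have h4 : PhiV D.dh (x, y) = v := by
    rw [PhiV_apply]
    exact Prod.ext (funext hxv) hyv
  refine ⟨(x, y), ?_, h4⟩
  rw [D.mem_Nq_iff H hX hQ hA hl hx hy, h4]
  exact hv

/-- `N` is stable under the left multiplication by `Q r` -/
lemma qmul_mem_NB (sQ : Q.IsSymm) (hdet : Q.det = f) {l : Fin 3 → RG g} (r : Fin 3 → B)
    {v : (Fin 3 → B) × B} (hv : v ∈ D.NB f Q l) :
    qmul (D.QB Q) ((D.QB Q).mulVec r, 0) v ∈ D.NB f Q l := by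
  have sB := D.QB_isSymm sQ
  have hdB : (D.QB Q).det = D.psi f := by rw [QB_det, hdet]
  refine ⟨fun i => ?_, ?_, ?_⟩
  · rw [qmul_left sB]
    have h1 := congrFun (adj_qmul_left sB r v) i
    change (((D.QB Q).adjugate.mulVec (v.2 • (D.QB Q).mulVec r +
      crossProduct r ((D.QB Q).adjugate.mulVec v.1))) i) ∈ _
    rw [h1, hdB, Pi.smul_apply, smul_eq_mul]
    exact D.f_mul_mem_JB _
  · rw [qmul_left sB, hdB]
    exact neg_mem (D.f_mul_mem_JB _)
  · rw [qmul_assoc sB, hv.2.2]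
    exact (lambdaL (D.QB Q) _).map_zero

/-- an isotropic vector proportional to `l` gives an element of `N` -/
lemma pure_mem_NB (H : EvenOn f g e)
    (hX : ∀ z : Fin 3 → ℂ, eval z f = 0 → eval z g = 0 → z 0 = 0 → z = 0)
    (sQ : Q.IsSymm) (hdet : Q.det = f) {l : Fin 3 → RG g} {r : Fin 3 → B}
    (hr : dotProduct r ((D.QB Q).adjugate.mulVec r) = 0)
    (hlr : qmul (D.QB Q) (r, 0) (fun i => D.dh (l i), 0) = 0) : (r, 0) ∈ D.NB f Q l := by
  have sB := D.QB_isSymm sQ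
  refine ⟨fun i => ?_, zero_mem _, hlr⟩
  rw [D.mem_JB H hX]
  have h1 := adj_lagrange sB (Pi.single i 1) r
  rw [hr, mul_zero, zero_sub, single_one_dotProduct i, QB_det, hdet] at h1
  refine ⟨-dotProduct (crossProduct (Pi.single i 1) r)
    ((D.QB Q).mulVec (crossProduct (Pi.single i 1) r)), ?_⟩
  change ((D.QB Q).adjugate.mulVec r i) ^ 2 = _
  linear_combination -h1

/-- the element `h (Q s) r / f` of `N` -/
lemma exists_div_mem_NB [IsDomain B] (H : EvenOn f g e)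
    (hX : ∀ z : Fin 3 → ℂ, eval z f = 0 → eval z g = 0 → z 0 = 0 → z = 0)
    (hf0 : D.psi f ≠ 0) (sQ : Q.IsSymm) (hdet : Q.det = f) {l : Fin 3 → RG g} {r : Fin 3 → B}
    (hr : (r, 0) ∈ D.NB f Q l) (s : Fin 3 → B) {h : B} (hh : h ∈ D.JB f) :
    ∃ u : Fin 3 → B, (u, -(h * dotProduct s r)) ∈ D.NB f Q l := by
  have sB := D.QB_isSymm sQ
  have hdB : (D.QB Q).det = D.psi f := by rw [QB_det, hdet]
  choose u hu using fun i => D.exists_mul_eq H hX hh (hr.1 i)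
  have hu' : D.psi f • u = h • (D.QB Q).adjugate.mulVec r := funext fun i => (hu i).symm
  have key : D.psi f • ((crossProduct s u, -(h * dotProduct s r)) : (Fin 3 → B) × B) =
      h • qmul (D.QB Q) ((D.QB Q).mulVec s, 0) (r, 0) := by
    rw [qmul_left sB, hdB]
    refine Prod.ext ?_ ?_
    · simp only [Prod.smul_fst, zero_smul, zero_add]
      rw [← map_smul, ← map_smul, hu']
    · simp only [Prod.smul_snd, smul_eq_mul]
      ring
  refine ⟨crossProduct s u, fun i => ?_, ?_, ?_⟩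
  · have h1 : D.psi f * ((D.QB Q).adjugate.mulVec (crossProduct s u)) i =
        D.psi f * (h * (crossProduct ((D.QB Q).mulVec s) r) i) := by
      have h2 := congrArg (fun w : (Fin 3 → B) × B => (D.QB Q).adjugate.mulVec w.1 i) key
      simp only [Prod.smul_fst, Matrix.mulVec_smul, Pi.smul_apply, smul_eq_mul] at h2
      rw [h2, qmul_left sB]
      have h3 := congrFun (adj_qmul_left sB s (r, 0)) i
      simp only [zero_smul, zero_add] at h3 ⊢
      rw [h3, hdB, Pi.smul_apply, smul_eq_mul]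
      ring
    rw [mul_left_cancel₀ hf0 h1]
    exact Ideal.mul_mem_right _ _ hh
  · exact neg_mem (Ideal.mul_mem_right _ _ hh)
  · have h1 : D.psi f • qmul (D.QB Q) (crossProduct s u, -(h * dotProduct s r))
        (fun i => D.dh (l i), 0) = 0 := by
      rw [← qmul_smul_left, key, qmul_smul_left, qmul_assoc sB, hr.2.2]
      have h2 : qmul (D.QB Q) ((D.QB Q).mulVec s, 0) 0 = 0 := (lambdaL (D.QB Q) _).map_zero
      rw [h2, smul_zero]
    exact (smul_eq_zero.1 h1).resolve_left hf0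

end AffChart

end Vale.Agent.P287.C8
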