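import Vale.Agent.P287.C8.Line

/-!
Dixon's construction of symmetric determinantal representations from sections of a theta
characteristic.
-/

namespace Vale.Agent.P287.C8

open MvPolynomial Vale.Agent.P287 Vale.Agent.P287.H925 Vale.Agent.P287.Theta

section Algebra

variable {R : Type*} [CommRing R]

/-- a rank one perturbation of a multiple of `f` -/
lemma pow_dvd_mul_det {n : ℕ} (f : R) (E : Matrix (Fin n) (Fin n) R) (b c : Fin n → R) :
    f ^ n ∣ f * (f • E + Matrix.vecMulVec b c).det := by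
  set B : Matrix Unit (Fin n) R := -Matrix.replicateRow Unit c with hB
  set C : Matrix (Fin n) Unit R := Matrix.replicateCol Unit b with hC
  have h1 : (Matrix.fromBlocks 1 B C (f • E)).det = (f • E + Matrix.vecMulVec b c).det := by
    rw [Matrix.det_fromBlocks_one₁₁, hB, hC, Matrix.mul_neg, sub_neg_eq_add,
      Matrix.vecMulVec_eq Unit]
  have h2 : Matrix.fromBlocks 1 B C (f • E) * Matrix.fromBlocks (f • 1) 0 0 1 =
      Matrix.fromBlocks 1 0 0 (f • 1) * Matrix.fromBlocks (f • 1) B C E := by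
    rw [Matrix.fromBlocks_multiply, Matrix.fromBlocks_multiply]
    simp
  have h3 := congrArg Matrix.det h2
  rw [Matrix.det_mul, Matrix.det_mul, h1, Matrix.det_fromBlocks_zero₂₁,
    Matrix.det_fromBlocks_zero₂₁, Matrix.det_smul, Matrix.det_smul, Matrix.det_one, Matrix.det_one,
    Fintype.card_unit, Fintype.card_fin] at h3
  refine ⟨(Matrix.fromBlocks (f • 1) B C E).det, ?_⟩
  linear_combination h3

variable [IsDomain R]

/-- The determinant of a matrix of rank one modulo `f` -/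
lemma pow_dvd_det {n : ℕ} {f u : R} (hf : Prime f) (hfu : ¬ f ∣ u)
    (A : Matrix (Fin (n + 1)) (Fin (n + 1)) R) (b c : Fin (n + 1) → R)
    (h : ∀ i j, f ∣ b i * c j - u * A i j) : f ^ n ∣ A.det := by
  choose E hE using h
  have h1 : u • A = f • Matrix.of (fun i j => - E i j) + Matrix.vecMulVec b c := by
    ext i j
    simp only [Matrix.smul_apply, Matrix.add_apply, Matrix.of_apply, Matrix.vecMulVec_apply,
      smul_eq_mul]
    linear_combination - hE i j
  have h2 := pow_dvd_mul_det f (Matrix.of (fun i j => - E i j)) b c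
  rw [← h1, Matrix.det_smul, Fintype.card_fin, pow_succ'] at h2
  have h3 : f ^ n ∣ u ^ (n + 1) * A.det := (mul_dvd_mul_iff_left hf.ne_zero).1 h2
  exact hf.pow_dvd_of_dvd_mul_left n (fun h4 => hfu (hf.dvd_of_dvd_pow h4)) h3

/-- The adjugate of a matrix of rank one modulo `f` -/
lemma pow_dvd_adjugate {n : ℕ} {f u : R} (hf : Prime f) (hfu : ¬ f ∣ u)
    (A : Matrix (Fin (n + 2)) (Fin (n + 2)) R) (b c : Fin (n + 2) → R)
    (h : ∀ i j, f ∣ b i * c j - u * A i j) (i j) : f ^ n ∣ A.adjugate i j := by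
  rw [Matrix.adjugate_fin_succ_eq_det_submatrix]
  refine Dvd.dvd.mul_left ?_ _
  exact pow_dvd_det hf hfu _ (fun i' => b (j.succAbove i')) (fun j' => c (i.succAbove j'))
    fun i' j' => h _ _

end Algebra

/-- determinants of homogeneous matrices -/
lemma det_hom {n a : ℕ} {A : Matrix (Fin n) (Fin n) P3} (h : ∀ i j, (A i j).IsHomogeneous a) :
    A.det.IsHomogeneous (n * a) := by
  rw [Matrix.det_apply]
  refine IsHomogeneous.sum _ _ _ fun τ _ => ?_
  have h1 : (∏ i, A (τ i) i).IsHomogeneous (∑ _i : Fin n, a) :=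
    IsHomogeneous.prod _ _ _ fun i _ => h _ _
  rw [Finset.sum_const, Finset.card_univ, Fintype.card_fin, smul_eq_mul] at h1
  rcases Int.units_eq_one_or (Equiv.Perm.sign τ) with h3 | h3 <;> rw [h3]
  · simpa using h1
  · simpa using h1.neg

lemma adj_hom {n a : ℕ} {A : Matrix (Fin (n + 1)) (Fin (n + 1)) P3}
    (h : ∀ i j, (A i j).IsHomogeneous a) (i j) : (A.adjugate i j).IsHomogeneous (n * a) := by
  rw [Matrix.adjugate_fin_succ_eq_det_submatrix]
  have h1 : (A.submatrix j.succAbove i.succAbove).det.IsHomogeneous (n * a) :=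
    det_hom fun i' j' => h _ _
  rcases neg_one_pow_eq_or P3 ((j : ℕ) + (i : ℕ)) with h3 | h3 <;> rw [h3]
  · simpa using h1
  · simpa using h1.neg

/-- **Dixon's construction**, from the nonvanishing of the determinant: a symmetric matrix `A` of
forms of degree `a`, of rank one modulo the sextic `f`, gives a symmetric matrix of forms of
degree `c` with determinant `f`. -/
theorem dixon {n a c : ℕ} {f u : P3} (hf : f.IsHomogeneous 6) (pf : Prime f) (hfu : ¬ f ∣ u)
    (A : Matrix (Fin (n + 2)) (Fin (n + 2)) P3) (sA : A.IsSymm)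
    (hA : ∀ i j, (A i j).IsHomogeneous a) (b : Fin (n + 2) → P3)
    (h : ∀ i j, f ∣ b i * b j - u * A i j) (h1 : (n + 2) * a = (n + 1) * 6)
    (h2 : (n + 1) * a = n * 6 + c) (hdet : A.det ≠ 0) :
    ∃ N : Matrix (Fin (n + 2)) (Fin (n + 2)) P3, N.IsSymm ∧ (∀ i j, (N i j).IsHomogeneous c) ∧
      N * A = f • (1 : Matrix (Fin (n + 2)) (Fin (n + 2)) P3) ∧
      A * N = f • (1 : Matrix (Fin (n + 2)) (Fin (n + 2)) P3) ∧
      (∃ x : ℂ, x ≠ 0 ∧ N.det = C x * f) ∧ ∃ x : ℂ, x ≠ 0 ∧ A.det = C x * f ^ (n + 1) := by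
  obtain ⟨s, hs, hs'⟩ := exists_hom_of_dvd (d := 0) (hf.pow (n + 1)) (det_hom hA)
    (by omega) (pow_dvd_det pf hfu A b b h)
  obtain ⟨x, rfl⟩ := exists_C_of_hom_zero hs
  have hx : x ≠ 0 := by
    rintro rfl
    rw [C_0, mul_zero] at hs'
    exact hdet hs'
  have h3 : ∀ i j, ∃ s : P3, s.IsHomogeneous c ∧ A.adjugate i j = f ^ n * s := fun i j =>
    exists_hom_of_dvd (hf.pow n) (adj_hom hA i j) (by omega) (pow_dvd_adjugate pf hfu A b b h i j)
  choose N hN hN' using h3
  have hxx : (C x⁻¹ : P3) * C x = 1 := by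
    rw [← C_mul, inv_mul_cancel₀ hx, C_1]
  have hadj : A.adjugate = f ^ n • Matrix.of N := by
    ext i j
    rw [hN', Matrix.smul_apply, Matrix.of_apply, smul_eq_mul]
  have hNA : Matrix.of N * A = (C x * f) • (1 : Matrix (Fin (n + 2)) (Fin (n + 2)) P3) := by
    have h4 := Matrix.adjugate_mul A
    rw [hadj, Matrix.smul_mul, hs', pow_succ] at h4
    refine Matrix.ext fun i j => ?_
    have h5 := congrFun (congrFun h4 i) j
    rw [Matrix.smul_apply, Matrix.smul_apply, smul_eq_mul, smul_eq_mul] at h5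
    rw [Matrix.smul_apply, smul_eq_mul]
    apply mul_left_cancel₀ (pow_ne_zero n pf.ne_zero)
    linear_combination h5
  have hAN : A * Matrix.of N = (C x * f) • (1 : Matrix (Fin (n + 2)) (Fin (n + 2)) P3) := by
    have h4 := Matrix.mul_adjugate A
    rw [hadj, Matrix.mul_smul, hs', pow_succ] at h4
    refine Matrix.ext fun i j => ?_
    have h5 := congrFun (congrFun h4 i) j
    rw [Matrix.smul_apply, Matrix.smul_apply, smul_eq_mul, smul_eq_mul] at h5
    rw [Matrix.smul_apply, smul_eq_mul]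
    apply mul_left_cancel₀ (pow_ne_zero n pf.ne_zero)
    linear_combination h5
  refine ⟨(C x⁻¹ : P3) • Matrix.of N, ?_, ?_, ?_, ?_, ?_, x, hx, by rw [hs', mul_comm]⟩
  · refine Matrix.IsSymm.ext fun i j => ?_
    rw [Matrix.smul_apply, Matrix.smul_apply, Matrix.of_apply, Matrix.of_apply]
    congr 1
    apply mul_left_cancel₀ (pow_ne_zero n pf.ne_zero)
    rw [← hN', ← hN']
    have h4 : A.adjugate.transpose = A.adjugate := by
      rw [Matrix.adjugate_transpose, sA]
    exact congrFun (congrFun h4 i) j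
  · intro i j
    rw [Matrix.smul_apply, smul_eq_mul, Matrix.of_apply, ← zero_add c]
    exact (isHomogeneous_C _ _).mul (hN i j)
  · rw [Matrix.smul_mul, hNA, smul_smul, ← mul_assoc, hxx, one_mul]
  · rw [Matrix.mul_smul, hAN, smul_smul, ← mul_assoc, hxx, one_mul]
  · refine ⟨x⁻¹, inv_ne_zero hx, ?_⟩
    have h4 := congrArg Matrix.det hNA
    rw [Matrix.det_mul, Matrix.det_smul, Matrix.det_one, mul_one, Fintype.card_fin, hs'] at h4
    have h5 : (Matrix.of N).det = C x ^ (n + 1) * f := by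
      have h6 : C x * f ^ (n + 1) ≠ 0 :=
        mul_ne_zero (by rwa [Ne, C_eq_zero]) (pow_ne_zero _ pf.ne_zero)
      apply mul_left_cancel₀ h6
      rw [mul_pow] at h4
      linear_combination h4
    rw [Matrix.det_smul, h5, Fintype.card_fin]
    have h6 : (C x⁻¹ : P3) ^ (n + 2) * (C x ^ (n + 1) * f) =
        (C x⁻¹ * C x) ^ (n + 1) * (C x⁻¹ * f) := by ring
    rw [h6, hxx, one_pow, one_mul]

/-- In coordinates: the determinant does not vanish, otherwise there is a section of lower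
degree. -/
lemma exists_lower_section_aux {n d : ℕ} {f u : P3} (hf : f.IsHomogeneous n)
    (hL : (resL f).natDegree = n) (hsep : (resL f).Separable)
    (hc : IsCoprime (resL f) (resL u)) (b : Fin n → P3) (hb : ∀ i, (b i).IsHomogeneous (d + 1))
    (A : Matrix (Fin n) (Fin n) P3) {a : ℕ} (han : a < n) (hA : ∀ i j, (A i j).IsHomogeneous a)
    (h : ∀ i j, f ∣ b i * b j - u * A i j) (hdet : A.det = 0) :
    ∃ (c : Fin n → ℂ) (s t l : P3), c ≠ 0 ∧ s.IsHomogeneous d ∧ ∑ i, C (c i) * b i = l * s + f * t ∧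
      s ^ 2 ∈ Ideal.span {u, f} := by
  obtain ⟨c, hc0, hc1⟩ := exists_combination hsep hL hc (fun i => resL (b i)) (A.map resL)
    (fun i j => lt_of_le_of_lt (natDegree_resL_le (hA i j)) han)
    (fun i j => by
      have h1 := map_dvd resL (h i j)
      rwa [map_sub, map_mul, map_mul] at h1)
    (by
      have h1 := AlgHom.map_det resL A
      rw [hdet, map_zero] at h1
      exact h1.symm)
  set β : P3 := ∑ i, C (c i) * b i with hβ
  have hresβ : resL β = ∑ i, Polynomial.C (c i) * resL (b i) := by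
    rw [hβ, map_sum]
    refine Finset.sum_congr rfl fun i _ => ?_
    have hC : resL (C (c i)) = Polynomial.C (c i) := resL.commutes _
    rw [map_mul, hC]
  have hβd : β.IsHomogeneous (d + 1) := by
    refine IsHomogeneous.sum _ _ _ fun i _ => ?_
    have h1 := (isHomogeneous_C (Fin 3) (c i)).mul (hb i)
    rwa [zero_add] at h1
  obtain ⟨s, t, hs, hst⟩ := exists_line_decomp hf hβd hL hsep.ne_zero (by rw [hresβ]; exact hc1)
  have hβ2 : f ∣ β ^ 2 - u * ∑ i, ∑ j, C (c i) * C (c j) * A i j := by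
    have h1 : β ^ 2 - u * ∑ i, ∑ j, C (c i) * C (c j) * A i j =
        ∑ i, ∑ j, C (c i) * C (c j) * (b i * b j - u * A i j) := by
      rw [hβ, pow_two, Finset.sum_mul_sum, Finset.mul_sum, ← Finset.sum_sub_distrib]
      refine Finset.sum_congr rfl fun i _ => ?_
      rw [Finset.mul_sum, ← Finset.sum_sub_distrib]
      refine Finset.sum_congr rfl fun j _ => ?_
      ring
    rw [h1]
    exact Finset.dvd_sum fun i _ => Finset.dvd_sum fun j _ => (h i j).mul_left _
  refine ⟨c, s, t, X 2, hc0, hs, hst, ?_⟩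
  apply mem_span_of_X2_mul hf hL hsep.ne_zero hc
  apply mem_span_of_X2_mul hf hL hsep.ne_zero hc
  obtain ⟨w, hw⟩ := hβ2
  refine Ideal.mem_span_pair.2 ⟨∑ i, ∑ j, C (c i) * C (c j) * A i j,
    w - 2 * X 2 * s * t - f * t ^ 2, ?_⟩
  rw [hst] at hw
  linear_combination -hw

/-- The determinant does not vanish, otherwise there is a section of lower degree. -/
theorem exists_lower_section {n d e : ℕ} {f u : P3} (hn : 2 ≤ n) (hf : f.IsHomogeneous n)
    (pf : Prime f) (hu : u.IsHomogeneous e) (hfu : ¬ f ∣ u) (b : Fin n → P3)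
    (hb : ∀ i, (b i).IsHomogeneous (d + 1))
    (A : Matrix (Fin n) (Fin n) P3) {a : ℕ} (han : a < n) (hA : ∀ i j, (A i j).IsHomogeneous a)
    (h : ∀ i j, f ∣ b i * b j - u * A i j) (hdet : A.det = 0) :
    ∃ (c : Fin n → ℂ) (s t l : P3), c ≠ 0 ∧ s.IsHomogeneous d ∧ ∑ i, C (c i) * b i = l * s + f * t ∧
      s ^ 2 ∈ Ideal.span {u, f} := by
  obtain ⟨P, hP, h1, h2, h3⟩ := exists_generic_line hf hn pf hu hfu
  obtain ⟨c, s, t, l, hc, hs, hst, hsq⟩ := exists_lower_section_aux
    (lin_homogeneous P hf) h1 h2 h3 (fun i => lin P (b i)) (fun i => lin_homogeneous P (hb i))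
    (A.map (lin P)) han (fun i j => lin_homogeneous P (hA i j))
    (fun i j => by
      have h4 := (lin_dvd_lin hP).2 (h i j)
      rwa [map_sub, map_mul, map_mul] at h4)
    (by
      have h4 := AlgHom.map_det (lin P) A
      rw [hdet, map_zero] at h4
      exact h4.symm)
  have hinv : ∀ p : P3, lin P⁻¹ (lin P p) = p := fun p => by
    rw [lin_lin, Matrix.mul_nonsing_inv _ hP, lin_one]
  refine ⟨c, lin P⁻¹ s, lin P⁻¹ t, lin P⁻¹ l, hc, lin_homogeneous _ hs, ?_, ?_⟩
  · have h4 := congrArg (lin P⁻¹) hst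
    rw [map_sum, map_add, map_mul, map_mul, hinv] at h4
    rw [← h4]
    refine Finset.sum_congr rfl fun i _ => ?_
    have hC : lin P⁻¹ (C (c i)) = C (c i) := (lin P⁻¹).commutes _
    rw [map_mul, hinv, hC]
  · have h4 := lin_mem_span (A := P⁻¹) hsq
    rwa [hinv, hinv, map_pow] at h4

/-- **Six sections.** If a theta characteristic (twisted by a line) of a plane sextic has six
sections and there is no section of lower degree, the sextic has a symmetric determinantal
representation by linear forms. -/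
theorem dixon_six {d e : ℕ} {f u : P3} (hf : f.IsHomogeneous 6) (pf : Prime f)
    (hu : u.IsHomogeneous e) (hfu : ¬ f ∣ u) (b : Fin 6 → P3)
    (hb : ∀ i, (b i).IsHomogeneous (d + 1)) (A : Matrix (Fin 6) (Fin 6) P3) (sA : A.IsSymm)
    (hA : ∀ i j, (A i j).IsHomogeneous 5) (h : ∀ i j, f ∣ b i * b j - u * A i j)
    (hind : ∀ c : Fin 6 → ℂ, f ∣ ∑ i, C (c i) * b i → c = 0)
    (hsec : ∀ s : P3, s.IsHomogeneous d → s ^ 2 ∈ Ideal.span {u, f} → f ∣ s) :
    ∃ N : Matrix (Fin 6) (Fin 6) P3, N.IsSymm ∧ (∀ i j, (N i j).IsHomogeneous 1) ∧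
      N * A = f • (1 : Matrix (Fin 6) (Fin 6) P3) ∧
      A * N = f • (1 : Matrix (Fin 6) (Fin 6) P3) ∧
      (∃ x : ℂ, x ≠ 0 ∧ N.det = C x * f) ∧ ∃ x : ℂ, x ≠ 0 ∧ A.det = C x * f ^ 5 := by
  refine dixon (n := 4) hf pf hfu A sA hA b h (by norm_num) (by norm_num) fun hdet => ?_
  obtain ⟨c, s, t, l, hc, hs, hst, hsq⟩ :=
    exists_lower_section (by norm_num) hf pf hu hfu b hb A (by norm_num) hA h hdet
  apply hc
  apply hind
  rw [hst]
  exact dvd_add ((hsec s hs hsq).mul_left _) (dvd_mul_right _ _)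

/-- **Three sections.** -/
theorem dixon_three {f u : P3} (hf : f.IsHomogeneous 6) (pf : Prime f) (hfu : ¬ f ∣ u)
    (b : Fin 3 → P3) (A : Matrix (Fin 3) (Fin 3) P3) (sA : A.IsSymm)
    (hA : ∀ i j, (A i j).IsHomogeneous 4) (h : ∀ i j, f ∣ b i * b j - u * A i j)
    (hdet : A.det ≠ 0) :
    ∃ Q : Matrix (Fin 3) (Fin 3) P3, Q.IsSymm ∧ (∀ i j, (Q i j).IsHomogeneous 2) ∧
      Q * A = f • (1 : Matrix (Fin 3) (Fin 3) P3) ∧
      A * Q = f • (1 : Matrix (Fin 3) (Fin 3) P3) ∧
      (∃ x : ℂ, x ≠ 0 ∧ Q.det = C x * f) ∧ ∃ x : ℂ, x ≠ 0 ∧ A.det = C x * f ^ 2 :=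
  dixon (n := 1) hf pf hfu A sA hA b h (by norm_num) (by norm_num) hdet

/-- The products of sections. -/
theorem exists_gram {n d e a : ℕ} {f u : P3} (hf : f.IsHomogeneous 6) (sf : SmoothP f)
    (hu : u.IsHomogeneous e) (hfu : ¬ f ∣ u) (hd : d + d = e + a) (b : Fin n → P3)
    (hb : ∀ i, (b i).IsHomogeneous d) (hb2 : ∀ i, b i ^ 2 ∈ Ideal.span {u, f}) :
    ∃ A : Matrix (Fin n) (Fin n) P3, A.IsSymm ∧ (∀ i j, (A i j).IsHomogeneous a) ∧
      ∀ i j, f ∣ b i * b j - u * A i j := by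
  have pf := prime_of_smoothP hf (by norm_num) sf
  have h1 : ∀ i j, ∃ A : P3, A.IsHomogeneous a ∧ f ∣ b i * b j - u * A := by
    intro i j
    have hij : (b i * b j).IsHomogeneous (e + a) := by
      have := (hb i).mul (hb j)
      rwa [hd] at this
    exact exists_homog_coeff hij hu hf
      (mul_mem_span hf (by norm_num) pf sf hu hfu hij (hb2 i) (hb2 j))
  choose A hA hA' using h1
  refine ⟨Matrix.of fun i j => if i ≤ j then A i j else A j i, ?_, ?_, ?_⟩
  · refine Matrix.IsSymm.ext fun i j => ?_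
    rw [Matrix.of_apply, Matrix.of_apply]
    rcases lt_trichotomy i j with h | h | h
    · rw [if_neg (not_le.2 h), if_pos h.le]
    · rw [h]
    · rw [if_pos h.le, if_neg (not_le.2 h)]
  · intro i j
    rw [Matrix.of_apply]
    split_ifs
    · exact hA i j
    · exact hA j i
  · intro i j
    rw [Matrix.of_apply]
    split_ifs
    · exact hA' i j
    · rw [mul_comm (b i)]
      exact hA' j i

/-- The matrix of products has rank one modulo `f`. -/
lemma gram_minor {ι : Type*} {f u : P3} (pf : Prime f) (hfu : ¬ f ∣ u) {b : ι → P3}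
    {A : Matrix ι ι P3} (h : ∀ i j, f ∣ b i * b j - u * A i j) (i j k l : ι) :
    f ∣ A i j * A k l - A i l * A k j := by
  have h1 : f ∣ u ^ 2 * (A i j * A k l - A i l * A k j) := by
    obtain ⟨p, hp⟩ := h i j
    obtain ⟨q, hq⟩ := h k l
    obtain ⟨r, hr⟩ := h i l
    obtain ⟨s, hs⟩ := h k j
    refine ⟨-p * (u * A k l) - b i * b j * q + r * (u * A k j) + b i * b l * s, ?_⟩
    linear_combination (-(u * A k l)) * hp - (b i * b j) * hq + (u * A k j) * hr +
      (b i * b l) * hs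
  exact (pf.dvd_or_dvd h1).resolve_left fun h2 => hfu (pf.dvd_of_dvd_pow h2)

/-- A diagonal entry of the matrix of products. -/
lemma gram_diag {ι : Type*} {f u : P3} (pf : Prime f) {b : ι → P3}
    {A : Matrix ι ι P3} (h : ∀ i j, f ∣ b i * b j - u * A i j) {i : ι} (hb : ¬ f ∣ b i) :
    ¬ f ∣ A i i := by
  intro h1
  apply hb
  have h2 : f ∣ b i ^ 2 := by
    have e : b i ^ 2 = (b i * b i - u * A i i) + u * A i i := by ring
    rw [e]
    exact dvd_add (h i i) (h1.mul_left _)
  exact pf.dvd_of_dvd_pow h2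

end Vale.Agent.P287.C8
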