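import Vale.Agent.P287.C8.DixonDeg
import Vale.Agent.P287.C8.Dixon

/-!
The Dixon construction with three sections and vanishing determinant.
-/

namespace Vale.Agent.P287.C8

open MvPolynomial Module Vale.Agent.P287 Vale.Agent.P287.H925 Vale.Agent.P287.H925.NetResult
  Vale.Agent.P287.Theta Vale.Agent.P287.H139

namespace Deg

/-- the conclusion: a touching conic -/
def Touching (f u : P3) : Prop :=
  ∃ (a s t : P3) (es et : ℕ), a.IsHomogeneous 2 ∧ s.IsHomogeneous es ∧ t.IsHomogeneous et ∧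
    ¬ f ∣ s ∧ ¬ f ∣ t ∧ f ∣ s ^ 2 * (u * a) - t ^ 2

/-- two sections with vanishing Gram determinant -/
lemma touching_of_pair {f u : P3} (hf : f.IsHomogeneous 6) (pf : Prime f)
    {d : ℕ} {b₀ b₁ : P3} (hb₀ : b₀.IsHomogeneous d)
    (hind : ∀ c₀ c₁ : ℂ, f ∣ C c₀ * b₀ + C c₁ * b₁ → c₀ = 0 ∧ c₁ = 0) {A B D : P3}
    (hA : A.IsHomogeneous 4) (hD : D.IsHomogeneous 4)
    (hA' : f ∣ b₀ ^ 2 - u * A) (hB' : f ∣ b₀ * b₁ - u * B) (hD' : f ∣ b₁ ^ 2 - u * D)
    (h : A * D = B ^ 2) : Touching f u := by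
  have hfb₀ : ¬ f ∣ b₀ := by
    intro h
    exact one_ne_zero (hind 1 0 (by simpa using h)).1
  have hfb₁ : ¬ f ∣ b₁ := by
    intro h
    exact one_ne_zero (hind 0 1 (by simpa using h)).2
  have hA0 : A ≠ 0 := by
    rintro rfl
    rw [mul_zero, sub_zero] at hA'
    exact hfb₀ (pf.dvd_of_dvd_pow hA')
  have hD0 : D ≠ 0 := by
    rintro rfl
    rw [mul_zero, sub_zero] at hD'
    exact hfb₁ (pf.dvd_of_dvd_pow hD')
  obtain ⟨e, a, c, hAe, hDe, hBe⟩ := exists_of_mul_eq_sq hA0 h
  obtain ⟨m, hm⟩ := homog_of_mul (hAe ▸ hA) (hAe ▸ hA0)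
  have hsq : ∀ {x : P3}, (e * x ^ 2).IsHomogeneous 4 → e * x ^ 2 ≠ 0 →
      ∃ n, 4 = m + 2 * n ∧ x.IsHomogeneous n := by
    intro x hx hx0
    obtain ⟨l, hl, hxl⟩ := degree_le_of_mul hm hx hx0
    rw [pow_two] at hxl
    obtain ⟨n, hn⟩ := homog_of_mul hxl (by
      rw [← pow_two]; exact right_ne_zero_of_mul hx0)
    have h1 : l = n + n := hxl.inj_right (hn.mul hn) (by
      rw [← pow_two]; exact right_ne_zero_of_mul hx0)
    exact ⟨n, by omega, hn⟩
  obtain ⟨n, hn, han⟩ := hsq (hAe ▸ hA) (hAe ▸ hA0)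
  obtain ⟨n', hn', hcn⟩ := hsq (hDe ▸ hD) (hDe ▸ hD0)
  obtain rfl : n' = n := by omega
  have ha0 : a ≠ 0 := by
    rintro rfl
    apply hA0
    rw [hAe]; ring
  have hn1 : n' = 0 ∨ n' = 1 ∨ n' = 2 := by omega
  rcases hn1 with rfl | rfl | rfl
  · exfalso
    have h1 : f ∣ (c * b₀ - a * b₁) ^ 2 := by
      have e1 : (c * b₀ - a * b₁) ^ 2 = c ^ 2 * (b₀ ^ 2 - u * A)
          - 2 * a * c * (b₀ * b₁ - u * B) + a ^ 2 * (b₁ ^ 2 - u * D) := by
        rw [hAe, hBe, hDe]; ring
      rw [e1]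
      exact dvd_add (dvd_sub (hA'.mul_left _) (hB'.mul_left _)) (hD'.mul_left _)
    have h2 := pf.dvd_of_dvd_pow h1
    obtain ⟨α, rfl⟩ := exists_C_of_hom_zero han
    obtain ⟨γ, rfl⟩ := exists_C_of_hom_zero hcn
    have h3 := hind γ (-α) (by
      rw [map_neg, neg_mul, ← sub_eq_add_neg]; exact h2)
    apply ha0
    rw [neg_eq_zero.1 h3.2, map_zero]
  · obtain rfl : m = 2 := by omega
    refine ⟨e, a, b₀, 1, d, hm, han, hb₀, not_dvd_of_degree hf han ha0 (by norm_num), hfb₀, ?_⟩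
    have e1 : a ^ 2 * (u * e) - b₀ ^ 2 = - (b₀ ^ 2 - u * A) := by rw [hAe]; ring
    rw [e1]
    exact (dvd_neg).2 hA'
  · obtain rfl : m = 0 := by omega
    have hX : ¬ f ∣ X 0 := not_dvd_of_degree hf (isHomogeneous_X ℂ (0 : Fin 3)) (X_ne_zero 0)
      (by norm_num)
    refine ⟨e * X 0 ^ 2, a, X 0 * b₀, 2, 1 + d, ?_, han, (isHomogeneous_X ℂ (0 : Fin 3)).mul hb₀,
      not_dvd_of_degree hf han ha0 (by norm_num), fun h1 => (pf.dvd_or_dvd h1).elim hX hfb₀, ?_⟩
    · have h1 := hm.mul ((isHomogeneous_X ℂ (0 : Fin 3)).pow 2)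
      exact h1
    · have e1 : a ^ 2 * (u * (e * X 0 ^ 2)) - (X 0 * b₀) ^ 2 =
          (b₀ ^ 2 - u * A) * (- X 0 ^ 2) := by rw [hAe]; ring
      rw [e1]
      exact hA'.mul_right _

/-- principal minors of the adjugate -/
lemma adj_minor {R : Type*} [CommRing R] {A : Matrix (Fin 3) (Fin 3) R} (sA : A.IsSymm)
    (hdet : A.det = 0) (i j : Fin 3) :
    A.adjugate i i * A.adjugate j j = A.adjugate i j ^ 2 := by
  have h10 : A 1 0 = A 0 1 := sA.apply 0 1
  have h20 : A 2 0 = A 0 2 := sA.apply 0 2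
  have h21 : A 2 1 = A 1 2 := sA.apply 1 2
  rw [Matrix.det_fin_three, h10, h20, h21] at hdet
  rw [Matrix.adjugate_fin_three]
  fin_cases i <;> fin_cases j <;>
    simp only [Matrix.of_apply, Matrix.cons_val_zero, Matrix.cons_val_one, Matrix.cons_val,
      Fin.zero_eta, Fin.mk_one, Fin.reduceFinMk, h10, h20, h21]
  · ring
  · linear_combination (A 2 2) * hdet
  · linear_combination (A 1 1) * hdet
  · linear_combination (A 2 2) * hdet
  · ring
  · linear_combination (A 0 0) * hdet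
  · linear_combination (A 1 1) * hdet
  · linear_combination (A 0 0) * hdet
  · ring

lemma squarefree_or_sq {q : P3} (hq : q.IsHomogeneous 2) (hq0 : q ≠ 0) :
    Squarefree q ∨ ∃ l : P3, l.IsHomogeneous 1 ∧ q = l ^ 2 := by
  by_cases hs : Squarefree q
  · exact Or.inl hs
  right
  simp only [Squarefree] at hs
  push Not at hs
  obtain ⟨x, ⟨y, hy⟩, hx⟩ := hs
  have hxy : q = x * (x * y) := by rw [hy]; ring
  obtain ⟨n, hn⟩ := homog_of_mul (hxy ▸ hq) (hxy ▸ hq0)
  obtain ⟨k, hk, hxk⟩ := degree_le_of_mul hn (hxy ▸ hq) (hxy ▸ hq0)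
  obtain ⟨m, hm, hym⟩ := degree_le_of_mul hn hxk (right_ne_zero_of_mul (hxy ▸ hq0))
  have hx0 : x ≠ 0 := left_ne_zero_of_mul (hxy ▸ hq0)
  have hn0 : n ≠ 0 := by
    rintro rfl
    exact hx (isUnit_of_homog_zero hn hx0)
  obtain rfl : n = 1 := by omega
  obtain rfl : m = 0 := by omega
  obtain ⟨c, rfl⟩ := exists_C_of_hom_zero hym
  obtain ⟨d, rfl⟩ := IsAlgClosed.exists_pow_nat_eq c (n := 2) (by norm_num)
  refine ⟨C d * x, ?_, ?_⟩
  · have := (isHomogeneous_C (Fin 3) d).mul hn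
    rwa [zero_add] at this
  · rw [hxy, C_pow]; ring

/-- the symmetric Koszul complex: a symmetric matrix killed by the generic vector -/
lemma koszul_sym {A : Matrix (Fin 3) (Fin 3) P3} (sA : A.IsSymm)
    (hA : ∀ i, ∑ j, X j * A i j = 0) :
    ∃ h00 h01 h02 h11 h12 h22 : P3,
      A 0 0 = X 1 ^ 2 * h22 - 2 * X 1 * X 2 * h12 + X 2 ^ 2 * h11 ∧
      A 1 1 = X 0 ^ 2 * h22 - 2 * X 0 * X 2 * h02 + X 2 ^ 2 * h00 ∧
      A 2 2 = X 0 ^ 2 * h11 - 2 * X 0 * X 1 * h01 + X 1 ^ 2 * h00 ∧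
      A 1 2 = -X 0 ^ 2 * h12 + X 0 * X 1 * h02 + X 0 * X 2 * h01 - X 1 * X 2 * h00 := by
  have h10 : A 1 0 = A 0 1 := sA.apply 0 1
  have h20 : A 2 0 = A 0 2 := sA.apply 0 2
  have h21 : A 2 1 = A 1 2 := sA.apply 1 2
  have h1 : ∀ i, ∃ y : Fin 3 → P3, A i 0 = X 1 * y 2 - X 2 * y 1 ∧
      A i 1 = X 2 * y 0 - X 0 * y 2 ∧ A i 2 = X 0 * y 1 - X 1 * y 0 :=
    fun i => koszul_one (A i) (hA i)
  choose Y hY0 hY1 hY2 using h1
  -- the vector `z`
  let z : Fin 3 → P3 := fun j => ∑ i, X i * Y i j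
  have hz : ∀ j, z j = X 0 * Y 0 j + X 1 * Y 1 j + X 2 * Y 2 j := fun j => by
    simp only [z, Fin.sum_univ_three]
  have hc : ∀ j, ∑ i, X i * A i j = 0 := by
    intro j
    rw [← hA j]
    exact Finset.sum_congr rfl fun i _ => by rw [sA.apply]
  simp only [Fin.sum_univ_three] at hc
  have c0 := hc 0
  have c1 := hc 1
  have c2 := hc 2
  rw [hY0, hY0, hY0] at c0
  rw [hY1, hY1, hY1] at c1
  rw [hY2, hY2, hY2] at c2
  obtain ⟨lam, hlam⟩ := koszul_two z (by rw [hz, hz]; linear_combination c2)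
    (by rw [hz, hz]; linear_combination -c1)
  obtain ⟨c, hc⟩ := exists_comb lam
  have hconst : constantCoeff lam = 0 := by
    have e : ∀ j, eval 0 (pderiv j (z j)) = eval 0 (Y j j) := by
      intro j
      rw [hz]
      fin_cases j <;> simp
    have e' : ∀ j, eval 0 (pderiv j (z j)) = eval 0 lam := by
      intro j
      rw [hlam, pderiv_mul, pderiv_X_self, map_add, map_mul, map_mul, eval_X, map_one]
      simp
    have e3 : lam = Y 0 0 + Y 1 1 + Y 2 2 := by
      have s1 : X 2 * (Y 0 0 + Y 1 1) - X 0 * Y 0 2 - X 1 * Y 1 2 = 0 := by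
        have := h10
        rw [hY0, hY1] at this
        linear_combination -this
      have s2 := hlam 2
      rw [hz] at s2
      apply mul_left_cancel₀ (X_ne_zero (R := ℂ) (2 : Fin 3))
      linear_combination -s2 - s1
    have e4 := congrArg (eval (0 : Fin 3 → ℂ)) e3
    rw [map_add, map_add, ← e, ← e, ← e, e', e', e'] at e4
    have e5 : eval (0 : Fin 3 → ℂ) lam = 0 := by linear_combination (-1/2) * e4
    have e6 : eval (0 : Fin 3 → ℂ) lam = constantCoeff lam := by
      exact congrFun (congrArg DFunLike.coe (eval_zero)) lam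
    rw [← e6, e5]
  rw [hconst, C_0, zero_add, Fin.sum_univ_three] at hc
  -- the corrected rows
  let Z : Fin 3 → Fin 3 → P3 := fun i j => Y i j - c i * X j
  have hZ : ∀ j, ∑ i, X i * Z i j = 0 := by
    intro j
    have := hlam j
    rw [hz, hc] at this
    simp only [Z, Fin.sum_univ_three]
    linear_combination this
  have h2 : ∀ j, ∃ y : Fin 3 → P3, Z 0 j = X 1 * y 2 - X 2 * y 1 ∧
      Z 1 j = X 2 * y 0 - X 0 * y 2 ∧ Z 2 j = X 0 * y 1 - X 1 * y 0 :=
    fun j => koszul_one (fun i => Z i j) (hZ j)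
  choose H hH0 hH1 hH2 using h2
  have r0 : ∀ i, A i 0 = X 1 * Z i 2 - X 2 * Z i 1 := by
    intro i; rw [hY0]; simp only [Z]; ring
  have r1 : ∀ i, A i 1 = X 2 * Z i 0 - X 0 * Z i 2 := by
    intro i; rw [hY1]; simp only [Z]; ring
  have r2 : ∀ i, A i 2 = X 0 * Z i 1 - X 1 * Z i 0 := by
    intro i; rw [hY2]; simp only [Z]; ring
  obtain ⟨κ, hκ⟩ : ∃ κ : P3, κ * 2 = 1 := ⟨C (1 / 2), by
    rw [show (2 : P3) = C 2 from (map_ofNat C 2).symm, ← C_mul]; norm_num⟩
  refine ⟨H 0 0, κ * (H 0 1 + H 1 0), κ * (H 0 2 + H 2 0), H 1 1, κ * (H 1 2 + H 2 1), H 2 2,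
    ?_, ?_, ?_, ?_⟩
  · rw [r0, hH0, hH0]
    linear_combination (X 1 * X 2 * (H 1 2 + H 2 1)) * hκ
  · rw [r1, hH1, hH1]
    linear_combination (X 0 * X 2 * (H 0 2 + H 2 0)) * hκ
  · rw [r2, hH2, hH2]
    linear_combination (X 0 * X 1 * (H 0 1 + H 1 0)) * hκ
  · have s1 : A 1 2 = κ * (A 1 2 + A 2 1) := by
      rw [h21]; linear_combination (-A 1 2) * hκ
    rw [s1, r2, r1, hH1, hH1, hH2, hH2]
    linear_combination (-X 1 * X 2 * H 0 0) * hκ

/-- the bordered matrix -/
def bord {R : Type*} [CommRing R] (h00 h01 h02 h11 h12 h22 v0 v1 v2 : R) :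
    Matrix (Fin 4) (Fin 4) R :=
  Matrix.of ![![h00, h01, h02, v0], ![h01, h11, h12, v1], ![h02, h12, h22, v2], ![v0, v1, v2, 0]]

lemma bord_symm {R : Type*} [CommRing R] (h00 h01 h02 h11 h12 h22 v0 v1 v2 : R) :
    (bord h00 h01 h02 h11 h12 h22 v0 v1 v2).IsSymm := by
  ext i j
  fin_cases i <;> fin_cases j <;> rfl

lemma bord_adj {R : Type*} [CommRing R] (h00 h01 h02 h11 h12 h22 v0 v1 v2 : R) :
    (bord h00 h01 h02 h11 h12 h22 v0 v1 v2).adjugate 0 0 =
      -(v1 ^ 2 * h22 - 2 * v1 * v2 * h12 + v2 ^ 2 * h11) := by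
  rw [Matrix.adjugate_fin_succ_eq_det_submatrix, Matrix.det_fin_three]
  simp [bord, Matrix.submatrix_apply]
  ring

lemma bord_det {R : Type*} [CommRing R] (h00 h01 h02 h11 h12 h22 v0 v1 v2 : R) :
    v0 ^ 2 * (bord h00 h01 h02 h11 h12 h22 v0 v1 v2).det =
      -((v0 ^ 2 * h22 - 2 * v0 * v2 * h02 + v2 ^ 2 * h00) *
        (v0 ^ 2 * h11 - 2 * v0 * v1 * h01 + v1 ^ 2 * h00) -
        (-v0 ^ 2 * h12 + v0 * v1 * h02 + v0 * v2 * h01 - v1 * v2 * h00) ^ 2) := by
  rw [Matrix.det_succ_row_zero]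
  simp [bord, Fin.sum_univ_succ, Matrix.det_fin_three, Matrix.submatrix_apply, Fin.succAbove]
  ring

/-- **Vanishing determinant**: either a touching conic, or a bordered determinant. -/
theorem det_zero_cases {f u : P3} (hf : f.IsHomogeneous 6) (pf : Prime f) (hfu : ¬ f ∣ u)
    {b : Fin 3 → P3} {d : ℕ} (hb : ∀ i, (b i).IsHomogeneous d)
    (hind : ∀ c : Fin 3 → ℂ, f ∣ ∑ i, C (c i) * b i → c = 0)
    {A : Matrix (Fin 3) (Fin 3) P3} (sA : A.IsSymm) (hA : ∀ i j, (A i j).IsHomogeneous 4)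
    (h : ∀ i j, f ∣ b i * b j - u * A i j) (hdet : A.det = 0) :
    Touching f u ∨ ∃ N : Matrix (Fin 4) (Fin 4) P3, N.IsSymm ∧ N 3 3 = 0 ∧ N.det = -f ∧
      N.adjugate 0 0 = -A 0 0 := by
  have h10 : A 1 0 = A 0 1 := sA.apply 0 1
  have h20 : A 2 0 = A 0 2 := sA.apply 0 2
  have h21 : A 2 1 = A 1 2 := sA.apply 1 2
  have hCb : ∀ (c : ℂ) (i : Fin 3), (C c * b i).IsHomogeneous d := by
    intro c i
    have := (isHomogeneous_C (Fin 3) c).mul (hb i)
    rwa [zero_add] at this
  have hCA : ∀ (c : ℂ) (i j : Fin 3), (C c * A i j).IsHomogeneous 4 := by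
    intro c i j
    have := (isHomogeneous_C (Fin 3) c).mul (hA i j)
    rwa [zero_add] at this
  have hQ : ∀ i j, ∃ Q : P3, Q.IsHomogeneous 2 ∧ A.adjugate i j = f * Q := fun i j =>
    exists_hom_of_dvd hf (adj_hom hA i j) (by omega) (by
      have := pow_dvd_adjugate (n := 1) pf hfu A b b h i j
      rwa [pow_one] at this)
  choose Q hQh hQ' using hQ
  have hmin : ∀ i j, Q i i * Q j j = Q i j ^ 2 := by
    intro i j
    have h1 := adj_minor sA hdet i j
    rw [hQ', hQ', hQ'] at h1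
    apply mul_left_cancel₀ (pow_ne_zero 2 pf.ne_zero)
    linear_combination h1
  by_cases hq0 : Q 2 2 = 0
  · -- rank one on the first two sections
    left
    have h1 := hQ' 2 2
    rw [hq0, mul_zero, Matrix.adjugate_fin_three] at h1
    simp only [Matrix.of_apply, Matrix.cons_val, h10] at h1
    refine touching_of_pair hf pf (hb 0) (b₁ := b 1) ?_ (hA 0 0) (B := A 0 1) (hA 1 1)
      (by rw [pow_two]; exact h 0 0) (h 0 1) (by rw [pow_two]; exact h 1 1) ?_
    · intro c₀ c₁ hc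
      have h2 := hind ![c₀, c₁, 0] (by
        rw [Fin.sum_univ_three]
        simpa using hc)
      exact ⟨congrFun h2 0, congrFun h2 1⟩
    · linear_combination h1
  have hkerf : ∀ i, ∑ j, A i j * Q j 2 = 0 := by
    intro i
    have h1 := congrFun (congrFun (Matrix.mul_adjugate A) i) 2
    rw [Matrix.mul_apply, hdet, zero_smul, Matrix.zero_apply] at h1
    apply mul_left_cancel₀ pf.ne_zero
    rw [mul_zero, ← h1, Finset.mul_sum]
    exact Finset.sum_congr rfl fun j _ => by rw [hQ']; ring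
  rcases squarefree_or_sq (hQh 2 2) hq0 with hsf | ⟨l, hl, hl2⟩
  · -- constant kernel vector: impossible
    exfalso
    have h1 : ∀ i, ∃ c : ℂ, Q i 2 = Q 2 2 * C c := by
      intro i
      have h2 : Q 2 2 ∣ Q i 2 := by
        rw [← hsf.dvd_pow_iff_dvd two_ne_zero, ← hmin]
        exact dvd_mul_left _ _
      obtain ⟨s, hs, hs'⟩ := exists_hom_of_dvd (d := 0) (hQh 2 2) (hQh i 2) rfl h2
      obtain ⟨c, rfl⟩ := exists_C_of_hom_zero hs
      exact ⟨c, hs'⟩
    choose c hc using h1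
    have h2 : ∑ j, A 2 j * C (c j) = 0 := by
      apply mul_left_cancel₀ hq0
      rw [mul_zero, ← hkerf 2, Finset.mul_sum]
      exact Finset.sum_congr rfl fun j _ => by rw [hc j]; ring
    have h3 : f ∣ (∑ j, C (c j) * b j) * b 2 := by
      have h4 : f ∣ ∑ j, C (c j) * (b 2 * b j - u * A 2 j) :=
        Finset.dvd_sum fun j _ => (h 2 j).mul_left _
      have h5 : ∑ j, C (c j) * (b 2 * b j - u * A 2 j) =
          (∑ j, C (c j) * b j) * b 2 - u * ∑ j, A 2 j * C (c j) := by
        rw [Finset.sum_mul, Finset.mul_sum, ← Finset.sum_sub_distrib]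
        exact Finset.sum_congr rfl fun j _ => by ring
      rwa [h5, h2, mul_zero, sub_zero] at h4
    have hb2 : ¬ f ∣ b 2 := by
      intro h4
      have h5 := hind ![0, 0, 1] (by
        rw [Fin.sum_univ_three]
        simpa using h4)
      exact one_ne_zero (congrFun h5 2)
    have h4 := hind c ((pf.dvd_or_dvd h3).resolve_right hb2)
    have h5 := hc 2
    rw [h4, Pi.zero_apply, C_0, mul_zero] at h5
    exact hq0 h5
  · -- linear kernel vector
    have hl0 : l ≠ 0 := by
      rintro rfl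
      exact hq0 (by rw [hl2]; ring)
    have h1 : ∀ i, ∃ v : P3, v.IsHomogeneous 1 ∧ Q i 2 = l * v := by
      intro i
      refine exists_hom_of_dvd hl (hQh i 2) rfl ?_
      rw [← UniqueFactorizationMonoid.pow_dvd_pow_iff_dvd (n := 2) two_ne_zero, ← hmin, hl2]
      exact dvd_mul_left _ _
    choose v hv hv' using h1
    have hv2 : v 2 = l := by
      have := hv' 2
      rw [hl2, pow_two] at this
      exact (mul_left_cancel₀ hl0 this).symm
    have hv20 : v 2 ≠ 0 := by rw [hv2]; exact hl0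
    have hker : ∀ i, A i 0 * v 0 + A i 1 * v 1 + A i 2 * v 2 = 0 := by
      intro i
      apply mul_left_cancel₀ hl0
      have := hkerf i
      rw [Fin.sum_univ_three, hv', hv', hv'] at this
      linear_combination this
    have hQ00 : Q 0 0 = v 0 ^ 2 := by
      have := hmin 0 2
      rw [hl2, hv'] at this
      apply mul_left_cancel₀ (pow_ne_zero 2 hl0)
      linear_combination this
    have hlin : ∀ i, ∃ c : Fin 3 → ℂ, v i = ∑ j, C (c j) * X j := fun i =>
      Conic.exists_linear_coeff (hv i)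
    choose V hV using hlin
    have hV' : ∀ i, v i = lin (Matrix.of V) (X i) := fun i => by
      rw [lin_X, hV i]; rfl
    by_cases hVd : (Matrix.of V).det = 0
    · -- dependent
      left
      obtain ⟨c, hc0, hc⟩ := Matrix.exists_vecMul_eq_zero_iff.2 hVd
      have hcv : C (c 0) * v 0 + C (c 1) * v 1 + C (c 2) * v 2 = 0 := by
        have h2 : ∀ j, c 0 * V 0 j + c 1 * V 1 j + c 2 * V 2 j = 0 := by
          intro j
          have := congrFun hc j
          rw [Matrix.vecMul, dotProduct, Fin.sum_univ_three] at this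
          exact this
        have h3 : ∀ j, (C (c 0) * C (V 0 j) + C (c 1) * C (V 1 j) + C (c 2) * C (V 2 j) : P3) = 0 :=
          fun j => by rw [← C_mul, ← C_mul, ← C_mul, ← C_add, ← C_add, h2, C_0]
        rw [hV 0, hV 1, hV 2]
        simp only [Fin.sum_univ_three]
        linear_combination X 0 * h3 0 + X 1 * h3 1 + X 2 * h3 2
      by_cases hc00 : c 0 = 0
      · have hc1 : c 1 ≠ 0 := by
          intro hc1
          rw [hc00, hc1, C_0, zero_mul, zero_mul, zero_add, zero_add] at hcv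
          have hc2 := (mul_eq_zero.1 hcv).resolve_right hv20
          rw [C_eq_zero] at hc2
          apply hc0
          funext i
          fin_cases i
          · exact hc00
          · exact hc1
          · exact hc2
        obtain ⟨β, hβ⟩ : ∃ β : ℂ, v 1 = C β * v 2 := by
          refine ⟨-c 2 / c 1, ?_⟩
          have h2 : (C (c 1) : P3) ≠ 0 := by rwa [Ne, C_eq_zero]
          apply mul_left_cancel₀ h2
          rw [← mul_assoc, ← C_mul, mul_div_cancel₀ _ hc1, C_neg]
          rw [hc00, C_0] at hcv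
          linear_combination hcv
        have k0 := hker 0
        have k1 := hker 1
        have k2 := hker 2
        rw [hβ] at k0 k1 k2
        rw [h10] at k1
        rw [h20, h21] at k2
        refine touching_of_pair hf pf (hb 0) (b₁ := b 2 + C β * b 1) ?_ (hA 0 0)
          (B := A 0 2 + C β * A 0 1) (D := A 2 2 + 2 * C β * A 1 2 + C β ^ 2 * A 1 1)
          ?_ (by rw [pow_two]; exact h 0 0) ?_ ?_ ?_
        · intro c₀ c₁ hc
          have h2 := hind ![c₀, β * c₁, c₁] (by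
            rw [Fin.sum_univ_three]
            refine hc.trans (dvd_of_eq ?_)
            simp only [Matrix.cons_val_zero, Matrix.cons_val_one, Matrix.cons_val, C_mul]
            ring)
          exact ⟨congrFun h2 0, congrFun h2 2⟩
        · have e : A 2 2 + 2 * C β * A 1 2 + C β ^ 2 * A 1 1 =
              A 2 2 + (C (2 * β) * A 1 2 + C (β ^ 2) * A 1 1) := by
            rw [C_mul, C_pow, map_ofNat]; ring
          rw [e]
          exact (hA 2 2).add ((hCA _ _ _).add (hCA _ _ _))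
        · have e : b 0 * (b 2 + C β * b 1) - u * (A 0 2 + C β * A 0 1) =
              (b 0 * b 2 - u * A 0 2) + C β * (b 0 * b 1 - u * A 0 1) := by ring
          rw [e]
          exact dvd_add (h 0 2) ((h 0 1).mul_left _)
        · have e : (b 2 + C β * b 1) ^ 2 - u * (A 2 2 + 2 * C β * A 1 2 + C β ^ 2 * A 1 1) =
              (b 2 * b 2 - u * A 2 2) + 2 * C β * (b 1 * b 2 - u * A 1 2) +
                C β ^ 2 * (b 1 * b 1 - u * A 1 1) := by ring
          rw [e]
          exact dvd_add (dvd_add (h 2 2) ((h 1 2).mul_left _)) ((h 1 1).mul_left _)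
        · apply mul_left_cancel₀ hv20
          linear_combination A 0 0 * (k2 + C β * k1) - (A 0 2 + C β * A 0 1) * k0
      · obtain ⟨α, β, hαβ⟩ : ∃ α β : ℂ, v 0 = C α * v 1 + C β * v 2 := by
          refine ⟨-c 1 / c 0, -c 2 / c 0, ?_⟩
          have h2 : (C (c 0) : P3) ≠ 0 := by rwa [Ne, C_eq_zero]
          apply mul_left_cancel₀ h2
          rw [mul_add, ← mul_assoc, ← mul_assoc, ← C_mul, ← C_mul, mul_div_cancel₀ _ hc00,
            mul_div_cancel₀ _ hc00, C_neg, C_neg]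
          linear_combination hcv
        have k0 := hker 0
        have k1 := hker 1
        have k2 := hker 2
        rw [hαβ] at k0 k1 k2
        rw [h10] at k1
        rw [h20, h21] at k2
        refine touching_of_pair hf pf (d := d) (b₀ := b 1 + C α * b 0) (b₁ := b 2 + C β * b 0)
          ((hb 1).add (hCb _ _)) ?_ (A := A 1 1 + 2 * C α * A 0 1 + C α ^ 2 * A 0 0)
          (B := A 1 2 + C β * A 0 1 + C α * A 0 2 + C α * C β * A 0 0)
          (D := A 2 2 + 2 * C β * A 0 2 + C β ^ 2 * A 0 0) ?_ ?_ ?_ ?_ ?_ ?_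
        · intro c₀ c₁ hc
          have h2 := hind ![α * c₀ + β * c₁, c₀, c₁] (by
            rw [Fin.sum_univ_three]
            refine hc.trans (dvd_of_eq ?_)
            simp only [Matrix.cons_val_zero, Matrix.cons_val_one, Matrix.cons_val, C_mul, C_add]
            ring)
          exact ⟨congrFun h2 1, congrFun h2 2⟩
        · have e : A 1 1 + 2 * C α * A 0 1 + C α ^ 2 * A 0 0 =
              A 1 1 + (C (2 * α) * A 0 1 + C (α ^ 2) * A 0 0) := by
            rw [C_mul, C_pow, map_ofNat]; ring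
          rw [e]
          exact (hA 1 1).add ((hCA _ _ _).add (hCA _ _ _))
        · have e : A 2 2 + 2 * C β * A 0 2 + C β ^ 2 * A 0 0 =
              A 2 2 + (C (2 * β) * A 0 2 + C (β ^ 2) * A 0 0) := by
            rw [C_mul, C_pow, map_ofNat]; ring
          rw [e]
          exact (hA 2 2).add ((hCA _ _ _).add (hCA _ _ _))
        · have e : (b 1 + C α * b 0) ^ 2 - u * (A 1 1 + 2 * C α * A 0 1 + C α ^ 2 * A 0 0) =
              (b 1 * b 1 - u * A 1 1) + 2 * C α * (b 0 * b 1 - u * A 0 1) +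
                C α ^ 2 * (b 0 * b 0 - u * A 0 0) := by ring
          rw [e]
          exact dvd_add (dvd_add (h 1 1) ((h 0 1).mul_left _)) ((h 0 0).mul_left _)
        · have e : (b 1 + C α * b 0) * (b 2 + C β * b 0) -
              u * (A 1 2 + C β * A 0 1 + C α * A 0 2 + C α * C β * A 0 0) =
              (b 1 * b 2 - u * A 1 2) + C β * (b 0 * b 1 - u * A 0 1) +
                C α * (b 0 * b 2 - u * A 0 2) + C α * C β * (b 0 * b 0 - u * A 0 0) := by ring
          rw [e]
          exact dvd_add (dvd_add (dvd_add (h 1 2) ((h 0 1).mul_left _)) ((h 0 2).mul_left _))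
            ((h 0 0).mul_left _)
        · have e : (b 2 + C β * b 0) ^ 2 - u * (A 2 2 + 2 * C β * A 0 2 + C β ^ 2 * A 0 0) =
              (b 2 * b 2 - u * A 2 2) + 2 * C β * (b 0 * b 2 - u * A 0 2) +
                C β ^ 2 * (b 0 * b 0 - u * A 0 0) := by ring
          rw [e]
          exact dvd_add (dvd_add (h 2 2) ((h 0 2).mul_left _)) ((h 0 0).mul_left _)
        · apply mul_left_cancel₀ hv20
          linear_combination (A 1 1 + 2 * C α * A 0 1 + C α ^ 2 * A 0 0) * (k2 + C β * k0) -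
            (A 1 2 + C β * A 0 1 + C α * A 0 2 + C α * C β * A 0 0) * (k1 + C α * k0)
    · -- independent
      right
      have hVu : IsUnit (Matrix.of V).det := isUnit_iff_ne_zero.2 hVd
      have hvX : ∀ i, lin (Matrix.of V)⁻¹ (v i) = X i := fun i => by
        rw [hV', Conic.lin_inv_lin hVu]
      obtain ⟨g00, g01, g02, g11, g12, g22, e0, e1, e2, e3⟩ :=
        koszul_sym (A := A.map (lin (Matrix.of V)⁻¹)) (by
          refine Matrix.ext fun i j => ?_
          rw [Matrix.transpose_apply, Matrix.map_apply, Matrix.map_apply, sA.apply]) (by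
          intro i
          have h2 := congrArg (lin (Matrix.of V)⁻¹) (hker i)
          simp only [map_add, map_mul, hvX, map_zero] at h2
          simp only [Matrix.map_apply, Fin.sum_univ_three]
          linear_combination h2)
      have tr : ∀ p, lin (Matrix.of V) (lin (Matrix.of V)⁻¹ p) = p := Conic.lin_lin_inv hVu
      have f0 := congrArg (lin (Matrix.of V)) e0
      have f1 := congrArg (lin (Matrix.of V)) e1
      have f2 := congrArg (lin (Matrix.of V)) e2
      have f3 := congrArg (lin (Matrix.of V)) e3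
      simp only [Matrix.map_apply, map_add, map_sub, map_mul, map_pow, map_neg, map_ofNat, tr,
        ← hV'] at f0 f1 f2 f3
      refine ⟨bord (lin (Matrix.of V) g00) (lin (Matrix.of V) g01) (lin (Matrix.of V) g02)
        (lin (Matrix.of V) g11) (lin (Matrix.of V) g12) (lin (Matrix.of V) g22) (v 0) (v 1) (v 2),
        bord_symm _ _ _ _ _ _ _ _ _, rfl, ?_, ?_⟩
      · have hv00 : v 0 ≠ 0 := by
          intro h0
          have := hvX 0
          rw [h0, map_zero] at this
          exact X_ne_zero (R := ℂ) (0 : Fin 3) this.symm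
        apply mul_left_cancel₀ (pow_ne_zero 2 hv00)
        have h2 := hQ' 0 0
        rw [Matrix.adjugate_fin_three, hQ00] at h2
        simp only [Matrix.of_apply, Matrix.cons_val_zero, h21] at h2
        rw [bord_det, ← f1, ← f2, ← f3]
        linear_combination -h2
      · rw [bord_adj, ← f0]

end Deg

section

variable {M : Matrix (Fin 4) (Fin 4) P3} {g : P3} {m : ℕ}

/-- **Three sections with vanishing determinant.** -/
theorem rational_of_det_zero (hM : M.IsSymm)
    (hdeg : ∀ i j, (M i j).IsHomogeneous (1 + wt i + wt j)) (hs : SmoothForm (cubicOf M))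
    (hsm : SmoothP M.det) (hg : Irreducible g) (hgm : g.IsHomogeneous m) (hm : 2 ≤ m)
    (hgf : ¬ g ∣ M.det)
    (hsq : ∃ (e : ℕ) (s c : P3), c.IsHomogeneous e ∧ ¬ g ∣ c ∧ g ∣ c ^ 2 * M.det - s ^ 2)
    {b : Fin 3 → P3} {d : ℕ} (hb : ∀ i, (b i).IsHomogeneous d)
    (hind : ∀ c : Fin 3 → ℂ, M.det ∣ ∑ i, C (c i) * b i → c = 0)
    {A : Matrix (Fin 3) (Fin 3) P3} (sA : A.IsSymm) (hA : ∀ i j, (A i j).IsHomogeneous 4)
    (hbA : ∀ i j, M.det ∣ b i * b j - (M.adjugate 3 3 * g) * A i j) (hdet : A.det = 0) :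
    RationalHypersurface (cubicOf M) := by
  have hdet' : (M.submatrix sw sw).det = M.det := Matrix.det_submatrix_equiv_self sw M
  have hadj : (M.submatrix sw sw).adjugate 0 0 = M.adjugate 3 3 := by
    rw [Matrix.adjugate_submatrix_equiv_self]
    rfl
  have hf := det_hom6 hdeg
  have pf := prime_of_smoothP hf (by norm_num) hsm
  by_cases hδ : M.adjugate 3 3 = 0
  · obtain ⟨v, hv, hqv⟩ := isotropic_of_minor (M := M.submatrix sw sw) (by rw [hadj, hδ])
    exact Deg.rational_of_sw hdeg hs v hv hqv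
  have hδh := adj_hom3 hdeg
  have hfδ : ¬ M.det ∣ M.adjugate 3 3 := not_dvd_of_degree hf hδh hδ (by norm_num)
  have hfu : ¬ M.det ∣ M.adjugate 3 3 * g := by
    intro h
    rcases pf.dvd_or_dvd h with h1 | h1
    · exact hfδ h1
    · exact hgf (pf.irreducible.associated_of_dvd hg h1).symm.dvd
  rcases Deg.det_zero_cases hf pf hfu hb hind sA hA hbA hdet with
    ⟨a, s, t, es, et, ha, hs', ht, hfs, hft, h⟩ | ⟨N, sN, hN33, hNd, hNa⟩
  · exact rational_of_conic hM hdeg hs hsm hg hgm hm hgf hsq ha hs' ht hfs hft h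
  have hb0 : ¬ M.det ∣ b 0 := by
    intro h4
    have h5 := hind ![1, 0, 0] (by
      rw [Fin.sum_univ_three]
      simpa using h4)
    exact one_ne_zero (congrFun h5 0)
  have hA00 : ¬ M.det ∣ A 0 0 := not_dvd_diag pf hbA hb0
  have hdN : M.det ∣ N.det := by rw [hNd]; exact (dvd_neg).2 dvd_rfl
  have hNa' : ¬ M.det ∣ N.adjugate 0 0 := by rw [hNa, dvd_neg]; exact hA00
  have H := chartData (M := M.submatrix sw sw) (M' := N) (A := -N.adjugate) (g := g)
    (b := b 0) (e := 0) (a := 4) (c0 := -1) (by norm_num) (hM.submatrix sw) sN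
    (by
      refine Matrix.ext fun i j => ?_
      rw [Matrix.transpose_apply, Matrix.neg_apply, Matrix.neg_apply, adj_symm' sN])
    (by rw [hdet', Matrix.mul_neg, Matrix.mul_adjugate, hNd, neg_smul, neg_neg])
    (by rw [hdet']; exact hf) (by rw [hdet']; exact pf)
    (by rw [hadj]; exact hδh) (by rw [hadj]; exact hδ) hgm hm hg.prime
    (by rw [hdet']; exact hgf)
    (by rw [Matrix.neg_apply, hNa, neg_neg]; exact hA 0 0)
    (by rw [hdet', Matrix.neg_apply, dvd_neg]; exact hNa')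
    (by
      intro i j
      rw [hdet']
      have h1 := dvd_minor_adj N pf hdN 0 hNa' i j
      simp only [Matrix.neg_apply, neg_mul_neg]
      exact h1)
    (by
      rw [hdet', hadj, Matrix.neg_apply, hNa, neg_neg, pow_two]
      exact hbA 0 0)
    (by rw [hdet', hNd, C_neg, C_1, neg_one_mul]) (by rw [hdet']; exact hsq)
  obtain ⟨U, hU, hUd⟩ := ChartData.lagrangian (n := 2) H
  simp only [map_cr_crMap, crMap_cr] at hU
  have hG0 : (N.map (aeval tvec : P3 →ₐ[ℂ] RatK)).det ≠ 0 := by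
    have h1 : (N.map (aeval tvec : P3 →ₐ[ℂ] RatK)).det = aeval tvec N.det :=
      (AlgHom.map_det (aeval tvec : P3 →ₐ[ℂ] RatK) N).symm
    rw [h1, hNd, map_neg, neg_ne_zero]
    exact aeval_tvec_ne_zero hf pf.ne_zero
  have hγ : aeval tvec g ≠ (0 : RatK) := aeval_tvec_ne_zero hgm hg.ne_zero
  rcases exists_similarity4 (Q := (M.submatrix sw sw).map (aeval tvec : P3 →ₐ[ℂ] RatK))
    hG0 hγ U hU hUd with ⟨v, hv, hqv⟩ | ⟨φ, hφ⟩
  · exact Deg.rational_of_sw hdeg hs v hv hqv
  · have h1 := hφ (φ.symm (Pi.single 3 1))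
    rw [LinearEquiv.apply_symm_apply, Matrix.mulVec_single_one, single_one_dotProduct] at h1
    have h2 : (N.map (aeval tvec : P3 →ₐ[ℂ] RatK)).col 3 3 = 0 := by
      change aeval tvec (N 3 3) = 0
      rw [hN33, map_zero]
    rw [h2] at h1
    refine Deg.rational_of_sw hdeg hs (φ.symm (Pi.single 3 1)) ?_
      ((mul_eq_zero.1 h1.symm).resolve_left (inv_ne_zero hγ))
    intro h3
    rw [LinearEquiv.map_eq_zero_iff] at h3
    have h4 := congrFun h3 3
    rw [Pi.single_eq_same] at h4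
    exact one_ne_zero h4

end

end Vale.Agent.P287.C8
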