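import Vale.Agent.P287.C8.Basic

/-!
Dimensions of the graded pieces of `ℂ[X₀, X₁, X₂]` and of the coordinate ring of a plane curve.
-/

namespace Vale.Agent.P287.C8

open MvPolynomial Module Vale.Agent.P287 Vale.Agent.P287.H925 Vale.Agent.P287.Theta

instance finite_homog (d : ℕ) : FiniteDimensional ℂ (homogeneousSubmodule (Fin 3) ℂ d) :=
  Module.Finite.iff_fg.2 (homogeneousSubmodule_fg (Fin 3) ℂ d)

/-- the number of monomials of degree `d` in three variables -/
lemma finrank_homog (d : ℕ) :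
    finrank ℂ (homogeneousSubmodule (Fin 3) ℂ d) = (d + 2).choose 2 := by
  have h1 : ({e : Fin 3 →₀ ℕ | e.degree = d} : Set (Fin 3 →₀ ℕ)) =
      ((Finset.univ : Finset (Fin 3)).finsuppAntidiag d : Set (Fin 3 →₀ ℕ)) := by
    ext e
    simp [Finset.mem_finsuppAntidiag, Finsupp.degree_eq_sum]
  have e1 := AddMonoidAlgebra.supportedEquivFinsupp (R := ℂ) (S := ℂ)
    ({e : Fin 3 →₀ ℕ | e.degree = d} : Set (Fin 3 →₀ ℕ))
  have h2 : finrank ℂ (homogeneousSubmodule (Fin 3) ℂ d) =
      finrank ℂ (({e : Fin 3 →₀ ℕ | e.degree = d} : Set (Fin 3 →₀ ℕ)) →₀ ℂ) := by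
    rw [homogeneousSubmodule_eq_finsupp_supported]
    exact e1.finrank_eq
  rw [h2, h1, finrank_finsupp_self]
  have h3 := Finset.card_finsuppAntidiag_nat_eq_choose (s := (Finset.univ : Finset (Fin 3))) d
  simp only [Finset.card_univ, Fintype.card_fin] at h3
  have h4 : Fintype.card (((Finset.univ : Finset (Fin 3)).finsuppAntidiag d :
      Set (Fin 3 →₀ ℕ)) : Type) = (3 + d - 1).choose d := by
    rw [← h3]
    exact Fintype.card_coe _
  rw [h4, show 3 + d - 1 = d + 2 by omega, ← Nat.choose_symm_add]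

lemma choose_two_mul (d : ℕ) : (d + 2).choose 2 * 2 = (d + 2) * (d + 1) := by
  rw [Nat.choose_two_right, Nat.div_mul_cancel]
  · rfl
  · exact even_iff_two_dvd.1 (Nat.even_mul_pred_self (d + 2))

variable {g : P3} {m : ℕ}

lemma mem_gr {d : ℕ} {x : RG g} : x ∈ gr g d ↔ ∃ p : P3, p.IsHomogeneous d ∧ q g p = x :=
  Iff.rfl

instance finite_gr (d : ℕ) : FiniteDimensional ℂ (gr g d) := by
  unfold gr
  infer_instance

/-- multiplication by `g` on forms of degree `d` -/
noncomputable def mulForm (hg : g.IsHomogeneous m) (d : ℕ) :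
    homogeneousSubmodule (Fin 3) ℂ d →ₗ[ℂ] homogeneousSubmodule (Fin 3) ℂ (m + d) :=
  ((LinearMap.mulLeft ℂ g).comp (homogeneousSubmodule (Fin 3) ℂ d).subtype).codRestrict _
    fun p => hg.mul p.2

/-- reduction modulo `g` on forms of degree `d` -/
noncomputable def redForm (g : P3) (d : ℕ) : homogeneousSubmodule (Fin 3) ℂ d →ₗ[ℂ] RG g :=
  (Ideal.Quotient.mkₐ ℂ (Ideal.span {g})).toLinearMap.comp
    (homogeneousSubmodule (Fin 3) ℂ d).subtype

lemma range_redForm (g : P3) (d : ℕ) : LinearMap.range (redForm g d) = gr g d := by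
  rw [redForm, LinearMap.range_comp, Submodule.range_subtype]
  rfl

lemma redForm_eq_zero {d : ℕ} {p : homogeneousSubmodule (Fin 3) ℂ d} :
    redForm g d p = 0 ↔ g ∣ (p : P3) := by
  change Ideal.Quotient.mk (Ideal.span {g}) (p : P3) = 0 ↔ _
  rw [Ideal.Quotient.eq_zero_iff_mem, Ideal.mem_span_singleton]

lemma finrank_gr_add_ker (g : P3) (d : ℕ) :
    finrank ℂ (gr g d) + finrank ℂ (LinearMap.ker (redForm g d)) = (d + 2).choose 2 := by
  rw [← range_redForm, LinearMap.finrank_range_add_finrank_ker, finrank_homog]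

lemma finrank_gr_add (hg : g.IsHomogeneous m) (hg0 : g ≠ 0) (d : ℕ) :
    finrank ℂ (gr g (m + d)) + (d + 2).choose 2 = (m + d + 2).choose 2 := by
  rw [← finrank_gr_add_ker g (m + d)]
  congr 1
  rw [← finrank_homog]
  have h1 : LinearMap.range (mulForm hg d) = LinearMap.ker (redForm g (m + d)) := by
    ext p
    rw [LinearMap.mem_ker, redForm_eq_zero, LinearMap.mem_range]
    constructor
    · rintro ⟨a, rfl⟩
      exact ⟨a, rfl⟩
    · rintro ⟨a, ha⟩
      by_cases ha0 : a = 0
      · refine ⟨0, ?_⟩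
        rw [map_zero]
        apply Subtype.ext
        rw [ha, ha0, mul_zero]
        rfl
      · have h2 : (g * a).IsHomogeneous (m + d) := ha ▸ p.2
        obtain ⟨n, hn, han⟩ := degree_le_of_mul hg h2 (mul_ne_zero hg0 ha0)
        have h3 : n = d := by omega
        subst h3
        exact ⟨⟨a, han⟩, Subtype.ext ha.symm⟩
  have h2 : Function.Injective (mulForm hg d) := by
    intro a b hab
    apply Subtype.ext
    exact mul_left_cancel₀ hg0 (congrArg Subtype.val hab)
  rw [← h1, LinearMap.finrank_range_of_inj h2]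

lemma finrank_gr_of_lt (hg : g.IsHomogeneous m) (hg0 : g ≠ 0) {d : ℕ} (hd : d < m) :
    finrank ℂ (gr g d) = (d + 2).choose 2 := by
  rw [← finrank_gr_add_ker g d]
  have h1 : LinearMap.ker (redForm g d) = ⊥ := by
    rw [eq_bot_iff]
    intro p hp
    rw [LinearMap.mem_ker, redForm_eq_zero] at hp
    obtain ⟨a, ha⟩ := hp
    by_cases ha0 : a = 0
    · rw [Submodule.mem_bot]
      apply Subtype.ext
      rw [ha, ha0, mul_zero]
      rfl
    · have h2 : (g * a).IsHomogeneous d := ha ▸ p.2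
      obtain ⟨n, hn, han⟩ := degree_le_of_mul hg h2 (mul_ne_zero hg0 ha0)
      omega
  rw [h1, finrank_bot, add_zero]

/-- the Hilbert function of a plane curve of odd degree -/
theorem finrank_gr_odd {r : ℕ} (hg : g.IsHomogeneous (2 * r + 1)) (hg0 : g ≠ 0) {n : ℕ}
    (hn : r ≤ n + 1) : finrank ℂ (gr g (r + n)) = (2 * r + 1) * (n + 1) := by
  by_cases h : r + 1 ≤ n
  · obtain ⟨d, rfl⟩ := Nat.exists_eq_add_of_le h
    have h1 := finrank_gr_add hg hg0 d
    rw [show r + (r + 1 + d) = 2 * r + 1 + d by ring]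
    have h2 := choose_two_mul d
    have h3 := choose_two_mul (2 * r + 1 + d)
    nlinarith
  · rw [finrank_gr_of_lt hg hg0 (by omega)]
    have h2 := choose_two_mul (r + n)
    rcases (show n + 1 = r ∨ n = r by omega) with h3 | h3
    · subst h3
      nlinarith
    · subst h3
      nlinarith

/-- a lower bound for the Hilbert function -/
lemma finrank_gr_ge (hg : g.IsHomogeneous m) (hg0 : g ≠ 0) (d : ℕ) :
    2 * finrank ℂ (gr g (m + d)) = m * (2 * d + m + 3) := by
  have h1 := finrank_gr_add hg hg0 d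
  have h2 := choose_two_mul d
  have h3 := choose_two_mul (m + d)
  nlinarith

end Vale.Agent.P287.C8
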