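import Vale.Agent.P287.C8.TypeA

/-!
The two reductions of the space of square roots `rt f g (r + 2)` for a curve `g` of odd degree
`2 r + 1`: modulo `g` (the space `Jq`) and modulo `f` (the space `thetaSp`).
-/

namespace Vale.Agent.P287.C8

open MvPolynomial Module Vale.Agent.P287 Vale.Agent.P287.H925 Vale.Agent.P287.Theta

variable {f u : P3} {e : ℕ}

/-- reduction of `rt` modulo a form `w` all of whose multiples of the right degree are in `rt` -/
lemma EvenOn.finrank_rt_eq (H : EvenOn f u e) {w : P3} {m n : ℕ} (hw : w.IsHomogeneous m)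
    (hw0 : w ≠ 0) (hm : ∀ a : P3, a.IsHomogeneous n → w * a ∈ rt f u (m + n)) :
    finrank ℂ (rt f u (m + n)) = finrank ℂ ((rt f u (m + n)).map
      (Ideal.Quotient.mkₐ ℂ (Ideal.span {w} : Ideal P3)).toLinearMap) + (n + 2).choose 2 := by
  have hfin := H.finite_rt (m + n)
  let φ : P3 →ₗ[ℂ] (P3 ⧸ (Ideal.span {w} : Ideal P3)) :=
    (Ideal.Quotient.mkₐ ℂ (Ideal.span {w})).toLinearMap
  have h1 := LinearMap.finrank_range_add_finrank_ker (φ.comp (rt f u (m + n)).subtype)
  rw [LinearMap.range_comp, Submodule.range_subtype] at h1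
  have h2 : finrank ℂ (LinearMap.ker (φ.comp (rt f u (m + n)).subtype)) = (n + 2).choose 2 := by
    rw [← finrank_homog n]
    have h3 : (LinearMap.ker (φ.comp (rt f u (m + n)).subtype)).map (rt f u (m + n)).subtype =
        (homogeneousSubmodule (Fin 3) ℂ n).map (LinearMap.mulLeft ℂ w) := by
      apply le_antisymm
      · rintro _ ⟨⟨b, hb⟩, hb0, rfl⟩
        have h4 : w ∣ b := by
          have h5 : Ideal.Quotient.mk (Ideal.span {w}) b = 0 := hb0
          rwa [Ideal.Quotient.eq_zero_iff_mem, Ideal.mem_span_singleton] at h5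
        obtain ⟨p, rfl⟩ := h4
        by_cases hp0 : w * p = 0
        · refine ⟨0, zero_mem _, ?_⟩
          change w * 0 = w * p
          rw [hp0, mul_zero]
        · obtain ⟨k, hk, hk'⟩ := degree_le_of_mul hw (H.mem_rt.1 hb).1 hp0
          have : k = n := by omega
          subst this
          exact ⟨p, hk', rfl⟩
      · rintro _ ⟨p, hp, rfl⟩
        refine ⟨⟨w * p, hm p hp⟩, ?_, rfl⟩
        change Ideal.Quotient.mk (Ideal.span {w}) (w * p) = 0
        rw [Ideal.Quotient.eq_zero_iff_mem, Ideal.mem_span_singleton]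
        exact dvd_mul_right _ _
    rw [LinearEquiv.finrank_eq (Submodule.equivMapOfInjective (rt f u (m + n)).subtype
      (Submodule.subtype_injective _) _), h3]
    refine (LinearEquiv.finrank_eq (Submodule.equivMapOfInjective (LinearMap.mulLeft ℂ w) ?_ _)).symm
    intro a b hab
    exact mul_left_cancel₀ hw0 hab
  have h5 : finrank ℂ ((rt f u (m + n)).map
      (Ideal.Quotient.mkₐ ℂ (Ideal.span {w} : Ideal P3)).toLinearMap) =
      finrank ℂ ((rt f u (m + n)).map φ) := rfl
  omega

/-- reduction of `rt` modulo a form of larger degree -/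
lemma EvenOn.finrank_rt_eq_of_lt (H : EvenOn f u e) {w : P3} {m d : ℕ} (hw : w.IsHomogeneous m)
    (hd : d < m) :
    finrank ℂ (rt f u d) = finrank ℂ ((rt f u d).map
      (Ideal.Quotient.mkₐ ℂ (Ideal.span {w} : Ideal P3)).toLinearMap) := by
  have hfin := H.finite_rt d
  let φ : P3 →ₗ[ℂ] (P3 ⧸ (Ideal.span {w} : Ideal P3)) :=
    (Ideal.Quotient.mkₐ ℂ (Ideal.span {w})).toLinearMap
  have h1 := LinearMap.finrank_range_add_finrank_ker (φ.comp (rt f u d).subtype)
  rw [LinearMap.range_comp, Submodule.range_subtype] at h1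
  have h2 : LinearMap.ker (φ.comp (rt f u d).subtype) = ⊥ := by
    rw [eq_bot_iff]
    rintro ⟨b, hb⟩ hb0
    have h4 : w ∣ b := by
      have h5 : Ideal.Quotient.mk (Ideal.span {w}) b = 0 := hb0
      rwa [Ideal.Quotient.eq_zero_iff_mem, Ideal.mem_span_singleton] at h5
    rw [Submodule.mem_bot, Subtype.ext_iff]
    by_contra hb1
    exact not_dvd_of_degree hw (H.mem_rt.1 hb).1 hb1 hd h4
  rw [h2, finrank_bot] at h1
  have h5 : finrank ℂ ((rt f u d).map
      (Ideal.Quotient.mkₐ ℂ (Ideal.span {w} : Ideal P3)).toLinearMap) =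
      finrank ℂ ((rt f u d).map φ) := rfl
  omega

/-- sections modulo `f`, large degree -/
lemma EvenOn.finrank_rt_theta (H : EvenOn f u e) (d : ℕ) :
    finrank ℂ (rt f u (6 + d)) = finrank ℂ (thetaSp f u (6 + d)) + (d + 2).choose 2 :=
  H.finrank_rt_eq H.hf H.pf.ne_zero (fun _ ha => H.mul_f_mem_rt ha)

/-- sections modulo `f`, small degree -/
lemma EvenOn.finrank_rt_theta_of_lt (H : EvenOn f u e) {d : ℕ} (hd : d < 6) :
    finrank ℂ (rt f u d) = finrank ℂ (thetaSp f u d) :=
  H.finrank_rt_eq_of_lt H.hf hd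

lemma EvenOn.u_ne_zero (H : EvenOn f u e) : u ≠ 0 := fun h => H.hfu (h ▸ dvd_zero _)

/-- sections modulo `u`, large degree -/
lemma EvenOn.finrank_rt_Jq (H : EvenOn f u e) (d : ℕ) :
    finrank ℂ (rt f u (e + d)) = finrank ℂ (Jq f u (e + d)) + (d + 2).choose 2 :=
  H.finrank_rt_eq H.hu H.u_ne_zero (fun _ ha => H.mul_u_mem_rt ha)

/-- sections modulo `u`, small degree -/
lemma EvenOn.finrank_rt_Jq_of_lt (H : EvenOn f u e) {d : ℕ} (hd : d < e) :
    finrank ℂ (rt f u d) = finrank ℂ (Jq f u d) :=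
  H.finrank_rt_eq_of_lt H.hu hd

/-- **The two reductions compared.** For `g` of degree `2 r + 1`, `r ≥ 1`. -/
theorem EvenOn.finrank_Jq_theta {g : P3} {r : ℕ} (H : EvenOn f g (2 * r + 1)) (hr : 1 ≤ r) :
    finrank ℂ (Jq f g (r + 2)) + (if r = 1 then 1 else 0) =
      finrank ℂ (thetaSp f g (r + 2)) + (r - 2).choose 2 := by
  have h1 : finrank ℂ (rt f g (r + 2)) =
      finrank ℂ (Jq f g (r + 2)) + (if r = 1 then 1 else 0) := by
    rcases Nat.lt_or_ge r 2 with h | h
    · obtain rfl : r = 1 := by omega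
      have := H.finrank_rt_Jq 0
      simpa using this
    · rw [if_neg (by omega), add_zero]
      exact H.finrank_rt_Jq_of_lt (by omega)
  have h2 : finrank ℂ (rt f g (r + 2)) =
      finrank ℂ (thetaSp f g (r + 2)) + (r - 2).choose 2 := by
    rcases Nat.lt_or_ge r 4 with h | h
    · rw [Nat.choose_eq_zero_of_lt (by omega : r - 2 < 2), add_zero]
      exact H.finrank_rt_theta_of_lt (by omega)
    · obtain ⟨d, rfl⟩ := Nat.exists_eq_add_of_le h
      have := H.finrank_rt_theta d
      rw [show 4 + d + 2 = 6 + d by ring, show 4 + d - 2 = d + 2 by omega]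
      exact this
  omega

/-- the parity of the two reductions -/
theorem EvenOn.even_Jq_theta {g : P3} {r : ℕ} (H : EvenOn f g (2 * r + 1)) (hr : 1 ≤ r) :
    Even (finrank ℂ (Jq f g (r + 2)) + finrank ℂ (thetaSp f g (r + 2)) + r.choose 2 + 1) ∧
    (Even (finrank ℂ (Jq f g (r + 2)) + (1 + 3 * r.choose 2)) ↔
      Even (finrank ℂ (thetaSp f g (r + 2)))) := by
  have h := H.finrank_Jq_theta hr
  have key : ∃ k, (if r = 1 then 1 else 0) + (r - 2).choose 2 + r.choose 2 + 1 = 2 * k := by
    rcases Nat.lt_or_ge r 2 with h | h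
    · obtain rfl : r = 1 := by omega
      exact ⟨1, by simp⟩
    · obtain ⟨k, rfl⟩ := Nat.exists_eq_add_of_le h
      refine ⟨k.choose 2 + k + 1, ?_⟩
      have e : (2 + k).choose 2 = k.choose 2 + 2 * k + 1 := by
        rw [show 2 + k = k + 1 + 1 by ring, Nat.choose_succ_succ' (k + 1) 1,
          Nat.choose_succ_succ' k 1]
        simp only [Nat.choose_one_right]
        ring
      rw [if_neg (by omega), show 2 + k - 2 = k by omega, e]
      ring
  obtain ⟨k, hk⟩ := key
  constructor
  · rw [Nat.even_iff]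
    omega
  · rw [Nat.even_iff, Nat.even_iff]
    omega

end Vale.Agent.P287.C8
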