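import Vale.Agent.P287.C8.Dixon
import Vale.Agent.P287.C8.Zeros
import Vale.Agent.P287.C8.Even
import Vale.Agent.P287.C8.Dim

/-!
The dimension of the lattice `W` in degree `r`, when the splitting curve has degree `2r+1`.
-/

namespace Vale.Agent.P287.C8

open MvPolynomial Vale.Agent.P287 Vale.Agent.P287.H925 Vale.Agent.P287.Theta Module Matrix

/-- The hypotheses: three sections of a theta characteristic twisted by a conic, and the
matrices `Q` (quadrics) and `A` (quartics). -/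
structure ThreeData (f δ g : P3) (r : ℕ) (b : Fin 3 → P3) (Q A : Matrix (Fin 3) (Fin 3) P3) :
    Prop where
  even : EvenOn f g (2 * r + 1)
  pg : Prime g
  hδ : δ.IsHomogeneous 3
  hfδ : ¬ f ∣ δ
  hodd : ∀ a : P3, a.IsHomogeneous 3 → a ^ 2 ∈ (Ideal.span {δ, f} : Ideal P3) →
    ∃ c : ℂ, a = C c * δ
  hb : ∀ i, (b i).IsHomogeneous (r + 4)
  sQ : Q.IsSymm
  sA : A.IsSymm
  hQ : ∀ i j, (Q i j).IsHomogeneous 2
  hA : ∀ i j, (A i j).IsHomogeneous 4
  h : ∀ i j, f ∣ b i * b j - δ * g * A i j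
  hQA : Q * A = f • (1 : Matrix (Fin 3) (Fin 3) P3)
  hdet : f ∣ Q.det

namespace ThreeData

variable {f δ g : P3} {r : ℕ} {b : Fin 3 → P3} {Q A : Matrix (Fin 3) (Fin 3) P3}

lemma pf (H : ThreeData f δ g r b Q A) : Prime f := H.even.pf

lemma hfg (H : ThreeData f δ g r b Q A) : ¬ f ∣ g := H.even.hfu

lemma hfu (H : ThreeData f δ g r b Q A) : ¬ f ∣ δ * g := fun h =>
  (H.pf.dvd_or_dvd h).elim H.hfδ H.hfg

lemma hAQ (H : ThreeData f δ g r b Q A) : A * Q = f • (1 : Matrix (Fin 3) (Fin 3) P3) := by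
  have h1 := congrArg Matrix.transpose H.hQA
  rwa [Matrix.transpose_mul, H.sQ.eq, H.sA.eq, Matrix.transpose_smul, Matrix.transpose_one] at h1

/-- some entry of `A` is nonzero at each point of the sextic -/
lemma exists_A_ne (H : ThreeData f δ g r b Q A) {z : Fin 3 → ℂ} (hz : z ≠ 0)
    (hfz : eval z f = 0) : ∃ i j, eval z (A i j) ≠ 0 := by
  by_contra hcon
  push Not at hcon
  -- some derivative of `f` is nonzero
  obtain ⟨k, hk⟩ : ∃ k, eval z (pderiv k f) ≠ 0 := by
    by_contra hcon2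
    push Not at hcon2
    exact hz (H.even.sf z hcon2)
  -- then `Q(z)` is invertible
  have h1 : (Q.map (eval z)) * (Matrix.of fun i j => eval z (pderiv k (A i j))) =
      eval z (pderiv k f) • (1 : Matrix (Fin 3) (Fin 3) ℂ) := by
    refine Matrix.ext fun i j => ?_
    have h2 := congrArg (fun M : Matrix (Fin 3) (Fin 3) P3 => eval z (pderiv k (M i j))) H.hQA
    simp only [Matrix.mul_apply, Matrix.smul_apply, smul_eq_mul, map_sum] at h2
    rw [Matrix.mul_apply, Matrix.smul_apply, smul_eq_mul]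
    have h3 : eval z (pderiv k (f * (1 : Matrix (Fin 3) (Fin 3) P3) i j)) =
        eval z (pderiv k f) * (1 : Matrix (Fin 3) (Fin 3) ℂ) i j := by
      by_cases hij : i = j
      · subst hij
        simp
      · simp [Matrix.one_apply_ne hij]
    rw [← h3, ← h2]
    refine Finset.sum_congr rfl fun l _ => ?_
    rw [Matrix.map_apply, Matrix.of_apply, pderiv_mul, map_add, map_mul, map_mul, hcon, mul_zero,
      zero_add]
  have h2 := congrArg Matrix.det h1
  rw [Matrix.det_mul, Matrix.det_smul, Matrix.det_one, mul_one] at h2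
  have h3 : (Q.map (eval z)).det = 0 := by
    have h4 := RingHom.map_det (eval z) Q
    rw [RingHom.mapMatrix_apply] at h4
    rw [← h4]
    obtain ⟨s, hs⟩ := H.hdet
    rw [hs, map_mul, hfz, zero_mul]
  rw [h3, zero_mul] at h2
  exact pow_ne_zero _ hk h2.symm

lemma minor (H : ThreeData f δ g r b Q A) (i j k l : Fin 3) :
    f ∣ A i j * A k l - A i l * A k j := gram_minor H.pf H.hfu H.h i j k l

/-- a combination of the diagonal entries of `A` without zeros on `f = g = 0` -/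
lemma exists_t (H : ThreeData f δ g r b Q A) : ∃ c : Fin 3 → ℂ, ∀ z : Fin 3 → ℂ,
    eval z f = 0 → eval z g = 0 → eval z (∑ i, C (c i) * A i i) = 0 → z = 0 := by
  have hgf : ¬ g ∣ f := fun h1 =>
    H.hfg ((H.pg.irreducible.associated_of_dvd H.pf.irreducible h1).symm.dvd)
  obtain ⟨S, hS, hS'⟩ := finite_zeros H.even.hu H.pg H.even.hf hgf
  classical
  obtain ⟨c, hc⟩ := exists_dot_ne (S.image fun s => fun i => eval s (A i i)) (by
    intro s' hs'
    obtain ⟨s, hs, rfl⟩ := Finset.mem_image.1 hs'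
    intro h0
    obtain ⟨hs1, _, hs3⟩ := hS s hs
    obtain ⟨i, j, hij⟩ := H.exists_A_ne hs1 hs3
    apply hij
    obtain ⟨p, hp⟩ := H.minor i i j j
    have h1 := congrArg (eval s) hp
    rw [map_sub, map_mul, map_mul, map_mul, hs3, zero_mul] at h1
    have h2 : eval s (A i i) = 0 := congrFun h0 i
    rw [h2, zero_mul, H.sA.apply i j, zero_sub, neg_eq_zero, mul_self_eq_zero] at h1
    exact h1)
  refine ⟨c, fun z hzf hzg hzt => ?_⟩
  by_contra hz
  obtain ⟨s, hs, x, rfl⟩ := hS' z hz hzg hzf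
  have hx : x ≠ 0 := by
    rintro rfl
    exact hz (zero_smul _ _)
  apply hc _ (Finset.mem_image_of_mem _ hs)
  rw [map_sum] at hzt
  have h1 : ∀ i, eval (x • s) (C (c i) * A i i) = x ^ 4 * (c i * eval s (A i i)) := by
    intro i
    rw [map_mul, eval_C, eval_smul' (H.hA i i)]
    ring
  simp only [h1] at hzt
  rw [← Finset.mul_sum] at hzt
  exact (mul_eq_zero.1 hzt).resolve_left (pow_ne_zero _ hx)

lemma exists_b (H : ThreeData f δ g r b Q A) : ∃ j, ¬ f ∣ b j := by
  by_contra hcon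
  push Not at hcon
  have h1 : ∀ i j, A i j = 0 := by
    intro i j
    by_contra h0
    apply not_dvd_of_degree H.even.hf (H.hA i j) h0 (by norm_num)
    have h2 : f ∣ δ * g * A i j := by
      have e : δ * g * A i j = b i * b j - (b i * b j - δ * g * A i j) := by ring
      rw [e]
      exact dvd_sub ((hcon i).mul_right _) (H.h i j)
    exact (H.pf.dvd_or_dvd h2).resolve_left H.hfu
  have h2 := congrFun (congrFun H.hQA 0) 0
  rw [Matrix.mul_apply, Matrix.smul_apply, Matrix.one_apply_eq, smul_eq_mul, mul_one] at h2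
  apply H.pf.ne_zero
  rw [← h2]
  exact Finset.sum_eq_zero fun k _ => by rw [h1, mul_zero]

/-- the product of `A` with a vector, in terms of the sections -/
lemma mulVec_A (H : ThreeData f δ g r b Q A) (l : Fin 3 → P3) (j : Fin 3) :
    f ∣ b j * (∑ i, l i * b i) - δ * g * (A *ᵥ l) j := by
  have e : b j * (∑ i, l i * b i) - δ * g * (A *ᵥ l) j =
      ∑ i, l i * (b j * b i - δ * g * A j i) := by
    rw [Matrix.mulVec, dotProduct, Finset.mul_sum, Finset.mul_sum, ← Finset.sum_sub_distrib]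
    exact Finset.sum_congr rfl fun i _ => by ring
  rw [e]
  exact Finset.dvd_sum fun i _ => (H.h j i).mul_left _

/-- The special vector `ℓ₀ = Q b / f`. -/
lemma exists_l0 (H : ThreeData f δ g r b Q A) : ∃ l : Fin 3 → P3,
    (∀ i, (l i).IsHomogeneous r) ∧ A *ᵥ l = b ∧ f ∣ (∑ i, l i * b i) - δ * g := by
  obtain ⟨j, hj⟩ := H.exists_b
  have h1 : ∀ i, f ∣ (Q *ᵥ b) i := by
    intro i
    have h2 : f ∣ (Q *ᵥ b) i * b j := by
      have e : (Q *ᵥ b) i * b j = (∑ k, Q i k * (b k * b j - δ * g * A k j)) +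
          δ * g * (Q * A) i j := by
        rw [Matrix.mulVec, dotProduct, Matrix.mul_apply, Finset.sum_mul, Finset.mul_sum,
          ← Finset.sum_add_distrib]
        exact Finset.sum_congr rfl fun k _ => by ring
      rw [e, H.hQA, Matrix.smul_apply, smul_eq_mul]
      refine dvd_add (Finset.dvd_sum fun k _ => (H.h k j).mul_left _) ?_
      exact ((dvd_mul_right f _).mul_left _)
    exact (H.pf.dvd_or_dvd h2).resolve_right hj
  have h2 : ∀ i, ((Q *ᵥ b) i).IsHomogeneous (r + 6) := by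
    intro i
    rw [Matrix.mulVec, dotProduct]
    refine IsHomogeneous.sum _ _ _ fun k _ => ?_
    have := (H.hQ i k).mul (H.hb k)
    rwa [show 2 + (r + 4) = r + 6 by ring] at this
  have h3 : ∀ i, ∃ s : P3, s.IsHomogeneous r ∧ (Q *ᵥ b) i = f * s := fun i =>
    exists_hom_of_dvd H.even.hf (h2 i) (by omega) (h1 i)
  choose l hl hl' using h3
  have h4 : A *ᵥ l = b := by
    have h5 : f • (A *ᵥ l) = f • b := by
      have e1 : Q *ᵥ b = f • l := by
        funext i
        rw [hl' i, Pi.smul_apply, smul_eq_mul]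
      have e2 := congrArg (fun v => A *ᵥ v) e1
      simp only [Matrix.mulVec_mulVec, H.hAQ, Matrix.mulVec_smul, Matrix.smul_mulVec,
        Matrix.one_mulVec] at e2
      exact e2.symm
    funext i
    have := congrFun h5 i
    rw [Pi.smul_apply, Pi.smul_apply, smul_eq_mul, smul_eq_mul] at this
    exact mul_left_cancel₀ H.pf.ne_zero this
  refine ⟨l, hl, h4, ?_⟩
  have h5 := H.mulVec_A l j
  rw [h4] at h5
  have h6 : f ∣ b j * ((∑ i, l i * b i) - δ * g) := by
    have e : b j * ((∑ i, l i * b i) - δ * g) =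
      b j * (∑ i, l i * b i) - δ * g * b j := by ring
    rw [e]
    exact h5
  exact (H.pf.dvd_or_dvd h6).resolve_left hj

/-- **Key step**: a vector of forms of degree `r` in the lattice. -/
lemma key (H : ThreeData f δ g r b Q A) {l : Fin 3 → P3} (hl : ∀ i, (l i).IsHomogeneous r)
    (hl2 : ∀ j, ((A *ᵥ l) j) ^ 2 ∈ (Ideal.span {g, f} : Ideal P3)) :
    ∃ c : ℂ, f ∣ (∑ i, l i * b i) - C c * (δ * g) := by
  obtain ⟨c, hc⟩ := H.exists_t
  set κ : P3 := l ⬝ᵥ (A *ᵥ l) with hκ
  have hκ' : κ = ∑ j, ∑ k, l j * l k * A j k := by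
    rw [hκ, dotProduct]
    refine Finset.sum_congr rfl fun j _ => ?_
    rw [Matrix.mulVec, dotProduct, Finset.mul_sum]
    exact Finset.sum_congr rfl fun k _ => by ring
  have hκh : κ.IsHomogeneous (2 * r + 1 + 3) := by
    rw [hκ']
    refine IsHomogeneous.sum _ _ _ fun j _ => IsHomogeneous.sum _ _ _ fun k _ => ?_
    have := ((hl j).mul (hl k)).mul (H.hA j k)
    rwa [show r + r + 4 = 2 * r + 1 + 3 by ring] at this
  have h1 : ∀ i, A i i * κ ∈ (Ideal.span {g, f} : Ideal P3) := by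
    intro i
    have e : A i i * κ = ((A *ᵥ l) i) ^ 2 +
        ∑ j, ∑ k, l j * l k * (A i i * A j k - A i k * A j i) := by
      rw [hκ', Matrix.mulVec, dotProduct, pow_two, Finset.sum_mul_sum, Finset.mul_sum,
        ← Finset.sum_add_distrib]
      refine Finset.sum_congr rfl fun j _ => ?_
      rw [Finset.mul_sum, ← Finset.sum_add_distrib]
      refine Finset.sum_congr rfl fun k _ => ?_
      rw [H.sA.apply i j]
      ring
    rw [e]
    refine add_mem (hl2 i) (mem_span_of_dvd ?_)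
    exact Finset.dvd_sum fun j _ => Finset.dvd_sum fun k _ => (H.minor i i j k).mul_left _
  have h2 : κ ∈ (Ideal.span {g, f} : Ideal P3) := by
    refine H.even.nzd (t := ∑ i, C (c i) * A i i) hc hκh ?_
    rw [Finset.sum_mul]
    refine sum_mem fun i _ => ?_
    rw [mul_assoc]
    exact Ideal.mul_mem_left _ _ (h1 i)
  obtain ⟨κ', hκ'h, hκ'd⟩ := exists_homog_coeff hκh H.even.hu H.even.hf h2
  set β : P3 := ∑ i, l i * b i with hβ
  have hβh : β.IsHomogeneous (2 * r + 1 + 3) := by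
    refine IsHomogeneous.sum _ _ _ fun i _ => ?_
    have := (hl i).mul (H.hb i)
    rwa [show r + (r + 4) = 2 * r + 1 + 3 by ring] at this
  have h3 : f ∣ β ^ 2 - δ * g * κ := by
    have e : β ^ 2 - δ * g * κ = ∑ j, ∑ k, l j * l k * (b j * b k - δ * g * A j k) := by
      rw [hβ, hκ', pow_two, Finset.sum_mul_sum, Finset.mul_sum, ← Finset.sum_sub_distrib]
      refine Finset.sum_congr rfl fun j _ => ?_
      rw [Finset.mul_sum, ← Finset.sum_sub_distrib]
      exact Finset.sum_congr rfl fun k _ => by ring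
    rw [e]
    exact Finset.dvd_sum fun j _ => Finset.dvd_sum fun k _ => (H.h j k).mul_left _
  have h4 : f ∣ β ^ 2 - δ * g ^ 2 * κ' := by
    have e : β ^ 2 - δ * g ^ 2 * κ' = (β ^ 2 - δ * g * κ) + δ * g * (κ - g * κ') := by ring
    rw [e]
    exact dvd_add h3 (hκ'd.mul_left _)
  have h5 : β * g ∈ (Ideal.span {g ^ 2, f} : Ideal P3) := by
    refine mul_mem_span' H.even.hf (by norm_num) H.pf H.even.sf (H.even.hu.pow 2)
      (fun h => H.hfg (H.pf.dvd_of_dvd_pow h)) hβh H.even.hu ?_ ?_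
    · obtain ⟨s, hs⟩ := h4
      exact Ideal.mem_span_pair.2 ⟨δ * κ', s, by linear_combination -hs⟩
    · exact Ideal.subset_span (by simp)
  obtain ⟨x, y, hxy⟩ := Ideal.mem_span_pair.1 h5
  have h6 : f ∣ β - g * x := by
    have h7 : f ∣ g * (β - g * x) := ⟨y, by linear_combination -hxy⟩
    exact (H.pf.dvd_or_dvd h7).resolve_left H.hfg
  have h7 : β ∈ (Ideal.span {g, f} : Ideal P3) := by
    obtain ⟨s, hs⟩ := h6
    exact Ideal.mem_span_pair.2 ⟨x, s, by linear_combination -hs⟩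
  obtain ⟨a, ha, hβa⟩ := exists_homog_coeff hβh H.even.hu H.even.hf h7
  have h8 : f ∣ a ^ 2 - δ * κ' := by
    have h9 : f ∣ g ^ 2 * (a ^ 2 - δ * κ') := by
      have e : g ^ 2 * (a ^ 2 - δ * κ') = (β ^ 2 - δ * g ^ 2 * κ') -
        (β - g * a) * (β + g * a) := by ring
      rw [e]
      exact dvd_sub h4 (hβa.mul_right _)
    exact (H.pf.dvd_or_dvd h9).resolve_left fun h => H.hfg (H.pf.dvd_of_dvd_pow h)
  obtain ⟨c', hc'⟩ := H.hodd a ha (by
    obtain ⟨s, hs⟩ := h8
    exact Ideal.mem_span_pair.2 ⟨κ', s, by linear_combination -hs⟩)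
  refine ⟨c', ?_⟩
  rw [hc'] at hβa
  have e : β - C c' * (δ * g) = β - g * (C c' * δ) := by ring
  rw [e]
  exact hβa

/-- forms `y` such that `f y` has degree `r + 4` -/
noncomputable def low (f : P3) (r : ℕ) : Submodule ℂ P3 :=
  (homogeneousSubmodule (Fin 3) ℂ (r + 4)).comap (LinearMap.mulLeft ℂ f)

lemma mem_low {y : P3} : y ∈ low f r ↔ (f * y).IsHomogeneous (r + 4) := Iff.rfl

lemma low_cases (hf : f.IsHomogeneous 6) (hf0 : f ≠ 0) {y : P3} (hy : y ∈ low f r) :
    y = 0 ∨ (2 ≤ r ∧ y.IsHomogeneous (r - 2)) := by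
  by_cases h0 : y = 0
  · exact Or.inl h0
  · right
    obtain ⟨n, hn, hyn⟩ := degree_le_of_mul hf (mem_low.1 hy) (mul_ne_zero hf0 h0)
    obtain rfl : n = r - 2 := by omega
    exact ⟨by omega, hyn⟩

lemma finrank_low (hf : f.IsHomogeneous 6) (hf0 : f ≠ 0) :
    finrank ℂ (low f r) = r.choose 2 ∧ FiniteDimensional ℂ (low f r) := by
  by_cases hr : 2 ≤ r
  · obtain ⟨k, rfl⟩ := Nat.exists_eq_add_of_le' hr
    have h1 : low f (k + 2) = homogeneousSubmodule (Fin 3) ℂ k := by
      ext y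
      rw [mem_low, mem_homogeneousSubmodule]
      constructor
      · intro hy
        rcases low_cases hf hf0 (r := k + 2) (mem_low.2 hy) with rfl | h
        · exact isHomogeneous_zero _ _ _
        · exact h.2
      · intro hy
        have := hf.mul hy
        rwa [show 6 + k = k + 2 + 4 by ring] at this
    rw [h1]
    exact ⟨finrank_homog k, inferInstance⟩
  · have h1 : low f r = ⊥ := by
      rw [eq_bot_iff]
      intro y hy
      rcases low_cases hf hf0 hy with h | h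
      · exact h
      · exact absurd h.1 hr
    rw [h1]
    refine ⟨?_, inferInstance⟩
    rw [finrank_bot, Nat.choose_eq_zero_of_lt (by omega)]

/-- The parametrisation of `W`. -/
noncomputable def par (f g : P3) (r : ℕ) (l0 : Fin 3 → P3) (Q : Matrix (Fin 3) (Fin 3) P3) :
    (ℂ × (Fin 3 → low f r)) →ₗ[ℂ] (Fin 3 → RG g) where
  toFun v i := q g (C v.1 * l0 i + (Q *ᵥ fun k => (v.2 k : P3)) i)
  map_add' v w := by
    funext i
    rw [Pi.add_apply, ← map_add (Ideal.Quotient.mk (Ideal.span {g}))]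
    congr 1
    have h1 : (fun k => (((v + w).2 k : low f r) : P3)) =
        (fun k => ((v.2 k : low f r) : P3)) + fun k => ((w.2 k : low f r) : P3) := by
      funext k
      simp
    rw [h1, Matrix.mulVec_add, Pi.add_apply, Prod.fst_add, C_add]
    ring
  map_smul' c v := by
    funext i
    rw [RingHom.id_apply, Pi.smul_apply]
    have h0 : c • q g (C v.1 * l0 i + (Q *ᵥ fun k => ((v.2 k : low f r) : P3)) i) =
        q g (c • (C v.1 * l0 i + (Q *ᵥ fun k => ((v.2 k : low f r) : P3)) i)) :=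
      ((Ideal.Quotient.mkₐ ℂ (Ideal.span {g})).toLinearMap.map_smul c _).symm
    rw [h0]
    congr 1
    have h1 : (fun k => (((c • v).2 k : low f r) : P3)) =
        c • fun k => ((v.2 k : low f r) : P3) := by
      funext k
      simp
    rw [h1, Matrix.mulVec_smul, Pi.smul_apply, Prod.smul_fst, smul_eq_mul, C_mul, smul_add,
      smul_eq_C_mul, smul_eq_C_mul]
    ring

lemma par_apply {l0 : Fin 3 → P3} (v : ℂ × (Fin 3 → low f r)) (i : Fin 3) :
    par f g r l0 Q v i = q g (C v.1 * l0 i + (Q *ᵥ fun k => (v.2 k : P3)) i) := rfl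

lemma q_eq_q {g p p' : P3} : q g p = q g p' ↔ g ∣ p - p' := by
  rw [← Ideal.mem_span_singleton, ← Ideal.Quotient.eq_zero_iff_mem, map_sub, sub_eq_zero]

lemma q_mulVec (g : P3) (A : Matrix (Fin 3) (Fin 3) P3) (p : Fin 3 → P3) (j : Fin 3) :
    ((qm g A).mulVec fun i => q g (p i)) j = q g ((A *ᵥ p) j) := by
  change ∑ k, (Ideal.Quotient.mk (Ideal.span {g})) (A j k) * (Ideal.Quotient.mk _) (p k) =
    Ideal.Quotient.mk (Ideal.span {g}) (∑ k, A j k * p k)
  rw [map_sum]
  exact Finset.sum_congr rfl fun k _ => (map_mul _ _ _).symm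

lemma mulVec_hom {A : Matrix (Fin 3) (Fin 3) P3} {a d : ℕ} (hA : ∀ i j, (A i j).IsHomogeneous a)
    {p : Fin 3 → P3} (hp : ∀ i, (p i).IsHomogeneous d) (j : Fin 3) :
    ((A *ᵥ p) j).IsHomogeneous (d + a) := by
  rw [Matrix.mulVec, dotProduct]
  refine IsHomogeneous.sum _ _ _ fun k _ => ?_
  have := (hA j k).mul (hp k)
  rwa [add_comm] at this

/-- membership in `W`, for vectors of forms -/
lemma mem_Wq (H : ThreeData f δ g r b Q A) {d : ℕ} {p : Fin 3 → P3}
    (hp : ∀ i, (p i).IsHomogeneous d) : (fun i => q g (p i)) ∈ Wq f g A d ↔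
      ∀ j, ((A *ᵥ p) j) ^ 2 ∈ (Ideal.span {g, f} : Ideal P3) := by
  constructor
  · rintro ⟨_, h2⟩ j
    obtain ⟨a, ha, ha'⟩ := Submodule.mem_map.1 (h2 j)
    rw [H.even.mem_rt] at ha
    obtain ⟨s, hs⟩ : g ∣ (A *ᵥ p) j - a := by
      rw [← q_eq_q, ← q_mulVec]
      exact ha'.symm
    have h5 : ((A *ᵥ p) j) ^ 2 = a ^ 2 + g * (s * ((A *ᵥ p) j + a)) := by
      linear_combination ((A *ᵥ p) j + a) * hs
    rw [h5]
    exact add_mem ha.2 (Ideal.mul_mem_right _ _ (Ideal.subset_span (by simp)))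
  · intro h
    refine ⟨fun i => mem_gr.2 ⟨_, hp i, rfl⟩, fun j => ?_⟩
    rw [q_mulVec]
    exact Submodule.mem_map.2 ⟨_, H.even.mem_rt.2 ⟨mulVec_hom H.hA hp j, h j⟩, rfl⟩

lemma smul_cancel_vec (hf0 : f ≠ 0) {v w : Fin 3 → P3} (h : f • v = f • w) : v = w := by
  funext i
  have := congrFun h i
  rw [Pi.smul_apply, Pi.smul_apply, smul_eq_mul, smul_eq_mul] at this
  exact mul_left_cancel₀ hf0 this

/-- the decomposition of the elements of `W` -/
lemma exists_decomp (H : ThreeData f δ g r b Q A) {l0 : Fin 3 → P3}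
    (hl0 : ∀ i, (l0 i).IsHomogeneous r) (hβl0 : f ∣ (∑ i, l0 i * b i) - δ * g)
    {p : Fin 3 → P3} (hp : ∀ i, (p i).IsHomogeneous r)
    (h2 : ∀ j, ((A *ᵥ p) j) ^ 2 ∈ (Ideal.span {g, f} : Ideal P3)) :
    ∃ (c : ℂ) (y : Fin 3 → P3), (∀ j, y j ∈ low f r) ∧
      ∀ i, p i = C c * l0 i + (Q *ᵥ y) i := by
  have hf0 : f ≠ 0 := H.pf.ne_zero
  obtain ⟨c, hc⟩ := H.key hp h2
  set p' : Fin 3 → P3 := fun i => p i - C c * l0 i with hp'
  have h3 : f ∣ ∑ i, p' i * b i := by
    have e1 : ∑ i, p' i * b i = (∑ i, p i * b i) - ∑ i, C c * (l0 i * b i) := by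
      rw [← Finset.sum_sub_distrib]
      exact Finset.sum_congr rfl fun i _ => by rw [hp']; ring
    have e : ∑ i, p' i * b i = ((∑ i, p i * b i) - C c * (δ * g)) -
        C c * ((∑ i, l0 i * b i) - δ * g) := by
      rw [e1, mul_sub, Finset.mul_sum]
      ring
    rw [e]
    exact dvd_sub hc (hβl0.mul_left _)
  have h4 : ∀ j, f ∣ (A *ᵥ p') j := by
    intro j
    have h5 := H.mulVec_A p' j
    have h6 : f ∣ δ * g * (A *ᵥ p') j := by
      have e : δ * g * (A *ᵥ p') j = b j * (∑ i, p' i * b i) -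
        (b j * (∑ i, p' i * b i) - δ * g * (A *ᵥ p') j) := by ring
      rw [e]
      exact dvd_sub (h3.mul_left _) h5
    exact (H.pf.dvd_or_dvd h6).resolve_left H.hfu
  choose y hy using h4
  have hp'h : ∀ i, (p' i).IsHomogeneous r := by
    intro i
    have := (isHomogeneous_C (Fin 3) c).mul (hl0 i)
    rw [zero_add] at this
    exact (hp i).sub this
  have hylow : ∀ j, y j ∈ low f r := by
    intro j
    rw [mem_low, ← hy j]
    exact mulVec_hom H.hA hp'h j
  have h5 : p' = Q *ᵥ y := by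
    apply smul_cancel_vec hf0
    have e1 : A *ᵥ p' = f • y := by
      funext j
      rw [hy j, Pi.smul_apply, smul_eq_mul]
    have e2 := congrArg (fun v => Q *ᵥ v) e1
    simp only [Matrix.mulVec_mulVec, H.hQA, Matrix.mulVec_smul, Matrix.smul_mulVec,
      Matrix.one_mulVec] at e2
    exact e2
  refine ⟨c, y, hylow, fun i => ?_⟩
  rw [← h5, hp']
  ring

lemma Q_low (H : ThreeData f δ g r b Q A) {y : Fin 3 → P3} (hy : ∀ k, y k ∈ low f r) (i : Fin 3) :
    ((Q *ᵥ y) i).IsHomogeneous r := by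
  rw [Matrix.mulVec, dotProduct]
  refine IsHomogeneous.sum _ _ _ fun k _ => ?_
  rcases low_cases H.even.hf H.pf.ne_zero (hy k) with h | ⟨h, h'⟩
  · rw [h, mul_zero]
    exact isHomogeneous_zero _ _ _
  · have := (H.hQ i k).mul h'
    rwa [Nat.add_sub_cancel' h] at this

lemma A_decomp (H : ThreeData f δ g r b Q A) {l0 : Fin 3 → P3} (hAl0 : A *ᵥ l0 = b) (c : ℂ)
    (y : Fin 3 → P3) (j : Fin 3) :
    (A *ᵥ fun i => C c * l0 i + (Q *ᵥ y) i) j = C c * b j + f * y j := by
  have h2 : (fun i => C c * l0 i + (Q *ᵥ y) i) = (C c : P3) • l0 + Q *ᵥ y := rfl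
  have h3 : A *ᵥ ((C c : P3) • l0 + Q *ᵥ y) = (C c : P3) • b + f • y := by
    rw [Matrix.mulVec_add, Matrix.mulVec_smul, Matrix.mulVec_mulVec, H.hAQ, hAl0,
      Matrix.smul_mulVec, Matrix.one_mulVec]
  rw [h2, h3]
  rfl

lemma par_injective (H : ThreeData f δ g r b Q A) {l0 : Fin 3 → P3}
    (hl0 : ∀ i, (l0 i).IsHomogeneous r) (hAl0 : A *ᵥ l0 = b) :
    Function.Injective (par f g r l0 Q) := by
  have hf0 : f ≠ 0 := H.pf.ne_zero
  rw [← LinearMap.ker_eq_bot, LinearMap.ker_eq_bot']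
  rintro ⟨c, y⟩ hv
  have hent : ∀ i, (C c * l0 i + (Q *ᵥ fun k => (y k : P3)) i).IsHomogeneous r := by
    intro i
    have := (isHomogeneous_C (Fin 3) c).mul (hl0 i)
    rw [zero_add] at this
    exact this.add (H.Q_low (fun k => (y k).2) i)
  have h1 : ∀ i, C c * l0 i + (Q *ᵥ fun k => (y k : P3)) i = 0 := by
    intro i
    by_contra h0
    refine not_dvd_of_degree H.even.hu (hent i) h0 (by omega) ?_
    have := congrFun hv i
    rw [par_apply, Pi.zero_apply] at this
    exact Ideal.mem_span_singleton.1 (Ideal.Quotient.eq_zero_iff_mem.1 this)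
  have h2 : ∀ j, C c * b j + f * (y j : P3) = 0 := by
    intro j
    rw [← H.A_decomp hAl0 c (fun k => (y k : P3)) j]
    have h3 : (fun i => C c * l0 i + (Q *ᵥ fun k => (y k : P3)) i) = 0 := funext h1
    rw [h3, Matrix.mulVec_zero]
    rfl
  obtain ⟨j, hj⟩ := H.exists_b
  have h3 : c = 0 := by
    by_contra hne
    have h5 : f ∣ C c * b j := ⟨-(y j : P3), by linear_combination h2 j⟩
    rcases H.pf.dvd_or_dvd h5 with h6 | h6
    · exact H.pf.not_isUnit (isUnit_of_dvd_unit h6 ((isUnit_iff_ne_zero.2 hne).map C))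
    · exact hj h6
  subst h3
  refine Prod.ext rfl (funext fun k => Subtype.ext ?_)
  have h5 := h2 k
  rw [C_0, zero_mul, zero_add] at h5
  exact (mul_eq_zero.1 h5).resolve_left hf0

lemma range_par (H : ThreeData f δ g r b Q A) {l0 : Fin 3 → P3}
    (hl0 : ∀ i, (l0 i).IsHomogeneous r) (hAl0 : A *ᵥ l0 = b)
    (hβl0 : f ∣ (∑ i, l0 i * b i) - δ * g) :
    LinearMap.range (par f g r l0 Q) = Wq f g A r := by
  apply le_antisymm
  · rintro _ ⟨⟨c, y⟩, rfl⟩
    have hent : ∀ i, (C c * l0 i + (Q *ᵥ fun k => (y k : P3)) i).IsHomogeneous r := by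
      intro i
      have := (isHomogeneous_C (Fin 3) c).mul (hl0 i)
      rw [zero_add] at this
      exact this.add (H.Q_low (fun k => (y k).2) i)
    refine (H.mem_Wq hent).2 fun j => ?_
    rw [H.A_decomp hAl0 c (fun k => (y k : P3)) j]
    obtain ⟨s, hs⟩ := H.h j j
    refine Ideal.mem_span_pair.2 ⟨C c ^ 2 * (δ * A j j), C c ^ 2 * s +
      2 * C c * b j * (y j : P3) + f * (y j : P3) ^ 2, ?_⟩
    linear_combination (- C c ^ 2) * hs
  · intro l hl
    have h1 : ∀ i, ∃ p : P3, p.IsHomogeneous r ∧ q g p = l i := fun i => mem_gr.1 (hl.1 i)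
    choose p hp hpl using h1
    have hlp : l = fun i => q g (p i) := funext fun i => (hpl i).symm
    rw [hlp] at hl ⊢
    obtain ⟨c, y, hy, hpy⟩ := H.exists_decomp hl0 hβl0 hp ((H.mem_Wq hp).1 hl)
    refine ⟨(c, fun k => ⟨y k, hy k⟩), ?_⟩
    funext i
    rw [par_apply, hpy i]

/-- **The dimension of the lattice `W` in degree `r`.** -/
theorem finrank_Wq (H : ThreeData f δ g r b Q A) :
    finrank ℂ (Wq f g A r) = 1 + 3 * r.choose 2 := by
  obtain ⟨l0, hl0, hAl0, hβl0⟩ := H.exists_l0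
  obtain ⟨h1, h2⟩ := finrank_low (r := r) H.even.hf H.pf.ne_zero
  rw [← H.range_par hl0 hAl0 hβl0, LinearMap.finrank_range_of_inj (H.par_injective hl0 hAl0),
    Module.finrank_prod, Module.finrank_self, Module.finrank_pi_fintype]
  simp only [h1, Finset.sum_const, Finset.card_univ, Fintype.card_fin, smul_eq_mul]

end ThreeData

end Vale.Agent.P287.C8
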