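import Vale.Agent.P287.C8.ParMCore

/-!
The parity theorem for the fibration in graded form, over an abstract artinian chart at infinity.
-/

set_option linter.unusedSectionVars false

namespace Vale.Agent.P287.C8

open MvPolynomial Module Vale.Agent.P287 Vale.Agent.P287.H925 Vale.Agent.P287.Theta

variable {f g : P3} {M A : Matrix (Fin 4) (Fin 4) P3}

lemma finite_WM (f g : P3) (A : Matrix (Fin 4) (Fin 4) P3) (d : ℕ) :
    FiniteDimensional ℂ (WM f g A d) := by
  let e : WM f g A d →ₗ[ℂ] ((i : Fin 4) → gr g (d + wt i)) :=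
    { toFun := fun l i => ⟨l.1 i, l.2.1 i⟩
      map_add' := fun _ _ => rfl
      map_smul' := fun _ _ => rfl }
  refine FiniteDimensional.of_injective e ?_
  intro x y hxy
  apply Subtype.ext
  funext i
  exact congrArg Subtype.val (congrFun hxy i)

lemma finite_KM (g : P3) (u v : Fin 4 → RG g) (d : ℕ) : FiniteDimensional ℂ (KM g u v d) := by
  let e : KM g u v d →ₗ[ℂ] ((i : Fin 4) → gr g (d + wt i)) :=
    { toFun := fun l i => ⟨l.1 i, l.2.1 i⟩
      map_add' := fun _ _ => rfl
      map_smul' := fun _ _ => rfl }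
  refine FiniteDimensional.of_injective e ?_
  intro x y hxy
  apply Subtype.ext
  funext i
  exact congrArg Subtype.val (congrFun hxy i)

lemma minor3_gr {d a b : ℕ} {l u v : Fin 4 → RG g} (hl : ∀ i, l i ∈ gr g (d + wt i))
    (hu : ∀ i, u i ∈ gr g (a + wt i)) (hv : ∀ i, v i ∈ gr g (b + wt i)) (i j k : Fin 4) :
    minor3 l u v i j k ∈ gr g (d + a + b + (wt i + wt j + wt k)) := by
  have h1 : ∀ i j k, l i * (u j * v k) ∈ gr g (d + a + b + (wt i + wt j + wt k)) := by
    intro i j k
    have h2 := gr_mul (hl i) (gr_mul (hu j) (hv k))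
    rwa [show d + wt i + (a + wt j + (b + wt k)) = d + a + b + (wt i + wt j + wt k) by ring] at h2
  have e : minor3 l u v i j k = l i * (u j * v k) - l i * (u k * v j) - l j * (u i * v k) +
      l j * (u k * v i) + l k * (u i * v j) - l k * (u j * v i) := by
    rw [minor3]; ring
  rw [e]
  have p := h1 i j k
  have p2 := h1 i k j
  have p3 := h1 j i k
  have p4 := h1 j k i
  have p5 := h1 k i j
  have p6 := h1 k j i
  rw [show wt i + wt k + wt j = wt i + wt j + wt k by ring] at p2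
  rw [show wt j + wt i + wt k = wt i + wt j + wt k by ring] at p3
  rw [show wt j + wt k + wt i = wt i + wt j + wt k by ring] at p4
  rw [show wt k + wt i + wt j = wt i + wt j + wt k by ring] at p5
  rw [show wt k + wt j + wt i = wt i + wt j + wt k by ring] at p6
  exact sub_mem (add_mem (add_mem (sub_mem (sub_mem p p2) p3) p4) p5) p6

lemma wt_le_one (i : Fin 4) : wt i ≤ 1 := by
  fin_cases i <;> simp [wt]

/-- componentwise application of an algebra morphism -/
noncomputable def PhiM {BB : Type*} [CommRing BB] [Algebra ℂ BB] (φ : RG g →ₐ[ℂ] BB) :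
    (Fin 4 → RG g) →ₗ[ℂ] (Fin 4 → BB) :=
  LinearMap.pi fun i => φ.toLinearMap.comp (LinearMap.proj i)

lemma PhiM_apply {BB : Type*} [CommRing BB] [Algebra ℂ BB] (φ : RG g →ₐ[ℂ] BB)
    (v : Fin 4 → RG g) : PhiM φ v = fun i => φ (v i) := rfl

lemma PhiM_dot {BB : Type*} [CommRing BB] [Algebra ℂ BB] (φ : RG g →ₐ[ℂ] BB)
    (B : Matrix (Fin 4) (Fin 4) (RG g)) (v w : Fin 4 → RG g) :
    dotProduct ((B.map φ).mulVec (PhiM φ v)) (PhiM φ w) = φ (dotProduct (B.mulVec v) w) := by
  have h3 : (B.map φ).mulVec (PhiM φ v) = fun i => φ (B.mulVec v i) := by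
    funext i
    exact (RingHom.map_mulVec (φ : RG g →+* BB) B v i).symm
  rw [h3, PhiM_apply, dotProduct, dotProduct, map_sum]
  exact Finset.sum_congr rfl fun i _ => (map_mul _ _ _).symm

variable {s a b n : ℕ} {u v : Fin 4 → RG g} {BB : Type*} [CommRing BB] [Algebra ℂ BB]
  [FiniteDimensional ℂ BB]

/-- **Parity for the fibration, graded form.** -/
theorem parityM_graded (pg : Prime g) (sM : M.IsSymm) (hdet : M.det = f)
    (hu : ∀ i, u i ∈ gr g (a + wt i)) (hv : ∀ i, v i ∈ gr g (b + wt i))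
    (huu : dotProduct ((qm4 g M.adjugate).mulVec u) u = 0)
    (huv : dotProduct ((qm4 g M.adjugate).mulVec u) v = 0)
    (hvv : dotProduct ((qm4 g M.adjugate).mulVec v) v = 0)
    (φ : RG g →ₐ[ℂ] BB) (lam : BB →ₗ[ℂ] ℂ) (hlam : ∀ a, (∀ b, lam (a * b) = 0) → a = 0)
    (hdim : finrank ℂ BB = 2 * ((2 * s + 2) * n))
    (hdeg : ∀ x ∈ gr g (2 * s + 2 * n - 1), lam (φ x) = 0)
    (htt : ∀ b, φ (q g (X 0) ^ n) * b = 0 ↔ ∃ c, b = φ (q g (X 0) ^ n) * c)
    (hinj : ∀ d < 2 * n, ∀ x ∈ gr g d, φ x = 0 → x = 0)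
    (hdiv : ∀ d, ∀ x ∈ gr g (n + d), (∃ c, φ x = φ (q g (X 0) ^ n) * c) →
      ∃ y ∈ gr g d, x = q g (X 0) ^ n * y)
    (hfu : IsUnit (φ (q g f))) {i₀ j₀ : Fin 4}
    (hD : IsUnit (φ (u i₀ * v j₀ - u j₀ * v i₀)))
    (hX : ∀ x : RG g, q g (X 0) ^ n * x = 0 → x = 0)
    (hWW : ∀ w ∈ WM f g M.adjugate (s + n), ∀ w' ∈ WM f g M.adjugate (s + n),
      ∃ h ∈ gr g (2 * s + 2 * n - 1), dotProduct ((qm4 g M.adjugate).mulVec w) w' = q g f * h)
    (hWn : ∀ w : Fin 4 → RG g, (∀ i, w i ∈ gr g (s + wt i)) →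
      (q g (X 0) ^ n • w ∈ WM f g M.adjugate (s + n) ↔ w ∈ WM f g M.adjugate s))
    (hWc : 4 * ((2 * s + 2) * n) ≤ finrank ℂ (WM f g M.adjugate (s + n)))
    (hKW : ∀ w : Fin 4 → RG g, (∀ i, w i ∈ gr g (s + n + wt i)) →
      dotProduct ((qm4 g M.adjugate).mulVec w) w = 0 → w ∈ WM f g M.adjugate (s + n))
    (hn : s + a + b + 3 < n) :
    Even (finrank ℂ (WM f g M.adjugate s) + finrank ℂ (KM g u v (s + n))) := by
  classical
  have fW := finite_WM f g M.adjugate
  have hadjq : qm4 g M.adjugate = (qm4 g M).adjugate := RingHom.map_adjugate _ M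
  set Mm : Matrix (Fin 4) (Fin 4) BB := (qm4 g M).map φ with hMm
  set Am : Matrix (Fin 4) (Fin 4) BB := (qm4 g M.adjugate).map φ with hAm
  have hadjm : Am = Mm.adjugate := by
    rw [hAm, hMm, hadjq]
    exact RingHom.map_adjugate (φ : RG g →+* BB) _
  have sMm : Mm.IsSymm := by
    rw [Matrix.IsSymm, hMm, ← Matrix.transpose_map, ← Matrix.transpose_map, sM.eq]
  have sAm : Am.IsSymm := by
    rw [Matrix.IsSymm, hadjm, Matrix.adjugate_transpose, sMm.eq]
  have hdetm : Mm.det = φ (q g f) := by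
    rw [hMm, ← hdet]
    have h1 : (qm4 g M).det = q g M.det := (RingHom.map_det _ M).symm
    rw [← h1]
    exact (RingHom.map_det (φ : RG g →+* BB) _).symm
  obtain ⟨c, hc⟩ := hfu.exists_left_inv
  -- the second Lagrangian
  set P : Submodule ℂ (Fin 4 → RG g) := WM f g M.adjugate (s + n) with hP
  have hΦinj : ∀ {d : ℕ}, d + 1 < 2 * n → ∀ v : Fin 4 → RG g,
      (∀ i, v i ∈ gr g (d + wt i)) → PhiM φ v = 0 → v = 0 := by
    intro d hd v h1 h3
    funext i
    have := wt_le_one i
    exact hinj (d + wt i) (by omega) _ (h1 i) (congrFun h3 i)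
  have hPinj : ∀ v ∈ P, PhiM φ v = 0 → v = 0 := by
    intro v hv h0
    exact hΦinj (d := s + n) (by omega) v hv.1 h0
  have hPd : finrank ℂ (P.map (PhiM φ)) = finrank ℂ (WM f g M.adjugate (s + n)) :=
    finrank_map_of_injOn _ _ hPinj
  have hL₂ : ∀ v ∈ P.map (PhiM φ), ∀ w ∈ P.map (PhiM φ),
      lam (c * dotProduct (Am.mulVec v) w) = 0 := by
    rintro _ ⟨v, hv, rfl⟩ _ ⟨w, hw, rfl⟩
    obtain ⟨h', hh', hvw'⟩ := hWW _ hv _ hw
    rw [PhiM_dot, hvw', map_mul φ, ← mul_assoc, hc, one_mul]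
    exact hdeg _ hh'
  have hzero : ∀ x y : Fin 4 → RG g, dotProduct ((qm4 g M.adjugate).mulVec x) y = 0 →
      dotProduct (Am.mulVec (PhiM φ x)) (PhiM φ y) = 0 := by
    intro x y hxy
    rw [PhiM_dot, hxy, map_zero]
  have hD' : IsUnit (PhiM φ u i₀ * PhiM φ v j₀ - PhiM φ u j₀ * PhiM φ v i₀) := by
    rw [PhiM_apply, PhiM_apply, ← map_mul, ← map_mul, ← map_sub]
    exact hD
  obtain ⟨hd2, heven⟩ := parityM_abstract (h := (2 * s + 2) * n) lam hlam hdim hc htt
    (Qm := Mm) (Am := Am) sAm (by rw [hadjm, Matrix.mul_adjugate, hdetm]) hD'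
    (hzero _ _ huu) (hzero _ _ huv) (hzero _ _ hvv) (P.map (PhiM φ)) hL₂ (by rw [hPd]; exact hWc)
  -- the first intersection
  have hI1 : finrank ℂ ↥(LinearMap.range (mulM (φ (q g (X 0) ^ n))) ⊓ P.map (PhiM φ)) =
      finrank ℂ (WM f g M.adjugate s) := by
    set Ψ : (Fin 4 → RG g) →ₗ[ℂ] (Fin 4 → BB) :=
      (mulM (φ (q g (X 0) ^ n))).comp (PhiM φ) with hΨ
    have hΨ' : ∀ v, Ψ v = PhiM φ (q g (X 0) ^ n • v) := by
      intro v
      rw [hΨ, LinearMap.comp_apply, PhiM_apply, PhiM_apply]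
      funext i
      exact (map_mul φ _ _).symm
    have hXg : ∀ d, ∀ x ∈ gr g d, q g (X 0) ^ n * x ∈ gr g (n + d) := by
      intro d x hx
      have h1 : q g (X 0) ^ n ∈ gr g n := by
        refine mem_gr.2 ⟨X 0 ^ n, ?_, map_pow _ _ _⟩
        have := (isHomogeneous_X ℂ (0 : Fin 3)).pow n
        rwa [one_mul] at this
      exact gr_mul h1 hx
    have h1 : LinearMap.range (mulM (φ (q g (X 0) ^ n))) ⊓ P.map (PhiM φ) =
        (WM f g M.adjugate s).map Ψ := by
      apply le_antisymm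
      · rintro _ ⟨⟨w, hw⟩, v, hv, rfl⟩
        have hv1 : ∀ i, ∃ y ∈ gr g (s + wt i), v i = q g (X 0) ^ n * y := by
          intro i
          refine hdiv (s + wt i) (v i) ?_ ⟨w i, ?_⟩
          · rw [show n + (s + wt i) = s + n + wt i by ring]; exact hv.1 i
          · exact (congrFun hw i).symm
        choose y hy hvy using hv1
        have hvy' : v = q g (X 0) ^ n • y := funext hvy
        refine ⟨y, ?_, ?_⟩
        · exact (hWn y hy).1 (by rw [← hvy']; exact hv)
        · rw [hΨ', ← hvy']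
      · rintro _ ⟨v, hv, rfl⟩
        refine ⟨⟨PhiM φ v, rfl⟩, ⟨q g (X 0) ^ n • v, ?_, ?_⟩⟩
        · exact (hWn v hv.1).2 hv
        · exact (hΨ' v).symm
    rw [h1, finrank_map_of_injOn]
    intro v hv h0
    rw [hΨ'] at h0
    have h2 := hΦinj (d := n + s) (by omega) _
      (fun i => by
        have := hXg (s + wt i) _ (hv.1 i)
        rw [← add_assoc] at this
        exact this) h0
    funext i
    exact hX _ (congrFun h2 i)
  -- the second intersection
  have hdom : ∀ x y : RG g, x * y = 0 → x = 0 ∨ y = 0 := by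
    have : (Ideal.span {g} : Ideal P3).IsPrime := (Ideal.span_singleton_prime pg.ne_zero).2 pg
    intro x y hxy
    exact mul_eq_zero.1 hxy
  have hD0 : u i₀ * v j₀ - u j₀ * v i₀ ≠ 0 ∨ Subsingleton BB := by
    by_cases h : u i₀ * v j₀ - u j₀ * v i₀ = 0
    · right
      rw [h, map_zero, isUnit_zero_iff] at hD
      exact subsingleton_of_zero_eq_one hD
    · exact Or.inl h
  have hI2 : finrank ℂ ↥(P.map (PhiM φ) ⊓ LinearMap.range (planeM (PhiM φ u) (PhiM φ v))) =
      finrank ℂ (KM g u v (s + n)) := by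
    have h1 : P.map (PhiM φ) ⊓ LinearMap.range (planeM (PhiM φ u) (PhiM φ v)) =
        (KM g u v (s + n)).map (PhiM φ) := by
      apply le_antisymm
      · rintro _ ⟨⟨w, hw, rfl⟩, hw'⟩
        refine ⟨w, ⟨hw.1, fun i j k => ?_⟩, rfl⟩
        have h2 := (mem_range_planeM hD').1 hw' i j k
        rw [PhiM_apply, PhiM_apply, PhiM_apply] at h2
        have h3 : φ (minor3 w u v i j k) = 0 := by
          rw [← h2]
          exact (minor3_map (φ : RG g →+* BB) w u v i j k).symm
        refine hinj _ ?_ _ (minor3_gr hw.1 hu hv i j k) h3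
        have := wt_le_one i
        have := wt_le_one j
        have := wt_le_one k
        omega
      · rintro _ ⟨w, hw, rfl⟩
        have h2 : PhiM φ w ∈ LinearMap.range (planeM (PhiM φ u) (PhiM φ v)) := by
          rw [mem_range_planeM hD']
          intro i j k
          rw [PhiM_apply, PhiM_apply, PhiM_apply]
          have h3 := minor3_map (φ : RG g →+* BB) w u v i j k
          rw [hw.2 i j k, map_zero] at h3
          exact h3
        refine ⟨⟨w, ?_, rfl⟩, h2⟩
        apply hKW w hw.1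
        have h3 := comb_of_minor3 (fun k => hw.2 i₀ j₀ k)
        set D := u i₀ * v j₀ - u j₀ * v i₀ with hDdef
        set α := w i₀ * v j₀ - w j₀ * v i₀
        set β := w j₀ * u i₀ - w i₀ * u j₀
        have sA : (qm4 g M.adjugate).IsSymm := by
          rw [Matrix.IsSymm, hadjq, Matrix.adjugate_transpose, ← Matrix.transpose_map, sM.eq]
        have hvu : dotProduct ((qm4 g M.adjugate).mulVec v) u = 0 := by
          rw [dot_comm_of_symm sA, huv]
        have h4 : D * (D * dotProduct ((qm4 g M.adjugate).mulVec w) w) = 0 := by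
          have h5 : dotProduct ((qm4 g M.adjugate).mulVec (D • w)) (D • w) = 0 := by
            rw [h3, Matrix.mulVec_add, Matrix.mulVec_smul,
              Matrix.mulVec_smul, add_dotProduct, smul_dotProduct, smul_dotProduct, dotProduct_add,
              dotProduct_add, dotProduct_smul, dotProduct_smul, dotProduct_smul, dotProduct_smul,
              huu, huv, hvu, hvv]
            simp
          rwa [Matrix.mulVec_smul, smul_dotProduct, dotProduct_smul, smul_eq_mul, smul_eq_mul] at h5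
        rcases hD0 with h0 | h0
        · exact ((hdom _ _ ((hdom _ _ h4).resolve_left h0)).resolve_left h0)
        · -- the zero algebra: impossible
          exfalso
          have h6 : finrank ℂ BB = 0 := finrank_zero_of_subsingleton
          rw [hdim] at h6
          have : 0 < (2 * s + 2) * n := Nat.mul_pos (by omega) (by omega)
          omega
    rw [h1, finrank_map_of_injOn]
    intro w hw h0
    exact hΦinj (d := s + n) (by omega) w hw.1 h0
  rw [hI1, hI2] at heven
  exact heven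

end Vale.Agent.P287.C8
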