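import Vale.Agent.P287.C8.TypeA
import Vale.Agent.P287.C8.DimW
import Vale.Agent.P287.C8.ParM

/-!
The dimension of the lattice `WM` in degree `s`, when the splitting curve has degree `2s+2`: it is
the number of sections of the theta characteristic, up to a known number.
-/

namespace Vale.Agent.P287.C8

open MvPolynomial Vale.Agent.P287 Vale.Agent.P287.H925 Vale.Agent.P287.Theta Module Matrix

lemma det_hom_ab {n : ℕ} {N : Matrix (Fin n) (Fin n) P3} {a b : Fin n → ℕ}
    (h : ∀ i j, (N i j).IsHomogeneous (a i + b j)) :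
    N.det.IsHomogeneous (∑ i, a i + ∑ j, b j) := by
  rw [Matrix.det_apply]
  refine IsHomogeneous.sum _ _ _ fun σ _ => ?_
  have h1 : (∏ i, N (σ i) i).IsHomogeneous (∑ i, a i + ∑ j, b j) := by
    have := IsHomogeneous.prod Finset.univ (fun i => N (σ i) i) (fun i => a (σ i) + b i)
      (fun i _ => h _ _)
    rwa [Finset.sum_add_distrib, Equiv.sum_comp σ a] at this
  rcases Int.units_eq_one_or (Equiv.Perm.sign σ) with h2 | h2 <;> rw [h2]
  · simpa using h1
  · simpa using h1.neg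

/-- the degrees of the entries of the adjugate -/
lemma adj_wt {M : Matrix (Fin 4) (Fin 4) P3}
    (hdeg : ∀ i j, (M i j).IsHomogeneous (1 + wt i + wt j)) (i j : Fin 4) :
    (M.adjugate i j).IsHomogeneous (5 - wt i - wt j) := by
  rw [Matrix.adjugate_fin_succ_eq_det_submatrix]
  have h1 : (M.submatrix (Fin.succAbove j) (Fin.succAbove i)).det.IsHomogeneous
      (5 - wt i - wt j) := by
    have h2 := det_hom_ab (N := M.submatrix (Fin.succAbove j) (Fin.succAbove i))
      (a := fun k => 1 + wt (Fin.succAbove j k)) (b := fun l => wt (Fin.succAbove i l))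
      (fun k l => hdeg _ _)
    have h3 : ∀ i j : Fin 4, ∑ k, (1 + wt (Fin.succAbove j k)) + ∑ l, wt (Fin.succAbove i l) =
        5 - wt i - wt j := by decide
    rwa [h3] at h2
  rcases neg_one_pow_eq_or P3 ((j : ℕ) + (i : ℕ)) with h3 | h3 <;> rw [h3]
  · simpa using h1
  · simpa using h1.neg

/-- a vector outside finitely many hyperplanes -/
lemma exists_dot_ne' {n : ℕ} (S : Finset (Fin n → ℂ)) (hS : ∀ s ∈ S, s ≠ 0) :
    ∃ c : Fin n → ℂ, ∀ s ∈ S, c ⬝ᵥ s ≠ 0 := by
  classical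
  have h1 : (∏ s ∈ S, ∑ i, C (s i) * X i : MvPolynomial (Fin n) ℂ) ≠ 0 := by
    rw [Finset.prod_ne_zero_iff]
    intro s hs h0
    apply hS s hs
    funext i
    have h2 := congrArg (eval (Pi.single i 1)) h0
    simpa [Pi.single_apply] using h2
  obtain ⟨c, hc⟩ : ∃ c, eval c (∏ s ∈ S, ∑ i, C (s i) * X i : MvPolynomial (Fin n) ℂ) ≠ 0 := by
    by_contra hcon
    push Not at hcon
    exact h1 (MvPolynomial.funext fun z => by rw [hcon, map_zero])
  refine ⟨c, fun s hs h0 => hc ?_⟩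
  rw [map_prod]
  refine Finset.prod_eq_zero hs ?_
  rw [map_sum, ← h0, dotProduct]
  refine Finset.sum_congr rfl fun i _ => ?_
  rw [map_mul, eval_C, eval_X, mul_comm]

/-- The hypotheses on the fibration and the splitting curve. -/
structure FourData (M : Matrix (Fin 4) (Fin 4) P3) (g : P3) (s : ℕ) : Prop where
  sM : M.IsSymm
  hM : ∀ i j, (M i j).IsHomogeneous (1 + wt i + wt j)
  even : EvenOn M.det g (2 * s + 2)
  pg : Prime g
  hδ : M.adjugate 3 3 ≠ 0

namespace FourData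

variable {M : Matrix (Fin 4) (Fin 4) P3} {g : P3} {s : ℕ}

lemma pf (H : FourData M g s) : Prime M.det := H.even.pf

lemma hfg (H : FourData M g s) : ¬ M.det ∣ g := H.even.hfu

lemma hgf (H : FourData M g s) : ¬ g ∣ M.det := fun h1 =>
  H.hfg ((H.pg.irreducible.associated_of_dvd H.pf.irreducible h1).symm.dvd)

lemma hfδ (H : FourData M g s) : ¬ M.det ∣ M.adjugate 3 3 :=
  not_dvd_of_degree H.even.hf (adj_hom3 H.hM) H.hδ (by norm_num)

lemma hfu (H : FourData M g s) : ¬ M.det ∣ M.adjugate 3 3 * g := fun h =>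
  (H.pf.dvd_or_dvd h).elim H.hfδ H.hfg

lemma evenδ (H : FourData M g s) : EvenOn M.det (M.adjugate 3 3) 3 :=
  evenOn_adj H.sM H.even.hf H.even.sf (adj_hom3 H.hM) H.hδ

lemma evenδg (H : FourData M g s) : EvenOn M.det (M.adjugate 3 3 * g) (3 + (2 * s + 2)) :=
  H.evenδ.mul H.even

lemma rank1 (H : FourData M g s) (i j : Fin 4) :
    M.det ∣ M.adjugate 3 3 * M.adjugate i j - M.adjugate i 3 * M.adjugate 3 j :=
  dvd_minor_adj M H.pf dvd_rfl 3 H.hfδ i j

lemma minor (H : FourData M g s) (i j k l : Fin 4) :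
    M.det ∣ M.adjugate i j * M.adjugate k l - M.adjugate i l * M.adjugate k j := by
  have h : M.det ∣ M.adjugate 3 3 ^ 2 *
      (M.adjugate i j * M.adjugate k l - M.adjugate i l * M.adjugate k j) := by
    have e : M.adjugate 3 3 ^ 2 *
        (M.adjugate i j * M.adjugate k l - M.adjugate i l * M.adjugate k j) =
        (M.adjugate 3 3 * M.adjugate i j - M.adjugate i 3 * M.adjugate 3 j) *
          (M.adjugate 3 3 * M.adjugate k l) +
        (M.adjugate 3 3 * M.adjugate k l - M.adjugate k 3 * M.adjugate 3 l) *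
          (M.adjugate i 3 * M.adjugate 3 j) -
        (M.adjugate 3 3 * M.adjugate i l - M.adjugate i 3 * M.adjugate 3 l) *
          (M.adjugate 3 3 * M.adjugate k j) -
        (M.adjugate 3 3 * M.adjugate k j - M.adjugate k 3 * M.adjugate 3 j) *
          (M.adjugate i 3 * M.adjugate 3 l) := by ring
    rw [e]
    exact dvd_sub (dvd_sub (dvd_add ((H.rank1 i j).mul_right _) ((H.rank1 k l).mul_right _))
      ((H.rank1 i l).mul_right _)) ((H.rank1 k j).mul_right _)
  exact (H.pf.dvd_or_dvd h).resolve_left fun h' => H.hfδ (H.pf.dvd_of_dvd_pow h')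

lemma adj_comm (H : FourData M g s) (i j : Fin 4) : M.adjugate i j = M.adjugate j i :=
  adj_symm' H.sM i j

/-- the product of the adjugate with a vector -/
lemma mulVec_A (H : FourData M g s) (p : Fin 4 → P3) (j : Fin 4) :
    M.det ∣ M.adjugate 3 3 * (M.adjugate *ᵥ p) j - M.adjugate j 3 * (M.adjugate *ᵥ p) 3 := by
  have e : M.adjugate 3 3 * (M.adjugate *ᵥ p) j - M.adjugate j 3 * (M.adjugate *ᵥ p) 3 =
      ∑ k, p k * (M.adjugate 3 3 * M.adjugate j k - M.adjugate j 3 * M.adjugate 3 k) := by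
    rw [Matrix.mulVec, dotProduct, Matrix.mulVec, dotProduct, Finset.mul_sum, Finset.mul_sum,
      ← Finset.sum_sub_distrib]
    exact Finset.sum_congr rfl fun i _ => by ring
  rw [e]
  exact Finset.dvd_sum fun k _ => (H.rank1 j k).mul_left _

/-- a form without zeros on `f = g = 0`, combination of the diagonal entries of the adjugate -/
lemma exists_t (H : FourData M g s) : ∃ c : Fin 4 → P3, ∀ z : Fin 3 → ℂ,
    eval z M.det = 0 → eval z g = 0 → eval z (∑ i, c i * M.adjugate i i) = 0 → z = 0 := by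
  obtain ⟨S, hS, hS'⟩ := finite_zeros H.even.hu H.pg H.even.hf H.hgf
  classical
  obtain ⟨a, ha⟩ := exists_dot_ne' S (fun s hs => (hS s hs).1)
  set L : P3 := ∑ i, C (a i) * X i with hL
  have hLh : L.IsHomogeneous 1 := by
    refine IsHomogeneous.sum _ _ _ fun i _ => ?_
    have := (isHomogeneous_C (Fin 3) (a i)).mul (isHomogeneous_X ℂ i)
    rwa [zero_add] at this
  have hLs : ∀ s ∈ S, eval s L ≠ 0 := by
    intro s hs
    have h1 : eval s L = a ⬝ᵥ s := by
      rw [hL, map_sum, dotProduct]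
      exact Finset.sum_congr rfl fun i _ => by rw [map_mul, eval_C, eval_X]
    rw [h1]
    exact ha s hs
  obtain ⟨c, hc⟩ := exists_dot_ne' (S.image fun s => fun i : Fin 4 =>
      eval s (M.adjugate i i) * eval s L ^ (2 * wt i)) (by
    intro s' hs'
    obtain ⟨s, hs, rfl⟩ := Finset.mem_image.1 hs'
    intro h0
    obtain ⟨hs1, _, hs3⟩ := hS s hs
    obtain ⟨i, j, hij⟩ := exists_adj_ne_zero M H.even.sf hs1 hs3
    apply hij
    obtain ⟨p, hp⟩ := H.minor i i j j
    have h1 := congrArg (eval s) hp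
    rw [map_sub, map_mul, map_mul, map_mul, hs3, zero_mul] at h1
    have h2 : eval s (M.adjugate i i) * eval s L ^ (2 * wt i) = 0 := congrFun h0 i
    have h3 : eval s (M.adjugate i i) = 0 :=
      (mul_eq_zero.1 h2).resolve_right (pow_ne_zero _ (hLs s hs))
    rw [h3, zero_mul, H.adj_comm j i, zero_sub, neg_eq_zero, mul_self_eq_zero] at h1
    exact h1)
  refine ⟨fun i => C (c i) * L ^ (2 * wt i), fun z hzf hzg hzt => ?_⟩
  by_contra hz
  obtain ⟨s, hs, x, rfl⟩ := hS' z hz hzg hzf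
  have hx : x ≠ 0 := by
    rintro rfl
    exact hz (zero_smul _ _)
  apply hc _ (Finset.mem_image_of_mem _ hs)
  rw [map_sum] at hzt
  have h1 : ∀ i, eval (x • s) (C (c i) * L ^ (2 * wt i) * M.adjugate i i) =
      x ^ 5 * (c i * (eval s (M.adjugate i i) * eval s L ^ (2 * wt i))) := by
    intro i
    rw [map_mul, map_mul, map_pow, eval_C, eval_smul' (adj_wt H.hM i i), eval_smul' hLh]
    have h2 : x ^ 5 = x ^ (5 - wt i - wt i) * x ^ (2 * wt i) := by
      rw [← pow_add]
      congr 1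
      have := wt_le_one i
      omega
    rw [h2]
    ring
  simp only [h1] at hzt
  rw [← Finset.mul_sum] at hzt
  exact (mul_eq_zero.1 hzt).resolve_left (pow_ne_zero _ hx)

/-- **Key step**: a vector of forms in the lattice gives a section. -/
lemma key (H : FourData M g s) {p : Fin 4 → P3} (hp : ∀ i, (p i).IsHomogeneous (s + wt i))
    (hp2 : ∀ j, ((M.adjugate *ᵥ p) j) ^ 2 ∈ (Ideal.span {g, M.det} : Ideal P3)) :
    ((M.adjugate *ᵥ p) 3) ^ 2 ∈ (Ideal.span {M.adjugate 3 3 * g, M.det} : Ideal P3) := by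
  obtain ⟨c, hc⟩ := H.exists_t
  set κ : P3 := p ⬝ᵥ (M.adjugate *ᵥ p) with hκ
  have hκ' : κ = ∑ j, ∑ k, p j * p k * M.adjugate j k := by
    rw [hκ, dotProduct]
    refine Finset.sum_congr rfl fun j _ => ?_
    rw [Matrix.mulVec, dotProduct, Finset.mul_sum]
    exact Finset.sum_congr rfl fun k _ => by ring
  have hκh : κ.IsHomogeneous (2 * s + 5) := by
    rw [hκ']
    refine IsHomogeneous.sum _ _ _ fun j _ => IsHomogeneous.sum _ _ _ fun k _ => ?_
    have := ((hp j).mul (hp k)).mul (adj_wt H.hM j k)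
    have e : s + wt j + (s + wt k) + (5 - wt j - wt k) = 2 * s + 5 := by
      have := wt_le_one j
      have := wt_le_one k
      omega
    rwa [e] at this
  have h1 : ∀ i, M.adjugate i i * κ ∈ (Ideal.span {g, M.det} : Ideal P3) := by
    intro i
    have e : M.adjugate i i * κ = ((M.adjugate *ᵥ p) i) ^ 2 +
        ∑ j, ∑ k, p j * p k * (M.adjugate i i * M.adjugate j k -
          M.adjugate i k * M.adjugate j i) := by
      rw [hκ', Matrix.mulVec, dotProduct, pow_two, Finset.sum_mul_sum, Finset.mul_sum,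
        ← Finset.sum_add_distrib]
      refine Finset.sum_congr rfl fun j _ => ?_
      rw [Finset.mul_sum, ← Finset.sum_add_distrib]
      refine Finset.sum_congr rfl fun k _ => ?_
      rw [H.adj_comm j i]
      ring
    rw [e]
    refine add_mem (hp2 i) (mem_span_of_dvd ?_)
    exact Finset.dvd_sum fun j _ => Finset.dvd_sum fun k _ => (H.minor i i j k).mul_left _
  have h2 : κ ∈ (Ideal.span {g, M.det} : Ideal P3) := by
    refine H.even.nzd (t := ∑ i, c i * M.adjugate i i) hc hκh ?_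
    rw [Finset.sum_mul]
    refine sum_mem fun i _ => ?_
    rw [mul_assoc]
    exact Ideal.mul_mem_left _ _ (h1 i)
  obtain ⟨x, y, hxy⟩ := Ideal.mem_span_pair.1 h2
  have h3 : M.det ∣ ((M.adjugate *ᵥ p) 3) ^ 2 - M.adjugate 3 3 * κ := by
    have e : ((M.adjugate *ᵥ p) 3) ^ 2 - M.adjugate 3 3 * κ =
        - ∑ j, ∑ k, p j * p k * (M.adjugate 3 3 * M.adjugate j k -
          M.adjugate 3 k * M.adjugate j 3) := by
      rw [hκ', Matrix.mulVec, dotProduct, pow_two, Finset.sum_mul_sum, Finset.mul_sum,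
        ← Finset.sum_sub_distrib, ← Finset.sum_neg_distrib]
      refine Finset.sum_congr rfl fun j _ => ?_
      rw [Finset.mul_sum, ← Finset.sum_sub_distrib, ← Finset.sum_neg_distrib]
      refine Finset.sum_congr rfl fun k _ => ?_
      rw [H.adj_comm j 3]
      ring
    rw [e]
    exact (Finset.dvd_sum fun j _ => Finset.dvd_sum fun k _ =>
      (H.minor 3 3 j k).mul_left _).neg_right
  obtain ⟨w, hw⟩ := h3
  exact Ideal.mem_span_pair.2 ⟨x, w + M.adjugate 3 3 * y, by
    linear_combination M.adjugate 3 3 * hxy - hw⟩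

lemma smul_cancel_vec4 {f : P3} (hf0 : f ≠ 0) {v w : Fin 4 → P3} (h : f • v = f • w) :
    v = w := by
  funext i
  have := congrFun h i
  rw [Pi.smul_apply, Pi.smul_apply, smul_eq_mul, smul_eq_mul] at this
  exact mul_left_cancel₀ hf0 this

lemma adj_mulVec_M (p : Fin 4 → P3) : M.adjugate *ᵥ (M *ᵥ p) = M.det • p := by
  rw [Matrix.mulVec_mulVec, Matrix.adjugate_mul, Matrix.smul_mulVec, Matrix.one_mulVec]

lemma M_mulVec_adj (p : Fin 4 → P3) : M *ᵥ (M.adjugate *ᵥ p) = M.det • p := by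
  rw [Matrix.mulVec_mulVec, Matrix.mul_adjugate, Matrix.smul_mulVec, Matrix.one_mulVec]

/-- the degrees of `M v` -/
lemma M_mulVec_hom (H : FourData M g s) {d : ℕ} {v : Fin 4 → P3}
    (hv : ∀ j, (v j).IsHomogeneous (d + (1 - wt j))) (i : Fin 4) :
    ((M *ᵥ v) i).IsHomogeneous (d + 2 + wt i) := by
  rw [Matrix.mulVec, dotProduct]
  refine IsHomogeneous.sum _ _ _ fun k _ => ?_
  have := (H.hM i k).mul (hv k)
  have e : 1 + wt i + wt k + (d + (1 - wt k)) = d + 2 + wt i := by
    have := wt_le_one k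
    omega
  rwa [e] at this

/-- the degrees of `A v` -/
lemma A_mulVec_hom (H : FourData M g s) {d : ℕ} {v : Fin 4 → P3}
    (hv : ∀ j, (v j).IsHomogeneous (d + wt j)) (i : Fin 4) :
    ((M.adjugate *ᵥ v) i).IsHomogeneous (d + 5 - wt i) := by
  rw [Matrix.mulVec, dotProduct]
  refine IsHomogeneous.sum _ _ _ fun k _ => ?_
  have := (adj_wt H.hM i k).mul (hv k)
  have e : 5 - wt i - wt k + (d + wt k) = d + 5 - wt i := by
    have := wt_le_one k
    have := wt_le_one i
    omega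
  rwa [e] at this

/-- the sections come from the lattice -/
lemma surj (H : FourData M g s) {b : P3} (hb : b.IsHomogeneous (s + 4))
    (hb2 : b ^ 2 ∈ (Ideal.span {M.adjugate 3 3 * g, M.det} : Ideal P3)) :
    ∃ p : Fin 4 → P3, (∀ i, (p i).IsHomogeneous (s + wt i)) ∧
      (∀ j, ((M.adjugate *ᵥ p) j) ^ 2 ∈ (Ideal.span {g, M.det} : Ideal P3)) ∧
      (M.adjugate *ᵥ p) 3 = b := by
  obtain ⟨x, y, hxy⟩ := Ideal.mem_span_pair.1 hb2
  have hf0 : M.det ≠ 0 := H.pf.ne_zero
  have h1 : ∀ j, ∃ h : P3, h.IsHomogeneous (s + 4 + (1 - wt j)) ∧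
      M.det ∣ b * M.adjugate j 3 - M.adjugate 3 3 * h ∧ (j = 3 → h = b) := by
    intro j
    by_cases hj : j = 3
    · subst hj
      refine ⟨b, ?_, ?_, fun _ => rfl⟩
      · exact hb
      · rw [mul_comm, sub_self]
        exact dvd_zero _
    · have h2 : M.adjugate j 3 ^ 2 ∈ (Ideal.span {M.adjugate 3 3, M.det} : Ideal P3) := by
        obtain ⟨w, hw⟩ := H.rank1 j j
        rw [H.adj_comm 3 j] at hw
        exact Ideal.mem_span_pair.2 ⟨M.adjugate j j, -w, by linear_combination hw⟩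
      have h3 : b ^ 2 ∈ (Ideal.span {M.adjugate 3 3, M.det} : Ideal P3) :=
        Ideal.mem_span_pair.2 ⟨x * g, y, by linear_combination hxy⟩
      have hA := adj_wt H.hM j 3
      have h4 := H.evenδ.mul_mem hb hA h3 h2
      have h5 := hb.mul hA
      have e : s + 4 + (5 - wt j - wt 3) = 3 + (s + 4 + (1 - wt j)) := by
        have h6 : wt 3 = 1 := rfl
        have := wt_le_one j
        omega
      rw [e] at h5
      obtain ⟨h, hh, hh'⟩ := exists_homog_coeff h5 (adj_hom3 H.hM) H.even.hf h4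
      exact ⟨h, hh, hh', fun h6 => absurd h6 hj⟩
  choose h hh hh' h3 using h1
  have h2 : ∀ i, M.det ∣ (M *ᵥ h) i := by
    intro i
    have h4 : M.det ∣ M.adjugate 3 3 * (M *ᵥ h) i := by
      have e : M.adjugate 3 3 * (M *ᵥ h) i = b * (M * M.adjugate) i 3 -
          ∑ k, M i k * (b * M.adjugate k 3 - M.adjugate 3 3 * h k) := by
        rw [Matrix.mulVec, dotProduct, Matrix.mul_apply, Finset.mul_sum, Finset.mul_sum,
          ← Finset.sum_sub_distrib]
        exact Finset.sum_congr rfl fun k _ => by ring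
      rw [e, Matrix.mul_adjugate, Matrix.smul_apply, smul_eq_mul]
      exact dvd_sub ((dvd_mul_right _ _).mul_left _)
        (Finset.dvd_sum fun k _ => (hh' k).mul_left _)
    exact (H.pf.dvd_or_dvd h4).resolve_left H.hfδ
  have h4 : ∀ i, ∃ p : P3, p.IsHomogeneous (s + wt i) ∧ (M *ᵥ h) i = M.det * p := fun i =>
    exists_hom_of_dvd H.even.hf (H.M_mulVec_hom hh i) (by omega) (h2 i)
  choose p hp hp' using h4
  have h5 : M.adjugate *ᵥ p = h := by
    apply smul_cancel_vec4 hf0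
    rw [← adj_mulVec_M h, ← Matrix.mulVec_smul]
    congr 1
    funext i
    rw [hp' i, Pi.smul_apply, smul_eq_mul]
  refine ⟨p, hp, fun j => ?_, by rw [h5, h3 3 rfl]⟩
  rw [h5]
  obtain ⟨w, hw⟩ := H.rank1 j j
  rw [H.adj_comm 3 j] at hw
  obtain ⟨v, hv⟩ := hh' j
  have h6 : M.det ∣ h j ^ 2 - g * (x * M.adjugate j j) := by
    have h7 : M.det ∣ M.adjugate 3 3 ^ 2 * (h j ^ 2 - g * (x * M.adjugate j j)) := by
      refine ⟨- v * (b * M.adjugate j 3 + M.adjugate 3 3 * h j) - b ^ 2 * w +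
        M.adjugate 3 3 * M.adjugate j j * y, ?_⟩
      linear_combination (- (b * M.adjugate j 3 + M.adjugate 3 3 * h j)) * hv - b ^ 2 * hw -
        M.adjugate 3 3 * M.adjugate j j * hxy
    exact (H.pf.dvd_or_dvd h7).resolve_left fun h8 => H.hfδ (H.pf.dvd_of_dvd_pow h8)
  obtain ⟨u, hu⟩ := h6
  exact Ideal.mem_span_pair.2 ⟨x * M.adjugate j j, u, by linear_combination -hu⟩

/-- the kernel -/
lemma ker_decomp (H : FourData M g s) {p : Fin 4 → P3}
    (hp : ∀ i, (p i).IsHomogeneous (s + wt i)) (h0 : M.det ∣ (M.adjugate *ᵥ p) 3) :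
    ∃ y : Fin 4 → P3, (∀ j, y j ∈ ThreeData.low M.det (s + 1 - wt j)) ∧ p = M *ᵥ y := by
  have hf0 : M.det ≠ 0 := H.pf.ne_zero
  have h1 : ∀ j, M.det ∣ (M.adjugate *ᵥ p) j := by
    intro j
    have h2 : M.det ∣ M.adjugate 3 3 * (M.adjugate *ᵥ p) j := by
      have e : M.adjugate 3 3 * (M.adjugate *ᵥ p) j =
        (M.adjugate 3 3 * (M.adjugate *ᵥ p) j - M.adjugate j 3 * (M.adjugate *ᵥ p) 3) +
          M.adjugate j 3 * (M.adjugate *ᵥ p) 3 := by ring
      rw [e]
      exact dvd_add (H.mulVec_A p j) (h0.mul_left _)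
    exact (H.pf.dvd_or_dvd h2).resolve_left H.hfδ
  choose y hy using h1
  refine ⟨y, fun j => ?_, ?_⟩
  · rw [ThreeData.mem_low, ← hy j]
    have := H.A_mulVec_hom hp j
    have e : s + 5 - wt j = s + 1 - wt j + 4 := by
      have := wt_le_one j
      omega
    rwa [e] at this
  · apply smul_cancel_vec4 hf0
    rw [← M_mulVec_adj p, ← Matrix.mulVec_smul]
    congr 1
    funext j
    rw [hy j, Pi.smul_apply, smul_eq_mul]

lemma M_low (H : FourData M g s) {y : Fin 4 → P3}
    (hy : ∀ j, y j ∈ ThreeData.low M.det (s + 1 - wt j)) (i : Fin 4) :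
    ((M *ᵥ y) i).IsHomogeneous (s + wt i) := by
  rw [Matrix.mulVec, dotProduct]
  refine IsHomogeneous.sum _ _ _ fun k _ => ?_
  rcases ThreeData.low_cases H.even.hf H.pf.ne_zero (hy k) with h | ⟨h, h'⟩
  · rw [h, mul_zero]
    exact isHomogeneous_zero _ _ _
  · have := (H.hM i k).mul h'
    have e : 1 + wt i + wt k + (s + 1 - wt k - 2) = s + wt i := by
      have := wt_le_one k
      omega
    rwa [e] at this

end FourData

/-- the lattice, as a space of vectors of forms -/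
noncomputable def WL (f g : P3) (A : Matrix (Fin 4) (Fin 4) P3) (d : ℕ) :
    Submodule ℂ (Fin 4 → P3) where
  carrier := {p | (∀ i, (p i).IsHomogeneous (d + wt i)) ∧
    ∀ j, (A *ᵥ p) j ∈ rt f g (d + 5 - wt j)}
  add_mem' {a b} ha hb := ⟨fun i => (ha.1 i).add (hb.1 i), fun j => by
    rw [Matrix.mulVec_add, Pi.add_apply]
    exact add_mem (ha.2 j) (hb.2 j)⟩
  zero_mem' := ⟨fun i => isHomogeneous_zero _ _ _, fun j => by
    rw [Matrix.mulVec_zero]; exact zero_mem _⟩
  smul_mem' c a ha := ⟨fun i => (homogeneousSubmodule (Fin 3) ℂ _).smul_mem c (ha.1 i),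
    fun j => by
    rw [Matrix.mulVec_smul, Pi.smul_apply]
    exact Submodule.smul_mem _ c (ha.2 j)⟩

/-- reduction modulo `g` -/
noncomputable def redV (g : P3) : (Fin 4 → P3) →ₗ[ℂ] (Fin 4 → RG g) :=
  LinearMap.pi fun i => (Ideal.Quotient.mkₐ ℂ (Ideal.span {g})).toLinearMap.comp
    (LinearMap.proj i)

lemma redV_apply (g : P3) (p : Fin 4 → P3) (i : Fin 4) : redV g p i = q g (p i) := rfl

/-- the section given by a vector of forms -/
noncomputable def secV (f : P3) (A : Matrix (Fin 4) (Fin 4) P3) :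
    (Fin 4 → P3) →ₗ[ℂ] (P3 ⧸ (Ideal.span {f} : Ideal P3)) where
  toFun p := Ideal.Quotient.mk (Ideal.span {f}) ((A *ᵥ p) 3)
  map_add' p p' := by rw [Matrix.mulVec_add, Pi.add_apply, map_add]
  map_smul' c p := by
    rw [Matrix.mulVec_smul, Pi.smul_apply, RingHom.id_apply]
    exact (Ideal.Quotient.mkₐ ℂ (Ideal.span {f})).toLinearMap.map_smul c _

lemma secV_eq_zero {f : P3} {A : Matrix (Fin 4) (Fin 4) P3} {p : Fin 4 → P3} :
    secV f A p = 0 ↔ f ∣ (A *ᵥ p) 3 := by
  rw [← Ideal.mem_span_singleton, ← Ideal.Quotient.eq_zero_iff_mem]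
  rfl

/-- the parametrisation of the kernel -/
noncomputable def parM (f : P3) (M : Matrix (Fin 4) (Fin 4) P3) (s : ℕ) :
    ((j : Fin 4) → ThreeData.low f (s + 1 - wt j)) →ₗ[ℂ] (Fin 4 → P3) where
  toFun y := M *ᵥ fun j => (y j : P3)
  map_add' y y' := by
    rw [← Matrix.mulVec_add]
    rfl
  map_smul' c y := by
    rw [RingHom.id_apply, ← Matrix.mulVec_smul]
    rfl

lemma parM_apply {f : P3} {M : Matrix (Fin 4) (Fin 4) P3} {s : ℕ}
    (y : (j : Fin 4) → ThreeData.low f (s + 1 - wt j)) :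
    parM f M s y = M *ᵥ fun j => (y j : P3) := rfl

lemma q_mulVec4 (g : P3) (A : Matrix (Fin 4) (Fin 4) P3) (p : Fin 4 → P3) (j : Fin 4) :
    ((qm4 g A).mulVec fun i => q g (p i)) j = q g ((A *ᵥ p) j) := by
  change ∑ k, (Ideal.Quotient.mk (Ideal.span {g})) (A j k) * (Ideal.Quotient.mk _) (p k) =
    Ideal.Quotient.mk (Ideal.span {g}) (∑ k, A j k * p k)
  rw [map_sum]
  exact Finset.sum_congr rfl fun k _ => (map_mul _ _ _).symm

namespace FourData

variable {M : Matrix (Fin 4) (Fin 4) P3} {g : P3} {s : ℕ}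

lemma mem_WL (H : FourData M g s) {d : ℕ} {p : Fin 4 → P3} :
    p ∈ WL M.det g M.adjugate d ↔ (∀ i, (p i).IsHomogeneous (d + wt i)) ∧
      ∀ j, ((M.adjugate *ᵥ p) j) ^ 2 ∈ (Ideal.span {g, M.det} : Ideal P3) := by
  constructor
  · rintro ⟨h1, h2⟩
    exact ⟨h1, fun j => (H.even.mem_rt.1 (h2 j)).2⟩
  · rintro ⟨h1, h2⟩
    exact ⟨h1, fun j => H.even.mem_rt.2 ⟨H.A_mulVec_hom h1 j, h2 j⟩⟩

/-- the lattice `WM` is the reduction of `WL` -/
lemma map_WL (H : FourData M g s) (d : ℕ) :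
    (WL M.det g M.adjugate d).map (redV g) = WM M.det g M.adjugate d := by
  apply le_antisymm
  · rintro _ ⟨p, hp, rfl⟩
    refine ⟨fun i => mem_gr.2 ⟨p i, hp.1 i, rfl⟩, fun j => ?_⟩
    have h1 : redV g p = fun i => q g (p i) := rfl
    rw [h1, q_mulVec4]
    exact Submodule.mem_map.2 ⟨_, hp.2 j, rfl⟩
  · intro l hl
    have h1 : ∀ i, ∃ p : P3, p.IsHomogeneous (d + wt i) ∧ q g p = l i := fun i =>
      mem_gr.1 (hl.1 i)
    choose p hp hpl using h1
    have hlp : l = fun i => q g (p i) := funext fun i => (hpl i).symm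
    refine ⟨p, H.mem_WL.2 ⟨hp, fun j => ?_⟩, hlp.symm⟩
    have h2 := hl.2 j
    rw [hlp, q_mulVec4] at h2
    obtain ⟨a, ha, ha'⟩ := Submodule.mem_map.1 h2
    rw [H.even.mem_rt] at ha
    obtain ⟨w, hw⟩ : g ∣ (M.adjugate *ᵥ p) j - a := by
      rw [← ThreeData.q_eq_q]
      exact ha'.symm
    have h5 : ((M.adjugate *ᵥ p) j) ^ 2 = a ^ 2 + g * (w * ((M.adjugate *ᵥ p) j + a)) := by
      linear_combination ((M.adjugate *ᵥ p) j + a) * hw
    rw [h5]
    exact add_mem ha.2 (Ideal.mul_mem_right _ _ (Ideal.subset_span (by simp)))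

lemma finite_WL (f g : P3) (A : Matrix (Fin 4) (Fin 4) P3) (d : ℕ) :
    FiniteDimensional ℂ (WL f g A d) := by
  let e : WL f g A d →ₗ[ℂ] ((i : Fin 4) → homogeneousSubmodule (Fin 3) ℂ (d + wt i)) :=
    { toFun := fun l i => ⟨l.1 i, l.2.1 i⟩
      map_add' := fun _ _ => rfl
      map_smul' := fun _ _ => rfl }
  refine FiniteDimensional.of_injective e ?_
  intro x y hxy
  apply Subtype.ext
  funext i
  exact congrArg Subtype.val (congrFun hxy i)

lemma finrank_WL (H : FourData M g s) :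
    finrank ℂ (WL M.det g M.adjugate s) = finrank ℂ (WM M.det g M.adjugate s) := by
  rw [← H.map_WL, finrank_map_of_injOn]
  intro p hp h0
  funext i
  by_contra hne
  refine not_dvd_of_degree H.even.hu (hp.1 i) hne ?_ ?_
  · have := wt_le_one i
    omega
  · have := congrFun h0 i
    rw [redV_apply, Pi.zero_apply] at this
    exact Ideal.mem_span_singleton.1 (Ideal.Quotient.eq_zero_iff_mem.1 this)

/-- the image is the space of sections -/
lemma map_secV (H : FourData M g s) :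
    (WL M.det g M.adjugate s).map (secV M.det M.adjugate) =
      thetaSp M.det (M.adjugate 3 3 * g) (s + 4) := by
  apply le_antisymm
  · rintro _ ⟨p, hp, rfl⟩
    have h1 := H.mem_WL.1 hp
    refine Submodule.mem_map.2 ⟨(M.adjugate *ᵥ p) 3, H.evenδg.mem_rt.2 ⟨?_, H.key h1.1 h1.2⟩,
      rfl⟩
    exact H.A_mulVec_hom h1.1 3
  · rintro _ ⟨b, hb, rfl⟩
    have h1 := H.evenδg.mem_rt.1 hb
    obtain ⟨p, hp, hp2, hpb⟩ := H.surj h1.1 h1.2
    refine ⟨p, H.mem_WL.2 ⟨hp, hp2⟩, ?_⟩
    rw [← hpb]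
    rfl

lemma parM_injective (H : FourData M g s) : Function.Injective (parM M.det M s) := by
  rw [← LinearMap.ker_eq_bot, LinearMap.ker_eq_bot']
  intro y hy
  have h1 := adj_mulVec_M (M := M) (fun j => (y j : P3))
  rw [parM_apply] at hy
  rw [hy, Matrix.mulVec_zero] at h1
  funext j
  apply Subtype.ext
  have h2 := congrFun h1 j
  rw [Pi.smul_apply, smul_eq_mul, Pi.zero_apply] at h2
  exact (mul_eq_zero.1 h2.symm).resolve_left H.pf.ne_zero

lemma range_parM (H : FourData M g s) :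
    (LinearMap.ker ((secV M.det M.adjugate).domRestrict (WL M.det g M.adjugate s))).map
      (WL M.det g M.adjugate s).subtype = LinearMap.range (parM M.det M s) := by
  apply le_antisymm
  · rintro _ ⟨⟨p, hp⟩, hp0, rfl⟩
    have h1 : M.det ∣ (M.adjugate *ᵥ p) 3 := secV_eq_zero.1 hp0
    obtain ⟨y, hy, rfl⟩ := H.ker_decomp hp.1 h1
    exact ⟨fun j => ⟨y j, hy j⟩, rfl⟩
  · rintro _ ⟨y, rfl⟩
    rw [parM_apply]
    obtain ⟨w, hw⟩ : ∃ w : Fin 4 → P3, w = fun j => (y j : P3) := ⟨_, rfl⟩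
    have hwl : ∀ j, w j ∈ ThreeData.low M.det (s + 1 - wt j) := by
      intro j
      rw [hw]
      exact (y j).2
    rw [← hw]
    have h2 : ∀ j, (M.adjugate *ᵥ (M *ᵥ w)) j = M.det * w j := by
      intro j
      rw [adj_mulVec_M, Pi.smul_apply, smul_eq_mul]
    have h1 : M *ᵥ w ∈ WL M.det g M.adjugate s := by
      refine H.mem_WL.2 ⟨H.M_low hwl, fun j => ?_⟩
      rw [h2, mul_pow]
      exact mem_span_of_dvd ((dvd_pow_self _ two_ne_zero).mul_right _)
    have h3 : secV M.det M.adjugate (M *ᵥ w) = 0 :=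
      secV_eq_zero.2 (by rw [h2]; exact dvd_mul_right _ _)
    exact ⟨⟨M *ᵥ w, h1⟩, h3, rfl⟩

lemma finrank_low4 {f : P3} (hf : f.IsHomogeneous 6) (hf0 : f ≠ 0) (s : ℕ) :
    finrank ℂ ((j : Fin 4) → ThreeData.low f (s + 1 - wt j)) =
      3 * (s + 1).choose 2 + s.choose 2 := by
  have h3 : ∀ j : Fin 4, FiniteDimensional ℂ (ThreeData.low f (s + 1 - wt j)) := fun j =>
    (ThreeData.finrank_low (r := s + 1 - wt j) hf hf0).2
  have h4 : finrank ℂ ((j : Fin 4) → ThreeData.low f (s + 1 - wt j)) =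
      ∑ j : Fin 4, finrank ℂ (ThreeData.low f (s + 1 - wt j)) :=
    Module.finrank_pi_fintype ℂ
  have h5 : ∀ j : Fin 4, finrank ℂ (ThreeData.low f (s + 1 - wt j)) =
      (s + 1 - wt j).choose 2 := fun j =>
    (ThreeData.finrank_low (r := s + 1 - wt j) hf hf0).1
  rw [h4, Finset.sum_congr rfl fun j _ => h5 j, Fin.sum_univ_four]
  have e0 : wt 0 = 0 := rfl
  have e1 : wt 1 = 0 := rfl
  have e2 : wt 2 = 0 := rfl
  have e3 : wt 3 = 1 := rfl
  rw [e0, e1, e2, e3, Nat.sub_zero, Nat.add_sub_cancel]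
  ring

/-- **The dimension of the lattice `WM` in degree `s`.** -/
theorem finrank_WM (H : FourData M g s) :
    finrank ℂ (WM M.det g M.adjugate s) =
      finrank ℂ (thetaSp M.det (M.adjugate 3 3 * g) (s + 4)) + 3 * (s + 1).choose 2 +
        s.choose 2 := by
  have hfin := finite_WL M.det g M.adjugate s
  have h1 := LinearMap.finrank_range_add_finrank_ker
    ((secV M.det M.adjugate).domRestrict (WL M.det g M.adjugate s))
  rw [LinearMap.range_domRestrict, H.map_secV, H.finrank_WL] at h1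
  have h2 : finrank ℂ (LinearMap.ker ((secV M.det M.adjugate).domRestrict
      (WL M.det g M.adjugate s))) = 3 * (s + 1).choose 2 + s.choose 2 := by
    rw [← finrank_map_of_injOn (WL M.det g M.adjugate s).subtype _
      (fun v _ h => Subtype.ext h), H.range_parM,
      LinearMap.finrank_range_of_inj H.parM_injective]
    exact finrank_low4 H.even.hf H.pf.ne_zero s
  omega

end FourData

end Vale.Agent.P287.C8
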