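import Vale.Agent.P287.C8.Even

/-!
Forms meeting a smooth sextic evenly: minors of symmetric determinantal representations and curves
over which the double plane splits.
-/

namespace Vale.Agent.P287.C8

open MvPolynomial Vale.Agent.P287 Vale.Agent.P287.H925 Vale.Agent.P287.Theta

section Adj

/-- At a smooth point of the determinant some entry of the adjugate does not vanish. -/
lemma exists_adj_ne_zero {n : ℕ} (M : Matrix (Fin n) (Fin n) P3) (hs : SmoothP M.det)
    {z : Fin 3 → ℂ} (hz : z ≠ 0) (hfz : eval z M.det = 0) :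
    ∃ i j, eval z (M.adjugate i j) ≠ 0 := by
  by_contra hcon
  push Not at hcon
  apply hz
  apply hs
  intro k
  by_contra hk
  -- differentiate `M * adj M = det M`
  have h1 : ∀ i j, ∑ l, M i l * M.adjugate l j = M.det * (1 : Matrix (Fin n) (Fin n) P3) i j := by
    intro i j
    have := congrFun (congrFun (Matrix.mul_adjugate M) i) j
    rw [Matrix.mul_apply] at this
    exact this
  set B : Matrix (Fin n) (Fin n) ℂ := Matrix.of fun l j => eval z (pderiv k (M.adjugate l j))
    with hB
  have h2 : (M.map (eval z)) * B = (eval z (pderiv k M.det)) • (1 : Matrix (Fin n) (Fin n) ℂ) := by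
    ext i j
    have h3 := congrArg (fun p => eval z (pderiv k p)) (h1 i j)
    simp only [map_sum, pderiv_mul, map_add, map_mul, hcon, mul_zero, zero_add, hfz, zero_mul,
      add_zero] at h3
    rw [Matrix.mul_apply, Matrix.smul_apply, smul_eq_mul]
    simp only [Matrix.map_apply, hB, Matrix.of_apply]
    rw [h3, Matrix.one_apply, Matrix.one_apply]
    split_ifs <;> simp
  have h4 := congrArg Matrix.det h2
  rw [Matrix.det_mul, Matrix.det_smul, Matrix.det_one, mul_one] at h4
  have h5 : (M.map (eval z)).det = eval z M.det := (RingHom.map_det (eval z) M).symm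
  rw [h5, hfz, zero_mul] at h4
  exact pow_ne_zero _ hk h4.symm

variable {n : ℕ} {M : Matrix (Fin (n + 1)) (Fin (n + 1)) P3}

lemma adj_symm' {n : ℕ} {R : Type*} [CommRing R] {M : Matrix (Fin n) (Fin n) R} (hM : M.IsSymm)
    (i j) : M.adjugate i j = M.adjugate j i := by
  have h := Matrix.adjugate_transpose M
  rw [hM.eq] at h
  have := congrFun (congrFun h i) j
  rw [Matrix.transpose_apply] at this
  exact this.symm

/-- the adjugate has rank one modulo the determinant -/
lemma dvd_minor_adj {n : ℕ} {R : Type*} [CommRing R] (M : Matrix (Fin (n + 1)) (Fin (n + 1)) R)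
    {f : R} (hf : Prime f) (hM : f ∣ M.det) (k : Fin (n + 1)) (hδ : ¬ f ∣ M.adjugate k k)
    (i j : Fin (n + 1)) :
    f ∣ M.adjugate k k * M.adjugate i j - M.adjugate i k * M.adjugate k j := by
  set s : Fin (n + 1) ≃ Fin (n + 1) := Equiv.swap 0 k with hs
  have h1 : ∀ i j, (M.submatrix s s).adjugate i j = M.adjugate (s i) (s j) := by
    intro i j
    rw [Matrix.adjugate_submatrix_equiv_self]
    rfl
  have h0 : s 0 = k := Equiv.swap_apply_left 0 k
  have h2 := dvd_minor_adjugate (M.submatrix s s) hf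
    (by rw [Matrix.det_submatrix_equiv_self]; exact hM) (by rw [h1, h0]; exact hδ) (s i) (s j)
  rw [h1, h1, h1, h1, h0] at h2
  have h3 : ∀ i, s (s i) = i := fun i => Equiv.swap_apply_self 0 k i
  rwa [h3, h3] at h2

/-- the diagonal entries of the adjugate are squares modulo each other -/
lemma dvd_diag' {n : ℕ} {R : Type*} [CommRing R] {M : Matrix (Fin (n + 1)) (Fin (n + 1)) R}
    (hM : M.IsSymm) (hf : Prime M.det) {k : Fin (n + 1)} (hδ : ¬ M.det ∣ M.adjugate k k) (i j) :
    M.det ∣ M.adjugate i i * M.adjugate j j - M.adjugate i j ^ 2 := by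
  have h1 := dvd_minor_adj M hf dvd_rfl k hδ i i
  have h2 := dvd_minor_adj M hf dvd_rfl k hδ j j
  have h3 := dvd_minor_adj M hf dvd_rfl k hδ i j
  rw [adj_symm' hM k i] at h1
  rw [adj_symm' hM k j] at h2 h3
  have h4 : M.det ∣ M.adjugate k k ^ 2 * (M.adjugate i i * M.adjugate j j
      - M.adjugate i j ^ 2) := by
    have e : M.adjugate k k ^ 2 * (M.adjugate i i * M.adjugate j j - M.adjugate i j ^ 2) =
        (M.adjugate k k * M.adjugate i i - M.adjugate i k * M.adjugate i k) *
          (M.adjugate k k * M.adjugate j j) +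
        (M.adjugate i k * M.adjugate i k) *
          (M.adjugate k k * M.adjugate j j - M.adjugate j k * M.adjugate j k) -
        (M.adjugate k k * M.adjugate i j - M.adjugate i k * M.adjugate j k) *
          (M.adjugate k k * M.adjugate i j + M.adjugate i k * M.adjugate j k) := by ring
    rw [e]
    exact dvd_sub (dvd_add (h1.mul_right _) (h2.mul_left _)) (h3.mul_right _)
  exact (hf.dvd_or_dvd h4).resolve_left fun h5 => hδ (hf.dvd_of_dvd_pow h5)

/-- A diagonal minor of a symmetric determinantal representation of a smooth sextic meets the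
sextic evenly. -/
theorem evenOn_adj_gen {n : ℕ} {M : Matrix (Fin (n + 1)) (Fin (n + 1)) P3} (hM : M.IsSymm)
    (hf : M.det.IsHomogeneous 6) (hs : SmoothP M.det) {k : Fin (n + 1)} {e : ℕ}
    (hδ : (M.adjugate k k).IsHomogeneous e) (h0 : ¬ M.det ∣ M.adjugate k k) :
    EvenOn M.det (M.adjugate k k) e where
  hf := hf
  sf := hs
  hu := hδ
  hfu := h0
  even := fun z hz hfz => by
    have hp := prime_of_smoothP hf (by norm_num) hs
    obtain ⟨i, j, hij⟩ := exists_adj_ne_zero M hs hz hfz
    have h0' : ∀ a, M.det ∣ a → eval z a = 0 := by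
      rintro _ ⟨b, rfl⟩
      rw [map_mul, hfz, zero_mul]
    have h1 := h0' _ (dvd_diag' hM hp h0 i j)
    rw [map_sub, map_mul, map_pow, sub_eq_zero] at h1
    have h2 : eval z (M.adjugate i i) ≠ 0 := by
      intro h3
      rw [h3, zero_mul] at h1
      exact hij ((pow_eq_zero_iff two_ne_zero).1 h1.symm)
    refine ⟨M.adjugate i i, M.adjugate i k, h2, ?_⟩
    have h4 := dvd_minor_adj M hp dvd_rfl k h0 i i
    rw [adj_symm' hM k i] at h4
    refine h4.trans (dvd_of_eq ?_)
    ring

/-- The case of the matrix of a cubic fourfold containing a plane. -/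
theorem evenOn_adj {M : Matrix (Fin 4) (Fin 4) P3} (hM : M.IsSymm)
    (hf : M.det.IsHomogeneous 6) (hs : SmoothP M.det) (hδ : (M.adjugate 3 3).IsHomogeneous 3)
    (h0 : M.adjugate 3 3 ≠ 0) : EvenOn M.det (M.adjugate 3 3) 3 :=
  evenOn_adj_gen hM hf hs hδ (not_dvd_of_degree hf hδ h0 (by norm_num))

end Adj

section Split

/-- a linear change of coordinates with `A e₀ = z` -/
lemma exists_matrix_col0 {z : Fin 3 → ℂ} (hz : z ≠ 0) :
    ∃ P : Matrix (Fin 3) (Fin 3) ℂ, IsUnit P.det ∧ P.mulVec ![1, 0, 0] = z := by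
  obtain ⟨P, hP, hPz⟩ := exists_matrix_col hz
  set S : Matrix (Fin 3) (Fin 3) ℂ := Matrix.of ![![0, 0, 1], ![0, 1, 0], ![1, 0, 0]] with hS
  have hSd : IsUnit S.det := by
    rw [isUnit_iff_ne_zero, hS, Matrix.det_fin_three]
    simp
  refine ⟨P * S, by rw [Matrix.det_mul]; exact hP.mul hSd, ?_⟩
  rw [← Matrix.mulVec_mulVec, ← hPz]
  congr 1
  funext i
  fin_cases i <;> simp [hS, Matrix.mulVec, dotProduct, Fin.sum_univ_three]

/-- A plane curve over which the double plane splits meets the sextic evenly. -/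
theorem evenOn_split {f g : P3} {m : ℕ} (hf : f.IsHomogeneous 6) (hs : SmoothP f)
    (hg : g.IsHomogeneous m) (pg : Prime g) (hgf : ¬ g ∣ f)
    (hsq : ∃ (e : ℕ) (s c : P3), c.IsHomogeneous e ∧ ¬ g ∣ c ∧ g ∣ c ^ 2 * f - s ^ 2) :
    EvenOn f g m where
  hf := hf
  sf := hs
  hu := hg
  hfu := fun h => hgf
    (((prime_of_smoothP hf (by norm_num) hs).irreducible.associated_of_dvd pg.irreducible h).symm.dvd)
  even := fun z hz hfz => by
    by_cases hgz : eval z g = 0
    swap
    · exact ⟨g, g, hgz, by rw [pow_two, sub_self]; exact dvd_zero _⟩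
    have hp := prime_of_smoothP hf (by norm_num) hs
    obtain ⟨P, hP, hPz⟩ := exists_matrix_col0 hz
    obtain ⟨e, s, c, hc, hgc, hdvd⟩ := hsq
    have hev : ∀ p : P3, Polynomial.evalEval 0 0 (cr (lin P p)) = eval z p := by
      intro p
      rw [evalEval_cr, eval_lin, hPz]
    have hf' := lin_homogeneous P hf
    have hp' := (prime_lin hP).2 hp
    have hg' := lin_homogeneous P hg
    have hpg' := (prime_lin hP).2 pg
    -- `cr (lin P g)` is prime
    have hX0 : ¬ lin P g ∣ X 0 := by
      rintro ⟨a, ha⟩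
      have h1 := congrArg (eval ![1, 0, 0]) ha
      rw [map_mul, eval_lin, hPz, hgz, zero_mul, eval_X] at h1
      simp at h1
    have hpg : Prime (cr (lin P g)) := by
      have h1 := prime_dehom hg' hpg' hX0
      exact (MulEquiv.prime_iff crEquiv.toMulEquiv).2 h1
    -- divisibility by `lin P g` in the chart lifts
    have hlift : ∀ {a : P3} {n : ℕ}, a.IsHomogeneous n → cr (lin P g) ∣ cr (lin P a) → g ∣ a := by
      intro a n ha h
      obtain ⟨t, ht⟩ := h
      obtain ⟨l, hl⟩ := exists_homogenisation (crTo t)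
      obtain ⟨T, hT, hT'⟩ := hl (l + n) (by omega)
      have hcT : cr T = t := by rw [cr, AlgHom.comp_apply, hT', crInv_crTo]
      have h1 : lin P g * T - X 0 ^ (m + l) * lin P a = 0 := by
        have h2 : (X 0 ^ (m + l) * lin P a).IsHomogeneous (m + (l + n)) := by
          have := ((isHomogeneous_X ℂ (0 : Fin 3)).pow (m + l)).mul (lin_homogeneous P ha)
          have e1 : 1 * (m + l) + n = m + (l + n) := by ring
          rwa [e1] at this
        apply cr_inj ((hg'.mul hT).sub h2)
        rw [map_sub, map_mul, map_mul, map_pow, cr_X0, one_pow, one_mul, hcT, ht, sub_self]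
      have h2 : lin P g ∣ X 0 ^ (m + l) * lin P a := ⟨T, (sub_eq_zero.1 h1).symm⟩
      rcases hpg'.dvd_or_dvd h2 with h3 | h3
      · exact absurd (hpg'.dvd_of_dvd_pow h3) hX0
      · exact (lin_dvd_lin hP).1 h3
    obtain ⟨v, ε, hv, hvε⟩ := even_norm (f := cr (lin P f)) hpg
      ⟨cr (lin P s), cr (lin P c), fun h => hgc (hlift hc h), by
        have := map_dvd cr (map_dvd (lin P) hdvd)
        simp only [map_sub, map_mul, map_pow] at this
        exact this⟩ (x := 0) (y := 0) (by rw [hev]; exact hfz)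
      (smooth_cr hf' (hs.lin hP) 0 0)
    -- homogenise
    obtain ⟨k₁, hk₁⟩ := exists_homogenisation (crTo v)
    obtain ⟨k₂, hk₂⟩ := exists_homogenisation (crTo ε)
    obtain ⟨V, hV, hV'⟩ := hk₁ (m + 2 * (k₁ + k₂)) (by omega)
    obtain ⟨E, hE, hE'⟩ := hk₂ (m + (k₁ + k₂)) (by omega)
    have hcV : cr V = v := by rw [cr, AlgHom.comp_apply, hV', crInv_crTo]
    have hcE : cr E = ε := by rw [cr, AlgHom.comp_apply, hE', crInv_crTo]
    have h6 : (V * lin P g - E ^ 2).IsHomogeneous (m + 2 * (k₁ + k₂) + m) := by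
      have h7 := hE.pow 2
      have e1 : (m + (k₁ + k₂)) * 2 = m + 2 * (k₁ + k₂) + m := by ring
      rw [e1] at h7
      exact (hV.mul hg').sub h7
    have h8 : lin P f ∣ V * lin P g - E ^ 2 := by
      refine dvd_of_cr_dvd hf' hp' (by norm_num) h6 ?_
      rw [map_sub, map_mul, map_pow, hcV, hcE]
      exact hvε
    have hPP : ∀ p : P3, lin P⁻¹ (lin P p) = p := by
      intro p
      rw [lin_lin, Matrix.mul_nonsing_inv _ hP, lin_one]
    have hPz' : P⁻¹.mulVec z = ![1, 0, 0] := by
      rw [← hPz, Matrix.mulVec_mulVec, Matrix.nonsing_inv_mul _ hP, Matrix.one_mulVec]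
    refine ⟨lin P⁻¹ V, lin P⁻¹ E, ?_, ?_⟩
    · rw [eval_lin, hPz', ← evalEval_cr, hcV]
      exact hv
    · have h9 := map_dvd (lin P⁻¹) h8
      rw [map_sub, map_mul, map_pow, hPP, hPP] at h9
      exact h9

end Split

end Vale.Agent.P287.C8
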