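import Vale.Agent.P287.C8.Assemble
import Vale.Agent.P287.H754.VerraCubic

/-!
Rationality from a net of quadrics, or from a Verra fourfold, with the same discriminant and a
compatible square root.
-/

namespace Vale.Agent.P287.C8

open MvPolynomial Module Vale.Agent.P287 Vale.Agent.P287.H925 Vale.Agent.P287.H925.NetResult
  Vale.Agent.P287.Theta Vale.Agent.P287.H139

/-- a matrix of linear forms as a net of quadratic forms -/
noncomputable def netOf (N : Matrix (Fin 6) (Fin 6) P3) (k : Fin 3) : Matrix (Fin 6) (Fin 6) ℂ :=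
  Matrix.of fun i j => coeff (Finsupp.single k 1) (N i j)

lemma lin_eq {p : P3} (hp : p.IsHomogeneous 1) :
    p = ∑ k, C (coeff (Finsupp.single k 1) p) * X k := by
  obtain ⟨c, hc⟩ := lin_form hp
  have h : ∀ k, coeff (Finsupp.single k 1) p = c k := by
    intro k
    rw [hc, coeff_sum]
    rw [Finset.sum_eq_single k]
    · rw [coeff_C_mul, coeff_X, if_pos rfl, mul_one]
    · intro j _ hj
      rw [coeff_C_mul, coeff_X', if_neg, mul_zero]
      intro h
      exact hj ((Finsupp.single_left_injective one_ne_zero) h)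
    · simp
  simp only [h]
  exact hc

lemma netOf_apply {N : Matrix (Fin 6) (Fin 6) P3} (hN : ∀ i j, (N i j).IsHomogeneous 1)
    (w : Fin 6 → RatK) :
    net (netOf N) tvec w = w ⬝ᵥ (N.map (aeval tvec : P3 →ₐ[ℂ] RatK)).mulVec w := by
  have h : ∀ i j, aeval tvec (N i j) =
      ∑ k, tvec k * algebraMap ℂ RatK (coeff (Finsupp.single k 1) (N i j)) := by
    intro i j
    conv_lhs => rw [lin_eq (hN i j)]
    simp only [map_sum, map_mul, aeval_X, aeval_C]
    exact Finset.sum_congr rfl fun k _ => mul_comm _ _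
  simp only [net, qf, netOf, Matrix.of_apply, dotProduct, Matrix.mulVec, Matrix.map_apply, h,
    Finset.mul_sum, Finset.sum_mul]
  rw [Finset.sum_comm]
  refine Finset.sum_congr rfl fun i _ => ?_
  rw [Finset.sum_comm]
  refine Finset.sum_congr rfl fun j _ => ?_
  refine Finset.sum_congr rfl fun k _ => ?_
  ring

/-- the permuted coordinates -/
lemma sw_dot (M : Matrix (Fin 4) (Fin 4) RatK) (v : Fin 4 → RatK) :
    (v ∘ sw) ⬝ᵥ (M.submatrix sw sw).mulVec (v ∘ sw) = v ⬝ᵥ M.mulVec v := by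
  simp only [dotProduct, Matrix.mulVec, Matrix.submatrix_apply, Function.comp_apply]
  rw [← Equiv.sum_comp sw (fun i => v i * ∑ j, M i j * v j)]
  refine Finset.sum_congr rfl fun i _ => ?_
  rw [← Equiv.sum_comp sw (fun j => M (sw i) j * v j)]

lemma aeval_tvec_ne_zero {p : P3} {d : ℕ} (hp : p.IsHomogeneous d) (h0 : p ≠ 0) :
    aeval tvec p ≠ 0 := by
  rw [← crMap_cr]
  intro h
  exact h0 (cr_inj hp (crMap_injective (by rw [h, map_zero])))

section

variable {M : Matrix (Fin 4) (Fin 4) P3} {g : P3} {m : ℕ}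

/-- **The net case.** -/
theorem rational_of_net_matrix (hM : M.IsSymm)
    (hdeg : ∀ i j, (M i j).IsHomogeneous (1 + wt i + wt j)) (hs : SmoothForm (cubicOf M))
    (hsm : SmoothP M.det) (hg : Irreducible g) (hgm : g.IsHomogeneous m) (hm : 2 ≤ m)
    (hgf : ¬ g ∣ M.det)
    (hsq : ∃ (e : ℕ) (s c : P3), c.IsHomogeneous e ∧ ¬ g ∣ c ∧ g ∣ c ^ 2 * M.det - s ^ 2)
    {N A : Matrix (Fin 6) (Fin 6) P3} (sN : N.IsSymm) (sA : A.IsSymm)
    (hN : ∀ i j, (N i j).IsHomogeneous 1)
    (hNA : N * A = M.det • (1 : Matrix (Fin 6) (Fin 6) P3)) {c0 : ℂ} (hc0 : c0 ≠ 0)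
    (hdet : N.det = C c0 * M.det) {b : Fin 6 → P3} {a : ℕ} (hAh : ∀ i j, (A i j).IsHomogeneous a)
    (hbA : ∀ i j, M.det ∣ b i * b j - (M.adjugate 3 3 * g) * A i j) {e : Fin 6}
    (hb : ¬ M.det ∣ b e) : RationalHypersurface (cubicOf M) := by
  have hchar : CharZero RatK := charZero_of_injective_algebraMap (algebraMap ℂ RatK).injective
  have hdet' : (M.submatrix sw sw).det = M.det := Matrix.det_submatrix_equiv_self sw M
  have hadj : (M.submatrix sw sw).adjugate 0 0 = M.adjugate 3 3 := by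
    rw [Matrix.adjugate_submatrix_equiv_self]
    rfl
  have pf := prime_of_smoothP (det_hom6 hdeg) (by norm_num) hsm
  have hisoc : ∀ v : Fin 4 → RatK, v ≠ 0 → v ⬝ᵥ ((M.submatrix sw sw).map
      (aeval tvec : P3 →ₐ[ℂ] RatK)).mulVec v = 0 → RationalHypersurface (cubicOf M) := by
    intro v hv hqv
    refine rational_of_isotropic_matrix M hdeg hs (v ∘ sw) ?_ ?_
    · intro h
      apply hv
      funext i
      have := congrFun h (sw i)
      simpa using this
    · rw [← hqv, ← sw_dot]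
      have : (v ∘ sw) ∘ sw = v := by
        funext i
        simp
      rw [this]
      rfl
  by_cases hδ : M.adjugate 3 3 = 0
  · obtain ⟨v, hv, hqv⟩ := isotropic_of_minor (M := M.submatrix sw sw) (by rw [hadj, hδ])
    exact hisoc v hv hqv
  have hfu : ¬ M.det ∣ M.adjugate 3 3 * g := by
    intro h
    rcases pf.dvd_or_dvd h with h1 | h1
    · exact not_dvd_of_degree (det_hom6 hdeg) (adj_hom3 hdeg) hδ (by norm_num) h1
    · exact hgf (pf.irreducible.associated_of_dvd hg h1).symm.dvd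
  have H := chartData (M := M.submatrix sw sw) (M' := N) (A := A) (g := g) (b := b e) (e := e)
    (a := a) hc0 (hM.submatrix sw) sN sA (by rw [hdet']; exact hNA)
    (by rw [hdet']; exact det_hom6 hdeg) (by rw [hdet']; exact pf)
    (by rw [hadj]; exact adj_hom3 hdeg) (by rw [hadj]; exact hδ) hgm hm hg.prime
    (by rw [hdet']; exact hgf) (hAh e e) (by rw [hdet']; exact not_dvd_diag pf hbA hb)
    (by rw [hdet']; exact rank_one pf hfu hbA e)
    (by
      rw [hdet', hadj]
      have := hbA e e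
      rwa [← pow_two] at this)
    (by rw [hdet']; exact hdet) (by rw [hdet']; exact hsq)
  obtain ⟨U, hU, hUd⟩ := ChartData.lagrangian (n := 3) H
  simp only [map_cr_crMap, crMap_cr] at hU
  have hG0 : (N.map (aeval tvec : P3 →ₐ[ℂ] RatK)).det ≠ 0 := by
    have h1 : (N.map (aeval tvec : P3 →ₐ[ℂ] RatK)).det = aeval tvec N.det :=
      (AlgHom.map_det (aeval tvec : P3 →ₐ[ℂ] RatK) N).symm
    rw [h1, hdet, map_mul, aeval_C]
    refine mul_ne_zero ?_ (aeval_tvec_ne_zero (det_hom6 hdeg) pf.ne_zero)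
    exact fun h => hc0 ((map_eq_zero _).1 h)
  have hγ : aeval tvec g ≠ (0 : RatK) := aeval_tvec_ne_zero hgm hg.ne_zero
  have hGs : (N.map (aeval tvec : P3 →ₐ[ℂ] RatK)).IsSymm := by
    refine Matrix.ext fun i j => ?_
    rw [Matrix.transpose_apply, Matrix.map_apply, Matrix.map_apply, sN.apply]
  rcases exists_similarity (Q := (M.submatrix sw sw).map (aeval tvec : P3 →ₐ[ℂ] RatK))
    two_ne_zero hGs hG0 hγ U hU hUd with ⟨v, hv, hqv⟩ | ⟨φ, hφ⟩
  · exact hisoc v hv hqv
  · refine net_result (cubicOf M) (cubicOf_homogeneous M hdeg) hs (qM M)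
      (fun w => by rw [qM_apply, aeval_wvec_cubicOf M hdeg]) (netOf N) ?_
    let τ : (Fin 4 → RatK) ≃ₗ[RatK] (Fin 4 → RatK) := LinearEquiv.funCongrLeft RatK RatK
      (sw.trans perm4)
    refine ⟨(aeval tvec g)⁻¹, inv_ne_zero hγ,
      (LinearEquiv.prodCongr τ (LinearEquiv.refl RatK (RatK × RatK))).trans φ, ?_⟩
    intro v a b
    have h1 : ((LinearEquiv.prodCongr τ (LinearEquiv.refl RatK (RatK × RatK))).trans φ)
        (v, a, b) = φ ((v ∘ perm4) ∘ sw, a, b) := rfl
    have h2 := sw_dot (M.map (aeval tvec : P3 →ₐ[ℂ] RatK)) (v ∘ perm4)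
    have h3 : (M.submatrix sw sw).map (aeval tvec : P3 →ₐ[ℂ] RatK) =
      (M.map (aeval tvec : P3 →ₐ[ℂ] RatK)).submatrix sw sw := rfl
    rw [h1, netOf_apply hN, hφ, qM_apply, h3, h2]

end

end Vale.Agent.P287.C8
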