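import Vale.Agent.P287.C8.Conic
import Vale.Agent.P287.C8.EvenEx
import Vale.Agent.P287.C8.NetCase

/-!
The degenerate cases of the Dixon construction with three sections: a touching conic, and a
vanishing determinant.
-/

namespace Vale.Agent.P287.C8

open MvPolynomial Module Vale.Agent.P287 Vale.Agent.P287.H925 Vale.Agent.P287.H925.NetResult
  Vale.Agent.P287.Theta Vale.Agent.P287.H139

namespace Deg

/-- the binary form attached to a touching conic -/
lemma exists_binary {f δ g a s t : P3} {e es et : ℕ} (H : EvenOn f (δ * g) e) (hf : Prime f)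
    (hδ : δ.IsHomogeneous 3) (hfδ : ¬ f ∣ δ) (ha : a.IsHomogeneous 2)
    (hs : s.IsHomogeneous es) (ht : t.IsHomogeneous et) (hfs : ¬ f ∣ s) (hft : ¬ f ∣ t)
    (h : f ∣ s ^ 2 * (δ * g * a) - t ^ 2) :
    ∃ N : Matrix (Fin 2) (Fin 2) P3, N.IsSymm ∧ (∃ c : ℂ, c ≠ 0 ∧ N.det = C c * f) ∧
      ∃ s t, (∃ e, s.IsHomogeneous e) ∧ (∃ e, t.IsHomogeneous e) ∧ ¬ f ∣ s ∧ ¬ f ∣ t ∧
        f ∣ s ^ 2 * (g * N 0 0) - t ^ 2 * δ := by
  have ha0 : a ≠ 0 := by
    rintro rfl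
    rw [mul_zero, mul_zero, zero_sub, dvd_neg] at h
    exact hft (hf.dvd_of_dvd_pow h)
  rcases conic_sq H ha ha0 hs hfs h with ⟨l, hl, rfl⟩ | ⟨q, hq, Q, hQ⟩
  · have hl0 : l ≠ 0 := fun h0 => ha0 (by rw [h0]; ring)
    have hfl : ¬ f ∣ l := not_dvd_of_degree H.hf hl hl0 (by norm_num)
    refine ⟨!![1, 0; 0, f], ?_, ⟨1, one_ne_zero, ?_⟩, s * δ * l, t, ⟨_, (hs.mul hδ).mul hl⟩,
      ⟨_, ht⟩, ?_, hft, ?_⟩
    · ext i j; fin_cases i <;> fin_cases j <;> rfl
    · rw [Matrix.det_fin_two_of, C_1]; ring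
    · exact fun h1 => (hf.dvd_or_dvd h1).elim (fun h2 => (hf.dvd_or_dvd h2).elim hfs hfδ) hfl
    · change f ∣ (s * δ * l) ^ 2 * (g * 1) - t ^ 2 * δ
      refine (h.mul_left δ).trans (dvd_of_eq ?_)
      ring
  · refine ⟨!![a, q; q, -Q], ?_, ⟨-1, by simp, ?_⟩, s * δ, t, ⟨_, hs.mul hδ⟩, ⟨_, ht⟩, ?_,
      hft, ?_⟩
    · ext i j; fin_cases i <;> fin_cases j <;> rfl
    · rw [Matrix.det_fin_two_of, map_neg, map_one, neg_one_mul]
      linear_combination hQ
    · exact fun h1 => (hf.dvd_or_dvd h1).elim hfs hfδ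
    · change f ∣ (s * δ) ^ 2 * (g * a) - t ^ 2 * δ
      refine (h.mul_left δ).trans (dvd_of_eq ?_)
      ring

/-- the gluing theorem for a binary form, homogeneous version -/
lemma isotropic_of_binary {M : Matrix (Fin 4) (Fin 4) P3} {g : P3} {m : ℕ} (hM : M.IsSymm)
    (hf : M.det.IsHomogeneous 6) (hsm : SmoothP M.det) (pf : Prime M.det)
    (hδ : (M.adjugate 0 0).IsHomogeneous 3) (hfδ : ¬ M.det ∣ M.adjugate 0 0)
    (hg : g.IsHomogeneous m) (hm : 2 ≤ m) (pg : Prime g) (hgf : ¬ g ∣ M.det)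
    (hsq : ∃ (e : ℕ) (s c : P3), c.IsHomogeneous e ∧ ¬ g ∣ c ∧ g ∣ c ^ 2 * M.det - s ^ 2)
    {N : Matrix (Fin 2) (Fin 2) P3} (hN : N.IsSymm) {c : ℂ} (hc : c ≠ 0)
    (hdet : N.det = C c * M.det) {s t : P3} {es et : ℕ} (hes : s.IsHomogeneous es)
    (het : t.IsHomogeneous et) (hs : ¬ M.det ∣ s) (ht : ¬ M.det ∣ t)
    (hst : M.det ∣ s ^ 2 * (g * N 0 0) - t ^ 2 * M.adjugate 0 0) :
    ∃ v : Fin 4 → RatK, v ≠ 0 ∧
      dotProduct v ((M.map (aeval tvec : P3 →ₐ[ℂ] RatK)).mulVec v) = 0 := by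
  rw [← map_cr_crMap]
  have hd0 : (M.map cr).det = cr M.det := det_map_cr M
  have hfh : ∀ {q : P3} {e : ℕ}, q.IsHomogeneous e → ¬ M.det ∣ q → ¬ cr M.det ∣ cr q :=
    fun hq hn hd => hn (dvd_of_cr_dvd hf pf (by norm_num) hq hd)
  have hfg : ¬ M.det ∣ g := fun h =>
    hgf (pf.irreducible.associated_of_dvd pg.irreducible h).symm.dvd
  refine isotropic_chart (M := M.map cr) (N := N.map cr) (g := cr g) (c := c)
    (map_symm (cr : P3 →+* Polynomial (Polynomial ℂ)) hM)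
    (map_symm (cr : P3 →+* Polynomial (Polynomial ℂ)) hN) hc ?_ ?_ ?_
    (prime_cr hg pg (by omega)) (natDegree_cr_ne_zero hg pg (by omega)) ?_ ?_ ?_ ?_
    (s := cr s) (t := cr t) ?_ ?_ ?_
  · have h1 : (N.map cr).det = cr N.det := (AlgHom.map_det cr N).symm
    rw [h1, hd0, hdet, map_mul]
    congr 1
    exact cr.commutes c
  · rw [hd0]; exact prime_cr hf pf (by norm_num)
  · rw [hd0]; exact natDegree_cr_ne_zero hf pf (by norm_num)
  · rw [hd0]; exact hfh hg hfg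
  · rw [hd0, adj_map_cr]; exact hfh hδ hfδ
  · rw [hd0]; exact fun x y _ => smooth_cr hf hsm x y
  · obtain ⟨e, s, c, hc, hgc, h⟩ := hsq
    refine ⟨cr s, cr c, fun h1 => hgc (dvd_of_cr_dvd hg pg (by omega) hc h1), ?_⟩
    rw [hd0, ← map_pow, ← map_pow, ← map_mul, ← map_sub]
    exact map_dvd cr h
  · rw [hd0]; exact hfh hes hs
  · rw [hd0]; exact hfh het ht
  · rw [hd0, adj_map_cr]
    have h1 := map_dvd cr hst
    simp only [map_sub, map_mul, map_pow] at h1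
    exact h1

/-- rationality from an isotropic vector of the permuted matrix -/
lemma rational_of_sw {M : Matrix (Fin 4) (Fin 4) P3}
    (hdeg : ∀ i j, (M i j).IsHomogeneous (1 + wt i + wt j)) (hs : SmoothForm (cubicOf M))
    (v : Fin 4 → RatK) (hv : v ≠ 0) (hqv : v ⬝ᵥ ((M.submatrix sw sw).map
      (aeval tvec : P3 →ₐ[ℂ] RatK)).mulVec v = 0) : RationalHypersurface (cubicOf M) := by
  refine rational_of_isotropic_matrix M hdeg hs (v ∘ sw) ?_ ?_
  · intro h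
    apply hv
    funext i
    have := congrFun h (sw i)
    simpa using this
  · rw [← hqv, ← sw_dot]
    have : (v ∘ sw) ∘ sw = v := by
      funext i
      simp
    rw [this]
    rfl

end Deg

section

variable {M : Matrix (Fin 4) (Fin 4) P3} {g : P3} {m : ℕ}

/-- **A touching conic.** -/
theorem rational_of_conic (hM : M.IsSymm)
    (hdeg : ∀ i j, (M i j).IsHomogeneous (1 + wt i + wt j)) (hs : SmoothForm (cubicOf M))
    (hsm : SmoothP M.det) (hg : Irreducible g) (hgm : g.IsHomogeneous m) (hm : 2 ≤ m)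
    (hgf : ¬ g ∣ M.det)
    (hsq : ∃ (e : ℕ) (s c : P3), c.IsHomogeneous e ∧ ¬ g ∣ c ∧ g ∣ c ^ 2 * M.det - s ^ 2)
    {a s t : P3} {es et : ℕ} (ha : a.IsHomogeneous 2) (hs' : s.IsHomogeneous es)
    (ht : t.IsHomogeneous et) (hfs : ¬ M.det ∣ s) (hft : ¬ M.det ∣ t)
    (h : M.det ∣ s ^ 2 * (M.adjugate 3 3 * g * a) - t ^ 2) :
    RationalHypersurface (cubicOf M) := by
  have hdet : (M.submatrix sw sw).det = M.det := Matrix.det_submatrix_equiv_self sw M
  have hadj : (M.submatrix sw sw).adjugate 0 0 = M.adjugate 3 3 := by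
    rw [Matrix.adjugate_submatrix_equiv_self]
    rfl
  have hf := det_hom6 hdeg
  have pf := prime_of_smoothP hf (by norm_num) hsm
  by_cases hδ : M.adjugate 3 3 = 0
  · obtain ⟨v, hv, hqv⟩ := isotropic_of_minor (M := M.submatrix sw sw) (by rw [hadj, hδ])
    exact Deg.rational_of_sw hdeg hs v hv hqv
  have hδh := adj_hom3 hdeg
  have hfδ : ¬ M.det ∣ M.adjugate 3 3 := not_dvd_of_degree hf hδh hδ (by norm_num)
  have H : EvenOn M.det (M.adjugate 3 3 * g) (3 + m) :=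
    (evenOn_adj hM hf hsm hδh hδ).mul (evenOn_split hf hsm hgm hg.prime hgf hsq)
  obtain ⟨N, hN, ⟨c, hc, hNd⟩, s', t', ⟨es', hes⟩, ⟨et', het⟩, hs2, ht2, hst⟩ :=
    Deg.exists_binary H pf hδh hfδ ha hs' ht hfs hft h
  obtain ⟨v, hv, hqv⟩ := Deg.isotropic_of_binary (M := M.submatrix sw sw) (hM.submatrix sw)
    (by rw [hdet]; exact hf) (by rw [hdet]; exact hsm) (by rw [hdet]; exact pf)
    (by rw [hadj]; exact hδh) (by rw [hdet, hadj]; exact hfδ) hgm hm hg.prime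
    (by rw [hdet]; exact hgf) (by rw [hdet]; exact hsq) hN hc (by rw [hdet]; exact hNd) hes het
    (by rw [hdet]; exact hs2) (by rw [hdet]; exact ht2) (by rw [hdet, hadj]; exact hst)
  exact Deg.rational_of_sw hdeg hs v hv hqv

end

end Vale.Agent.P287.C8
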