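import Vale.Agent.P287.C8.Genus
import Vale.Agent.P287.C8.Bezout

/-!
Irreducible curves on the double plane `Z² = f`: a curve of odd degree maps birationally onto a
plane curve `g = 0` on which `f` is a square.
-/

namespace Vale.Agent.P287.C8

open MvPolynomial Module Vale.Agent.P287 Vale.Agent.P287.H925 Vale.Agent.P287.Theta

/-- polynomials in the coordinates `X₀, X₁, X₂, Z` of the weighted projective space `ℙ(1,1,1,3)` -/
abbrev P4 : Type := MvPolynomial (Fin 4) ℂ

/-- the weights of the coordinates -/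
def w4 : Fin 4 → ℕ := ![1, 1, 1, 3]

/-- forms in `X₀, X₁, X₂` as polynomials in `X₀, X₁, X₂, Z` -/
noncomputable def incl : P3 →ₐ[ℂ] P4 := rename Fin.castSucc

/-- An irreducible curve of degree `d` and arithmetic genus `p` on the double plane `Z² = f`: a
homogeneous prime ideal of `ℂ[X₀, X₁, X₂, Z]` containing `Z² - f`, with Hilbert polynomial
`d n + 1 - p`. -/
structure CurveOn (f : P3) (P : Ideal P4) (d p : ℤ) : Prop where
  prime : P.IsPrime
  homog : ∀ a ∈ P, ∀ n, weightedHomogeneousComponent w4 n a ∈ P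
  mem : X 3 ^ 2 - incl f ∈ P
  hilb : ∃ n₀ : ℕ, ∀ n : ℕ, n₀ ≤ n →
    (finrank ℂ ((weightedHomogeneousSubmodule ℂ w4 n).map
      (Ideal.Quotient.mkₐ ℂ P).toLinearMap) : ℤ) = d * n + 1 - p

section weights

lemma weight_w4 (v : Fin 4 →₀ ℕ) : Finsupp.weight w4 v = v 0 + v 1 + v 2 + 3 * v 3 := by
  rw [Finsupp.weight_eq_sum, Fin.sum_univ_four]
  simp only [w4, smul_eq_mul, Matrix.cons_val_zero, Matrix.cons_val_one, Matrix.cons_val]
  ring

lemma incl_X (i : Fin 3) : incl (X i) = X i.castSucc := by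
  rw [incl, rename_X]

lemma incl_whomog {p : P3} {n : ℕ} (hp : p.IsHomogeneous n) :
    IsWeightedHomogeneous w4 (incl p) n := by
  rw [p.as_sum, map_sum]
  refine IsWeightedHomogeneous.sum _ _ _ fun v hv => ?_
  rw [incl, rename_monomial]
  apply isWeightedHomogeneous_monomial
  have h1 := hp (mem_support_iff.1 hv)
  rw [← h1, Finsupp.weight_apply, Finsupp.weight_apply, Finsupp.sum_mapDomain_index]
  · refine Finsupp.sum_congr fun i _ => ?_
    fin_cases i <;> rfl
  · intro i; exact zero_smul _ _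
  · intro i a b; exact add_smul _ _ _

lemma X3_whomog : IsWeightedHomogeneous w4 (X 3 : P4) 3 := isWeightedHomogeneous_X ℂ w4 3

lemma whc_incl (n : ℕ) (p : P3) : weightedHomogeneousComponent w4 n (incl p) =
    incl (homogeneousComponent n p) := by
  conv_lhs => rw [← sum_homogeneousComponent p, map_sum, map_sum]
  have h1 : ∀ i, weightedHomogeneousComponent w4 n (incl (homogeneousComponent i p)) =
      if n = i then incl (homogeneousComponent i p) else 0 := fun i =>
    weightedHomogeneousComponent_of_mem (incl_whomog (homogeneousComponent_isHomogeneous i p))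
  simp only [h1]
  by_cases hn : n ∈ Finset.range (p.totalDegree + 1)
  · rw [Finset.sum_eq_single n]
    · rw [if_pos rfl]
    · intro i _ hi
      rw [if_neg hi.symm]
    · intro h
      exact absurd hn h
  · rw [Finset.sum_eq_zero]
    · rw [Finset.mem_range] at hn
      rw [homogeneousComponent_eq_zero n p (by omega), map_zero]
    · intro i hi
      rw [if_neg]
      rintro rfl
      exact hn hi

lemma whc_X3_incl (n : ℕ) (p : P3) : weightedHomogeneousComponent w4 (n + 3) (X 3 * incl p) =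
    X 3 * incl (homogeneousComponent n p) := by
  conv_lhs => rw [← sum_homogeneousComponent p, map_sum, Finset.mul_sum, map_sum]
  have h1 : ∀ i, weightedHomogeneousComponent w4 (n + 3)
      (X 3 * incl (homogeneousComponent i p)) =
      if n + 3 = 3 + i then X 3 * incl (homogeneousComponent i p) else 0 := fun i =>
    weightedHomogeneousComponent_of_mem
      (X3_whomog.mul (incl_whomog (homogeneousComponent_isHomogeneous i p)))
  simp only [h1]
  by_cases hn : n ∈ Finset.range (p.totalDegree + 1)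
  · rw [Finset.sum_eq_single n]
    · rw [if_pos (by ring)]
    · intro i _ hi
      rw [if_neg (by omega)]
    · intro h
      exact absurd hn h
  · rw [Finset.sum_eq_zero]
    · rw [Finset.mem_range] at hn
      rw [homogeneousComponent_eq_zero n p (by omega), map_zero, mul_zero]
    · intro i hi
      rw [if_neg]
      intro h2
      have : n = i := by omega
      subst this
      exact hn hi

lemma monomial_split (v : Fin 4 →₀ ℕ) (c : ℂ) : (monomial v c : P4) =
    incl (C c * X 0 ^ v 0 * X 1 ^ v 1 * X 2 ^ v 2) * X 3 ^ v 3 := by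
  rw [monomial_eq, Finsupp.prod_fintype _ _ (by intro i; exact pow_zero _), Fin.prod_univ_four,
    map_mul, map_mul, map_mul, map_pow, map_pow, map_pow, incl_X, incl_X, incl_X]
  have h1 : incl (C c) = C c := by rw [incl, rename_C]
  rw [h1]
  change C c * (X 0 ^ v 0 * X 1 ^ v 1 * X 2 ^ v 2 * X 3 ^ v 3) =
    C c * X 0 ^ v 0 * X 1 ^ v 1 * X 2 ^ v 2 * X 3 ^ v 3
  ring

lemma monomial_homog (v : Fin 4 →₀ ℕ) (c : ℂ) :
    (C c * X 0 ^ v 0 * X 1 ^ v 1 * X 2 ^ v 2 : P3).IsHomogeneous (v 0 + v 1 + v 2) := by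
  have h3 := (((isHomogeneous_C (Fin 3) c).mul
    ((isHomogeneous_X ℂ (0 : Fin 3)).pow (v 0))).mul
    ((isHomogeneous_X ℂ (1 : Fin 3)).pow (v 1))).mul ((isHomogeneous_X ℂ (2 : Fin 3)).pow (v 2))
  rwa [show 0 + 1 * v 0 + 1 * v 1 + 1 * v 2 = v 0 + v 1 + v 2 by ring] at h3

end weights

section curve

variable {f : P3} {P : Ideal P4} {d p : ℤ}

/-- the coordinate ring of the curve as an algebra over `ℂ[X₀, X₁, X₂]` -/
noncomputable def toB (P : Ideal P4) : P3 →ₐ[ℂ] P4 ⧸ P := (Ideal.Quotient.mkₐ ℂ P).comp incl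

/-- the class of `Z` -/
noncomputable def zB (P : Ideal P4) : P4 ⧸ P := Ideal.Quotient.mk P (X 3)

/-- the graded pieces of the coordinate ring -/
noncomputable def grB (P : Ideal P4) (n : ℕ) : Submodule ℂ (P4 ⧸ P) :=
  (weightedHomogeneousSubmodule ℂ w4 n).map (Ideal.Quotient.mkₐ ℂ P).toLinearMap

lemma toB_apply (P : Ideal P4) (a : P3) : toB P a = Ideal.Quotient.mk P (incl a) := rfl

lemma CurveOn.zB_sq (h : CurveOn f P d p) : zB P ^ 2 = toB P f := by
  rw [zB, toB_apply, ← map_pow, Ideal.Quotient.eq]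
  exact h.mem

lemma CurveOn.isDomain (h : CurveOn f P d p) : IsDomain (P4 ⧸ P) := by
  have := h.prime
  infer_instance

/-- the graded pieces of the coordinate ring of a curve on the double plane -/
lemma CurveOn.grB_eq (h : CurveOn f P d p) (hf : f.IsHomogeneous 6) (n : ℕ) :
    grB P (n + 3) = (homogeneousSubmodule (Fin 3) ℂ (n + 3)).map (toB P).toLinearMap ⊔
      (homogeneousSubmodule (Fin 3) ℂ n).map
        ((LinearMap.mulLeft ℂ (zB P)).comp (toB P).toLinearMap) := by
  apply le_antisymm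
  · rintro _ ⟨a, ha, rfl⟩
    rw [SetLike.mem_coe, mem_weightedHomogeneousSubmodule] at ha
    rw [a.as_sum, map_sum]
    refine Submodule.sum_mem _ fun v hv => ?_
    have hw := ha (mem_support_iff.1 hv)
    rw [weight_w4] at hw
    have h2 := monomial_homog v (coeff v a)
    have h3 : (Ideal.Quotient.mkₐ ℂ P).toLinearMap (monomial v (coeff v a)) =
        toB P (C (coeff v a) * X 0 ^ v 0 * X 1 ^ v 1 * X 2 ^ v 2) * zB P ^ v 3 := by
      rw [monomial_split]
      exact (map_mul (Ideal.Quotient.mk P) _ _).trans (by rw [map_pow]; rfl)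
    generalize (C (coeff v a) * X 0 ^ v 0 * X 1 ^ v 1 * X 2 ^ v 2 : P3) = b at h2 h3
    rw [h3]
    rcases Nat.even_or_odd' (v 3) with ⟨k, hk | hk⟩
    · refine Submodule.mem_sup_left ⟨b * f ^ k, ?_, ?_⟩
      · have h4 := h2.mul (hf.pow k)
        rwa [show v 0 + v 1 + v 2 + 6 * k = n + 3 by omega] at h4
      · change toB P (b * f ^ k) = _
        rw [map_mul, map_pow, ← h.zB_sq, ← pow_mul, hk]
    · refine Submodule.mem_sup_right ⟨b * f ^ k, ?_, ?_⟩
      · have h4 := h2.mul (hf.pow k)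
        rwa [show v 0 + v 1 + v 2 + 6 * k = n by omega] at h4
      · change zB P * toB P (b * f ^ k) = _
        rw [map_mul, map_pow, ← h.zB_sq, ← pow_mul, hk]
        ring
  · rw [sup_le_iff]
    constructor
    · rintro _ ⟨a, ha, rfl⟩
      exact ⟨incl a, incl_whomog ha, rfl⟩
    · rintro _ ⟨a, ha, rfl⟩
      refine ⟨X 3 * incl a, ?_, ?_⟩
      · have h4 := X3_whomog.mul (incl_whomog ha)
        rwa [add_comm 3 n] at h4
      · change Ideal.Quotient.mk P _ = _
        rw [map_mul]
        rfl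

lemma growth {a b K : ℤ} {n₀ : ℕ} (h : ∀ n : ℕ, n₀ ≤ n → 0 ≤ a * n + b ∧ a * n + b ≤ K) :
    a = 0 := by
  by_contra h0
  have h1 := h (n₀ + b.natAbs + K.natAbs + 1) (by omega)
  have h2 : b ≤ |b| := le_abs_self b
  have h3 : -b ≤ |b| := neg_le_abs b
  have h4 : K ≤ |K| := le_abs_self K
  have h6 : 0 ≤ |K| := abs_nonneg K
  have h7 : 0 ≤ |b| := abs_nonneg b
  push_cast at h1
  have h5 : (0 : ℤ) ≤ n₀ := Int.natCast_nonneg n₀
  rcases lt_or_gt_of_ne h0 with h8 | h8
  · have h9 : a ≤ -1 := by omega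
    nlinarith [h1.1]
  · have h9 : 1 ≤ a := by omega
    nlinarith [h1.2]

lemma two_finrank_gr {g : P3} {m : ℕ} (hg : g.IsHomogeneous m) (hg0 : g ≠ 0) {n : ℕ}
    (hn : m ≤ n) : 2 * (finrank ℂ (gr g n) : ℤ) = m * (2 * n + 3 - m) := by
  obtain ⟨k, rfl⟩ := Nat.exists_eq_add_of_le hn
  have h1 := finrank_gr_ge hg hg0 k
  zify at h1
  rw [h1]
  push_cast
  ring

/-- components of the kernel -/
lemma CurveOn.hc_mem (h : CurveOn f P d p) {a : P3} (ha : toB P a = 0) (n : ℕ) :
    toB P (homogeneousComponent n a) = 0 := by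
  rw [toB_apply, Ideal.Quotient.eq_zero_iff_mem] at ha ⊢
  rw [← whc_incl]
  exact h.homog _ ha n

lemma exists_hc_not_dvd {g a : P3} (ha : ¬ g ∣ a) : ∃ k, ¬ g ∣ homogeneousComponent k a := by
  by_contra hcon
  push Not at hcon
  apply ha
  rw [← sum_homogeneousComponent a]
  exact Finset.dvd_sum fun i _ => hcon i

/-- the kernel contains a prime form -/
lemma CurveOn.exists_prime_form (h : CurveOn f P d p) :
    ∃ (m : ℕ) (g : P3), g.IsHomogeneous m ∧ Prime g ∧ toB P g = 0 := by
  have := h.isDomain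
  obtain ⟨n₀, hn₀⟩ := h.hilb
  -- the kernel is not trivial
  have hne : ∃ a : P3, a ≠ 0 ∧ toB P a = 0 := by
    by_contra hcon
    push Not at hcon
    have hinj : Function.Injective (toB P).toLinearMap := by
      rw [injective_iff_map_eq_zero]
      intro a ha
      by_contra h0
      exact hcon a h0 ha
    set n := n₀ + 2 * d.natAbs + 2 * p.natAbs + 1 with hn
    have h1 := hn₀ n (by omega)
    have h2 : (homogeneousSubmodule (Fin 3) ℂ n).map (toB P).toLinearMap ≤ grB P n := by
      rintro _ ⟨a, ha, rfl⟩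
      exact ⟨incl a, incl_whomog ha, rfl⟩
    have hfin : FiniteDimensional ℂ (grB P n) := by
      have hw : (weightedHomogeneousSubmodule ℂ w4 n).FG :=
        weightedHomogeneousSubmodule_fg ℂ w4 (by intro i; fin_cases i <;> simp [w4]) n
      exact Module.Finite.iff_fg.2 (hw.map _)
    have h3 := Submodule.finrank_mono h2
    rw [← LinearEquiv.finrank_eq (Submodule.equivMapOfInjective _ hinj _), finrank_homog] at h3
    have h4 := choose_two_mul n
    have h5 : ((n + 2).choose 2 : ℤ) ≤ d * n + 1 - p := by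
      rw [← h1]
      exact_mod_cast h3
    have h6 : ((n + 2).choose 2 : ℤ) * 2 = (n + 2) * (n + 1) := by exact_mod_cast h4
    have h7 : d ≤ |d| := le_abs_self d
    have h8 : -p ≤ |p| := neg_le_abs p
    have h9 : (n : ℤ) = n₀ + 2 * |d| + 2 * |p| + 1 := by
      rw [hn]
      push_cast
      rfl
    have h10 : (0 : ℤ) ≤ n₀ := Int.natCast_nonneg n₀
    have h11 : 0 ≤ |d| := abs_nonneg d
    have h12 : 0 ≤ |p| := abs_nonneg p
    have h13 : d * n ≤ |d| * n := mul_le_mul_of_nonneg_right h7 (by omega)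
    have h14 : 0 ≤ (n : ℤ) * n₀ := mul_nonneg (by omega) h10
    have h15 : 0 ≤ |p| * ((n : ℤ) - 1) := mul_nonneg h12 (by omega)
    have h16 : (n : ℤ) * n = n * n₀ + 2 * (|d| * n) + 2 * (|p| * n) + n := by
      nth_rewrite 2 [h9]
      ring
    nlinarith
  obtain ⟨a, ha0, ha⟩ := hne
  obtain ⟨n, hn⟩ : ∃ n, homogeneousComponent n a ≠ 0 := by
    by_contra hcon
    push Not at hcon
    apply ha0
    rw [← sum_homogeneousComponent a]
    exact Finset.sum_eq_zero fun i _ => hcon i
  have ha' := h.hc_mem ha n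
  have hh := homogeneousComponent_isHomogeneous n a
  generalize homogeneousComponent n a = b at hn ha' hh
  obtain ⟨F, hF, hFb⟩ := UniqueFactorizationMonoid.exists_prime_factors b hn
  have hpr : (RingHom.ker (toB P)).IsPrime := RingHom.ker_isPrime _
  have h1 : F.prod ∈ RingHom.ker (toB P) := by
    obtain ⟨u, hu⟩ := hFb.symm
    rw [← hu]
    exact Ideal.mul_mem_right _ _ ha'
  obtain ⟨g, hgF, hg⟩ := (hpr.multiset_prod_mem_iff_exists_mem F).1 h1
  obtain ⟨u, hu⟩ := (Multiset.dvd_prod hgF).trans hFb.dvd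
  obtain ⟨m, hm⟩ := homog_of_mul (hu ▸ hh) (hu ▸ hn)
  exact ⟨m, g, hm, hF g hgF, hg⟩

lemma CurveOn.finite_grB (P : Ideal P4) (n : ℕ) : FiniteDimensional ℂ (grB P n) := by
  have hw : (weightedHomogeneousSubmodule ℂ w4 n).FG :=
    weightedHomogeneousSubmodule_fg ℂ w4 (by intro i; fin_cases i <;> simp [w4]) n
  exact Module.Finite.iff_fg.2 (hw.map _)

/-- the kernel is generated by the prime form -/
lemma CurveOn.dvd_of_toB (h : CurveOn f P d p) (hf : f.IsHomogeneous 6) (hd : d ≠ 0) {g : P3}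
    {m : ℕ} (hg : g.IsHomogeneous m) (pg : Prime g) (hgB : toB P g = 0) {a : P3}
    (ha : toB P a = 0) : g ∣ a := by
  by_contra hga
  obtain ⟨k, hk⟩ := exists_hc_not_dvd hga
  have hk0 := h.hc_mem ha k
  have hh := homogeneousComponent_isHomogeneous k a
  generalize homogeneousComponent k a = b at hk hk0 hh
  obtain ⟨n₀, hn₀⟩ := h.hilb
  apply hd
  apply growth (b := 3 * d + 1 - p) (K := 2 * (m * k)) (n₀ := n₀ + m + k)
  intro n hn
  have h1 := hn₀ (n + 3) (by omega)
  have h2 : d * (n : ℤ) + (3 * d + 1 - p) = finrank ℂ (grB P (n + 3)) := by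
    rw [grB, h1]
    push_cast
    ring
  rw [h2]
  refine ⟨Int.natCast_nonneg _, ?_⟩
  have h3 : finrank ℂ ((HS (n + 3)).map (toB P).toLinearMap) ≤ m * k :=
    finrank_map_HS_le hg pg hh hk (by omega) _
      (fun q => by
        change toB P (b * q) = 0
        rw [map_mul, hk0, zero_mul])
      (fun q => by
        change toB P (g * q) = 0
        rw [map_mul, hgB, zero_mul])
  have h4 : finrank ℂ ((HS n).map ((LinearMap.mulLeft ℂ (zB P)).comp (toB P).toLinearMap)) ≤
      m * k :=
    finrank_map_HS_le hg pg hh hk (by omega) _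
      (fun q => by
        change zB P * toB P (b * q) = 0
        rw [map_mul, hk0, zero_mul, mul_zero])
      (fun q => by
        change zB P * toB P (g * q) = 0
        rw [map_mul, hgB, zero_mul, mul_zero])
  have h5 := Submodule.finrank_add_le_finrank_add_finrank
    ((HS (n + 3)).map (toB P).toLinearMap)
    ((HS n).map ((LinearMap.mulLeft ℂ (zB P)).comp (toB P).toLinearMap))
  have h6 := h.grB_eq hf n
  have h7 : finrank ℂ (grB P (n + 3)) ≤ 2 * (m * k) := by
    rw [h6]
    change finrank ℂ ↥((HS (n + 3)).map (toB P).toLinearMap ⊔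
      (HS n).map ((LinearMap.mulLeft ℂ (zB P)).comp (toB P).toLinearMap)) ≤ _
    omega
  exact_mod_cast h7

section image

variable {g : P3} {m : ℕ}

/-- the coordinate ring of the image, inside the coordinate ring of the curve -/
noncomputable def jB (hgB : toB P g = 0) : RG g →ₐ[ℂ] P4 ⧸ P :=
  Ideal.Quotient.liftₐ (Ideal.span {g}) (toB P) (by
    intro a ha
    obtain ⟨b, rfl⟩ := Ideal.mem_span_singleton'.1 ha
    rw [map_mul, hgB, mul_zero])

lemma jB_q (hgB : toB P g = 0) (a : P3) : jB hgB (q g a) = toB P a := rfl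

lemma jB_inj (hgB : toB P g = 0) (hdvd : ∀ a, toB P a = 0 → g ∣ a) :
    Function.Injective (jB hgB) := by
  rw [injective_iff_map_eq_zero]
  intro x hx
  obtain ⟨a, rfl⟩ := Ideal.Quotient.mk_surjective x
  exact q_eq_zero.2 (hdvd a hx)

lemma map_toB (hgB : toB P g = 0) (n : ℕ) :
    (homogeneousSubmodule (Fin 3) ℂ n).map (toB P).toLinearMap =
      (gr g n).map (jB hgB).toLinearMap := by
  rw [gr, ← Submodule.map_comp]
  rfl

lemma map_z_toB (hgB : toB P g = 0) (n : ℕ) :
    (homogeneousSubmodule (Fin 3) ℂ n).map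
      ((LinearMap.mulLeft ℂ (zB P)).comp (toB P).toLinearMap) =
      (gr g n).map ((LinearMap.mulLeft ℂ (zB P)).comp (jB hgB).toLinearMap) := by
  rw [gr, ← Submodule.map_comp]
  rfl

/-- The image of an irreducible curve of odd degree on the double plane is a curve on which `f` is
a square. -/
lemma CurveOn.exists_relation (h : CurveOn f P d p) (hf : f.IsHomogeneous 6) (pf : Prime f)
    (hd : Odd d) (hg : g.IsHomogeneous m) (pg : Prime g) (hgB : toB P g = 0)
    (hdvd : ∀ a, toB P a = 0 → g ∣ a) :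
    ¬ g ∣ f ∧ ∃ (e : ℕ) (s c : P3), s.IsHomogeneous (e + 3) ∧ c.IsHomogeneous e ∧ ¬ g ∣ c ∧
      zB P * toB P c = toB P s := by
  have := h.isDomain
  have hji := jB_inj hgB hdvd
  obtain ⟨n₀, hn₀⟩ := h.hilb
  have hgf : ¬ g ∣ f := by
    intro hgf
    have hz : zB P = 0 := by
      have h1 := h.zB_sq
      obtain ⟨u, hu⟩ := hgf
      rw [hu, map_mul, hgB, zero_mul] at h1
      exact eq_zero_of_pow_eq_zero h1
    have hm : m = 6 := by
      obtain ⟨u, hu⟩ := hgf
      obtain ⟨n, hn, hun⟩ := degree_le_of_mul hg (hu ▸ hf) (hu ▸ pf.ne_zero)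
      rcases pf.irreducible.isUnit_or_isUnit hu with h1 | h1
      · exact absurd h1 pg.not_isUnit
      · obtain ⟨c, hc0, hc⟩ := exists_C_of_isUnit h1
        have h2 : n = 0 := by
          have h3 : u.IsHomogeneous 0 := by rw [hc]; exact isHomogeneous_C _ _
          exact hun.inj_right h3 h1.ne_zero
        omega
    have key : ∀ n : ℕ, n₀ + m ≤ n → 2 * (d * (n + 3 : ℕ) + 1 - p) =
        m * (2 * ((n + 3 : ℕ) : ℤ) + 3 - m) := by
      intro n hn
      have h1 := hn₀ (n + 3) (by omega)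
      rw [← h1, ← two_finrank_gr hg pg.ne_zero (by omega)]
      congr 2
      change finrank ℂ (grB P (n + 3)) = _
      rw [h.grB_eq hf, map_toB hgB, hz]
      have h2 : (homogeneousSubmodule (Fin 3) ℂ n).map
          ((LinearMap.mulLeft ℂ (0 : P4 ⧸ P)).comp (toB P).toLinearMap) = ⊥ := by
        rw [eq_bot_iff]
        rintro _ ⟨a, _, rfl⟩
        change (0 : P4 ⧸ P) * toB P a = 0
        rw [zero_mul]
      rw [h2, sup_bot_eq]
      exact (LinearEquiv.finrank_eq (Submodule.equivMapOfInjective _ hji _)).symm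
    have h1 := key (n₀ + m) le_rfl
    have h2 := key (n₀ + m + 1) (by omega)
    obtain ⟨k, hk⟩ := hd
    rw [hm] at h1 h2
    push_cast at h1 h2
    have h3 : d = 6 := by linarith
    omega
  refine ⟨hgf, ?_⟩
  by_cases hrel : ∃ c s : P3, ¬ g ∣ c ∧ zB P * toB P c = toB P s
  · obtain ⟨c, s, hgc, hcs⟩ := hrel
    obtain ⟨e, he⟩ := exists_hc_not_dvd hgc
    refine ⟨e, homogeneousComponent (e + 3) s, homogeneousComponent e c,
      homogeneousComponent_isHomogeneous _ _, homogeneousComponent_isHomogeneous _ _, he, ?_⟩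
    have h1 : X 3 * incl c - incl s ∈ P := by
      rw [← Ideal.Quotient.eq_zero_iff_mem, map_sub, map_mul, sub_eq_zero]
      exact hcs
    have h2 := h.homog _ h1 (e + 3)
    rw [map_sub, whc_X3_incl, whc_incl, ← Ideal.Quotient.eq_zero_iff_mem, map_sub, map_mul,
      sub_eq_zero] at h2
    exact h2
  · exfalso
    push Not at hrel
    have key : ∀ n : ℕ, n₀ + m ≤ n → 2 * (d * (n + 3 : ℕ) + 1 - p) =
        m * (2 * ((n + 3 : ℕ) : ℤ) + 3 - m) + m * (2 * (n : ℤ) + 3 - m) := by
      intro n hn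
      have h1 := hn₀ (n + 3) (by omega)
      have hz : zB P ≠ 0 := by
        intro h0
        apply hgf
        apply hdvd
        rw [← h.zB_sq, h0]
        ring
      rw [← h1, ← two_finrank_gr hg pg.ne_zero (by omega : m ≤ n + 3),
        ← two_finrank_gr hg pg.ne_zero (by omega : m ≤ n), ← mul_add]
      congr 1
      have h3 := h.grB_eq hf n
      rw [map_toB hgB, map_z_toB hgB] at h3
      have hzi : Function.Injective ((LinearMap.mulLeft ℂ (zB P)).comp (jB hgB).toLinearMap) := by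
        intro x y hxy
        exact hji (mul_left_cancel₀ hz hxy)
      have h4 := Submodule.finrank_sup_add_finrank_inf_eq ((gr g (n + 3)).map (jB hgB).toLinearMap)
        ((gr g n).map ((LinearMap.mulLeft ℂ (zB P)).comp (jB hgB).toLinearMap))
      have h5 : (gr g (n + 3)).map (jB hgB).toLinearMap ⊓
          (gr g n).map ((LinearMap.mulLeft ℂ (zB P)).comp (jB hgB).toLinearMap) = ⊥ := by
        rw [eq_bot_iff]
        rintro _ ⟨⟨_, ⟨s, hs, rfl⟩, rfl⟩, ⟨_, ⟨c, hc, rfl⟩, hx⟩⟩
        have h6 : zB P * toB P c = toB P s := hx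
        have h7 : g ∣ c := by
          by_contra hgc
          exact hrel c s hgc h6
        obtain ⟨u, rfl⟩ := h7
        rw [map_mul, hgB, zero_mul, mul_zero] at h6
        rw [Submodule.mem_bot]
        exact h6.symm
      rw [h5, finrank_bot, add_zero, ← h3,
        ← LinearEquiv.finrank_eq (Submodule.equivMapOfInjective _ hji _),
        ← LinearEquiv.finrank_eq (Submodule.equivMapOfInjective _ hzi _)] at h4
      rw [← Nat.cast_add, ← h4]
      rfl
    have h1 := key (n₀ + m) le_rfl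
    have h2 := key (n₀ + m + 1) (by omega)
    push_cast at h1 h2
    have h3 : d = 2 * m := by linarith
    obtain ⟨k, hk⟩ := hd
    omega

/-- The dimensions of the graded pieces. -/
lemma CurveOn.finrank_grB (h : CurveOn f P d p) (hf : f.IsHomogeneous 6)
    (hg : g.IsHomogeneous m) (pg : Prime g) (hgB : toB P g = 0)
    (hdvd : ∀ a, toB P a = 0 → g ∣ a) (hgf : ¬ g ∣ f) {e : ℕ} {s c : P3}
    (hs : s.IsHomogeneous (e + 3)) (hc : c.IsHomogeneous e) (hgc : ¬ g ∣ c)
    (hcs : zB P * toB P c = toB P s) (n : ℕ) :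
    finrank ℂ (grB P (n + 3)) + finrank ℂ (cond g s c n) =
      finrank ℂ (gr g (n + 3)) + finrank ℂ (gr g n) := by
  have := h.isDomain
  have hji := jB_inj hgB hdvd
  have hz : zB P ≠ 0 := by
    intro h0
    apply hgf
    apply hdvd
    rw [← h.zB_sq, h0]
    ring
  have hzi : Function.Injective ((LinearMap.mulLeft ℂ (zB P)).comp (jB hgB).toLinearMap) := by
    intro x y hxy
    exact hji (mul_left_cancel₀ hz hxy)
  have h3 := h.grB_eq hf n
  rw [map_toB hgB, map_z_toB hgB] at h3
  have h4 := Submodule.finrank_sup_add_finrank_inf_eq ((gr g (n + 3)).map (jB hgB).toLinearMap)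
    ((gr g n).map ((LinearMap.mulLeft ℂ (zB P)).comp (jB hgB).toLinearMap))
  have hc0 : toB P c ≠ 0 := fun h0 => hgc (hdvd c h0)
  have h5 : (gr g (n + 3)).map (jB hgB).toLinearMap ⊓
      (gr g n).map ((LinearMap.mulLeft ℂ (zB P)).comp (jB hgB).toLinearMap) =
      (cond g s c n).map ((LinearMap.mulLeft ℂ (zB P)).comp (jB hgB).toLinearMap) := by
    apply le_antisymm
    · rintro _ ⟨⟨y, hy, rfl⟩, ⟨x, hx, hxy⟩⟩
      refine ⟨x, ⟨hx, y, ?_⟩, hxy⟩
      have hxy' : zB P * jB hgB x = jB hgB y := hxy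
      apply hji
      rw [map_mul, map_mul, jB_q, jB_q, ← hxy', ← hcs]
      ring
    · rintro _ ⟨x, ⟨hx, y, hxy⟩, rfl⟩
      refine ⟨⟨y, mem_gr_of_mul_eq hg pg hs hc hgc hx hxy, ?_⟩, ⟨x, hx, rfl⟩⟩
      change jB hgB y = zB P * jB hgB x
      have h6 := congrArg (jB hgB) hxy
      rw [map_mul, map_mul, jB_q, jB_q, ← hcs] at h6
      apply mul_left_cancel₀ hc0
      rw [← h6]
      ring
  rw [h5, ← h3,
    ← LinearEquiv.finrank_eq (Submodule.equivMapOfInjective (jB hgB).toLinearMap hji _),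
    ← LinearEquiv.finrank_eq (Submodule.equivMapOfInjective _ hzi (cond g s c n)),
    ← LinearEquiv.finrank_eq (Submodule.equivMapOfInjective _ hzi (gr g n))] at h4
  exact h4

/-- the conductor contains the multiples of `c` -/
lemma finrank_gr_le_cond {g s c : P3} {e : ℕ} (pg : Prime g) (hc : c.IsHomogeneous e)
    (hgc : ¬ g ∣ c) (n : ℕ) : finrank ℂ (gr g n) ≤ finrank ℂ (cond g s c (e + n)) := by
  have := isDomain_RG pg
  have hc' : q g c ≠ 0 := fun h0 => hgc (q_eq_zero.1 h0)
  have h1 : (gr g n).map (LinearMap.mulLeft ℂ (q g c)) ≤ cond g s c (e + n) := by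
    rintro _ ⟨x, hx, rfl⟩
    refine ⟨gr_mul (mem_gr.2 ⟨c, hc, rfl⟩) hx, q g s * x, ?_⟩
    change q g s * (q g c * x) = _
    ring
  have hi : Function.Injective (LinearMap.mulLeft ℂ (q g c)) := fun x y hxy =>
    mul_left_cancel₀ hc' hxy
  rw [LinearEquiv.finrank_eq (Submodule.equivMapOfInjective _ hi _)]
  have hfin : FiniteDimensional ℂ (cond g s c (e + n)) :=
    Submodule.finiteDimensional_of_le cond_le_gr
  exact Submodule.finrank_mono h1

end image

/-- **Curves of odd degree on the double plane.** Such a curve is the graph of a square root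
`s / c` of `f` on a plane curve `g` of the same degree; its arithmetic genus determines the colength
of the conductor of `s / c`. -/
theorem CurveOn.exists_split (h : CurveOn f P d p) (hf : f.IsHomogeneous 6) (pf : Prime f)
    (hd : Odd d) :
    ∃ (m e : ℕ) (g s c : P3), (m : ℤ) = d ∧ g.IsHomogeneous m ∧ Prime g ∧ ¬ g ∣ f ∧
      s.IsHomogeneous (e + 3) ∧ c.IsHomogeneous e ∧ ¬ g ∣ c ∧ g ∣ c ^ 2 * f - s ^ 2 ∧
      ∃ n₁ : ℕ, ∀ n : ℕ, n₁ ≤ n →
        2 * ((finrank ℂ (gr g n) : ℤ) - finrank ℂ (cond g s c n)) = 2 * (1 - p) - m * (3 - m) := by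
  have hd0 : d ≠ 0 := by
    rintro rfl
    exact absurd hd (by decide)
  obtain ⟨m, g, hg, pg, hgB⟩ := h.exists_prime_form
  have hdvd : ∀ a, toB P a = 0 → g ∣ a := fun a ha => h.dvd_of_toB hf hd0 hg pg hgB ha
  obtain ⟨hgf, e, s, c, hs, hc, hgc, hcs⟩ := h.exists_relation hf pf hd hg pg hgB hdvd
  have hcs' : g ∣ c ^ 2 * f - s ^ 2 := by
    apply hdvd
    rw [map_sub, map_mul, map_pow, map_pow, ← h.zB_sq, ← hcs]
    ring
  obtain ⟨n₀, hn₀⟩ := h.hilb
  -- the colength
  have key : ∀ n : ℕ, n₀ + m + e ≤ n →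
      2 * ((finrank ℂ (gr g n) : ℤ) - finrank ℂ (cond g s c n)) =
        (2 * d - 2 * m) * n + ((6 * d - 6 * m) + (2 * (1 - p) - m * (3 - m))) ∧
      2 * ((finrank ℂ (gr g n) : ℤ) - finrank ℂ (cond g s c n)) ≤ 2 * (m * e) := by
    intro n hn
    have h1 := hn₀ (n + 3) (by omega)
    have h2 := h.finrank_grB hf hg pg hgB hdvd hgf hs hc hgc hcs n
    have h3 := two_finrank_gr hg pg.ne_zero (n := n + 3) (by omega)
    have h1' : (finrank ℂ (grB P (n + 3)) : ℤ) = d * (n + 3 : ℕ) + 1 - p := h1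
    zify at h2
    rw [h1'] at h2
    constructor
    · push_cast at h2 h3 ⊢
      linarith
    · obtain ⟨k, hk⟩ := Nat.exists_eq_add_of_le (show e ≤ n by omega)
      have h4 := finrank_gr_le_cond (s := s) pg hc hgc k
      have h5 := two_finrank_gr hg pg.ne_zero (n := n) (by omega)
      have h6 := two_finrank_gr hg pg.ne_zero (n := k) (by omega)
      rw [← hk] at h4
      have h7 : (n : ℤ) = e + k := by exact_mod_cast hk
      rw [h7] at h5
      zify at h4
      linarith
  have hle : ∀ n : ℕ, (finrank ℂ (cond g s c n) : ℤ) ≤ finrank ℂ (gr g n) := fun n => by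
    exact_mod_cast Submodule.finrank_mono cond_le_gr
  have hmd : 2 * d - 2 * (m : ℤ) = 0 := by
    apply growth (b := (6 * d - 6 * m) + (2 * (1 - p) - m * (3 - m))) (K := 2 * (m * e))
      (n₀ := n₀ + m + e)
    intro n hn
    obtain ⟨h1, h2⟩ := key n hn
    rw [← h1]
    exact ⟨by have := hle n; linarith, h2⟩
  have hmd' : (m : ℤ) = d := by linarith
  refine ⟨m, e, g, s, c, hmd', hg, pg, hgf, hs, hc, hgc, hcs', n₀ + m + e, fun n hn => ?_⟩
  rw [(key n hn).1, hmd']
  ring

end curve

end Vale.Agent.P287.C8
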