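import Mathlib

/-!
The dimension of a quotient `Z / P`, where `Z` and `P` are increasing unions of finite-dimensional
subspaces `E n` and `P n` with `P ∩ E n = P n`.
-/

namespace Vale.Agent.P287.C8

open Module

lemma finrank_map_mkQ {k Z : Type*} [Field k] [AddCommGroup Z] [Module k Z]
    (P E Pn : Submodule k Z) [FiniteDimensional k E] (h : ∀ z, z ∈ Pn ↔ z ∈ E ∧ z ∈ P) :
    finrank k (E.map P.mkQ) + finrank k Pn = finrank k E := by
  have h1 := LinearMap.finrank_range_add_finrank_ker (P.mkQ.comp E.subtype)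
  have h2 : LinearMap.range (P.mkQ.comp E.subtype) = E.map P.mkQ := by
    rw [LinearMap.range_comp, Submodule.range_subtype]
  have h3 : (LinearMap.ker (P.mkQ.comp E.subtype)).map E.subtype = Pn := by
    ext z
    constructor
    · rintro ⟨w, hw, rfl⟩
      rw [SetLike.mem_coe, LinearMap.mem_ker, LinearMap.comp_apply, Submodule.mkQ_apply,
        Submodule.Quotient.mk_eq_zero] at hw
      exact (h _).2 ⟨w.2, hw⟩
    · intro hz
      obtain ⟨hE, hP⟩ := (h z).1 hz
      refine ⟨⟨z, hE⟩, ?_, rfl⟩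
      rw [SetLike.mem_coe, LinearMap.mem_ker, LinearMap.comp_apply, Submodule.mkQ_apply,
        Submodule.Quotient.mk_eq_zero]
      exact hP
  rw [h2] at h1
  rw [← h1, ← h3, Submodule.finrank_map_subtype_eq]

/-- dimension of a quotient of increasing unions -/
theorem finite_odd_quotient {k Z : Type*} [Field k] [AddCommGroup Z] [Module k Z]
    (P : Submodule k Z) (E Pn : ℕ → Submodule k Z) (n₀ c : ℕ)
    (hfin : ∀ n, FiniteDimensional k (E n))
    (hE : ∀ n, E n ≤ E (n + 1)) (hPE : ∀ n, Pn n ≤ E n)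
    (hPP : ∀ n, Pn n ≤ P) (hEu : ∀ z, ∃ n, z ∈ E n) (hPu : ∀ z ∈ P, ∃ n, z ∈ Pn n)
    (hPm : ∀ n, Pn n ≤ Pn (n + 1))
    (hst : ∀ n, n₀ ≤ n → ∀ z ∈ Pn (n + 1), z ∈ E n → z ∈ Pn n)
    (hodd : ∀ n, n₀ ≤ n → Odd (finrank k (E n) + finrank k (Pn n)))
    (hb : ∀ n, n₀ ≤ n → finrank k (E n) ≤ finrank k (Pn n) + c) :
    FiniteDimensional k (Z ⧸ P) ∧ Odd (finrank k (Z ⧸ P)) := by
  have hEm : Monotone E := monotone_nat_of_le_succ hE
  have hPmm : Monotone Pn := monotone_nat_of_le_succ hPm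
  have hst' : ∀ n, n₀ ≤ n → ∀ z, z ∈ Pn n ↔ z ∈ E n ∧ z ∈ P := by
    intro n hn z
    constructor
    · exact fun hz => ⟨hPE n hz, hPP n hz⟩
    · rintro ⟨hzE, hzP⟩
      obtain ⟨m, hm⟩ := hPu z hzP
      rcases le_total m n with h | h
      · exact hPmm h hm
      · obtain ⟨j, rfl⟩ := Nat.exists_eq_add_of_le h
        clear h
        induction j with
        | zero => exact hm
        | succ j ih => exact ih (hst (n + j) (by omega) z hm (hEm (by omega) hzE))
  set F : ℕ → Submodule k (Z ⧸ P) := fun n => (E n).map P.mkQ with hF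
  have hFm : Monotone F := fun a b hab => Submodule.map_mono (hEm hab)
  have hFfin : ∀ n, FiniteDimensional k (F n) := fun n => by
    have := hfin n
    rw [hF]
    infer_instance
  have hFd : ∀ n, n₀ ≤ n → finrank k (F n) + finrank k (Pn n) = finrank k (E n) := by
    intro n hn
    have := hfin n
    exact finrank_map_mkQ P (E n) (Pn n) (hst' n hn)
  have hFc : ∀ n, n₀ ≤ n → finrank k (F n) ≤ c := by
    intro n hn
    have h1 := hFd n hn
    have h2 := hb n hn
    omega
  obtain ⟨n, hn, hmax⟩ : ∃ n, n₀ ≤ n ∧ ∀ m, n₀ ≤ m → finrank k (F m) ≤ finrank k (F n) := by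
    by_contra hcon
    push Not at hcon
    have h1 : ∀ j, ∃ n, n₀ ≤ n ∧ j ≤ finrank k (F n) := by
      intro j
      induction j with
      | zero => exact ⟨n₀, le_rfl, Nat.zero_le _⟩
      | succ j ih =>
        obtain ⟨n, hn, hj⟩ := ih
        obtain ⟨m, hm, hnm⟩ := hcon n hn
        exact ⟨m, hm, by omega⟩
    obtain ⟨n, hn, hj⟩ := h1 (c + 1)
    have := hFc n hn
    omega
  have htop : F n = ⊤ := by
    rw [eq_top_iff]
    intro z _
    obtain ⟨z, rfl⟩ := Submodule.Quotient.mk_surjective P z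
    obtain ⟨m, hm⟩ := hEu z
    have h1 : Submodule.Quotient.mk z ∈ F (max m n) :=
      ⟨z, hEm (le_max_left m n) hm, rfl⟩
    have h2 : F n = F (max m n) := by
      have := hFfin (max m n)
      exact Submodule.eq_of_le_of_finrank_le (hFm (le_max_right m n))
        (hmax _ (le_trans hn (le_max_right m n)))
    rw [h2]
    exact h1
  have := hFfin n
  have e1 : F n ≃ₗ[k] (Z ⧸ P) := (LinearEquiv.ofEq _ _ htop).trans Submodule.topEquiv
  refine ⟨Module.Finite.equiv e1, ?_⟩
  rw [← e1.finrank_eq]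
  have h2 := hodd n hn
  have h3 := hFd n hn
  rw [Nat.odd_iff] at h2 ⊢
  omega

end Vale.Agent.P287.C8
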