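import Vale.Agent.P287.C8.Basic

/-!
The finite-dimensional algebra `BB g N = ℂ[t][y] / (g(t,1,y), t^N)` of a plane curve `g = 0` (with
`g(0,0,1) ≠ 0`), its residue functional, and its relation to the homogeneous coordinate ring.
-/

namespace Vale.Agent.P287.C8

section Bivariate

open Polynomial

variable {k : Type*} [Field k]

/-- total degree at most `d` -/
def TD (d : ℕ) (p : k[X][X]) : Prop := ∀ i j : ℕ, d < i + j → (p.coeff i).coeff j = 0

lemma TD.mono {d e : ℕ} (h : d ≤ e) {p : k[X][X]} (hp : TD d p) : TD e p :=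
  fun i j hij => hp i j (lt_of_le_of_lt h hij)

lemma TD.zero (d : ℕ) : TD d (0 : k[X][X]) := fun i j _ => by simp

lemma TD.add {d : ℕ} {p q : k[X][X]} (hp : TD d p) (hq : TD d q) : TD d (p + q) :=
  fun i j h => by rw [coeff_add, coeff_add, hp i j h, hq i j h, add_zero]

lemma TD.neg {d : ℕ} {p : k[X][X]} (hp : TD d p) : TD d (-p) :=
  fun i j h => by rw [coeff_neg, coeff_neg, hp i j h, neg_zero]

lemma TD.sub {d : ℕ} {p q : k[X][X]} (hp : TD d p) (hq : TD d q) : TD d (p - q) :=
  fun i j h => by rw [coeff_sub, coeff_sub, hp i j h, hq i j h, sub_zero]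

lemma TD.mul {d e : ℕ} {p q : k[X][X]} (hp : TD d p) (hq : TD e q) : TD (d + e) (p * q) := by
  intro i j h
  rw [coeff_mul, finsetSum_coeff]
  refine Finset.sum_eq_zero fun x hx => ?_
  rw [coeff_mul]
  refine Finset.sum_eq_zero fun y hy => ?_
  rw [Finset.HasAntidiagonal.mem_antidiagonal] at hx hy
  by_cases h1 : d < x.1 + y.1
  · rw [hp _ _ h1, zero_mul]
  · rw [hq x.2 y.2 (by omega), mul_zero]

lemma TD.sum {d : ℕ} {ι : Type*} (s : Finset ι) {p : ι → k[X][X]} (hp : ∀ i ∈ s, TD d (p i)) :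
    TD d (∑ i ∈ s, p i) := by
  intro i j h
  rw [finsetSum_coeff, finsetSum_coeff]
  exact Finset.sum_eq_zero fun a ha => hp a ha i j h

lemma TD.CC (d : ℕ) (c : k) : TD d (C (C c)) := by
  intro i j h
  rw [coeff_C]
  split_ifs with h1
  · rw [coeff_C, if_neg (by omega)]
  · rw [coeff_zero]

lemma TD.C_coeff {d : ℕ} {p : k[X][X]} (hp : TD d p) {i : ℕ} (n : ℕ) (hn : i = n) :
    TD (d - n) (C (p.coeff i)) := by
  intro a b h
  rw [coeff_C]
  split_ifs with h1
  · subst h1; exact hp i b (by omega)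
  · rw [coeff_zero]

lemma TD.X_pow (n : ℕ) : TD n (X ^ n : k[X][X]) := by
  intro i j h
  rw [coeff_X_pow]
  split_ifs with h1
  · rw [coeff_one, if_neg (by omega)]
  · rw [coeff_zero]

lemma TD.CX_pow (n : ℕ) : TD n (C (X ^ n) : k[X][X]) := by
  intro i j h
  rw [coeff_C]
  split_ifs with h1
  · rw [coeff_X_pow, if_neg (by omega)]
  · rw [coeff_zero]

/-- division with remainder does not increase the total degree -/
lemma exists_div {G : k[X][X]} {m : ℕ} (hG : G.Monic) (hGm : G.natDegree = m) (hGT : TD m G)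
    (d : ℕ) : ∀ (n : ℕ) (P : k[X][X]), P.natDegree ≤ n → TD d P →
      ∃ A B : k[X][X], P = G * A + B ∧ B.degree < m ∧ TD d B ∧ (m ≤ d → TD (d - m) A) ∧
        (d < m → A = 0) := by
  intro n
  induction n using Nat.strong_induction_on with
  | _ n ih =>
    intro P hPn hP
    by_cases hlt : P.degree < m
    · exact ⟨0, P, by ring, hlt, hP, fun _ => TD.zero _, fun _ => rfl⟩
    · have hP0 : P ≠ 0 := by
        rintro rfl
        apply hlt
        rw [degree_zero]
        exact WithBot.bot_lt_coe _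
      have hmn : m ≤ P.natDegree := by
        rw [not_lt, degree_eq_natDegree hP0] at hlt
        exact_mod_cast hlt
      have hld : P.natDegree ≤ d := by
        by_contra hcon
        apply hP0
        rw [← leadingCoeff_eq_zero]
        ext j
        rw [leadingCoeff, coeff_zero]
        exact hP _ _ (by omega)
      set Q : k[X][X] := C P.leadingCoeff * X ^ (P.natDegree - m) with hQ
      have hQT : TD (d - m) Q := by
        have h1 : TD (d - P.natDegree) (C P.leadingCoeff) := hP.C_coeff _ rfl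
        have h2 := h1.mul (TD.X_pow (k := k) (P.natDegree - m))
        rw [show d - P.natDegree + (P.natDegree - m) = d - m by omega] at h2
        exact h2
      have hGQ : TD d (G * Q) := by
        have h2 := hGT.mul hQT
        rwa [show m + (d - m) = d by omega] at h2
      have hP' : TD d (P - G * Q) := hP.sub hGQ
      have hdeg : (P - G * Q).degree < P.degree := by
        have := div_wf_lemma (p := P) (q := G) ⟨by
          rw [degree_eq_natDegree hG.ne_zero, hGm, degree_eq_natDegree hP0]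
          exact_mod_cast hmn, hP0⟩ hG
        rwa [hGm] at this
      by_cases h0 : P - G * Q = 0
      · refine ⟨Q, 0, by linear_combination h0, ?_, TD.zero _, fun _ => hQT, fun h => by omega⟩
        rw [degree_zero]
        exact WithBot.bot_lt_coe _
      · have hnd : (P - G * Q).natDegree < n :=
          lt_of_lt_of_le (natDegree_lt_natDegree h0 hdeg) hPn
        obtain ⟨A, B, h1, h2, h3, h4, h5⟩ := ih _ hnd (P - G * Q) le_rfl hP'
        refine ⟨A + Q, B, by linear_combination h1, h2, h3, fun h => (h4 h).add hQT,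
          fun h => by omega⟩

lemma TD.modByMonic {G : k[X][X]} {m : ℕ} (hG : G.Monic) (hGm : G.natDegree = m) (hGT : TD m G)
    {d : ℕ} {P : k[X][X]} (hP : TD d P) : TD d (P %ₘ G) := by
  obtain ⟨A, B, h1, h2, h3, h4, h5⟩ := exists_div hG hGm hGT d _ P le_rfl hP
  have h6 : B.degree < G.degree := by
    rwa [degree_eq_natDegree hG.ne_zero, hGm]
  have := (div_modByMonic_unique (f := P) A B hG ⟨by rw [h1]; ring, h6⟩).2
  rw [this]
  exact h3

lemma TD.divByMonic {G : k[X][X]} {m : ℕ} (hG : G.Monic) (hGm : G.natDegree = m) (hGT : TD m G)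
    {d : ℕ} {P : k[X][X]} (hP : TD d P) :
    (m ≤ d → TD (d - m) (P /ₘ G)) ∧ (d < m → P /ₘ G = 0) := by
  obtain ⟨A, B, h1, h2, h3, h4, h5⟩ := exists_div hG hGm hGT d _ P le_rfl hP
  have h6 : B.degree < G.degree := by
    rwa [degree_eq_natDegree hG.ne_zero, hGm]
  have := (div_modByMonic_unique (f := P) A B hG ⟨by rw [h1]; ring, h6⟩).1
  rw [this]
  exact ⟨h4, h5⟩

/-- membership in `(G, t^N)` -/
lemma mem_span_pair_iff {G : k[X][X]} (hG : G.Monic) (N : ℕ) (p : k[X][X]) :
    p ∈ Ideal.span {G, C (X ^ N)} ↔ ∀ i, X ^ N ∣ (p %ₘ G).coeff i := by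
  rw [← C_dvd_iff_dvd_coeff]
  constructor
  · intro h
    obtain ⟨a, b, hab⟩ := Ideal.mem_span_pair.1 h
    have h1 : p %ₘ G = (X ^ N : k[X]) • (b %ₘ G) := by
      rw [← hab, add_modByMonic, mul_comm a G, self_mul_modByMonic hG, zero_add, mul_comm b,
        ← smul_eq_C_mul, smul_modByMonic]
    rw [h1, smul_eq_C_mul]
    exact dvd_mul_right _ _
  · rintro ⟨s, hs⟩
    rw [Ideal.mem_span_pair]
    refine ⟨p /ₘ G, s, ?_⟩
    have := modByMonic_add_div p G
    rw [mul_comm s, ← hs]
    linear_combination this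

/-- the residue functional on bivariate polynomials -/
noncomputable def resf (G : k[X][X]) (N : ℕ) : k[X][X] →ₗ[k] k :=
  (lcoeff k (N - 1)).comp (((lcoeff k[X] (G.natDegree - 1)).comp
    (modByMonicHom G)).restrictScalars k)

lemma resf_apply (G : k[X][X]) (N : ℕ) (p : k[X][X]) :
    resf G N p = ((p %ₘ G).coeff (G.natDegree - 1)).coeff (N - 1) := rfl

/-- the residue functional detects `(G, t^N)` -/
lemma resf_nondeg {G : k[X][X]} (hG : G.Monic) (N : ℕ) (p : k[X][X])
    (h : ∀ b, resf G N (p * b) = 0) : p ∈ Ideal.span {G, C (X ^ N)} := by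
  rcases Nat.eq_zero_or_pos N with rfl | hN
  · rw [pow_zero, C_1]
    exact Ideal.mem_span_pair.2 ⟨0, p, by ring⟩
  rcases Nat.eq_zero_or_pos G.natDegree with hm | hm
  · rw [Monic.natDegree_eq_zero hG] at hm
    exact Ideal.mem_span_pair.2 ⟨p, 0, by rw [hm]; ring⟩
  -- the coefficient of `y^(m-1)` is divisible by `t^N`
  have h1 : ∀ b : k[X][X], X ^ N ∣ ((p * b) %ₘ G).coeff (G.natDegree - 1) := by
    intro b
    rw [X_pow_dvd_iff]
    intro j hj
    have h2 := h (b * C (X ^ (N - 1 - j)))
    rw [resf_apply, ← mul_assoc, mul_comm (p * b), ← smul_eq_C_mul, smul_modByMonic, coeff_smul,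
      smul_eq_mul, coeff_X_pow_mul', if_pos (by omega)] at h2
    rw [← h2]
    congr 1
    omega
  rw [mem_span_pair_iff hG]
  -- descending induction
  have key : ∀ e : ℕ, ∀ i, G.natDegree ≤ i + e → X ^ N ∣ (p %ₘ G).coeff i := by
    intro e
    induction e with
    | zero =>
      intro i hi
      rw [coeff_eq_zero_of_degree_lt]
      · exact dvd_zero _
      · refine lt_of_lt_of_le (degree_modByMonic_lt p hG) ?_
        rw [degree_eq_natDegree hG.ne_zero]
        exact_mod_cast (by omega : G.natDegree ≤ i)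
    | succ e ih =>
      intro i hi
      by_cases hi' : G.natDegree ≤ i + e
      · exact ih i hi'
      have hie : i + e + 1 = G.natDegree := by omega
      -- write the remainder as `A + t^N B` with `A` of degree at most `i`
      set r := p %ₘ G with hr
      have h3 : ∃ A B : k[X][X], r = A + C (X ^ N) * B ∧ A.natDegree ≤ i ∧
          A.coeff i = r.coeff i := by
        refine ⟨∑ j ∈ Finset.range (i + 1), monomial j (r.coeff j), ?_⟩
        have h4 : C (X ^ N) ∣ r - ∑ j ∈ Finset.range (i + 1), monomial j (r.coeff j) := by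
          rw [C_dvd_iff_dvd_coeff]
          intro j
          rw [coeff_sub, finsetSum_coeff]
          simp only [coeff_monomial]
          by_cases hj : j < i + 1
          · rw [Finset.sum_ite_eq' (Finset.range (i + 1)) j, if_pos (Finset.mem_range.2 hj),
              sub_self]
            exact dvd_zero _
          · rw [Finset.sum_ite_eq' (Finset.range (i + 1)) j, if_neg (by
              rw [Finset.mem_range]; exact hj), sub_zero]
            exact ih j (by omega)
        obtain ⟨B, hB⟩ := h4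
        refine ⟨B, by linear_combination hB, ?_, ?_⟩
        · refine natDegree_sum_le_of_forall_le _ _ fun j hj => ?_
          refine (natDegree_monomial_le _).trans ?_
          have := Finset.mem_range.1 hj
          omega
        · rw [finsetSum_coeff]
          simp only [coeff_monomial]
          rw [Finset.sum_ite_eq' (Finset.range (i + 1)) i, if_pos (Finset.mem_range.2 (by omega))]
      obtain ⟨A, B, hAB, hAd, hAi⟩ := h3
      have h5 := h1 (X ^ e)
      have h6 : (p * X ^ e) %ₘ G = A * X ^ e + (X ^ N : k[X]) • ((B * X ^ e) %ₘ G) := by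
        have h7 : (p * X ^ e) %ₘ G = (r * X ^ e) %ₘ G := by
          have h8 : p * X ^ e = r * X ^ e + G * ((p /ₘ G) * X ^ e) := by
            have := modByMonic_add_div p G
            linear_combination (-X ^ e) * this
          rw [h8, add_modByMonic, self_mul_modByMonic hG, add_zero]
        have h9 : (A * X ^ e) %ₘ G = A * X ^ e := by
          rw [modByMonic_eq_self_iff hG]
          refine lt_of_le_of_lt degree_le_natDegree ?_
          rw [degree_eq_natDegree hG.ne_zero]
          have : (A * X ^ e).natDegree ≤ i + e := by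
            refine natDegree_mul_le.trans ?_
            have := natDegree_X_pow_le (R := k[X]) e
            omega
          exact_mod_cast (by omega : (A * X ^ e).natDegree < G.natDegree)
        rw [h7, hAB, add_mul, add_modByMonic, h9, mul_assoc, ← smul_eq_C_mul, smul_modByMonic]
      rw [h6, coeff_add, coeff_smul, smul_eq_mul, (dvd_add_left (dvd_mul_right _ _))] at h5
      rw [show G.natDegree - 1 = i + e by omega, coeff_mul_X_pow, hAi] at h5
      exact h5
  intro i
  exact key G.natDegree i (by omega)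

end Bivariate

section Space

open MvPolynomial Vale.Agent.P287 Vale.Agent.P287.H925 Vale.Agent.P287.Theta

/-- the affine chart `X 1 = 1` with coordinates `t = X 0`, `y = X 2` -/
noncomputable def ct : P3 →ₐ[ℂ] Polynomial (Polynomial ℂ) :=
  aeval ![Polynomial.C Polynomial.X, 1, Polynomial.X]

lemma ct_X0 : ct (X 0) = Polynomial.C Polynomial.X := by simp [ct]

lemma ct_X1 : ct (X 1) = 1 := by simp [ct]

lemma ct_X2 : ct (X 2) = Polynomial.X := by simp [ct]

lemma ct_C (c : ℂ) : ct (C c) = Polynomial.C (Polynomial.C c) := by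
  rw [ct, algHom_C]; rfl

/-- the exponent of the monomial `X0^j X1^(d-i-j) X2^i` -/
noncomputable def ex (d i j : ℕ) : Fin 3 →₀ ℕ := Finsupp.equivFunOnFinite.symm ![j, d - i - j, i]

lemma ct_monomial (v : Fin 3 →₀ ℕ) (c : ℂ) :
    ct (monomial v c) = Polynomial.monomial (v 2) (Polynomial.monomial (v 0) c) := by
  rw [ct, aeval_monomial, Finsupp.prod_fintype _ _ (by intro i; exact pow_zero _),
    Fin.prod_univ_three]
  have h : (algebraMap ℂ (Polynomial (Polynomial ℂ))) c = Polynomial.C (Polynomial.C c) := rfl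
  rw [h]
  simp only [Matrix.cons_val_zero, Matrix.cons_val_one, Matrix.cons_val]
  rw [one_pow, mul_one, ← Polynomial.C_pow, ← mul_assoc, ← Polynomial.C_mul,
    Polynomial.C_mul_X_pow_eq_monomial, Polynomial.C_mul_X_pow_eq_monomial]

lemma sum_of_coeff_ne {p : P3} {d : ℕ} (hp : p.IsHomogeneous d) {v : Fin 3 →₀ ℕ}
    (hv : coeff v p ≠ 0) : v 0 + v 1 + v 2 = d := by
  by_contra hcon
  apply hv
  apply hp.coeff_eq_zero
  rw [Finsupp.degree_eq_sum, Fin.sum_univ_three]
  exact hcon

lemma TD_ct {p : P3} {d : ℕ} (hp : p.IsHomogeneous d) : TD d (ct p) := by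
  rw [p.as_sum, map_sum]
  refine TD.sum _ fun v hv => ?_
  rw [ct_monomial]
  have h1 := sum_of_coeff_ne hp (mem_support_iff.1 hv)
  intro i j hij
  rw [Polynomial.coeff_monomial]
  split_ifs with h2
  · rw [Polynomial.coeff_monomial]
    split_ifs with h3
    · omega
    · rfl
  · rw [Polynomial.coeff_zero]

/-- homogenisation in degree `d` -/
noncomputable def hz (d : ℕ) : Polynomial (Polynomial ℂ) →ₗ[ℂ] P3 :=
  ∑ i ∈ Finset.range (d + 1), ∑ j ∈ Finset.range (d + 1 - i),
    (monomial (ex d i j) : ℂ →ₗ[ℂ] P3).comp ((Polynomial.lcoeff ℂ j).comp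
      ((Polynomial.lcoeff (Polynomial ℂ) i).restrictScalars ℂ))

lemma hz_apply (d : ℕ) (P : Polynomial (Polynomial ℂ)) : hz d P =
    ∑ i ∈ Finset.range (d + 1), ∑ j ∈ Finset.range (d + 1 - i),
      monomial (ex d i j) ((P.coeff i).coeff j) := by
  rw [hz, LinearMap.sum_apply]
  refine Finset.sum_congr rfl fun i _ => ?_
  rw [LinearMap.sum_apply]
  rfl

lemma ex_apply (d i j : ℕ) : (ex d i j) 0 = j ∧ (ex d i j) 1 = d - i - j ∧ (ex d i j) 2 = i := by
  simp [ex]

lemma hz_homog (d : ℕ) (P : Polynomial (Polynomial ℂ)) : (hz d P).IsHomogeneous d := by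
  rw [hz_apply]
  refine IsHomogeneous.sum _ _ _ fun i hi => IsHomogeneous.sum _ _ _ fun j hj => ?_
  apply isHomogeneous_monomial
  rw [Finset.mem_range] at hi hj
  obtain ⟨h0, h1, h2⟩ := ex_apply d i j
  rw [Finsupp.degree_eq_sum, Fin.sum_univ_three, h0, h1, h2]
  omega

lemma ct_hz {d : ℕ} {P : Polynomial (Polynomial ℂ)} (hP : TD d P) : ct (hz d P) = P := by
  rw [hz_apply, map_sum]
  ext a b
  simp only [map_sum, ct_monomial, (ex_apply _ _ _).1, (ex_apply _ _ _).2.2]
  rw [Polynomial.finsetSum_coeff, Polynomial.finsetSum_coeff]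
  simp only [Polynomial.finsetSum_coeff, Polynomial.coeff_monomial]
  by_cases hab : d < a + b
  · rw [hP a b hab]
    refine Finset.sum_eq_zero fun i hi => Finset.sum_eq_zero fun j hj => ?_
    rw [Finset.mem_range] at hi hj
    split_ifs with h1
    · rw [Polynomial.coeff_monomial, if_neg (by omega)]
    · rw [Polynomial.coeff_zero]
  · rw [Finset.sum_eq_single a]
    · rw [Finset.sum_eq_single b]
      · rw [if_pos rfl, Polynomial.coeff_monomial, if_pos rfl]
      · intro j _ hj
        rw [if_pos rfl, Polynomial.coeff_monomial, if_neg hj]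
      · intro h
        exfalso
        apply h
        rw [Finset.mem_range]
        omega
    · intro i _ hi
      refine Finset.sum_eq_zero fun j _ => ?_
      rw [if_neg hi, Polynomial.coeff_zero]
    · intro h
      exfalso
      apply h
      rw [Finset.mem_range]
      omega

lemma hz_ct {p : P3} {d : ℕ} (hp : p.IsHomogeneous d) : hz d (ct p) = p := by
  conv_rhs => rw [p.as_sum]
  conv_lhs => rw [p.as_sum, map_sum, map_sum]
  refine Finset.sum_congr rfl fun v hv => ?_
  have h1 := sum_of_coeff_ne hp (mem_support_iff.1 hv)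
  rw [ct_monomial, hz_apply, Finset.sum_eq_single (v 2)]
  · rw [Finset.sum_eq_single (v 0)]
    · have h5 : ex d (v 2) (v 0) = v := by
        obtain ⟨h0, h1', h2⟩ := ex_apply d (v 2) (v 0)
        ext i
        fin_cases i
        · exact h0
        · refine h1'.trans ?_
          change _ = v 1
          omega
        · exact h2
      rw [Polynomial.coeff_monomial, if_pos rfl, Polynomial.coeff_monomial, if_pos rfl, h5]
    · intro j _ hj
      rw [Polynomial.coeff_monomial, if_pos rfl, Polynomial.coeff_monomial, if_neg hj.symm,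
        map_zero]
    · intro h
      exfalso
      apply h
      rw [Finset.mem_range]
      omega
  · intro i _ hi
    refine Finset.sum_eq_zero fun j _ => ?_
    rw [Polynomial.coeff_monomial, if_neg hi.symm, Polynomial.coeff_zero, map_zero]
  · intro h
    exfalso
    apply h
    rw [Finset.mem_range]
    omega

lemma ct_inj {p p' : P3} {d : ℕ} (hp : p.IsHomogeneous d) (hp' : p'.IsHomogeneous d)
    (h : ct p = ct p') : p = p' := by
  rw [← hz_ct hp, h, hz_ct hp']

lemma evalEval_ct (x y : ℂ) (p : P3) :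
    Polynomial.evalEval x y (ct p) = eval ![x, 1, y] p := by
  have h : (Polynomial.evalEvalRingHom x y).comp (ct : P3 →+* Polynomial (Polynomial ℂ)) =
      eval ![x, 1, y] := by
    apply MvPolynomial.ringHom_ext
    · intro a
      rw [RingHom.comp_apply, eval_C]
      have h1 : (ct : P3 →+* Polynomial (Polynomial ℂ)) (C a) =
          Polynomial.C (Polynomial.C a) := ct_C a
      rw [h1]
      simp
    · intro i
      rw [RingHom.comp_apply, eval_X]
      fin_cases i
      · change Polynomial.evalEval x y (ct (X 0)) = x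
        rw [ct_X0]; simp [Polynomial.evalEval]
      · change Polynomial.evalEval x y (ct (X 1)) = 1
        rw [ct_X1]; simp
      · change Polynomial.evalEval x y (ct (X 2)) = y
        rw [ct_X2]; simp
  exact RingHom.congr_fun h p

variable {g : P3} {m : ℕ}

lemma ct_coeff_top (hg : g.IsHomogeneous m) :
    (ct g).coeff m = Polynomial.C (eval ![0, 0, 1] g) := by
  have hT := TD_ct hg
  ext j
  rw [Polynomial.coeff_C]
  split_ifs with hj
  · subst hj
    conv_rhs => rw [← hz_ct hg, hz_apply, map_sum]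
    simp only [map_sum]
    rw [Finset.sum_eq_single m]
    · rw [Finset.sum_eq_single 0]
      · obtain ⟨h0, h1, h2⟩ := ex_apply m m 0
        rw [eval_monomial, Finsupp.prod_fintype _ _ (by intro i; exact pow_zero _),
          Fin.prod_univ_three, h0, h1, h2]
        simp
      · intro j _ hj
        obtain ⟨h0, h1, h2⟩ := ex_apply m m j
        rw [hT m j (by omega), map_zero, map_zero]
      · intro h
        exfalso
        apply h
        rw [Finset.mem_range]
        omega
    · intro i hi hi'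
      refine Finset.sum_eq_zero fun j hj => ?_
      rw [Finset.mem_range] at hi hj
      obtain ⟨h0, h1, h2⟩ := ex_apply m i j
      rw [eval_monomial, Finsupp.prod_fintype _ _ (by intro i; exact pow_zero _),
        Fin.prod_univ_three, h0, h1, h2]
      have h3 : (![0, 0, 1] : Fin 3 → ℂ) 0 = 0 := rfl
      have h4 : (![0, 0, 1] : Fin 3 → ℂ) 1 = 0 := rfl
      rw [h3, h4]
      by_cases hj0 : j = 0
      · rw [zero_pow (by omega : m - i - j ≠ 0)]; ring
      · rw [zero_pow hj0]; ring
    · intro h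
      exfalso
      apply h
      rw [Finset.mem_range]
      omega
  · exact hT m j (by omega)

/-- the monic equation of the curve in the chart -/
noncomputable def Gm (g : P3) : Polynomial (Polynomial ℂ) :=
  Polynomial.C (Polynomial.C (eval ![0, 0, 1] g)⁻¹) * ct g

lemma Gm_coeff_top (hg : g.IsHomogeneous m) (hg1 : eval ![0, 0, 1] g ≠ 0) :
    (Gm g).coeff m = 1 := by
  rw [Gm, Polynomial.coeff_C_mul, ct_coeff_top hg, ← Polynomial.C_mul, inv_mul_cancel₀ hg1,
    Polynomial.C_1]

lemma Gm_TD (hg : g.IsHomogeneous m) : TD m (Gm g) := by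
  have := (TD.CC 0 (eval ![0, 0, 1] g)⁻¹).mul (TD_ct hg)
  rwa [zero_add] at this

lemma Gm_natDegree_le (hg : g.IsHomogeneous m) : (Gm g).natDegree ≤ m := by
  rw [Polynomial.natDegree_le_iff_coeff_eq_zero]
  intro i hi
  ext j
  rw [Polynomial.coeff_zero]
  exact Gm_TD hg i j (by omega)

lemma Gm_monic (hg : g.IsHomogeneous m) (hg1 : eval ![0, 0, 1] g ≠ 0) : (Gm g).Monic :=
  Polynomial.monic_of_natDegree_le_of_coeff_eq_one m (Gm_natDegree_le hg) (Gm_coeff_top hg hg1)

lemma Gm_natDegree (hg : g.IsHomogeneous m) (hg1 : eval ![0, 0, 1] g ≠ 0) :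
    (Gm g).natDegree = m := by
  refine le_antisymm (Gm_natDegree_le hg) (Polynomial.le_natDegree_of_ne_zero ?_)
  rw [Gm_coeff_top hg hg1]
  exact one_ne_zero

lemma ct_eq_Gm (hg1 : eval ![0, 0, 1] g ≠ 0) :
    ct g = Polynomial.C (Polynomial.C (eval ![0, 0, 1] g)) * Gm g := by
  rw [Gm, ← mul_assoc, ← Polynomial.C_mul, ← Polynomial.C_mul, mul_inv_cancel₀ hg1,
    Polynomial.C_1, Polynomial.C_1, one_mul]

/-- the ideal `(g(t,1,y), t^N)` -/
noncomputable abbrev idB (g : P3) (N : ℕ) : Ideal (Polynomial (Polynomial ℂ)) :=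
  Ideal.span {ct g, Polynomial.C (Polynomial.X ^ N)}

/-- the algebra `ℂ[t][y] / (g(t,1,y), t^N)` -/
def BB (g : P3) (N : ℕ) : Type := Polynomial (Polynomial ℂ) ⧸ idB g N

noncomputable instance (g : P3) (N : ℕ) : CommRing (BB g N) :=
  inferInstanceAs (CommRing (Polynomial (Polynomial ℂ) ⧸ idB g N))

noncomputable instance (g : P3) (N : ℕ) : Algebra ℂ (BB g N) :=
  inferInstanceAs (Algebra ℂ (Polynomial (Polynomial ℂ) ⧸ idB g N))

lemma span_eq (hg1 : eval ![0, 0, 1] g ≠ 0) (N : ℕ) :
    (Ideal.span {ct g, Polynomial.C (Polynomial.X ^ N)} : Ideal (Polynomial (Polynomial ℂ))) =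
      Ideal.span {Gm g, Polynomial.C (Polynomial.X ^ N)} := by
  apply le_antisymm
  · rw [Ideal.span_le, Set.insert_subset_iff, Set.singleton_subset_iff]
    refine ⟨?_, Ideal.subset_span (by simp)⟩
    rw [ct_eq_Gm hg1]
    exact Ideal.mul_mem_left _ _ (Ideal.subset_span (by simp))
  · rw [Ideal.span_le, Set.insert_subset_iff, Set.singleton_subset_iff]
    exact ⟨Ideal.mul_mem_left _ _ (Ideal.subset_span (by simp)), Ideal.subset_span (by simp)⟩

lemma mem_span_iff (hg : g.IsHomogeneous m) (hg1 : eval ![0, 0, 1] g ≠ 0) (N : ℕ)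
    (P : Polynomial (Polynomial ℂ)) :
    P ∈ (Ideal.span {ct g, Polynomial.C (Polynomial.X ^ N)} :
      Ideal (Polynomial (Polynomial ℂ))) ↔
        ∀ i, Polynomial.X ^ N ∣ (Polynomial.modByMonic P (Gm g)).coeff i := by
  rw [span_eq hg1, mem_span_pair_iff (Gm_monic hg hg1)]

/-- the class of a polynomial in `BB` -/
noncomputable def mkB (g : P3) (N : ℕ) : Polynomial (Polynomial ℂ) →ₐ[ℂ] BB g N :=
  Ideal.Quotient.mkₐ ℂ (idB g N)

lemma mkB_surj (g : P3) (N : ℕ) : Function.Surjective (mkB g N) := Ideal.Quotient.mk_surjective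

lemma mkB_eq_zero {g : P3} {N : ℕ} {P : Polynomial (Polynomial ℂ)} :
    mkB g N P = 0 ↔ P ∈ idB g N := Ideal.Quotient.eq_zero_iff_mem

lemma mkB_eq {g : P3} {N : ℕ} {P Q : Polynomial (Polynomial ℂ)} :
    mkB g N P = mkB g N Q ↔ P - Q ∈ idB g N := Ideal.Quotient.eq

lemma mkB_X_pow (g : P3) (N : ℕ) : mkB g N (Polynomial.C (Polynomial.X ^ N)) = 0 :=
  mkB_eq_zero.2 (Ideal.subset_span (by simp))

lemma mkB_ct (g : P3) (N : ℕ) : mkB g N (ct g) = 0 :=
  mkB_eq_zero.2 (Ideal.subset_span (by simp))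

/-- the map from the homogeneous coordinate ring to `BB` -/
noncomputable def toBB (g : P3) (N : ℕ) : RG g →ₐ[ℂ] BB g N :=
  Ideal.Quotient.liftₐ (Ideal.span {g}) ((mkB g N).comp ct) (by
      intro a ha
      obtain ⟨b, rfl⟩ := Ideal.mem_span_singleton'.1 ha
      rw [AlgHom.comp_apply, map_mul, map_mul, mkB_ct, mul_zero])

lemma toBB_q (g : P3) (N : ℕ) (p : P3) :
    toBB g N (q g p) = mkB g N (ct p) := rfl

/-- descend a linear map to `BB` -/
noncomputable def descend {V : Type*} [AddCommGroup V] [Module ℂ V] (g : P3) (N : ℕ)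
    (φ : Polynomial (Polynomial ℂ) →ₗ[ℂ] V) (h : ∀ x ∈ idB g N, φ x = 0) : BB g N →ₗ[ℂ] V where
  toFun := (((idB g N).restrictScalars ℂ).liftQ φ (fun x hx => h x hx)).comp
    (Submodule.Quotient.restrictScalarsEquiv ℂ (idB g N)).symm.toLinearMap
  map_add' _ _ := map_add _ _ _
  map_smul' _ _ := map_smul _ _ _

lemma descend_mk {V : Type*} [AddCommGroup V] [Module ℂ V] (g : P3) (N : ℕ)
    (φ : Polynomial (Polynomial ℂ) →ₗ[ℂ] V) (h : ∀ x ∈ idB g N, φ x = 0)
    (p : Polynomial (Polynomial ℂ)) : descend g N φ h (mkB g N p) = φ p := rfl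

/-- the residue functional -/
noncomputable def lamB (hg : g.IsHomogeneous m) (hg1 : eval ![0, 0, 1] g ≠ 0) {N : ℕ}
    (hN : 0 < N) : BB g N →ₗ[ℂ] ℂ :=
  descend g N (resf (Gm g) N) (by
    intro x hx
    rw [mem_span_iff hg hg1] at hx
    rw [resf_apply]
    exact Polynomial.X_pow_dvd_iff.1 (hx _) _ (by omega))

lemma lamB_mk (hg : g.IsHomogeneous m) (hg1 : eval ![0, 0, 1] g ≠ 0) {N : ℕ} (hN : 0 < N)
    (P : Polynomial (Polynomial ℂ)) : lamB hg hg1 hN (mkB g N P) =
      ((Polynomial.modByMonic P (Gm g)).coeff (m - 1)).coeff (N - 1) := by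
  rw [lamB, descend_mk, resf_apply, Gm_natDegree hg hg1]

/-- The residue functional is nondegenerate. -/
theorem lamB_nondeg (hg : g.IsHomogeneous m) (hg1 : eval ![0, 0, 1] g ≠ 0) {N : ℕ} (hN : 0 < N)
    (a : BB g N) (h : ∀ b, lamB hg hg1 hN (a * b) = 0) : a = 0 := by
  obtain ⟨P, rfl⟩ := mkB_surj g N a
  rw [mkB_eq_zero, idB, span_eq hg1]
  apply resf_nondeg (Gm_monic hg hg1)
  intro b
  have := h (mkB g N b)
  rwa [← map_mul, lamB, descend_mk] at this

/-- The residue functional vanishes on forms of degree at most `m - 3 + N`. -/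
theorem lamB_degree (hg : g.IsHomogeneous m) (hg1 : eval ![0, 0, 1] g ≠ 0) {N : ℕ} (hN : 0 < N)
    {p : P3} {d : ℕ} (hp : p.IsHomogeneous d) (hd : d + 3 ≤ m + N) :
    lamB hg hg1 hN (toBB g N (q g p)) = 0 := by
  rw [toBB_q, lamB_mk]
  rcases Nat.eq_zero_or_pos m with hm | hm
  · have h1 : Gm g = 1 := (Polynomial.Monic.natDegree_eq_zero (Gm_monic hg hg1)).1
      ((Gm_natDegree hg hg1).trans hm)
    rw [h1, Polynomial.modByMonic_one, Polynomial.coeff_zero, Polynomial.coeff_zero]
  · exact TD.modByMonic (Gm_monic hg hg1) (Gm_natDegree hg hg1) (Gm_TD hg) (TD_ct hp) _ _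
      (by omega)

/-- `1` and `t` -/
lemma toBB_X0_pow (g : P3) (N n : ℕ) : toBB g N (q g (X 0)) ^ n =
    mkB g N (Polynomial.C (Polynomial.X ^ n)) := by
  rw [toBB_q, ct_X0, ← map_pow, ← Polynomial.C_pow]

/-- the annihilator of `t^a` -/
theorem tt_mul_eq_zero (hg : g.IsHomogeneous m) (hg1 : eval ![0, 0, 1] g ≠ 0) {N a : ℕ}
    (ha : a ≤ N) (b : BB g N) : toBB g N (q g (X 0)) ^ a * b = 0 ↔
      ∃ c, b = toBB g N (q g (X 0)) ^ (N - a) * c := by
  rw [toBB_X0_pow, toBB_X0_pow]
  constructor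
  · intro h
    obtain ⟨P, rfl⟩ := mkB_surj g N b
    rw [← map_mul, mkB_eq_zero, mem_span_iff hg hg1] at h
    have h1 : P ∈ (Ideal.span {ct g, Polynomial.C (Polynomial.X ^ (N - a))} :
        Ideal (Polynomial (Polynomial ℂ))) := by
      rw [mem_span_iff hg hg1]
      intro i
      have h2 := h i
      rw [← Polynomial.smul_eq_C_mul, Polynomial.smul_modByMonic, Polynomial.coeff_smul,
        smul_eq_mul] at h2
      have h3 : (Polynomial.X : Polynomial ℂ) ^ N = Polynomial.X ^ a * Polynomial.X ^ (N - a) := by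
        rw [← pow_add]; congr 1; omega
      rw [h3] at h2
      exact (mul_dvd_mul_iff_left (pow_ne_zero _ Polynomial.X_ne_zero)).1 h2
    obtain ⟨u, v, huv⟩ := Ideal.mem_span_pair.1 h1
    refine ⟨mkB g N v, ?_⟩
    rw [← map_mul, mkB_eq, ← huv]
    have h4 : u * ct g + v * Polynomial.C (Polynomial.X ^ (N - a)) -
        Polynomial.C (Polynomial.X ^ (N - a)) * v = u * ct g := by ring
    rw [h4]
    exact Ideal.mul_mem_left _ _ (Ideal.subset_span (by simp))
  · rintro ⟨c, rfl⟩
    rw [← mul_assoc, ← map_mul, ← Polynomial.C_mul, ← pow_add, Nat.add_sub_cancel' ha]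
    rw [mkB_X_pow, zero_mul]

/-- an element of degree `d` divisible by `t^n` in the chart is divisible by `X0^n` -/
theorem exists_X0_pow (hg : g.IsHomogeneous m) (hg1 : eval ![0, 0, 1] g ≠ 0) {N n d : ℕ}
    (hn : n ≤ N) {x : RG g} (hx : x ∈ gr g d) {c : BB g N}
    (h : toBB g N x = toBB g N (q g (X 0)) ^ n * c) :
    (n ≤ d → ∃ x' ∈ gr g (d - n), x = q g (X 0) ^ n * x') ∧ (d < n → x = 0) := by
  obtain ⟨p, hp, rfl⟩ := hx
  have hp' : p.IsHomogeneous d := hp
  change toBB g N (q g p) = _ at h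
  change (n ≤ d → ∃ x' ∈ gr g (d - n), q g p = q g (X 0) ^ n * x') ∧ (d < n → q g p = 0)
  obtain ⟨P, rfl⟩ := mkB_surj g N c
  rw [toBB_X0_pow, toBB_q, ← map_mul, mkB_eq, mem_span_iff hg hg1] at h
  have hM := Gm_monic hg hg1
  have hD := Gm_natDegree hg hg1
  have hT := Gm_TD hg
  -- the remainder is divisible by `t^n`
  obtain ⟨S, hS⟩ : Polynomial.C (Polynomial.X ^ n) ∣ Polynomial.modByMonic (ct p) (Gm g) := by
    rw [Polynomial.C_dvd_iff_dvd_coeff]
    intro i
    have h1 := h i
    rw [Polynomial.sub_modByMonic, ← Polynomial.smul_eq_C_mul, Polynomial.smul_modByMonic,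
      Polynomial.coeff_sub, Polynomial.coeff_smul, smul_eq_mul] at h1
    have h2 := (pow_dvd_pow (Polynomial.X : Polynomial ℂ) hn).trans h1
    exact (dvd_sub_left (dvd_mul_right _ _)).1 h2
  have hS0 : ∀ i j, d < i + j + n → (S.coeff i).coeff j = 0 := by
    intro i j hij
    have h3 := TD.modByMonic hM hD hT (TD_ct hp') i (j + n) (by omega)
    rw [hS, Polynomial.coeff_C_mul, Polynomial.coeff_X_pow_mul] at h3
    exact h3
  -- the quotient
  have hdiv := TD.divByMonic hM hD hT (TD_ct hp')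
  have hsum : ct p = Gm g * Polynomial.divByMonic (ct p) (Gm g) +
      Polynomial.C (Polynomial.X ^ n) * S := by
    rw [← hS]
    have := Polynomial.modByMonic_add_div (ct p) (Gm g)
    linear_combination -this
  have hgm : ∃ w : P3, p - hz d (Polynomial.C (Polynomial.X ^ n) * S) = g * w := by
    rw [← hS]
    have hr : TD d (Polynomial.modByMonic (ct p) (Gm g)) := TD.modByMonic hM hD hT (TD_ct hp')
    by_cases hmd : m ≤ d
    · refine ⟨C (eval ![0, 0, 1] g)⁻¹ * hz (d - m) (Polynomial.divByMonic (ct p) (Gm g)), ?_⟩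
      have hh : (g * (C (eval ![0, 0, 1] g)⁻¹ *
          hz (d - m) (Polynomial.divByMonic (ct p) (Gm g)))).IsHomogeneous d := by
        have := hg.mul ((hz_homog (d - m) (Polynomial.divByMonic (ct p) (Gm g))).C_mul
          (eval ![0, 0, 1] g)⁻¹)
        rwa [show m + (d - m) = d by omega] at this
      refine ct_inj (hp'.sub (hz_homog _ _)) hh ?_
      rw [map_sub, map_mul, map_mul, ct_hz hr, ct_hz (hdiv.1 hmd), ct_C]
      have h5 := Polynomial.modByMonic_add_div (ct p) (Gm g)
      rw [Gm] at h5 ⊢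
      linear_combination -h5
    · refine ⟨0, ?_⟩
      rw [mul_zero]
      refine ct_inj (hp'.sub (hz_homog _ _)) (isHomogeneous_zero _ _ d) ?_
      rw [map_sub, ct_hz hr, map_zero]
      have h5 := Polynomial.modByMonic_add_div (ct p) (Gm g)
      rw [hdiv.2 (by omega), mul_zero, add_zero] at h5
      rw [h5, sub_self]
  obtain ⟨w, hw⟩ := hgm
  have hq : q g p = q g (hz d (Polynomial.C (Polynomial.X ^ n) * S)) := by
    rw [Ideal.Quotient.eq, hw]
    exact Ideal.mul_mem_right _ _ (Ideal.mem_span_singleton_self g)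
  constructor
  · intro hnd
    have hST : TD (d - n) S := fun i j hij => hS0 i j (by omega)
    refine ⟨q g (hz (d - n) S), ⟨_, hz_homog _ _, rfl⟩, ?_⟩
    rw [hq]
    refine Eq.trans ?_ (show q g (X 0 ^ n * hz (d - n) S) = q g (X 0) ^ n * q g (hz (d - n) S) by
      rw [q, map_mul, map_pow])
    congr 1
    have hh : (X 0 ^ n * hz (d - n) S : P3).IsHomogeneous d := by
      have := (isHomogeneous_X_pow (R := ℂ) (0 : Fin 3) n).mul (hz_homog (d - n) S)
      rwa [show n + (d - n) = d by omega] at this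
    have hTS : TD d (Polynomial.C (Polynomial.X ^ n) * S) := by
      have := (TD.CX_pow (k := ℂ) n).mul hST
      rwa [show n + (d - n) = d by omega] at this
    refine ct_inj (hz_homog _ _) hh ?_
    rw [ct_hz hTS, map_mul, map_pow ct, ct_X0, ct_hz hST, ← Polynomial.C_pow]
  · intro hdn
    have hS1 : S = 0 := by
      ext i j
      rw [Polynomial.coeff_zero, Polynomial.coeff_zero]
      exact hS0 i j (by omega)
    rw [hq, hS1, mul_zero, map_zero]
    exact map_zero (Ideal.Quotient.mk (Ideal.span {g}))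

/-- the chart is injective in small degrees -/
theorem toBB_inj (hg : g.IsHomogeneous m) (hg1 : eval ![0, 0, 1] g ≠ 0) {N d : ℕ}
    (hd : d < N) {x : RG g} (hx : x ∈ gr g d) (h : toBB g N x = 0) : x = 0 :=
  (exists_X0_pow hg hg1 (le_refl N) hx (c := 0) (by rw [h, mul_zero])).2 hd

/-- `h` is a unit in `BB` if it does not vanish on the curve at `t = 0` -/
theorem isUnit_toBB (g : P3) (N : ℕ) {h : P3}
    (hh : ∀ z : Fin 3 → ℂ, z ≠ 0 → z 0 = 0 → eval z g = 0 → eval z h ≠ 0) :
    IsUnit (toBB g N (q g h)) := by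
  have h1 : (Ideal.span {ct g, Polynomial.C Polynomial.X, ct h} :
      Ideal (Polynomial (Polynomial ℂ))) = ⊤ := by
    by_contra hcon
    obtain ⟨x, y, hxy⟩ := exists_common_point _ hcon
    have e1 := hxy (ct g) (Ideal.subset_span (by simp))
    have e2 := hxy (Polynomial.C Polynomial.X) (Ideal.subset_span (by simp))
    have e3 := hxy (ct h) (Ideal.subset_span (by simp))
    have hx : x = 0 := by simpa [Polynomial.evalEval] using e2
    subst hx
    rw [evalEval_ct] at e1 e3
    refine hh ![0, 1, y] (fun h0 => ?_) rfl e1 e3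
    have := congrFun h0 1
    simp at this
  have h2 : (1 : Polynomial (Polynomial ℂ)) ∈ (Ideal.span {ct g, Polynomial.C Polynomial.X, ct h} :
      Ideal (Polynomial (Polynomial ℂ))) := by rw [h1]; trivial
  obtain ⟨a, b, hb, hab⟩ := Ideal.mem_span_insert.1 h2
  obtain ⟨b', c', hbc⟩ := Ideal.mem_span_pair.1 hb
  have h3 : toBB g N (q g h) * mkB g N c' =
      1 - toBB g N (q g (X 0)) * mkB g N b' := by
    rw [toBB_q, toBB_q, ct_X0, ← map_mul, ← map_mul, ← map_one (mkB g N), ← map_sub, mkB_eq]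
    have h4 : ct h * c' - (1 - Polynomial.C Polynomial.X * b') = (-a) * ct g := by
      rw [hab, ← hbc]; ring
    rw [h4]
    exact Ideal.mul_mem_left _ _ (Ideal.subset_span (by simp))
  have h5 : IsNilpotent (toBB g N (q g (X 0)) * mkB g N b') := by
    refine ⟨N, ?_⟩
    rw [mul_pow, toBB_X0_pow]
    rw [mkB_X_pow, zero_mul]
  have h6 : IsUnit (toBB g N (q g h) * mkB g N c') := by
    rw [h3]
    exact h5.isUnit_one_sub
  exact isUnit_of_mul_isUnit_left h6

/-- coefficients of the remainder, as a linear map -/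
noncomputable def remc (G : Polynomial (Polynomial ℂ)) (m N : ℕ) :
    Polynomial (Polynomial ℂ) →ₗ[ℂ] (Fin m → Fin N → ℂ) :=
  LinearMap.pi fun i => LinearMap.pi fun j =>
    (Polynomial.lcoeff ℂ (j : ℕ)).comp (((Polynomial.lcoeff (Polynomial ℂ) (i : ℕ)).comp
      (Polynomial.modByMonicHom G)).restrictScalars ℂ)

lemma remc_apply (G : Polynomial (Polynomial ℂ)) (m N : ℕ) (P : Polynomial (Polynomial ℂ))
    (i : Fin m) (j : Fin N) :
    remc G m N P i j = ((Polynomial.modByMonic P G).coeff i).coeff j := rfl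

/-- `BB` in coordinates -/
noncomputable def coordB (hg : g.IsHomogeneous m) (hg1 : eval ![0, 0, 1] g ≠ 0) (N : ℕ) :
    BB g N →ₗ[ℂ] (Fin m → Fin N → ℂ) :=
  descend g N (remc (Gm g) m N) (by
    intro x hx
    rw [mem_span_iff hg hg1] at hx
    funext i j
    rw [remc_apply]
    exact Polynomial.X_pow_dvd_iff.1 (hx _) _ j.2)

lemma coordB_bijective (hg : g.IsHomogeneous m) (hg1 : eval ![0, 0, 1] g ≠ 0) (N : ℕ) :
    Function.Bijective (coordB hg hg1 N) := by
  have hM := Gm_monic hg hg1
  have hD := Gm_natDegree hg hg1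
  constructor
  · rw [← LinearMap.ker_eq_bot, LinearMap.ker_eq_bot']
    intro a ha
    obtain ⟨P, rfl⟩ := mkB_surj g N a
    rw [coordB, descend_mk] at ha
    rw [mkB_eq_zero, mem_span_iff hg hg1]
    intro i
    by_cases hi : i < m
    · rw [Polynomial.X_pow_dvd_iff]
      intro j hj
      exact congrFun (congrFun ha ⟨i, hi⟩) ⟨j, hj⟩
    · rw [Polynomial.coeff_eq_zero_of_degree_lt]
      · exact dvd_zero _
      · refine lt_of_lt_of_le (Polynomial.degree_modByMonic_lt P hM) ?_
        rw [Polynomial.degree_eq_natDegree hM.ne_zero, hD]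
        exact_mod_cast (by omega : m ≤ i)
  · intro c
    refine ⟨mkB g N (∑ i : Fin m, Polynomial.monomial (i : ℕ)
      (∑ j : Fin N, Polynomial.monomial (j : ℕ) (c i j))), ?_⟩
    rw [coordB, descend_mk]
    funext i j
    rw [remc_apply, (Polynomial.modByMonic_eq_self_iff hM).2]
    · rw [Polynomial.finsetSum_coeff]
      simp only [Polynomial.coeff_monomial]
      rw [Finset.sum_eq_single i]
      · rw [if_pos rfl, Polynomial.finsetSum_coeff]
        simp only [Polynomial.coeff_monomial]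
        rw [Finset.sum_eq_single j]
        · rw [if_pos rfl]
        · intro j' _ hj'
          rw [if_neg (fun h => hj' (Fin.ext h))]
        · intro h
          exact absurd (Finset.mem_univ j) h
      · intro i' _ hi'
        rw [if_neg (fun h => hi' (Fin.ext h))]
      · intro h
        exact absurd (Finset.mem_univ i) h
    · rw [Polynomial.degree_eq_natDegree hM.ne_zero, hD]
      refine (Polynomial.degree_sum_le _ _).trans_lt ?_
      rw [Finset.sup_lt_iff (WithBot.bot_lt_coe _)]
      intro i _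
      refine (Polynomial.degree_monomial_le _ _).trans_lt ?_
      exact_mod_cast i.2

theorem finite_BB (hg : g.IsHomogeneous m) (hg1 : eval ![0, 0, 1] g ≠ 0) (N : ℕ) :
    Module.Finite ℂ (BB g N) :=
  Module.Finite.equiv (LinearEquiv.ofBijective _ (coordB_bijective hg hg1 N)).symm

theorem finrank_BB (hg : g.IsHomogeneous m) (hg1 : eval ![0, 0, 1] g ≠ 0) (N : ℕ) :
    Module.finrank ℂ (BB g N) = m * N := by
  rw [LinearEquiv.finrank_eq (LinearEquiv.ofBijective _ (coordB_bijective hg hg1 N)),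
    Module.finrank_pi_fintype]
  simp

/-- the reduction `BB g N → BB g N'` for `N' ≤ N` -/
noncomputable def redB (g : P3) {N N' : ℕ} (h : N' ≤ N) : BB g N →ₗ[ℂ] BB g N' :=
  descend g N (mkB g N').toLinearMap (by
    intro x hx
    refine mkB_eq_zero.2 ?_
    have hle : idB g N ≤ idB g N' := by
      rw [idB, Ideal.span_le, Set.insert_subset_iff, Set.singleton_subset_iff]
      refine ⟨Ideal.subset_span (by simp), ?_⟩
      obtain ⟨e, rfl⟩ := Nat.exists_eq_add_of_le h
      rw [pow_add, Polynomial.C_mul]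
      exact Ideal.mul_mem_right _ _ (Ideal.subset_span (by simp))
    exact hle hx)

lemma redB_mk (g : P3) {N N' : ℕ} (h : N' ≤ N) (P : Polynomial (Polynomial ℂ)) :
    redB g h (mkB g N P) = mkB g N' P := rfl

/-- the rank of the multiplication by `t^a` on `BB g N` -/
theorem finrank_tt (hg : g.IsHomogeneous m) (hg1 : eval ![0, 0, 1] g ≠ 0) {N a : ℕ}
    (ha : a ≤ N) : Module.finrank ℂ (LinearMap.range (LinearMap.mulLeft ℂ
      (toBB g N (q g (X 0)) ^ a))) = m * (N - a) := by
  have := finite_BB hg hg1 N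
  have h1 := LinearMap.finrank_range_add_finrank_ker
    (LinearMap.mulLeft ℂ (toBB g N (q g (X 0)) ^ a))
  have h2 := LinearMap.finrank_range_add_finrank_ker (redB g (Nat.sub_le N a))
  have h3 : LinearMap.range (redB g (Nat.sub_le N a)) = ⊤ := by
    rw [LinearMap.range_eq_top]
    intro b
    obtain ⟨P, rfl⟩ := mkB_surj g _ b
    exact ⟨mkB g N P, redB_mk g _ P⟩
  have h4 : LinearMap.ker (redB g (Nat.sub_le N a)) =
      LinearMap.ker (LinearMap.mulLeft ℂ (toBB g N (q g (X 0)) ^ a)) := by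
    ext b
    rw [LinearMap.mem_ker, LinearMap.mem_ker, LinearMap.mulLeft_apply]
    obtain ⟨P, rfl⟩ := mkB_surj g _ b
    rw [redB_mk, mkB_eq_zero, toBB_X0_pow, ← map_mul, mkB_eq_zero, mem_span_iff hg hg1,
      mem_span_iff hg hg1]
    refine forall_congr' fun i => ?_
    rw [← Polynomial.smul_eq_C_mul, Polynomial.smul_modByMonic, Polynomial.coeff_smul,
      smul_eq_mul]
    have h3 : (Polynomial.X : Polynomial ℂ) ^ N = Polynomial.X ^ a * Polynomial.X ^ (N - a) := by
      rw [← pow_add]; congr 1; omega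
    rw [h3, mul_dvd_mul_iff_left (pow_ne_zero _ Polynomial.X_ne_zero)]
  rw [h3, finrank_top, h4, finrank_BB hg hg1] at h2
  omega

/-! The same facts in the form needed by `parity_graded`, for `BB g (2 * n)`. -/

theorem bb_dim (hg : g.IsHomogeneous m) (hg1 : eval ![0, 0, 1] g ≠ 0) (n : ℕ) :
    Module.finrank ℂ (BB g (2 * n)) = 2 * (m * n) := by
  rw [finrank_BB hg hg1]; ring

theorem bb_deg {r n : ℕ} (hg : g.IsHomogeneous (2 * r + 1)) (hg1 : eval ![0, 0, 1] g ≠ 0)
    (hn : 0 < 2 * n) : ∀ x ∈ gr g (2 * r + 2 * n - 2), lamB hg hg1 hn (toBB g (2 * n) x) = 0 := by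
  rintro x ⟨p, hp, rfl⟩
  exact lamB_degree hg hg1 hn hp (by omega)

theorem bb_tt (hg : g.IsHomogeneous m) (hg1 : eval ![0, 0, 1] g ≠ 0) (n : ℕ)
    (b : BB g (2 * n)) : toBB g (2 * n) (q g (X 0) ^ n) * b = 0 ↔
      ∃ c, b = toBB g (2 * n) (q g (X 0) ^ n) * c := by
  rw [map_pow, tt_mul_eq_zero hg hg1 (by omega), show 2 * n - n = n by omega]

theorem bb_inj (hg : g.IsHomogeneous m) (hg1 : eval ![0, 0, 1] g ≠ 0) (n : ℕ) :
    ∀ d < 2 * n, ∀ x ∈ gr g d, toBB g (2 * n) x = 0 → x = 0 :=
  fun _ hd _ hx h => toBB_inj hg hg1 hd hx h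

theorem bb_div (hg : g.IsHomogeneous m) (hg1 : eval ![0, 0, 1] g ≠ 0) (n : ℕ) :
    ∀ d, ∀ x ∈ gr g (n + d), (∃ c, toBB g (2 * n) x = toBB g (2 * n) (q g (X 0) ^ n) * c) →
      ∃ y ∈ gr g d, x = q g (X 0) ^ n * y := by
  rintro d x hx ⟨c, hc⟩
  rw [map_pow] at hc
  have := (exists_X0_pow hg hg1 (by omega : n ≤ 2 * n) hx hc).1 (by omega)
  rwa [show n + d - n = d by omega] at this

/-- `X0` is a nonzerodivisor on the homogeneous coordinate ring -/
theorem X0_pow_mul_eq_zero (hg1 : eval ![0, 0, 1] g ≠ 0) (n : ℕ) (x : RG g)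
    (h : q g (X 0) ^ n * x = 0) : x = 0 := by
  have hX : ¬ (X 0 : P3) ∣ g := by
    rintro ⟨w, hw⟩
    apply hg1
    rw [hw, map_mul, eval_X]
    simp
  have key : ∀ x : RG g, q g (X 0) * x = 0 → x = 0 := by
    intro x hx
    obtain ⟨p, rfl⟩ := Ideal.Quotient.mk_surjective x
    have h1 : q g (X 0 * p) = 0 := by rw [q, map_mul]; exact hx
    rw [Ideal.Quotient.eq_zero_iff_mem, Ideal.mem_span_singleton] at h1 ⊢
    obtain ⟨w, hw⟩ := h1
    have h2 : (X 0 : P3) ∣ g * w := ⟨p, hw.symm⟩
    have hpX : Prime (X 0 : P3) := X_prime (R := ℂ) (i := (0 : Fin 3))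
    rcases hpX.dvd_or_dvd h2 with h3 | ⟨w', hw'⟩
    · exact absurd h3 hX
    · refine ⟨w', ?_⟩
      apply mul_left_cancel₀ (X_ne_zero (R := ℂ) (0 : Fin 3))
      rw [hw, hw']; ring
  induction n with
  | zero => simpa using h
  | succ n ih =>
    apply ih
    apply key
    rw [← h, pow_succ]
    ring

end Space

end Vale.Agent.P287.C8
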