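import Vale.Agent.P287.C8.GenusCore
import Vale.Agent.P287.C8.Functional
import Vale.Agent.P287.C8.Inv

/-!
Parity of the number of sections and the colength of the conductor: `g` is a curve of degree
`2r+1` on which `f` is a square, `f = (s/c)²`. The colength of `{x | (s/c) x ∈ ℂ[g]}` is the
difference of the arithmetic genera of `g = 0` and of the curve on the double plane.
-/

namespace Vale.Agent.P287.C8

open MvPolynomial Module Vale.Agent.P287 Vale.Agent.P287.H925 Vale.Agent.P287.Theta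

variable {f g s c : P3} {m e d k : ℕ}

/-- The conductor of `s / c` in degree `d`: forms `x` over the curve with `s x ∈ c ℂ[g]`. -/
noncomputable def cond (g s c : P3) (d : ℕ) : Submodule ℂ (RG g) where
  carrier := {x | x ∈ gr g d ∧ ∃ y : RG g, q g s * x = q g c * y}
  add_mem' := by
    rintro a b ⟨ha, y, hy⟩ ⟨hb, z, hz⟩
    exact ⟨add_mem ha hb, y + z, by rw [mul_add, mul_add, hy, hz]⟩
  zero_mem' := ⟨zero_mem _, 0, by rw [mul_zero, mul_zero]⟩
  smul_mem' := by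
    rintro a x ⟨hx, y, hy⟩
    exact ⟨Submodule.smul_mem _ _ hx, a • y, by rw [mul_smul_comm, mul_smul_comm, hy]⟩

lemma mem_cond {x : RG g} : x ∈ cond g s c d ↔ x ∈ gr g d ∧ ∃ y : RG g, q g s * x = q g c * y :=
  Iff.rfl

lemma cond_le_gr : cond g s c d ≤ gr g d := fun _ h => h.1

lemma isDomain_RG (pg : Prime g) : IsDomain (RG g) := by
  have : (Ideal.span {g}).IsPrime := (Ideal.span_singleton_prime pg.ne_zero).2 pg
  exact inferInstanceAs (IsDomain (P3 ⧸ Ideal.span {g}))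

lemma q_eq_zero {p : P3} : q g p = 0 ↔ g ∣ p := by
  rw [Ideal.Quotient.eq_zero_iff_mem, Ideal.mem_span_singleton]

/-- the quotient is homogeneous -/
lemma mem_gr_of_mul_eq (hg : g.IsHomogeneous m) (pg : Prime g) (hs : s.IsHomogeneous (e + k))
    (hc : c.IsHomogeneous e) (hgc : ¬ g ∣ c) {x y : RG g} (hx : x ∈ gr g d)
    (h : q g s * x = q g c * y) : y ∈ gr g (d + k) := by
  have := isDomain_RG pg
  obtain ⟨p, hp, rfl⟩ := mem_gr.1 hx
  obtain ⟨w, rfl⟩ := Ideal.Quotient.mk_surjective y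
  have h1 : g ∣ s * p - c * w := by
    rw [← q_eq_zero, q, map_sub, map_mul, map_mul, sub_eq_zero]
    exact h
  obtain ⟨u, hu⟩ := h1
  have h2 := congrArg (homogeneousComponent (e + (d + k))) hu
  rw [map_sub, homogeneousComponent_eq_self (by
    have := hs.mul hp
    rwa [show e + k + d = e + (d + k) by ring] at this), hc_mul hc] at h2
  have h3 : g ∣ s * p - c * homogeneousComponent (d + k) w := by
    rw [h2]
    exact hc_mul_dvd hg u _
  refine mem_gr.2 ⟨homogeneousComponent (d + k) w, homogeneousComponent_isHomogeneous _ _, ?_⟩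
  have h4 : q g c ≠ 0 := fun h0 => hgc (q_eq_zero.1 h0)
  apply mul_left_cancel₀ h4
  rw [← q_eq_zero, q, map_sub, map_mul, map_mul, sub_eq_zero] at h3
  rw [← h3]
  exact h

/-- the quotient `s x / c` lies in the lattice of square roots -/
lemma mem_Jq_of_mul_eq (H : EvenOn f g m) (pg : Prime g) (hs : s.IsHomogeneous (e + 3))
    (hc : c.IsHomogeneous e) (hgc : ¬ g ∣ c) (hcs : g ∣ c ^ 2 * f - s ^ 2) {x y : RG g}
    (hx : x ∈ gr g d) (h : q g s * x = q g c * y) : y ∈ Jq f g (d + 3) := by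
  have := isDomain_RG pg
  obtain ⟨w, hw, hwy⟩ := mem_gr.1 (mem_gr_of_mul_eq H.hu pg hs hc hgc hx h)
  obtain ⟨p, hp, rfl⟩ := mem_gr.1 hx
  refine ⟨w, H.mem_rt.2 ⟨hw, ?_⟩, hwy⟩
  have h4 : q g c ≠ 0 := fun h0 => hgc (q_eq_zero.1 h0)
  have h5 : q g (w ^ 2 - f * p ^ 2) = 0 := by
    have h6 : q g c ^ 2 * q g (w ^ 2 - f * p ^ 2) = 0 := by
      have h7 : q g c ^ 2 * q g f = q g s ^ 2 := by
        have h8 := q_eq_zero.2 hcs
        rw [q, map_sub, map_mul, map_pow, map_pow, sub_eq_zero] at h8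
        exact h8
      have h9 : q g (w ^ 2 - f * p ^ 2) = y ^ 2 - q g f * q g p ^ 2 := by
        rw [← hwy, q, map_sub, map_mul, map_pow, map_pow]
      rw [h9]
      linear_combination (-(q g p) ^ 2) * h7 - (q g s * q g p + q g c * y) * h
    exact (mul_eq_zero.1 h6).resolve_left (pow_ne_zero 2 h4)
  obtain ⟨u, hu⟩ := q_eq_zero.1 h5
  rw [Ideal.mem_span_pair]
  exact ⟨u, p ^ 2, by linear_combination -hu⟩

theorem genus_graded {r n : ℕ} (H : EvenOn f g (2 * r + 1)) (pg : Prime g)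
    (hs : s.IsHomogeneous (e + 3)) (hc : c.IsHomogeneous e) (hgc : ¬ g ∣ c)
    (hcs : g ∣ c ^ 2 * f - s ^ 2) (hg1 : eval ![0, 0, 1] g ≠ 0)
    (hf1 : ∀ z : Fin 3 → ℂ, z ≠ 0 → z 0 = 0 → eval z g = 0 → eval z f ≠ 0)
    (hc1 : ∀ z : Fin 3 → ℂ, z ≠ 0 → z 0 = 0 → eval z g = 0 → eval z c ≠ 0)
    (hJJ : ∀ x ∈ Jq f g (r + 2 + (n + 1)), ∀ x' ∈ Jq f g (r + 2 + (n + 1)),
      ∃ h ∈ gr g (2 * r + 2 * (n + 1) - 2), x * x' = q g f * h)
    (hJn : ∀ x ∈ gr g (r + 2), q g (X 0) ^ (n + 1) * x ∈ Jq f g (r + 2 + (n + 1)) ↔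
      x ∈ Jq f g (r + 2))
    (hJc : (2 * r + 1) * (n + 1) ≤ finrank ℂ (Jq f g (r + 2 + (n + 1))))
    (hn : r + e + 2 < n) :
    Even (finrank ℂ (Jq f g (r + 2)) + (r + 1).choose 2 + finrank ℂ (cond g s c (r + n)) +
      (2 * r + 1) * (n + 1)) := by
  have := isDomain_RG pg
  have hN : 0 < 2 * (n + 1) := by omega
  have := finite_BB H.hu hg1 (2 * (n + 1))
  set φ := toBB g (2 * (n + 1)) with hφ
  set t := φ (q g (X 0) ^ (n + 1)) with ht
  obtain ⟨κ, hκ⟩ := (isUnit_toBB g (2 * (n + 1)) hf1).exists_left_inv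
  obtain ⟨γ, hγ⟩ := (isUnit_toBB g (2 * (n + 1)) hc1).exists_left_inv
  rw [← hφ] at hκ hγ
  have hc' : q g c ≠ 0 := fun h0 => hgc (q_eq_zero.1 h0)
  have hcs' : q g c ^ 2 * q g f = q g s ^ 2 := by
    have h8 := q_eq_zero.2 hcs
    rw [q, map_sub, map_mul, map_pow, map_pow, sub_eq_zero] at h8
    exact h8
  set ζ := γ * φ (q g s) with hζ
  have hζc : φ (q g c) * ζ = φ (q g s) := by
    rw [hζ]
    linear_combination (φ (q g s)) * hγ
  have hζ2 : ζ ^ 2 = φ (q g f) := by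
    have h1 := congrArg φ hcs'
    rw [map_mul, map_pow, map_pow] at h1
    rw [hζ]
    linear_combination (-γ ^ 2) * h1 + (γ * φ (q g c) + 1) * φ (q g f) * hγ
  -- injectivity of the chart
  have hinj := bb_inj H.hu hg1 (n + 1)
  rw [← hφ] at hinj
  have key := genus_core (h := (2 * r + 1) * (n + 1)) (lamB H.hu hg1 hN)
    (lamB_nondeg H.hu hg1 hN) (bb_dim H.hu hg1 (n + 1)) hκ (t := t)
    (bb_tt H.hu hg1 (n + 1)) hζ2 ((Jq f g (r + 2 + (n + 1))).map φ.toLinearMap)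
    ((gr g (r + n)).map φ.toLinearMap)
    (by
      rintro _ ⟨x, hx, rfl⟩ _ ⟨x', hx', rfl⟩
      obtain ⟨h, hh, hxx⟩ := hJJ x hx x' hx'
      have h1 : κ * (φ.toLinearMap x * φ.toLinearMap x') = φ h := by
        change κ * (φ x * φ x') = φ h
        rw [← map_mul, hxx, map_mul]
        linear_combination (φ h) * hκ
      rw [h1]
      exact bb_deg H.hu hg1 hN h hh)
    (by
      rintro _ ⟨x, hx, rfl⟩ _ ⟨x', hx', rfl⟩
      have h1 := gr_mul hx hx'
      rw [show r + n + (r + n) = 2 * r + 2 * (n + 1) - 2 by omega] at h1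
      have h2 := bb_deg H.hu hg1 hN _ h1
      rwa [map_mul] at h2)
    (by
      rw [finrank_map_of_injOn]
      · exact hJc
      · exact fun x hx h0 => hinj _ (by omega) x (Jq_le_gr H _ hx) h0)
    (by
      rw [finrank_map_of_injOn]
      · rw [finrank_gr_odd H.hu pg.ne_zero (by omega)]
      · exact fun x hx h0 => hinj _ (by omega) x hx h0)
  -- the element `X 0 ^ (n + 1)`
  have hX1 : ∀ {d : ℕ} {x : RG g}, x ∈ gr g d → q g (X 0) ^ (n + 1) * x ∈ gr g (n + 1 + d) := by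
    intro d x hx
    refine gr_mul (mem_gr.2 ⟨X 0 ^ (n + 1), ?_, map_pow _ _ _⟩) hx
    have := (isHomogeneous_X ℂ (0 : Fin 3)).pow (n + 1)
    rwa [one_mul] at this
  have hX0 := X0_pow_mul_eq_zero hg1 (n + 1)
  set Ψ : RG g →ₗ[ℂ] BB g (2 * (n + 1)) := (LinearMap.mulLeft ℂ t).comp φ.toLinearMap with hΨ
  have hΨ' : ∀ x, Ψ x = φ (q g (X 0) ^ (n + 1) * x) := by
    intro x
    rw [map_mul]
    rfl
  have hdiv := bb_div H.hu hg1 (n + 1)
  rw [← hφ] at hdiv
  -- first intersection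
  have e1 : finrank ℂ ↥(LinearMap.range (LinearMap.mulLeft ℂ t) ⊓
      (Jq f g (r + 2 + (n + 1))).map φ.toLinearMap) = finrank ℂ (Jq f g (r + 2)) := by
    have h1 : LinearMap.range (LinearMap.mulLeft ℂ t) ⊓
        (Jq f g (r + 2 + (n + 1))).map φ.toLinearMap = (Jq f g (r + 2)).map Ψ := by
      apply le_antisymm
      · rintro _ ⟨⟨b, hb⟩, x, hx, rfl⟩
        obtain ⟨y, hy, hxy⟩ := hdiv (r + 2) x (by
          rw [add_comm]; exact Jq_le_gr H _ hx) ⟨b, hb.symm⟩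
        refine ⟨y, (hJn y hy).1 (by rw [← hxy]; exact hx), ?_⟩
        rw [hΨ', ← hxy]
        rfl
      · rintro _ ⟨x, hx, rfl⟩
        exact ⟨⟨φ x, rfl⟩, ⟨_, (hJn x (Jq_le_gr H _ hx)).2 hx, (hΨ' x).symm⟩⟩
    rw [h1, finrank_map_of_injOn]
    intro x hx h0
    rw [hΨ'] at h0
    exact hX0 _ (hinj _ (by omega) _ (hX1 (Jq_le_gr H _ hx)) h0)
  -- second intersection
  have e2 : finrank ℂ ↥(LinearMap.range (LinearMap.mulLeft ℂ t) ⊓
      (gr g (r + n)).map φ.toLinearMap) = (r + 1).choose 2 := by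
    rcases Nat.eq_zero_or_pos r with hr | hr
    · have h1 : LinearMap.range (LinearMap.mulLeft ℂ t) ⊓ (gr g (r + n)).map φ.toLinearMap = ⊥ := by
        rw [eq_bot_iff]
        rintro _ ⟨⟨b, hb⟩, x, hx, rfl⟩
        have h2 := (exists_X0_pow H.hu hg1 (N := 2 * (n + 1)) (n := n + 1) (by omega) hx (c := b)
          (by rw [← map_pow]; exact hb.symm)).2 (by omega)
        rw [h2, map_zero]
        exact zero_mem _
      rw [h1, finrank_bot, hr]
      rfl
    · obtain ⟨r', rfl⟩ : ∃ r', r = r' + 1 := ⟨r - 1, by omega⟩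
      have h1 : LinearMap.range (LinearMap.mulLeft ℂ t) ⊓
          (gr g (r' + 1 + n)).map φ.toLinearMap = (gr g r').map Ψ := by
        apply le_antisymm
        · rintro _ ⟨⟨b, hb⟩, x, hx, rfl⟩
          obtain ⟨y, hy, hxy⟩ := hdiv r' x (by
            rwa [show n + 1 + r' = r' + 1 + n by ring]) ⟨b, hb.symm⟩
          refine ⟨y, hy, ?_⟩
          rw [hΨ', ← hxy]
          rfl
        · rintro _ ⟨x, hx, rfl⟩
          refine ⟨⟨φ x, rfl⟩, ⟨_, ?_, (hΨ' x).symm⟩⟩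
          have h2 := hX1 hx
          rwa [show n + 1 + r' = r' + 1 + n by ring] at h2
      rw [h1, finrank_map_of_injOn, finrank_gr_of_lt H.hu pg.ne_zero (by omega)]
      intro x hx h0
      rw [hΨ'] at h0
      exact hX0 _ (hinj _ (by omega) _ (hX1 hx) h0)
  -- third intersection
  have e3 : finrank ℂ ↥((gr g (r + n)).map φ.toLinearMap ⊓
      ((Jq f g (r + 2 + (n + 1))).map φ.toLinearMap).comap (LinearMap.mulLeft ℂ ζ)) =
      finrank ℂ (cond g s c (r + n)) := by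
    have h1 : (gr g (r + n)).map φ.toLinearMap ⊓
      ((Jq f g (r + 2 + (n + 1))).map φ.toLinearMap).comap (LinearMap.mulLeft ℂ ζ) =
        (cond g s c (r + n)).map φ.toLinearMap := by
      apply le_antisymm
      · rintro _ ⟨⟨x, hx, rfl⟩, ⟨y, hy, hxy⟩⟩
        have hxy' : φ y = ζ * φ x := hxy
        refine ⟨x, ⟨hx, y, ?_⟩, rfl⟩
        rw [← sub_eq_zero]
        refine hinj (e + 3 + (r + n)) (by omega) _ (sub_mem ?_ ?_) ?_
        · exact gr_mul (mem_gr.2 ⟨s, hs, rfl⟩) hx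
        · have h2 := gr_mul (mem_gr.2 ⟨c, hc, rfl⟩) (Jq_le_gr H _ hy)
          rwa [show e + (r + 2 + (n + 1)) = e + 3 + (r + n) by ring] at h2
        · rw [map_sub, map_mul, map_mul, hxy', ← hζc]
          ring
      · rintro _ ⟨x, ⟨hx, y, hxy⟩, rfl⟩
        refine ⟨⟨x, hx, rfl⟩, ⟨y, ?_, ?_⟩⟩
        · have h2 := mem_Jq_of_mul_eq H pg hs hc hgc hcs hx hxy
          rwa [show r + n + 3 = r + 2 + (n + 1) by ring] at h2
        · change φ y = ζ * φ x
          have h2 := congrArg φ hxy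
          rw [map_mul, map_mul] at h2
          rw [hζ]
          linear_combination γ * (-h2) - (φ y) * hγ
    rw [h1, finrank_map_of_injOn]
    exact fun x hx h0 => hinj _ (by omega) x hx.1 h0
  rw [e1, e2, e3] at key
  exact key

end Vale.Agent.P287.C8
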