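import Vale.Agent.P287.C8.ParGraded

/-!
Three Lagrangian subspaces for the binary form `a² / f - b²`, over an abstract artinian algebra.
-/

namespace Vale.Agent.P287.C8

open Module

variable {BB : Type*} [CommRing BB] [Algebra ℂ BB] [FiniteDimensional ℂ BB]

/-- the complex bilinear form `λ (κ a a' - b b')` -/
noncomputable def binForm (lam : BB →ₗ[ℂ] ℂ) (κ : BB) : LinearMap.BilinForm ℂ (BB × BB) :=
  LinearMap.mk₂ ℂ (fun v w => lam (κ * (v.1 * w.1) - v.2 * w.2))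
    (fun v v' w => by
      rw [← map_add]
      congr 1
      simp only [Prod.fst_add, Prod.snd_add]
      ring)
    (fun a v w => by
      rw [← map_smul]
      congr 1
      simp only [Prod.smul_fst, Prod.smul_snd, smul_mul_assoc, mul_smul_comm, smul_sub])
    (fun v w w' => by
      rw [← map_add]
      congr 1
      simp only [Prod.fst_add, Prod.snd_add]
      ring)
    (fun a v w => by
      rw [← map_smul]
      congr 1
      simp only [Prod.smul_fst, Prod.smul_snd, mul_smul_comm, smul_sub])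

lemma binForm_apply (lam : BB →ₗ[ℂ] ℂ) (κ : BB) (v w : BB × BB) :
    binForm lam κ v w = lam (κ * (v.1 * w.1) - v.2 * w.2) := rfl

lemma binForm_comm (lam : BB →ₗ[ℂ] ℂ) (κ : BB) (v w : BB × BB) :
    binForm lam κ v w = binForm lam κ w v := by
  rw [binForm_apply, binForm_apply]
  congr 1
  ring

lemma binForm_nondegenerate {lam : BB →ₗ[ℂ] ℂ} (hlam : ∀ a, (∀ b, lam (a * b) = 0) → a = 0)
    {κ f : BB} (hκ : κ * f = 1) : (binForm lam κ).Nondegenerate := by
  have key : ∀ v : BB × BB, (∀ w, binForm lam κ v w = 0) → v = 0 := by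
    intro v hv
    have h1 : κ * v.1 = 0 := by
      apply hlam
      intro b
      have h2 := hv (b, 0)
      rw [binForm_apply] at h2
      simp only [mul_zero, sub_zero] at h2
      rwa [mul_assoc]
    have h2 : v.1 = 0 := by
      have h3 : v.1 = f * (κ * v.1) := by linear_combination (-v.1) * hκ
      rw [h3, h1, mul_zero]
    have h3 : v.2 = 0 := by
      rw [← neg_eq_zero]
      apply hlam
      intro b
      have h4 := hv (0, b)
      rw [binForm_apply] at h4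
      simp only [mul_zero, zero_sub] at h4
      rwa [neg_mul]
    exact Prod.ext h2 h3
  refine ⟨fun v hv => key v hv, fun v hv => key v fun w => ?_⟩
  rw [binForm_comm lam κ]
  exact hv w

/-- **Parity for a binary form, abstract version.** -/
theorem genus_core {h : ℕ} (lam : BB →ₗ[ℂ] ℂ) (hlam : ∀ a, (∀ b, lam (a * b) = 0) → a = 0)
    (hdim : finrank ℂ BB = 2 * h) {κ f t ζ : BB} (hκ : κ * f = 1)
    (ht : ∀ b, t * b = 0 ↔ ∃ c, b = t * c) (hζ : ζ ^ 2 = f) (P₁ P₂ : Submodule ℂ BB)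
    (i₁ : ∀ a ∈ P₁, ∀ b ∈ P₁, lam (κ * (a * b)) = 0) (i₂ : ∀ a ∈ P₂, ∀ b ∈ P₂, lam (a * b) = 0)
    (d₁ : h ≤ finrank ℂ P₁) (d₂ : h ≤ finrank ℂ P₂) :
    Even (finrank ℂ ↥(LinearMap.range (LinearMap.mulLeft ℂ t) ⊓ P₁) +
      finrank ℂ ↥(LinearMap.range (LinearMap.mulLeft ℂ t) ⊓ P₂) +
      finrank ℂ ↥(P₂ ⊓ P₁.comap (LinearMap.mulLeft ℂ ζ)) + h) := by
  have hnd := binForm_nondegenerate hlam hκ
  have hV : finrank ℂ (BB × BB) = 2 * (2 * h) := by rw [finrank_prod, hdim]; ring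
  set R := LinearMap.range (LinearMap.mulLeft ℂ t) with hR
  have htt : t * t = 0 := (ht t).2 ⟨1, (mul_one t).symm⟩
  have hRk : R = LinearMap.ker (LinearMap.mulLeft ℂ t) := by
    ext b
    constructor
    · rintro ⟨c, rfl⟩
      exact (ht _).2 ⟨c, rfl⟩
    · intro hb
      obtain ⟨c, hc⟩ := (ht b).1 hb
      exact ⟨c, hc.symm⟩
  have dR : finrank ℂ R = h := by
    have h1 := LinearMap.finrank_range_add_finrank_ker (LinearMap.mulLeft ℂ t)
    rw [← hRk, ← hR, hdim] at h1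
    omega
  -- the three subspaces
  have dL₁ : finrank ℂ (R.prod R) = 2 * h := by
    rw [finrank_prod_submodule, dR]; ring
  have hL₂ : ∀ v ∈ P₁.prod P₂, ∀ w ∈ P₁.prod P₂, binForm lam κ v w = 0 := by
    intro v hv w hw
    rw [binForm_apply, map_sub, i₁ _ hv.1 _ hw.1, i₂ _ hv.2 _ hw.2, sub_zero]
  have dL₂ : finrank ℂ (P₁.prod P₂) = 2 * h := by
    apply le_antisymm
    · have h1 : P₁.prod P₂ ≤ (binForm lam κ).orthogonal (P₁.prod P₂) :=
        fun v hv w hw => hL₂ w hw v hv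
      have h2 := Submodule.finrank_mono h1
      rw [LinearMap.BilinForm.finrank_orthogonal hnd, hV] at h2
      omega
    · rw [finrank_prod_submodule]; omega
  set Z : BB →ₗ[ℂ] BB × BB := (LinearMap.mulLeft ℂ ζ).prod LinearMap.id with hZ
  have hZa : ∀ b, Z b = (ζ * b, b) := fun b => rfl
  have hZi : ∀ b, Z b = 0 → b = 0 := fun b hb => congrArg Prod.snd hb
  have dL₃ : finrank ℂ (LinearMap.range Z) = 2 * h := by
    rw [LinearMap.finrank_range_of_inj, hdim]
    rw [injective_iff_map_eq_zero]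
    exact hZi
  have key := lagrangian_triple (two_ne_zero) (binForm lam κ) (binForm_comm lam κ) hnd hV
    (R.prod R) (P₁.prod P₂) (LinearMap.range Z)
    (by
      rintro ⟨_, _⟩ ⟨⟨a, rfl⟩, ⟨b, rfl⟩⟩ ⟨_, _⟩ ⟨⟨a', rfl⟩, ⟨b', rfl⟩⟩
      rw [binForm_apply]
      simp only [LinearMap.mulLeft_apply]
      have h1 : κ * (t * a * (t * a')) - t * b * (t * b') = 0 := by
        linear_combination (κ * a * a' - b * b') * htt
      rw [h1, map_zero])
    hL₂
    (by
      rintro _ ⟨b, rfl⟩ _ ⟨b', rfl⟩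
      rw [binForm_apply, hZa, hZa]
      have h1 : κ * (ζ * b * (ζ * b')) - b * b' = 0 := by
        linear_combination (κ * b * b') * hζ + (b * b') * hκ
      change lam (κ * (ζ * b * (ζ * b')) - b * b') = 0
      rw [h1, map_zero])
    dL₁ dL₂ dL₃
  have e12 : finrank ℂ ↥(R.prod R ⊓ P₁.prod P₂) =
      finrank ℂ ↥(R ⊓ P₁) + finrank ℂ ↥(R ⊓ P₂) := by
    rw [← finrank_prod_submodule]
    have : R.prod R ⊓ P₁.prod P₂ = (R ⊓ P₁).prod (R ⊓ P₂) := by
      ext v
      constructor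
      · rintro ⟨h1, h2⟩
        exact ⟨⟨h1.1, h2.1⟩, ⟨h1.2, h2.2⟩⟩
      · rintro ⟨h1, h2⟩
        exact ⟨⟨h1.1, h2.1⟩, ⟨h1.2, h2.2⟩⟩
    rw [this]
  have e23 : finrank ℂ ↥(P₁.prod P₂ ⊓ LinearMap.range Z) =
      finrank ℂ ↥(P₂ ⊓ P₁.comap (LinearMap.mulLeft ℂ ζ)) := by
    have h1 : P₁.prod P₂ ⊓ LinearMap.range Z =
        (P₂ ⊓ P₁.comap (LinearMap.mulLeft ℂ ζ)).map Z := by
      ext v
      constructor
      · rintro ⟨h1, ⟨b, rfl⟩⟩
        exact ⟨b, ⟨h1.2, h1.1⟩, rfl⟩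
      · rintro ⟨b, ⟨h1, h2⟩, rfl⟩
        exact ⟨⟨h2, h1⟩, ⟨b, rfl⟩⟩
    rw [h1, finrank_map_of_injOn]
    exact fun b _ hb => hZi b hb
  have e13 : finrank ℂ ↥(R.prod R ⊓ LinearMap.range Z) = h := by
    have h1 : R.prod R ⊓ LinearMap.range Z = R.map Z := by
      ext v
      constructor
      · rintro ⟨h1, ⟨b, rfl⟩⟩
        exact ⟨b, h1.2, rfl⟩
      · rintro ⟨_, ⟨b, rfl⟩, rfl⟩
        refine ⟨⟨⟨ζ * b, ?_⟩, ⟨b, rfl⟩⟩, ⟨_, rfl⟩⟩
        change t * (ζ * b) = ζ * (t * b)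
        ring
    rw [h1, finrank_map_of_injOn, dR]
    exact fun b _ hb => hZi b hb
  rw [e12, e23, e13] at key
  rw [Nat.even_iff] at key ⊢
  omega

end Vale.Agent.P287.C8
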