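import Vale.Agent.P287.C8.DimW
import Vale.Agent.P287.C8.Count
import Vale.Agent.P287.C8.EvenEx

/-!
The lattices `J` and `W` over the coordinate ring of the plane curve `g = 0`: products, division by
a form without zeros on `f = g = 0`, and lower bounds for their dimensions.
-/

namespace Vale.Agent.P287.C8

open MvPolynomial Module Matrix Vale.Agent.P287 Vale.Agent.P287.H925 Vale.Agent.P287.Theta

section Minor

variable {R : Type*} [CommRing R]

/-- the cross product of two vectors of the form `adj Q x` -/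
lemma cross_adj (Q : Matrix (Fin 3) (Fin 3) R) (x y : Fin 3 → R) :
    crossProduct (Q.adjugate *ᵥ x) (Q.adjugate *ᵥ y) = Q.det • (Qᵀ *ᵥ crossProduct x y) := by
  rw [Matrix.adjugate_fin_three, Matrix.det_fin_three]
  funext i
  fin_cases i <;>
    simp [Matrix.mulVec, dotProduct, Fin.sum_univ_three, cross_apply, Matrix.transpose_apply] <;>
    ring

/-- the `2 × 2` minors of the adjugate are divisible by the determinant -/
lemma adj_minor (Q : Matrix (Fin 3) (Fin 3) R) (i j k l : Fin 3) :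
    Q.det ∣ Q.adjugate i j * Q.adjugate k l - Q.adjugate i l * Q.adjugate k j := by
  have h := cross_adj Q (Pi.single j 1) (Pi.single l 1)
  have h1 : ∀ p, Q.det ∣ crossProduct (fun i => Q.adjugate i j) (fun i => Q.adjugate i l) p := by
    intro p
    have h2 : (Q.adjugate *ᵥ Pi.single j 1) = fun i => Q.adjugate i j := by
      funext i; simp
    have h3 : (Q.adjugate *ᵥ Pi.single l 1) = fun i => Q.adjugate i l := by
      funext i; simp
    rw [← h2, ← h3, h]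
    exact ⟨_, rfl⟩
  have c0 := h1 0
  have c1 := h1 1
  have c2 := h1 2
  simp only [cross_apply, Matrix.cons_val_zero, Matrix.cons_val_one, Matrix.cons_val] at c0 c1 c2
  have key : ∀ i k : Fin 3, Q.det ∣ Q.adjugate i j * Q.adjugate k l - Q.adjugate i l * Q.adjugate k j := by
    intro i k
    match i, k with
    | 0, 0 | 1, 1 | 2, 2 => exact ⟨0, by ring⟩
    | 0, 1 => exact (by ring : Q.adjugate 0 j * Q.adjugate 1 l - Q.adjugate 1 j * Q.adjugate 0 l =
        Q.adjugate 0 j * Q.adjugate 1 l - Q.adjugate 0 l * Q.adjugate 1 j) ▸ c2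
    | 1, 2 => exact (by ring : Q.adjugate 1 j * Q.adjugate 2 l - Q.adjugate 2 j * Q.adjugate 1 l =
        Q.adjugate 1 j * Q.adjugate 2 l - Q.adjugate 1 l * Q.adjugate 2 j) ▸ c0
    | 2, 0 => exact (by ring : Q.adjugate 2 j * Q.adjugate 0 l - Q.adjugate 0 j * Q.adjugate 2 l =
        Q.adjugate 2 j * Q.adjugate 0 l - Q.adjugate 2 l * Q.adjugate 0 j) ▸ c1
    | 1, 0 => exact (by ring : -(Q.adjugate 0 j * Q.adjugate 1 l - Q.adjugate 1 j * Q.adjugate 0 l) =
        Q.adjugate 1 j * Q.adjugate 0 l - Q.adjugate 1 l * Q.adjugate 0 j) ▸ dvd_neg.2 c2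
    | 2, 1 => exact (by ring : -(Q.adjugate 1 j * Q.adjugate 2 l - Q.adjugate 2 j * Q.adjugate 1 l) =
        Q.adjugate 2 j * Q.adjugate 1 l - Q.adjugate 2 l * Q.adjugate 1 j) ▸ dvd_neg.2 c0
    | 0, 2 => exact (by ring : -(Q.adjugate 2 j * Q.adjugate 0 l - Q.adjugate 0 j * Q.adjugate 2 l) =
        Q.adjugate 0 j * Q.adjugate 2 l - Q.adjugate 0 l * Q.adjugate 2 j) ▸ dvd_neg.2 c1
  exact key i k

end Minor

section Linear

variable {V W : Type*} [AddCommGroup V] [Module ℂ V] [AddCommGroup W] [Module ℂ W]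

lemma finrank_map_add_inf_ker (φ : V →ₗ[ℂ] W) (p : Submodule ℂ V) [FiniteDimensional ℂ p] :
    finrank ℂ (p.map φ) + finrank ℂ ↥(p ⊓ LinearMap.ker φ) = finrank ℂ p := by
  have h1 := LinearMap.finrank_range_add_finrank_ker (φ.domRestrict p)
  rw [LinearMap.range_domRestrict] at h1
  have h2 : p ⊓ LinearMap.ker φ = (LinearMap.ker (φ.domRestrict p)).map p.subtype := by
    ext x
    constructor
    · rintro ⟨h2, h3⟩
      exact ⟨⟨x, h2⟩, h3, rfl⟩
    · rintro ⟨⟨y, hy⟩, h3, rfl⟩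
      exact ⟨hy, h3⟩
  rw [← h1, h2, Submodule.finrank_map_subtype_eq]

/-- the dimension of a kernel of a map to a quotient -/
lemma finrank_comap_ge {U : Type*} [AddCommGroup U] [Module ℂ U] [FiniteDimensional ℂ U]
    (φ : U →ₗ[ℂ] W) {s p : Submodule ℂ W} [FiniteDimensional ℂ p] (hs : s ≤ p)
    (h : ∀ x, φ x ∈ p) : finrank ℂ U + finrank ℂ s ≤ finrank ℂ (s.comap φ) + finrank ℂ p := by
  have h1 := LinearMap.finrank_range_add_finrank_ker (s.mkQ.comp φ)
  have h2 : LinearMap.ker (s.mkQ.comp φ) = s.comap φ := by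
    rw [LinearMap.ker_comp, Submodule.ker_mkQ]
  rw [h2] at h1
  have h3 := finrank_map_add_inf_ker s.mkQ p
  rw [Submodule.ker_mkQ, inf_eq_right.2 hs] at h3
  have h4 : LinearMap.range (s.mkQ.comp φ) ≤ p.map s.mkQ := by
    rintro _ ⟨x, rfl⟩
    exact ⟨φ x, h x, rfl⟩
  have h5 := Submodule.finrank_mono h4
  omega

end Linear

variable {f g : P3} {m : ℕ} {A : Matrix (Fin 3) (Fin 3) P3}

/-- a form in `(g, f)` is a form multiple of `f` modulo `g` -/
lemma exists_hom_of_mem (hf : f.IsHomogeneous 6) (hg : g.IsHomogeneous m) {p : P3} {d : ℕ}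
    (hp : p.IsHomogeneous (6 + d)) (h : p ∈ (Ideal.span {g, f} : Ideal P3)) :
    ∃ h' : P3, h'.IsHomogeneous d ∧ g ∣ p - f * h' := by
  obtain ⟨a, b, hab⟩ := Ideal.mem_span_pair.1 h
  have h1 := congrArg (homogeneousComponent (6 + d)) hab
  rw [map_add, homogeneousComponent_eq_self hp, mul_comm a, mul_comm b, hc_mul hf] at h1
  refine ⟨homogeneousComponent d b, homogeneousComponent_isHomogeneous d b, ?_⟩
  rw [← h1, add_sub_cancel_right]
  exact hc_mul_dvd hg a _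

/-- membership in `J`, for forms -/
lemma mem_Jq (H : EvenOn f g m) {d : ℕ} {p : P3} (hp : p.IsHomogeneous d) :
    q g p ∈ Jq f g d ↔ p ^ 2 ∈ (Ideal.span {g, f} : Ideal P3) := by
  constructor
  · intro h
    obtain ⟨a, ha, ha'⟩ := Submodule.mem_map.1 h
    rw [H.mem_rt] at ha
    obtain ⟨s, hs⟩ : g ∣ p - a := by
      rw [← ThreeData.q_eq_q]
      exact ha'.symm
    have h5 : p ^ 2 = a ^ 2 + g * (s * (p + a)) := by
      linear_combination (p + a) * hs
    rw [h5]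
    exact add_mem ha.2 (Ideal.mul_mem_right _ _ (Ideal.subset_span (by simp)))
  · intro h
    exact Submodule.mem_map.2 ⟨p, H.mem_rt.2 ⟨hp, h⟩, rfl⟩

/-- membership in `W`, for vectors of forms -/
lemma mem_Wq_iff (H : EvenOn f g m) (hA : ∀ i j, (A i j).IsHomogeneous 4) {d : ℕ}
    {p : Fin 3 → P3} (hp : ∀ i, (p i).IsHomogeneous d) : (fun i => q g (p i)) ∈ Wq f g A d ↔
      ∀ j, ((A *ᵥ p) j) ^ 2 ∈ (Ideal.span {g, f} : Ideal P3) := by
  constructor
  · rintro ⟨_, h2⟩ j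
    have h3 := h2 j
    rwa [ThreeData.q_mulVec, mem_Jq H (ThreeData.mulVec_hom hA hp j)] at h3
  · intro h
    refine ⟨fun i => mem_gr.2 ⟨_, hp i, rfl⟩, fun j => ?_⟩
    rw [ThreeData.q_mulVec, mem_Jq H (ThreeData.mulVec_hom hA hp j)]
    exact h j

/-- products in `J` -/
theorem Jq_mul (H : EvenOn f g m) {d d' k : ℕ} (hd : d + d' = 6 + k) {s s' : RG g}
    (hs : s ∈ Jq f g d) (hs' : s' ∈ Jq f g d') : ∃ h ∈ gr g k, s * s' = q g f * h := by
  obtain ⟨a, ha, rfl⟩ := Submodule.mem_map.1 hs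
  obtain ⟨b, hb, rfl⟩ := Submodule.mem_map.1 hs'
  have h1 := H.rt_mul_mem ha hb
  have h2 := (H.mem_rt.1 ha).1.mul (H.mem_rt.1 hb).1
  rw [hd] at h2
  obtain ⟨h', hh', hh⟩ := exists_hom_of_mem H.hf H.hu h2 h1
  refine ⟨q g h', mem_gr.2 ⟨h', hh', rfl⟩, ?_⟩
  change q g a * q g b = q g f * q g h'
  rw [← map_mul, ← map_mul, ThreeData.q_eq_q]
  exact hh

/-- rank one modulo `f` -/
lemma rank_one_forms {R : Type*} [CommRing R] {f : R} {A : Matrix (Fin 3) (Fin 3) R}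
    (hm : ∀ i j k l, f ∣ A i j * A k l - A i l * A k j) (u v w x : Fin 3 → R) :
    f ∣ (u ⬝ᵥ (A *ᵥ v)) * (w ⬝ᵥ (A *ᵥ x)) - (u ⬝ᵥ (A *ᵥ x)) * (w ⬝ᵥ (A *ᵥ v)) := by
  have h1 : ∀ u v : Fin 3 → R, u ⬝ᵥ (A *ᵥ v) = ∑ i, ∑ j, u i * v j * A i j := by
    intro u v
    rw [dotProduct]
    refine Finset.sum_congr rfl fun i _ => ?_
    rw [Matrix.mulVec, dotProduct, Finset.mul_sum]
    exact Finset.sum_congr rfl fun j _ => by ring
  have h2 : (u ⬝ᵥ (A *ᵥ v)) * (w ⬝ᵥ (A *ᵥ x)) - (u ⬝ᵥ (A *ᵥ x)) * (w ⬝ᵥ (A *ᵥ v)) =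
      ∑ i, ∑ j, ∑ k, ∑ l, u i * v j * w k * x l * (A i j * A k l - A i l * A k j) := by
    rw [h1, h1, h1, h1]
    simp only [Fin.sum_univ_three]
    ring
  rw [h2]
  exact Finset.dvd_sum fun i _ => Finset.dvd_sum fun j _ => Finset.dvd_sum fun k _ =>
    Finset.dvd_sum fun l _ => (hm i j k l).mul_left _

/-- division by a form without zeros on `f = g = 0`, in `J` -/
theorem mul_mem_Jq_iff (H : EvenOn f g m) {t : P3} {k d : ℕ}
    (ht : ∀ z : Fin 3 → ℂ, eval z f = 0 → eval z g = 0 → eval z t = 0 → z = 0)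
    (htk : t.IsHomogeneous k) {x : RG g} (hx : x ∈ gr g d) :
    q g t * x ∈ Jq f g (k + d) ↔ x ∈ Jq f g d := by
  obtain ⟨p, hp, rfl⟩ := mem_gr.1 hx
  rw [← map_mul, mem_Jq H (htk.mul hp), mem_Jq H hp]
  constructor
  · intro h
    exact (H.mem_rt.1 (H.nzd_rt ht htk hp (H.mem_rt.2 ⟨htk.mul hp, h⟩))).2
  · intro h
    rw [mul_pow]
    exact Ideal.mul_mem_left _ _ h

/-- division by a form without zeros on `f = g = 0`, in `W` -/
theorem smul_mem_Wq_iff (H : EvenOn f g m) (hA : ∀ i j, (A i j).IsHomogeneous 4) {t : P3}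
    {k d : ℕ} (ht : ∀ z : Fin 3 → ℂ, eval z f = 0 → eval z g = 0 → eval z t = 0 → z = 0)
    (htk : t.IsHomogeneous k) {w : Fin 3 → RG g} (hw : ∀ i, w i ∈ gr g d) :
    q g t • w ∈ Wq f g A (k + d) ↔ w ∈ Wq f g A d := by
  have hw' : ∀ i, ∃ p : P3, p.IsHomogeneous d ∧ q g p = w i := fun i => mem_gr.1 (hw i)
  choose p hp hpw using hw'
  obtain rfl : (fun i => q g (p i)) = w := funext hpw
  have h1 : q g t • (fun i => q g (p i)) = fun i => q g (t * p i) := by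
    funext i
    exact (map_mul (Ideal.Quotient.mk (Ideal.span {g})) t (p i)).symm
  have h2 : ∀ j, (A *ᵥ fun i => t * p i) j = t * (A *ᵥ p) j := by
    intro j
    have h3 : (fun i => t * p i) = t • p := rfl
    rw [h3, Matrix.mulVec_smul]
    rfl
  rw [h1, mem_Wq_iff H hA (fun i => htk.mul (hp i)), mem_Wq_iff H hA hp]
  refine forall_congr' fun j => ?_
  rw [h2]
  have h4 := ThreeData.mulVec_hom hA hp j
  rw [← mem_Jq H h4, ← mul_mem_Jq_iff H ht htk (mem_gr.2 ⟨_, h4, rfl⟩), ← map_mul,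
    mem_Jq H (htk.mul h4)]

section Adj

variable {Q : Matrix (Fin 3) (Fin 3) P3}

/-- a constant vector on which the quadratic form `adj Q` has no zeros on `f = g = 0` -/
theorem exists_adj_vec (H : EvenOn f g m) (pg : Prime g) (sQ : Q.IsSymm) (hdet : Q.det = f)
    (hA : ∀ i j, (Q.adjugate i j).IsHomogeneous 4) : ∃ c : Fin 3 → ℂ, ∀ z : Fin 3 → ℂ,
    eval z f = 0 → eval z g = 0 →
      eval z ((fun i => C (c i)) ⬝ᵥ (Q.adjugate *ᵥ fun i => C (c i))) = 0 → z = 0 := by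
  classical
  have hgf : ¬ g ∣ f := fun h1 =>
    H.hfu ((pg.irreducible.associated_of_dvd H.pf.irreducible h1).symm.dvd)
  obtain ⟨S, hS, hS'⟩ := finite_zeros H.hu pg H.hf hgf
  have h1 : ∀ s : Fin 3 → ℂ, ∃ i, s ∈ S → ∃ j, eval s (Q.adjugate i j) ≠ 0 := by
    intro s
    by_cases hs : s ∈ S
    · obtain ⟨i, j, hij⟩ := exists_adj_ne_zero Q (by rw [hdet]; exact H.sf) (hS s hs).1
        (by rw [hdet]; exact (hS s hs).2.2)
      exact ⟨i, fun _ => ⟨j, hij⟩⟩
    · exact ⟨0, fun h => absurd h hs⟩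
  choose ι hι using h1
  obtain ⟨c, hc⟩ := exists_dot_ne (S.image fun s => fun j => eval s (Q.adjugate (ι s) j)) (by
    intro s' hs'
    obtain ⟨s, hs, rfl⟩ := Finset.mem_image.1 hs'
    obtain ⟨j, hj⟩ := hι s hs
    intro h0
    exact hj (congrFun h0 j))
  refine ⟨c, fun z hzf hzg hzt => ?_⟩
  by_contra hz
  obtain ⟨s, hs, x, rfl⟩ := hS' z hz hzg hzf
  have hx : x ≠ 0 := by
    rintro rfl
    exact hz (zero_smul _ _)
  have hv : ∀ w : Fin 3 → ℂ, ∀ i, eval w ((Q.adjugate *ᵥ fun i => C (c i)) i) =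
      c ⬝ᵥ fun j => eval w (Q.adjugate i j) := by
    intro w i
    rw [Matrix.mulVec, dotProduct, dotProduct, map_sum]
    refine Finset.sum_congr rfl fun j _ => ?_
    rw [map_mul, eval_C, mul_comm]
  have ht : eval s ((fun i => C (c i)) ⬝ᵥ (Q.adjugate *ᵥ fun i => C (c i))) = 0 := by
    have h2 : ((fun i => C (c i)) ⬝ᵥ (Q.adjugate *ᵥ fun i => C (c i)) : P3).IsHomogeneous 4 := by
      rw [dotProduct]
      refine IsHomogeneous.sum _ _ _ fun i _ => ?_
      have h3 := (isHomogeneous_C (Fin 3) (c i)).mul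
        (ThreeData.mulVec_hom hA (fun i => isHomogeneous_C (Fin 3) (c i)) i)
      rwa [zero_add, zero_add] at h3
    rw [eval_smul' h2] at hzt
    exact (mul_eq_zero.1 hzt).resolve_left (pow_ne_zero _ hx)
  have h4 := hc _ (Finset.mem_image_of_mem _ hs)
  apply h4
  -- rank one
  have hm : ∀ i j k l, Q.det ∣ Q.adjugate i j * Q.adjugate k l - Q.adjugate i l * Q.adjugate k j :=
    adj_minor Q
  obtain ⟨y, hy⟩ := rank_one_forms hm (fun i => C (c i)) (fun i => C (c i)) (Pi.single (ι s) 1)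
    (Pi.single (ι s) 1)
  have h5 := congrArg (eval s) hy
  rw [map_mul, hdet, (hS s hs).2.2, zero_mul, map_sub, map_mul, map_mul, ht, zero_mul, zero_sub,
    neg_eq_zero, mul_eq_zero] at h5
  have h6 : eval s ((Pi.single (ι s) 1 : Fin 3 → P3) ⬝ᵥ (Q.adjugate *ᵥ fun i => C (c i))) =
      c ⬝ᵥ fun j => eval s (Q.adjugate (ι s) j) := by
    rw [single_dotProduct, one_mul, hv]
  have h7 : eval s ((fun i => C (c i)) ⬝ᵥ (Q.adjugate *ᵥ (Pi.single (ι s) 1 : Fin 3 → P3))) =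
      c ⬝ᵥ fun j => eval s (Q.adjugate (ι s) j) := by
    rw [Matrix.mulVec_single_one, dotProduct, dotProduct, map_sum]
    refine Finset.sum_congr rfl fun j _ => ?_
    rw [map_mul, eval_C, Matrix.col_apply, adj_symm' sQ]
  rcases h5 with h5 | h5
  · rw [← h7]
    exact h5
  · rw [← h6]
    exact h5

/-- symmetry of the bilinear form `adj Q` -/
lemma adj_bil_symm (sQ : Q.IsSymm) (u v : Fin 3 → P3) :
    u ⬝ᵥ (Q.adjugate *ᵥ v) = v ⬝ᵥ (Q.adjugate *ᵥ u) := by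
  have sA : Q.adjugate.IsSymm := by
    rw [Matrix.IsSymm, Matrix.adjugate_transpose, sQ.eq]
  rw [Matrix.dotProduct_mulVec, ← Matrix.mulVec_transpose, sA.eq, dotProduct_comm]

/-- products in `W` -/
theorem Wq_mul (H : EvenOn f g m) (pg : Prime g) (sQ : Q.IsSymm) (hdet : Q.det = f)
    (hA : ∀ i j, (Q.adjugate i j).IsHomogeneous 4) {d d' k : ℕ} (hd : d + d' + 4 = 6 + k)
    {w w' : Fin 3 → RG g} (hw : w ∈ Wq f g Q.adjugate d) (hw' : w' ∈ Wq f g Q.adjugate d') :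
    ∃ h ∈ gr g k, dotProduct ((qm g Q.adjugate).mulVec w) w' = q g f * h := by
  have hl : ∀ i, ∃ p : P3, p.IsHomogeneous d ∧ q g p = w i := fun i => mem_gr.1 (hw.1 i)
  have hl' : ∀ i, ∃ p : P3, p.IsHomogeneous d' ∧ q g p = w' i := fun i => mem_gr.1 (hw'.1 i)
  choose p hp hpw using hl
  choose p' hp' hpw' using hl'
  obtain rfl : (fun i => q g (p i)) = w := funext hpw
  obtain rfl : (fun i => q g (p' i)) = w' := funext hpw'
  rw [mem_Wq_iff H hA hp] at hw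
  rw [mem_Wq_iff H hA hp'] at hw'
  obtain ⟨c, hc⟩ := exists_adj_vec H pg sQ hdet hA
  set κc : Fin 3 → P3 := fun i => C (c i) with hκ
  have hrt : ∀ {e : ℕ} {p : Fin 3 → P3}, (∀ i, (p i).IsHomogeneous e) →
      (∀ j, ((Q.adjugate *ᵥ p) j) ^ 2 ∈ (Ideal.span {g, f} : Ideal P3)) →
      κc ⬝ᵥ (Q.adjugate *ᵥ p) ∈ rt f g (e + 4) := by
    intro e p hp h
    rw [dotProduct]
    refine Submodule.sum_mem _ fun i _ => ?_
    rw [hκ]
    simp only [← smul_eq_C_mul]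
    exact Submodule.smul_mem _ _ (H.mem_rt.2 ⟨ThreeData.mulVec_hom hA hp i, h i⟩)
  have h1 := H.rt_mul_mem (hrt hp hw) (hrt hp' hw')
  obtain ⟨y, hy⟩ := rank_one_forms (adj_minor Q) κc κc p p'
  rw [hdet, adj_bil_symm sQ p κc] at hy
  have h2 : (κc ⬝ᵥ (Q.adjugate *ᵥ κc)) * (p ⬝ᵥ (Q.adjugate *ᵥ p')) ∈
      (Ideal.span {g, f} : Ideal P3) := by
    have h3 : (κc ⬝ᵥ (Q.adjugate *ᵥ κc)) * (p ⬝ᵥ (Q.adjugate *ᵥ p')) =
        (κc ⬝ᵥ (Q.adjugate *ᵥ p)) * (κc ⬝ᵥ (Q.adjugate *ᵥ p')) + f * y := by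
      linear_combination hy
    rw [h3]
    exact add_mem h1 (Ideal.mul_mem_right _ _ (Ideal.subset_span (by simp)))
  have h4 : (p ⬝ᵥ (Q.adjugate *ᵥ p')).IsHomogeneous (6 + k) := by
    rw [dotProduct]
    refine IsHomogeneous.sum _ _ _ fun i _ => ?_
    have := (hp i).mul (ThreeData.mulVec_hom hA hp' i)
    rwa [← add_assoc, hd] at this
  obtain ⟨h', hh', hh⟩ := exists_hom_of_mem H.hf H.hu h4 (H.nzd hc h4 h2)
  refine ⟨q g h', mem_gr.2 ⟨h', hh', rfl⟩, ?_⟩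
  have h5 : dotProduct ((qm g Q.adjugate).mulVec fun i => q g (p i)) (fun i => q g (p' i)) =
      q g (p' ⬝ᵥ (Q.adjugate *ᵥ p)) := by
    rw [dotProduct_comm, dotProduct]
    simp only [ThreeData.q_mulVec]
    rw [dotProduct]
    exact ((map_sum (Ideal.Quotient.mk (Ideal.span {g})) _ _).trans
      (Finset.sum_congr rfl fun i _ => map_mul _ _ _)).symm
  rw [h5, adj_bil_symm sQ p' p]
  exact (ThreeData.q_eq_q.2 hh).trans (map_mul _ _ _)

/-- if one constant combination of the entries of `A l` lies in `J`, then `l` lies in `W` -/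
theorem mem_Wq_of_dot (H : EvenOn f g m) (hdet : Q.det = f)
    (hA : ∀ i j, (Q.adjugate i j).IsHomogeneous 4) {c : Fin 3 → ℂ}
    (hc : ∀ z : Fin 3 → ℂ, eval z f = 0 → eval z g = 0 →
      eval z ((fun i => C (c i)) ⬝ᵥ (Q.adjugate *ᵥ fun i => C (c i))) = 0 → z = 0)
    {d : ℕ} {w : Fin 3 → RG g} (hw : ∀ i, w i ∈ gr g d)
    (h : dotProduct (fun i => q g (C (c i))) ((qm g Q.adjugate).mulVec w) ∈ Jq f g (d + 4)) :
    w ∈ Wq f g Q.adjugate d := by
  have hl : ∀ i, ∃ p : P3, p.IsHomogeneous d ∧ q g p = w i := fun i => mem_gr.1 (hw i)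
  choose p hp hpw using hl
  obtain rfl : (fun i => q g (p i)) = w := funext hpw
  rw [mem_Wq_iff H hA hp]
  intro j
  set κc : Fin 3 → P3 := fun i => C (c i) with hκ
  have h0 : (κc ⬝ᵥ (Q.adjugate *ᵥ p)).IsHomogeneous (d + 4) := by
    rw [dotProduct]
    refine IsHomogeneous.sum _ _ _ fun i _ => ?_
    have := (isHomogeneous_C (Fin 3) (c i)).mul (ThreeData.mulVec_hom hA hp i)
    rwa [zero_add] at this
  have h1 : (κc ⬝ᵥ (Q.adjugate *ᵥ p)) ^ 2 ∈ (Ideal.span {g, f} : Ideal P3) := by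
    rw [← mem_Jq H h0]
    convert h using 1
    rw [dotProduct, dotProduct]
    simp only [ThreeData.q_mulVec]
    exact (map_sum (Ideal.Quotient.mk (Ideal.span {g})) _ _).trans
      (Finset.sum_congr rfl fun i _ => map_mul _ _ _)
  obtain ⟨y, hy⟩ := rank_one_forms (adj_minor Q) κc κc (Pi.single j 1) p
  rw [hdet, single_dotProduct, single_dotProduct, one_mul, one_mul] at hy
  have h4 := ThreeData.mulVec_hom hA hp j
  have ht : (κc ⬝ᵥ (Q.adjugate *ᵥ κc) : P3).IsHomogeneous 4 := by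
    rw [dotProduct]
    refine IsHomogeneous.sum _ _ _ fun i _ => ?_
    have h3 := (isHomogeneous_C (Fin 3) (c i)).mul
      (ThreeData.mulVec_hom hA (fun i => isHomogeneous_C (Fin 3) (c i)) i)
    rwa [zero_add, zero_add] at h3
  refine (H.mem_rt.1 (H.nzd_rt (t := κc ⬝ᵥ (Q.adjugate *ᵥ κc)) (d := 4 + (d + 4)) hc ht h4
    (H.mem_rt.2 ⟨ht.mul h4, ?_⟩))).2
  have h5 : (κc ⬝ᵥ (Q.adjugate *ᵥ κc) * (Q.adjugate *ᵥ p) j) ^ 2 =
      (κc ⬝ᵥ (Q.adjugate *ᵥ p)) ^ 2 * (Q.adjugate *ᵥ κc) j ^ 2 +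
        f * (y * (κc ⬝ᵥ (Q.adjugate *ᵥ κc) * (Q.adjugate *ᵥ p) j +
          (κc ⬝ᵥ (Q.adjugate *ᵥ p)) * (Q.adjugate *ᵥ κc) j)) := by
    linear_combination (κc ⬝ᵥ (Q.adjugate *ᵥ κc) * (Q.adjugate *ᵥ p) j +
      (κc ⬝ᵥ (Q.adjugate *ᵥ p)) * (Q.adjugate *ᵥ κc) j) * hy
  rw [h5]
  exact add_mem (Ideal.mul_mem_right _ _ h1) (Ideal.mul_mem_right _ _ (Ideal.subset_span (by simp)))

end Adj

/-- `J` is contained in the graded piece -/
lemma Jq_le (H : EvenOn f g m) (d : ℕ) : Jq f g d ≤ gr g d := Submodule.map_mono (H.rt_le d)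

/-- the codimension of `J` in the graded piece -/
theorem finrank_gr_le (H : EvenOn f g m) (d : ℕ) :
    finrank ℂ (gr g d) ≤ finrank ℂ (Jq f g d) + 3 * m := by
  set φ := (Ideal.Quotient.mkₐ ℂ (Ideal.span {g})).toLinearMap with hφ
  have hfr : FiniteDimensional ℂ (rt f g d) := Submodule.finiteDimensional_of_le (H.rt_le d)
  have h1 := finrank_map_add_inf_ker φ (homogeneousSubmodule (Fin 3) ℂ d)
  have h2 := finrank_map_add_inf_ker φ (rt f g d)
  have h3 : rt f g d ⊓ LinearMap.ker φ = homogeneousSubmodule (Fin 3) ℂ d ⊓ LinearMap.ker φ := by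
    apply le_antisymm (inf_le_inf_right _ (H.rt_le d))
    rintro p ⟨hp1, hp2⟩
    refine ⟨H.mem_rt.2 ⟨hp1, ?_⟩, hp2⟩
    have h4 : p ∈ Ideal.span {g} := Ideal.Quotient.eq_zero_iff_mem.1 hp2
    obtain ⟨y, rfl⟩ := Ideal.mem_span_singleton.1 h4
    rw [mul_pow, pow_two, mul_assoc]
    exact Ideal.mul_mem_right _ _ (Ideal.subset_span (by simp))
  rw [h3] at h2
  have h5 := H.count d
  have h6 : finrank ℂ (gr g d) + finrank ℂ ↥(homogeneousSubmodule (Fin 3) ℂ d ⊓ LinearMap.ker φ) =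
    finrank ℂ (homogeneousSubmodule (Fin 3) ℂ d) := h1
  have h7 : finrank ℂ (Jq f g d) + finrank ℂ ↥(homogeneousSubmodule (Fin 3) ℂ d ⊓ LinearMap.ker φ) =
    finrank ℂ (rt f g d) := h2
  omega

/-- the dimension of `J` -/
theorem finrank_Jq_ge {r : ℕ} (H : EvenOn f g (2 * r + 1)) {n : ℕ} (hn : r ≤ n + 3) :
    (2 * r + 1) * n ≤ finrank ℂ (Jq f g (r + 2 + n)) := by
  have hg0 : g ≠ 0 := fun h => H.hfu (h ▸ dvd_zero _)
  have h1 := finrank_gr_le H (r + (n + 2))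
  rw [finrank_gr_odd H.hu hg0 (by omega : r ≤ n + 2 + 1)] at h1
  rw [show r + 2 + n = r + (n + 2) by ring]
  nlinarith

/-- the dimension of `W` -/
theorem finrank_Wq_ge {r : ℕ} {Q : Matrix (Fin 3) (Fin 3) P3} (H : EvenOn f g (2 * r + 1))
    (pg : Prime g) (sQ : Q.IsSymm) (hdet : Q.det = f)
    (hA : ∀ i j, (Q.adjugate i j).IsHomogeneous 4) {n : ℕ} (hn : r ≤ n + 1) :
    3 * ((2 * r + 1) * n) ≤ finrank ℂ (Wq f g Q.adjugate (r + n)) := by
  obtain ⟨c, hc⟩ := exists_adj_vec H pg sQ hdet hA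
  have hg0 : g ≠ 0 := fun h => H.hfu (h ▸ dvd_zero _)
  set d := r + n with hd
  set ψ : (Fin 3 → gr g d) →ₗ[ℂ] RG g :=
    { toFun := fun w => dotProduct (fun i => q g (C (c i)))
        ((qm g Q.adjugate).mulVec fun i => (w i : RG g))
      map_add' := by
        intro v w
        rw [← dotProduct_add, ← Matrix.mulVec_add]
        rfl
      map_smul' := by
        intro x w
        rw [RingHom.id_apply, ← dotProduct_smul, ← Matrix.mulVec_smul]
        rfl } with hψ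
  have hψ' : ∀ w, ψ w = dotProduct (fun i => q g (C (c i)))
        ((qm g Q.adjugate).mulVec fun i => (w i : RG g)) := fun w => rfl
  have h1 := finrank_comap_ge ψ (Jq_le H (d + 4)) (by
    intro w
    have hl : ∀ i, ∃ p : P3, p.IsHomogeneous d ∧ q g p = w i := fun i => mem_gr.1 (w i).2
    choose p hp hpw using hl
    rw [hψ']
    have h2 : (fun i => (w i : RG g)) = fun i => q g (p i) := funext fun i => (hpw i).symm
    rw [h2, dotProduct]
    refine Submodule.sum_mem _ fun i _ => ?_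
    rw [ThreeData.q_mulVec]
    refine mem_gr.2 ⟨C (c i) * (Q.adjugate *ᵥ p) i, ?_, map_mul _ _ _⟩
    have := (isHomogeneous_C (Fin 3) (c i)).mul (ThreeData.mulVec_hom hA hp i)
    rwa [zero_add] at this)
  have h3 : finrank ℂ ((Jq f g (d + 4)).comap ψ) ≤ finrank ℂ (Wq f g Q.adjugate d) := by
    let e : ((Jq f g (d + 4)).comap ψ) →ₗ[ℂ] Wq f g Q.adjugate d :=
      { toFun := fun w => ⟨fun i => (w.1 i : RG g),
          mem_Wq_of_dot H hdet hA hc (fun i => (w.1 i).2) w.2⟩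
        map_add' := fun _ _ => rfl
        map_smul' := fun _ _ => rfl }
    have hfin : FiniteDimensional ℂ (Wq f g Q.adjugate d) := by
      let e' : Wq f g Q.adjugate d →ₗ[ℂ] (Fin 3 → gr g d) :=
        { toFun := fun l i => ⟨l.1 i, l.2.1 i⟩
          map_add' := fun _ _ => rfl
          map_smul' := fun _ _ => rfl }
      refine FiniteDimensional.of_injective e' ?_
      intro x y hxy
      apply Subtype.ext
      funext i
      exact congrArg Subtype.val (congrFun hxy i)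
    refine LinearMap.finrank_le_finrank_of_injective (f := e) ?_
    intro x y hxy
    apply Subtype.ext
    funext i
    apply Subtype.ext
    exact congrFun (congrArg Subtype.val hxy) i
  have h4 := finrank_gr_le H (d + 4)
  rw [Module.finrank_pi_fintype] at h1
  simp only [Finset.sum_const, Finset.card_univ, Fintype.card_fin, smul_eq_mul] at h1
  have h5 : finrank ℂ (gr g d) = (2 * r + 1) * (n + 1) := finrank_gr_odd H.hu hg0 hn
  rw [h5] at h1
  nlinarith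

/-- powers of `X 0` have no zeros on `f = g = 0` -/
lemma X0_pow_ne {f g : P3} (hX : ∀ z : Fin 3 → ℂ, z ≠ 0 → z 0 = 0 → eval z g = 0 → eval z f ≠ 0)
    (n : ℕ) : ∀ z : Fin 3 → ℂ, eval z f = 0 → eval z g = 0 → eval z (X 0 ^ n : P3) = 0 →
      z = 0 := by
  intro z hf hg h
  by_contra hz
  rw [map_pow, eval_X] at h
  exact hX z hz (eq_zero_of_pow_eq_zero h) hg hf

/-- `X 0` is a nonzerodivisor modulo a prime form not vanishing at `(0, 0, 1)` -/
lemma X0_pow_mul {g : P3} (pg : Prime g) (hg1 : eval ![0, 0, 1] g ≠ 0) (n : ℕ) (x : RG g)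
    (h : q g (X 0) ^ n * x = 0) : x = 0 := by
  obtain ⟨p, rfl⟩ := Ideal.Quotient.mk_surjective x
  have h1 : q g (X 0 ^ n * p) = 0 := by
    rw [← h]
    exact (map_mul _ _ _).trans (congrArg (· * _) (map_pow _ _ _))
  rw [Ideal.Quotient.eq_zero_iff_mem, Ideal.mem_span_singleton] at h1
  rcases pg.dvd_or_dvd h1 with h2 | h2
  · exfalso
    have h3 := pg.dvd_of_dvd_pow h2
    obtain ⟨w, hw⟩ := (pg.irreducible.associated_of_dvd (X_prime (i := (0 : Fin 3))).irreducible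
      h3).symm.dvd
    apply hg1
    rw [hw, map_mul, eval_X]
    simp
  · rw [Ideal.Quotient.eq_zero_iff_mem, Ideal.mem_span_singleton]
    exact h2

/-- All facts on the lattices needed for the parity theorem. -/
theorem lattice_facts {r : ℕ} {Q : Matrix (Fin 3) (Fin 3) P3} (H : EvenOn f g (2 * r + 1))
    (pg : Prime g) (sQ : Q.IsSymm) (hdet : Q.det = f)
    (hA : ∀ i j, (Q.adjugate i j).IsHomogeneous 4)
    (hX : ∀ z : Fin 3 → ℂ, z ≠ 0 → z 0 = 0 → eval z g = 0 → eval z f ≠ 0) {n : ℕ}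
    (hn : r ≤ n + 1) (hn1 : 1 ≤ n) :
    (∀ s ∈ Jq f g (r + 2 + n), ∀ s' ∈ Jq f g (r + 2 + n),
      ∃ h ∈ gr g (2 * r + 2 * n - 2), s * s' = q g f * h) ∧
    (∀ w ∈ Wq f g Q.adjugate (r + n), ∀ w' ∈ Wq f g Q.adjugate (r + n),
      ∃ h ∈ gr g (2 * r + 2 * n - 2), dotProduct ((qm g Q.adjugate).mulVec w) w' = q g f * h) ∧
    (∀ x ∈ gr g (r + 2), q g (X 0) ^ n * x ∈ Jq f g (r + 2 + n) ↔ x ∈ Jq f g (r + 2)) ∧
    (∀ w : Fin 3 → RG g, (∀ i, w i ∈ gr g r) →
      (q g (X 0) ^ n • w ∈ Wq f g Q.adjugate (r + n) ↔ w ∈ Wq f g Q.adjugate r)) ∧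
    (2 * r + 1) * n ≤ finrank ℂ (Jq f g (r + 2 + n)) ∧
    3 * ((2 * r + 1) * n) ≤ finrank ℂ (Wq f g Q.adjugate (r + n)) := by
  have ht := X0_pow_ne hX n
  have htn : (X 0 ^ n : P3).IsHomogeneous n := by
    have := (isHomogeneous_X ℂ (0 : Fin 3)).pow n
    rwa [one_mul] at this
  have hq : q g (X 0) ^ n = q g (X 0 ^ n) := (map_pow _ _ _).symm
  refine ⟨?_, ?_, ?_, ?_, finrank_Jq_ge H (by omega), finrank_Wq_ge H pg sQ hdet hA hn⟩
  · intro s hs s' hs'
    exact Jq_mul H (by omega) hs hs'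
  · intro w hw w' hw'
    exact Wq_mul H pg sQ hdet hA (by omega) hw hw'
  · intro x hx
    rw [hq, add_comm (r + 2) n]
    exact mul_mem_Jq_iff H ht htn hx
  · intro w hw
    rw [hq, add_comm r n]
    exact smul_mem_Wq_iff H hA ht htn hw

end Vale.Agent.P287.C8
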