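import Vale.Agent.P287.C8.Genus
import Vale.Agent.P287.C8.LatW
import Vale.Agent.P287.C8.DimTheta
import Vale.Agent.P287.C8.DoublePlane
import Vale.Agent.P287.C8.EvenEx

/-!
The parity of the number of sections is the parity of the arithmetic genus of the curve on the
double plane.
-/

namespace Vale.Agent.P287.C8

open MvPolynomial Module Vale.Agent.P287 Vale.Agent.P287.H925 Vale.Agent.P287.Theta

variable {f g s c : P3} {r e : ℕ}

lemma cond_lin {T : Matrix (Fin 3) (Fin 3) ℂ} (hT : IsUnit T.det) (g s c : P3) (d : ℕ) :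
    cond (lin T g) (lin T s) (lin T c) d = (cond g s c d).map (qe hT g).toLinearMap := by
  have key : ∀ x : RG g, qe hT g x ∈ cond (lin T g) (lin T s) (lin T c) d ↔ x ∈ cond g s c d := by
    intro x
    rw [mem_cond, mem_cond, mem_gr_lin hT]
    refine and_congr_right fun _ => ?_
    constructor
    · rintro ⟨y, hy⟩
      obtain ⟨y, rfl⟩ := (qe hT g).surjective y
      refine ⟨y, (qe hT g).injective ?_⟩
      rw [map_mul, map_mul, qe_mk, qe_mk]
      exact hy
    · rintro ⟨y, hy⟩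
      refine ⟨qe hT g y, ?_⟩
      rw [← qe_mk hT, ← qe_mk hT, ← map_mul, ← map_mul, hy]
  ext x
  obtain ⟨y, rfl⟩ := (qe hT g).surjective x
  rw [key]
  constructor
  · intro h
    exact ⟨y, h, rfl⟩
  · rintro ⟨z, hz, h⟩
    have : z = y := (qe hT g).injective h
    rwa [← this]

lemma finrank_cond_lin {T : Matrix (Fin 3) (Fin 3) ℂ} (hT : IsUnit T.det) (g s c : P3) (d : ℕ) :
    finrank ℂ (cond (lin T g) (lin T s) (lin T c) d) = finrank ℂ (cond g s c d) := by
  rw [cond_lin hT]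
  exact (LinearEquiv.finrank_eq (Submodule.equivMapOfInjective (qe hT g).toLinearMap
    (qe hT g).injective (cond g s c d))).symm

/-- **Parity of the colength of the conductor.** -/
theorem genus_parity (H : EvenOn f g (2 * r + 1)) (pg : Prime g) (hs : s.IsHomogeneous (e + 3))
    (hc : c.IsHomogeneous e) (hgc : ¬ g ∣ c) (hcs : g ∣ c ^ 2 * f - s ^ 2) {n : ℕ}
    (hn : r + e + 2 < n) :
    Even (finrank ℂ (Jq f g (r + 2)) + (r + 1).choose 2 + finrank ℂ (cond g s c (r + n)) +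
      (2 * r + 1) * (n + 1)) := by
  have hgf : ¬ g ∣ f := fun h => H.hfu ((pg.associated_of_dvd H.pf h).symm.dvd)
  obtain ⟨T, hT, hT1, hT2⟩ := exists_coord H.hu pg (H.hf.mul hc)
    (fun h => (pg.dvd_or_dvd h).elim hgf hgc)
  have H' := H.lin hT
  have pg' : Prime (lin T g) := (MulEquiv.prime_iff (linEquiv T hT)).2 pg
  have hf1 : ∀ z : Fin 3 → ℂ, z ≠ 0 → z 0 = 0 → eval z (lin T g) = 0 → eval z (lin T f) ≠ 0 :=
    fun z hz hz0 hzg hzf => hT2 z hz hz0 hzg (by rw [map_mul, map_mul, hzf, zero_mul])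
  have hc1 : ∀ z : Fin 3 → ℂ, z ≠ 0 → z 0 = 0 → eval z (lin T g) = 0 → eval z (lin T c) ≠ 0 :=
    fun z hz hz0 hzg hzf => hT2 z hz hz0 hzg (by rw [map_mul, map_mul, hzf, mul_zero])
  have htn : (X 0 ^ (n + 1) : P3).IsHomogeneous (n + 1) := by
    have := (isHomogeneous_X ℂ (0 : Fin 3)).pow (n + 1)
    rwa [one_mul] at this
  have hq : q (lin T g) (X 0) ^ (n + 1) = q (lin T g) (X 0 ^ (n + 1)) := (map_pow _ _ _).symm
  have key := genus_graded (r := r) (n := n) H' pg' (lin_homogeneous T hs) (lin_homogeneous T hc)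
    (fun h => hgc ((lin_dvd_lin hT).1 h))
    (by
      rw [← map_pow, ← map_pow, ← map_mul, ← map_sub]
      exact (lin_dvd_lin hT).2 hcs) hT1 hf1 hc1
    (fun x hx x' hx' => Jq_mul H' (by omega) hx hx')
    (fun x hx => by
      rw [hq, add_comm (r + 2) (n + 1)]
      exact mul_mem_Jq_iff H' (X0_pow_ne hf1 (n + 1)) htn hx)
    (finrank_Jq_ge H' (by omega)) hn
  rwa [finrank_Jq_lin hT, finrank_cond_lin hT] at key

/-- **Curves of odd degree and odd arithmetic genus on the double plane** have an even number of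
sections. -/
theorem CurveOn.even_sections {P : Ideal P4} {d p : ℤ} (h : CurveOn f P d p)
    (hf : f.IsHomogeneous 6) (sf : SmoothP f) (hd : Odd d) (hp : Odd p) :
    ∃ (r : ℕ) (g : P3), g.IsHomogeneous (2 * r + 1) ∧ Prime g ∧ ¬ g ∣ f ∧
      (∃ (e : ℕ) (s c : P3), c.IsHomogeneous e ∧ ¬ g ∣ c ∧ g ∣ c ^ 2 * f - s ^ 2) ∧
      Even (finrank ℂ (thetaSp f g (r + 2))) := by
  have pf := prime_of_smoothP hf (by norm_num) sf
  obtain ⟨m, e, g, s, c, hmd, hg, pg, hgf, hs, hc, hgc, hcs, n₁, hn₁⟩ := h.exists_split hf pf hd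
  obtain ⟨r, rfl⟩ : ∃ r, m = 2 * r + 1 := by
    rw [← hmd] at hd
    obtain ⟨k, hk⟩ := hd
    exact ⟨k.toNat, by omega⟩
  have hsq : ∃ (e : ℕ) (s c : P3), c.IsHomogeneous e ∧ ¬ g ∣ c ∧ g ∣ c ^ 2 * f - s ^ 2 :=
    ⟨e, s, c, hc, hgc, hcs⟩
  have H : EvenOn f g (2 * r + 1) := evenOn_split hf sf hg pg hgf hsq
  refine ⟨r, g, hg, pg, hgf, hsq, ?_⟩
  have h1 := genus_parity H pg hs hc hgc hcs (n := n₁ + r + e + 3) (by omega)
  have h2 := hn₁ (r + (n₁ + r + e + 3)) (by omega)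
  have h3 := finrank_gr_odd hg pg.ne_zero (n := n₁ + r + e + 3) (by omega)
  have hle : finrank ℂ (cond g s c (r + (n₁ + r + e + 3))) ≤
      finrank ℂ (gr g (r + (n₁ + r + e + 3))) := Submodule.finrank_mono cond_le_gr
  rw [← h3] at h1
  -- the colength
  obtain ⟨ν, hν⟩ := Nat.exists_eq_add_of_le hle
  rw [hν] at h1 h2
  have h4 : 2 * (ν : ℤ) = 2 * (1 - p) - ((2 * r + 1 : ℕ) : ℤ) * (3 - ((2 * r + 1 : ℕ) : ℤ)) := by
    rw [← h2]
    push_cast
    ring
  have h5 : (ν : ℤ) = 2 * (r * r) - r - p := by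
    push_cast at h4
    linarith
  obtain ⟨k, hk⟩ := hp
  -- the line
  rcases Nat.eq_zero_or_pos r with hr | hr
  · exfalso
    subst hr
    have h6 : finrank ℂ (Jq f g (0 + 2)) = 0 := by
      have h8 : Jq f g (0 + 2) = ⊥ := by
        rw [eq_bot_iff]
        rintro _ ⟨b, hb, rfl⟩
        have hb' := H.mem_rt.1 hb
        have h9 : g ∣ b ^ 2 := by
          refine dvd_of_mem_of_lt (n := 2 + 2) hg hf ?_ (by norm_num) ?_
          · rw [pow_two]
            exact hb'.1.mul hb'.1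
          · rw [Set.pair_comm]
            exact hb'.2
        exact q_eq_zero.2 (pg.dvd_of_dvd_pow h9)
      rw [h8, finrank_bot]
    rw [h6] at h1
    obtain ⟨j, hj⟩ := h1
    have h7 : (0 + 1).choose 2 = 0 := rfl
    rw [h7] at hj
    push_cast at h5
    omega
  · have h6 := H.even_Jq_theta hr
    obtain ⟨j, hj⟩ := h1
    obtain ⟨i, hi⟩ := h6.1
    have h7 : (r + 1).choose 2 = r + r.choose 2 := by
      rw [Nat.choose_succ_succ', Nat.choose_one_right]
    rw [h7] at hj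
    rw [Nat.even_iff]
    omega

end Vale.Agent.P287.C8
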