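import Vale.Agent.P287.C8.Quat
import Vale.Agent.P287.C8.IsoVec
import Vale.Agent.P287.C8.Dixon

/-!
Isotropic vectors over a plane curve which do not vanish at the points where the quadratic form
degenerates.
-/

namespace Vale.Agent.P287.C8

open Matrix Module

section Ident

variable {R : Type*} [CommRing R] {Q : Matrix (Fin 3) (Fin 3) R}

lemma adj_cross (hQ : Q.IsSymm) (x y : Fin 3 → R) :
    Q.adjugate.mulVec (crossProduct x y) = crossProduct (Q.mulVec x) (Q.mulVec y) := by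
  obtain ⟨a, b, c, d, e, f, rfl⟩ := exists_entries hQ
  simp only [Matrix.adjugate_fin_three_of, mulVec_three, cross_apply]
  refine vec_ext ?_ ?_ ?_ <;>
    simp only [Matrix.cons_val_zero, Matrix.cons_val_one, Matrix.cons_val_two, Matrix.head_cons,
      Matrix.tail_cons] <;> ring

lemma dot_mulVec_comm {M : Matrix (Fin 3) (Fin 3) R} (hM : M.IsSymm) (x y : Fin 3 → R) :
    dotProduct x (M.mulVec y) = dotProduct y (M.mulVec x) := by
  rw [Matrix.dotProduct_mulVec, ← Matrix.mulVec_transpose, hM.eq, dotProduct_comm]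

lemma adj_isSymm (hQ : Q.IsSymm) : Q.adjugate.IsSymm := by
  rw [Matrix.IsSymm, Matrix.adjugate_transpose, hQ.eq]

lemma Q_adj (x : Fin 3 → R) : Q.mulVec (Q.adjugate.mulVec x) = Q.det • x := by
  rw [Matrix.mulVec_mulVec, Matrix.mul_adjugate, Matrix.smul_mulVec, Matrix.one_mulVec]

lemma adj_Q (x : Fin 3 → R) : Q.adjugate.mulVec (Q.mulVec x) = Q.det • x := by
  rw [Matrix.mulVec_mulVec, Matrix.adjugate_mul, Matrix.smul_mulVec, Matrix.one_mulVec]

/-- Cramer's rule -/
lemma cramer_three (x y w l : Fin 3 → R) :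
    dotProduct x (crossProduct y w) • l = dotProduct l (crossProduct y w) • x +
      dotProduct l (crossProduct w x) • y + dotProduct l (crossProduct x y) • w := by
  simp only [cross_apply, dot_three]
  refine vec_ext ?_ ?_ ?_ <;>
    simp only [Pi.add_apply, Pi.smul_apply, smul_eq_mul, Matrix.cons_val_zero,
      Matrix.cons_val_one, Matrix.cons_val_two, Matrix.head_cons, Matrix.tail_cons] <;> ring

variable (Q) (lam n : Fin 3 → R)

/-- the first vector orthogonal to `lam` -/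
def gz1 : Fin 3 → R := crossProduct n (Q.adjugate.mulVec lam)

/-- the second vector orthogonal to `lam` -/
def gz2 : Fin 3 → R := Q.mulVec n

/-- the value of the form at `lam` -/
def ga : R := dotProduct lam (Q.adjugate.mulVec lam)

/-- the discriminant of the orthogonal complement -/
def gD : R := dotProduct n (Q.mulVec n)

variable {Q lam n}

lemma adj_gz2 : Q.adjugate.mulVec (gz2 Q n) = Q.det • n := adj_Q n

lemma adj_gz1 (hQ : Q.IsSymm) : Q.adjugate.mulVec (gz1 Q lam n) =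
    Q.det • crossProduct (gz2 Q n) lam := by
  rw [gz1, adj_cross hQ, Q_adj, gz2, map_smul]

lemma gz1_dot (hn : dotProduct n lam = 0) (x : Fin 3 → R) :
    dotProduct (gz1 Q lam n) (crossProduct x lam) = dotProduct n x * ga Q lam := by
  rw [gz1, cross_dot_cross, hn, zero_mul, sub_zero, ga, dotProduct_comm lam]

/-- the norm of a combination of the two vectors -/
lemma gnorm (hQ : Q.IsSymm) (hn : dotProduct n lam = 0) (r s : R) :
    dotProduct (r • gz1 Q lam n + s • gz2 Q n)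
      (Q.adjugate.mulVec (r • gz1 Q lam n + s • gz2 Q n)) =
      Q.det * gD Q n * (ga Q lam * r ^ 2 + s ^ 2) := by
  rw [Matrix.mulVec_add, Matrix.mulVec_smul, Matrix.mulVec_smul, adj_gz1 hQ, adj_gz2]
  simp only [add_dotProduct, dotProduct_add, smul_dotProduct, dotProduct_smul, smul_eq_mul]
  rw [gz1_dot hn]
  have h1 : dotProduct (gz1 Q lam n) n = 0 := by
    rw [gz1, dotProduct_comm, dot_self_cross]
  have h2 : dotProduct (gz2 Q n) (crossProduct (gz2 Q n) lam) = 0 := dot_self_cross _ _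
  have h3 : dotProduct (gz2 Q n) n = gD Q n := by
    rw [gz2, gD, dotProduct_comm]
  have h4 : dotProduct n (gz2 Q n) = gD Q n := rfl
  rw [h1, h2, h3, h4]
  ring

/-- the product of a vector with a combination of the two vectors -/
lemma gpair (hQ : Q.IsSymm) (l : Fin 3 → R) (r s : R) :
    dotProduct l (Q.adjugate.mulVec (r • gz1 Q lam n + s • gz2 Q n)) =
      Q.det * (r * dotProduct l (crossProduct (gz2 Q n) lam) + s * dotProduct l n) := by
  rw [Matrix.mulVec_add, Matrix.mulVec_smul, Matrix.mulVec_smul, adj_gz1 hQ, adj_gz2]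
  simp only [dotProduct_add, dotProduct_smul, smul_eq_mul]
  ring

/-- expansion of a vector -/
lemma gexp (hQ : Q.IsSymm) (hn : dotProduct n lam = 0) (l : Fin 3 → R) :
    (ga Q lam * gD Q n) • l = (gD Q n * dotProduct l (Q.adjugate.mulVec lam)) • lam +
      dotProduct l (crossProduct (gz2 Q n) lam) • gz1 Q lam n +
      (ga Q lam * dotProduct l n) • gz2 Q n := by
  have h1 := cramer_three lam (gz1 Q lam n) (gz2 Q n) l
  have h2 : crossProduct (gz1 Q lam n) (gz2 Q n) = gD Q n • Q.adjugate.mulVec lam := by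
    have h3 : dotProduct (Q.adjugate.mulVec lam) (gz2 Q n) = 0 := by
      rw [gz2, dot_mulVec_comm hQ, Q_adj, dotProduct_smul, hn, smul_zero]
    rw [gz1, cross_cross_eq_smul_sub_smul, h3, zero_smul, sub_zero]
    rfl
  have h3 : crossProduct lam (gz1 Q lam n) = ga Q lam • n := by
    rw [gz1, cross_cross_eq_smul_sub_smul', hn, zero_smul, sub_zero]
    rfl
  have h4 : dotProduct lam (crossProduct (gz1 Q lam n) (gz2 Q n)) = ga Q lam * gD Q n := by
    rw [h2, dotProduct_smul, smul_eq_mul, mul_comm]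
    rfl
  rw [h4, h2, h3, dotProduct_smul, dotProduct_smul, smul_eq_mul, smul_eq_mul] at h1
  exact h1

/-- the norm of a vector -/
lemma gval (hQ : Q.IsSymm) (hn : dotProduct n lam = 0) (l : Fin 3 → R) :
    ga Q lam * gD Q n * dotProduct l (Q.adjugate.mulVec l) =
      gD Q n * dotProduct l (Q.adjugate.mulVec lam) ^ 2 +
      Q.det * (dotProduct l (crossProduct (gz2 Q n) lam) ^ 2 +
        ga Q lam * dotProduct l n ^ 2) := by
  have h1 := congrArg (fun x => dotProduct l (Q.adjugate.mulVec x)) (gexp hQ hn l)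
  simp only [Matrix.mulVec_add, Matrix.mulVec_smul, dotProduct_add, dotProduct_smul, adj_gz1 hQ,
    adj_gz2, smul_eq_mul] at h1
  linear_combination h1

/-- the new vector -/
def gvec (Q : Matrix (Fin 3) (Fin 3) R) (lam n l₀ : Fin 3 → R) (e y r s : R) : Fin 3 → R :=
  (2 * (e * r ^ 2 - Q.det * y * dotProduct l₀ n ^ 2)) • (r • gz1 Q lam n + s • gz2 Q n) -
    (gD Q n * Q.det * y * (r * dotProduct l₀ (crossProduct (gz2 Q n) lam) -
      s * dotProduct l₀ n)) • l₀

/-- the norm of the new vector -/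
lemma gvec_norm (hQ : Q.IsSymm) (hn : dotProduct n lam = 0) (l₀ : Fin 3 → R) (e y r s : R) :
    dotProduct (gvec Q lam n l₀ e y r s) (Q.adjugate.mulVec (gvec Q lam n l₀ e y r s)) =
      4 * (e * r ^ 2 - Q.det * y * dotProduct l₀ n ^ 2) * Q.det * gD Q n * r ^ 2 *
        (e * (ga Q lam * r ^ 2 + s ^ 2) - Q.det * (dotProduct l₀ (crossProduct (gz2 Q n) lam) ^ 2 +
          ga Q lam * dotProduct l₀ n ^ 2) * y) +
      (gD Q n * Q.det * y * (r * dotProduct l₀ (crossProduct (gz2 Q n) lam) -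
        s * dotProduct l₀ n)) ^ 2 * dotProduct l₀ (Q.adjugate.mulVec l₀) := by
  have h1 := gnorm hQ hn r s
  have h2 := gpair (lam := lam) (n := n) hQ l₀ r s
  have h3 := dot_mulVec_comm (adj_isSymm hQ) (r • gz1 Q lam n + s • gz2 Q n) l₀
  rw [gvec]
  set z := r • gz1 Q lam n + s • gz2 Q n with hz
  simp only [Matrix.mulVec_sub, Matrix.mulVec_smul, dotProduct_sub, sub_dotProduct,
    dotProduct_smul, smul_dotProduct, smul_eq_mul]
  rw [h3, h2, h1]
  ring

end Ident

section Forms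

open MvPolynomial Vale.Agent.P287 Vale.Agent.P287.H925 Vale.Agent.P287.Theta

/-- a common nonzero value of finitely many polynomials -/
lemma exists_eval_ne {ι : Type*} (T : Finset ι) (p : ι → P3) (h : ∀ i ∈ T, p i ≠ 0) :
    ∃ z : Fin 3 → ℂ, ∀ i ∈ T, eval z (p i) ≠ 0 := by
  have h1 : (∏ i ∈ T, p i) ≠ 0 := Finset.prod_ne_zero_iff.2 h
  obtain ⟨c, hc⟩ : ∃ c, eval c (∏ i ∈ T, p i) ≠ 0 := by
    by_contra hcon
    push Not at hcon
    exact h1 (MvPolynomial.funext fun z => by rw [hcon, map_zero])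
  refine ⟨c, fun i hi h0 => hc ?_⟩
  rw [map_prod]
  exact Finset.prod_eq_zero hi h0

/-- the linear form of a vector -/
noncomputable def linForm (c : Fin 3 → ℂ) : P3 := ∑ i, C (c i) * X i

lemma linForm_hom (c : Fin 3 → ℂ) : (linForm c).IsHomogeneous 1 :=
  IsHomogeneous.sum _ _ _ fun i _ => isHomogeneous_C_mul_X (c i) i

lemma eval_linForm (c z : Fin 3 → ℂ) : eval z (linForm c) = dotProduct c z := by
  rw [linForm, map_sum, dotProduct]
  exact Finset.sum_congr rfl fun i _ => by rw [map_mul, eval_C, eval_X]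

/-- a form vanishing on a finite set and nonzero on another one -/
lemma exists_form_separating (Z S : Finset (Fin 3 → ℂ))
    (h : ∀ z ∈ Z, ∀ s ∈ S, crossProduct s z ≠ 0) :
    ∃ (j : ℕ) (L : P3), L.IsHomogeneous j ∧ (∀ z ∈ Z, eval z L = 0) ∧
      ∀ s ∈ S, eval s L ≠ 0 := by
  classical
  have h1 : ∀ z : Fin 3 → ℂ, ∃ L : P3, L.IsHomogeneous 1 ∧ eval z L = 0 ∧
      (z ∈ Z → ∀ s ∈ S, eval s L ≠ 0) := by
    intro z
    by_cases hz : z ∈ Z
    · obtain ⟨w, hw⟩ := exists_dot_ne (S.image fun s => crossProduct s z) (by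
        intro s' hs'
        obtain ⟨s, hs, rfl⟩ := Finset.mem_image.1 hs'
        exact h z hz s hs)
      refine ⟨linForm (crossProduct z w), linForm_hom _, ?_, fun _ s hs => ?_⟩
      · rw [eval_linForm, dotProduct_comm, dot_self_cross]
      · rw [eval_linForm, dotProduct_comm, triple_product_permutation,
          triple_product_permutation]
        exact hw _ (Finset.mem_image_of_mem _ hs)
    · exact ⟨0, isHomogeneous_zero _ _ _, map_zero _, fun h => absurd h hz⟩
  choose L hL hL0 hLS using h1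
  refine ⟨∑ _z ∈ Z, 1, ∏ z ∈ Z, L z, IsHomogeneous.prod _ _ _ fun z _ => hL z, ?_, ?_⟩
  · intro z hz
    rw [map_prod]
    exact Finset.prod_eq_zero hz (hL0 z)
  · intro s hs
    rw [map_prod]
    exact Finset.prod_ne_zero_iff.2 fun z hz => hLS z hz s hs

/-- square roots at finitely many points -/
lemma exists_sqrt_at {a t : P3} (ha : a.IsHomogeneous 4) (ht : t.IsHomogeneous 1)
    (S : Finset (Fin 3 → ℂ)) (hS : ∀ s ∈ S, s ≠ 0 ∧ eval s t ≠ 0) :
    ∃ (k : ℕ) (ρ : P3), ρ.IsHomogeneous (k + 2) ∧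
      ∀ s ∈ S, eval s ρ ^ 2 = - (eval s a * eval s t ^ (2 * k)) := by
  classical
  induction S using Finset.induction_on with
  | empty => exact ⟨0, 0, isHomogeneous_zero _ _ _, by simp⟩
  | insert s₀ S hs₀ ih =>
    obtain ⟨k, ρ, hρ, hρS⟩ := ih fun s hs => hS s (Finset.mem_insert_of_mem hs)
    obtain ⟨h0, ht0⟩ := hS s₀ (Finset.mem_insert_self _ _)
    by_cases hprop : ∃ s ∈ S, crossProduct s₀ s = 0
    · obtain ⟨s, hs, hcr⟩ := hprop
      obtain ⟨c, rfl⟩ := smul_of_cross_eq_zero (hS s (Finset.mem_insert_of_mem hs)).1 hcr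
      refine ⟨k, ρ, hρ, fun s' hs' => ?_⟩
      rcases Finset.mem_insert.1 hs' with rfl | hs'
      · rw [eval_smul' hρ, eval_smul' ha, eval_smul' ht, mul_pow, hρS s hs]
        ring
      · exact hρS s' hs'
    · push Not at hprop
      obtain ⟨j, L, hL, hL0, hLs⟩ := exists_form_separating S {s₀} (by
        intro z hz s hs
        rw [Finset.mem_singleton.1 hs]
        exact hprop z hz)
      have hLs0 := hLs s₀ (Finset.mem_singleton_self _)
      obtain ⟨w, hw⟩ := IsAlgClosed.exists_pow_nat_eq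
        (- (eval s₀ a * eval s₀ t ^ (2 * (k + j)))) (n := 2) (by norm_num)
      have hne : eval s₀ L * eval s₀ t ^ (k + 2) ≠ 0 := mul_ne_zero hLs0 (pow_ne_zero _ ht0)
      refine ⟨k + j, ρ * t ^ j + C ((w - eval s₀ ρ * eval s₀ t ^ j) /
        (eval s₀ L * eval s₀ t ^ (k + 2))) * (L * t ^ (k + 2)), ?_, ?_⟩
      · have e1 := hρ.mul (ht.pow j)
        have e2 := (isHomogeneous_C (Fin 3) ((w - eval s₀ ρ * eval s₀ t ^ j) /
          (eval s₀ L * eval s₀ t ^ (k + 2)))).mul (hL.mul (ht.pow (k + 2)))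
        rw [show k + 2 + 1 * j = k + j + 2 by ring] at e1
        rw [show 0 + (j + 1 * (k + 2)) = k + j + 2 by ring] at e2
        exact e1.add e2
      · intro s hs
        rcases Finset.mem_insert.1 hs with rfl | hs
        · rw [map_add, map_mul, map_mul, map_mul, map_pow, map_pow, eval_C,
            div_mul_cancel₀ _ hne, add_sub_cancel, hw]
        · rw [map_add, map_mul, map_mul, map_mul, map_pow, map_pow, hL0 s hs, zero_mul, mul_zero,
            add_zero, mul_pow, hρS s hs]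
          ring

/-- Newton iteration for the square root of `-a` -/
lemma exists_newton {a E₀ ρ₀ σ₀ : P3} {k₀ : ℕ} (ha : a.IsHomogeneous 4)
    (hρ : ρ₀.IsHomogeneous (k₀ + 2)) (hσ : σ₀.IsHomogeneous k₀) (hE : a * σ₀ ^ 2 + ρ₀ ^ 2 = E₀)
    (S : Finset (Fin 3 → ℂ)) (hS : ∀ s ∈ S, eval s E₀ = 0 ∧ eval s a ≠ 0 ∧ eval s σ₀ ≠ 0)
    (j : ℕ) : ∃ (k : ℕ) (ρ σ : P3), ρ.IsHomogeneous (k + 2) ∧ σ.IsHomogeneous k ∧
      a * σ ^ 2 + ρ ^ 2 = E₀ ^ (2 ^ j) ∧ ∀ s ∈ S, eval s σ ≠ 0 := by
  induction j with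
  | zero => exact ⟨k₀, ρ₀, σ₀, hρ, hσ, by rw [hE]; ring, fun s hs => (hS s hs).2.2⟩
  | succ j ih =>
    obtain ⟨k, ρ, σ, h1, h2, h3, h4⟩ := ih
    refine ⟨k + k + 2, ρ ^ 2 - a * σ ^ 2, 2 * (ρ * σ), ?_, ?_, ?_, ?_⟩
    · have e1 := h1.pow 2
      have e2 := ha.mul (h2.pow 2)
      rw [show (k + 2) * 2 = k + k + 2 + 2 by ring] at e1
      rw [show 4 + k * 2 = k + k + 2 + 2 by ring] at e2
      exact e1.sub e2
    · have e1 := (isHomogeneous_C (Fin 3) (2 : ℂ)).mul (h1.mul h2)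
      rw [show 0 + (k + 2 + k) = k + k + 2 by ring] at e1
      exact e1
    · rw [show E₀ ^ 2 ^ (j + 1) = (E₀ ^ 2 ^ j) ^ 2 by rw [← pow_mul, pow_succ], ← h3]
      ring
    · intro s hs
      have e1 := congrArg (eval s) h3
      rw [map_add, map_mul, map_pow, map_pow, map_pow, (hS s hs).1,
        zero_pow (pow_ne_zero _ two_ne_zero)] at e1
      have e2 : eval s ρ ≠ 0 := by
        intro h0
        rw [h0] at e1
        have e3 : eval s a * eval s σ ^ 2 = 0 := by linear_combination e1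
        exact mul_ne_zero (hS s hs).2.1 (pow_ne_zero 2 (h4 s hs)) e3
      rw [map_mul, map_mul]
      exact mul_ne_zero (by rw [map_ofNat]; exact two_ne_zero) (mul_ne_zero e2 (h4 s hs))

/-- The Nullstellensatz for the common zeros of two forms. -/
lemma exists_pow_mem {g u E f : P3} {m n k : ℕ} (hg : g.IsHomogeneous m) (pg : Prime g)
    (hu : u.IsHomogeneous n) (hgu : ¬ g ∣ u) (hE : E.IsHomogeneous (k + 1))
    (S : Finset (Fin 3 → ℂ)) (hS : ∀ s ∈ S, s ≠ 0 ∧ eval s f = 0 ∧ eval s E = 0)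
    (hS' : ∀ z : Fin 3 → ℂ, z ≠ 0 → eval z g = 0 → eval z f = 0 → ∃ s ∈ S, ∃ c : ℂ, z = c • s)
    {d : ℕ} (hf : f.IsHomogeneous d) :
    ∃ (j N : ℕ) (e : P3), e.IsHomogeneous j ∧ (∀ s ∈ S, eval s e ≠ 0) ∧
      (e * E) ^ N ∈ (Ideal.span {u, g} : Ideal P3) := by
  classical
  obtain ⟨Z, hZ, hZ'⟩ := finite_zeros hg pg hu hgu
  obtain ⟨j, L, hL, hL0, hLS⟩ := exists_form_separating (Z.filter fun z => eval z f ≠ 0) S (by
    intro z hz s hs hcr
    obtain ⟨hz1, hz2⟩ := Finset.mem_filter.1 hz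
    obtain ⟨c, hc⟩ := smul_of_cross_eq_zero (hZ z hz1).1 hcr
    have h1 : c ≠ 0 := by
      rintro rfl
      exact (hS s hs).1 (by rw [hc, zero_smul])
    have h2 := (hS s hs).2.1
    rw [hc, eval_smul' hf] at h2
    exact hz2 ((mul_eq_zero.1 h2).resolve_left (pow_ne_zero _ h1)))
  refine ⟨j, ?_⟩
  have hrad : L * E ∈ (Ideal.span {u, g} : Ideal P3).radical := by
    rw [← MvPolynomial.vanishingIdeal_zeroLocus_eq_radical (K := ℂ), mem_vanishingIdeal_iff]
    intro z hz
    rw [← eval_eq_aeval]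
    have hzu : eval z u = 0 := by
      rw [eval_eq_aeval]
      exact hz u (Ideal.subset_span (by simp))
    have hzg : eval z g = 0 := by
      rw [eval_eq_aeval]
      exact hz g (Ideal.subset_span (by simp))
    rw [map_mul]
    by_cases hz0 : z = 0
    · subst hz0
      have h1 := eval_smul' hE 0 (0 : Fin 3 → ℂ)
      rw [smul_zero, zero_pow (Nat.succ_ne_zero k), zero_mul] at h1
      rw [h1, mul_zero]
    · by_cases hzf : eval z f = 0
      · obtain ⟨s, hs, c, rfl⟩ := hS' z hz0 hzg hzf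
        rw [eval_smul' hE, (hS s hs).2.2, mul_zero, mul_zero]
      · obtain ⟨s, hs, c, rfl⟩ := hZ' z hz0 hzg hzu
        have hc : c ≠ 0 := by
          rintro rfl
          exact hz0 (zero_smul _ _)
        have h1 : eval s f ≠ 0 := by
          intro h2
          apply hzf
          rw [eval_smul' hf, h2, mul_zero]
        rw [eval_smul' hL, hL0 s (Finset.mem_filter.2 ⟨hs, h1⟩), mul_zero, zero_mul]
  obtain ⟨N, hN⟩ := hrad
  exact ⟨N, L, hL, hLS, hN⟩

section Maps

variable {R S : Type*} [CommRing R] [CommRing S] (φ : R →+* S)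

lemma map_dot (x y : Fin 3 → R) : φ (dotProduct x y) = dotProduct (fun i => φ (x i))
    (fun i => φ (y i)) := by
  simp [dotProduct]

lemma map_mulV (M : Matrix (Fin 3) (Fin 3) R) (x : Fin 3 → R) :
    (fun i => φ ((M.mulVec x) i)) = (M.map φ).mulVec fun i => φ (x i) := by
  funext i
  simp [Matrix.mulVec, dotProduct]

lemma map_adj (M : Matrix (Fin 3) (Fin 3) R) : M.adjugate.map φ = (M.map φ).adjugate :=
  RingHom.map_adjugate φ M

lemma map_ga (Q : Matrix (Fin 3) (Fin 3) R) (x : Fin 3 → R) :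
    φ (ga Q x) = ga (Q.map φ) fun i => φ (x i) := by
  rw [ga, map_dot, map_mulV, map_adj]
  rfl

lemma map_gD (Q : Matrix (Fin 3) (Fin 3) R) (x : Fin 3 → R) :
    φ (gD Q x) = gD (Q.map φ) fun i => φ (x i) := by
  rw [gD, map_dot, map_mulV]
  rfl

lemma map_crossP (x y : Fin 3 → R) : (fun i => φ (crossProduct x y i)) =
    crossProduct (fun i => φ (x i)) fun i => φ (y i) := by
  funext i
  fin_cases i <;> simp [cross_apply]

end Maps

section Choice

/-- a nonzero symmetric matrix has a nonzero value -/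
lemma exists_quad_ne {M : Matrix (Fin 3) (Fin 3) ℂ} (hM : M.IsSymm) {i j : Fin 3}
    (h : M i j ≠ 0) : ∃ x : Fin 3 → ℂ, dotProduct x (M.mulVec x) ≠ 0 := by
  by_contra hcon
  push Not at hcon
  have h1 := hcon (Pi.single i 1 + Pi.single j 1)
  rw [Matrix.mulVec_add, dotProduct_add, add_dotProduct, add_dotProduct, hcon, hcon,
    dot_mulVec_comm hM (Pi.single j 1) (Pi.single i 1)] at h1
  have h2 : dotProduct (Pi.single i 1) (M.mulVec (Pi.single j 1)) = M i j := by
    rw [Matrix.mulVec_single_one, single_one_dotProduct]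
    rfl
  rw [h2] at h1
  apply h
  linear_combination h1 / 2

/-- the discriminant of the restriction to a plane -/
lemma exists_plane_ne {M : Matrix (Fin 3) (Fin 3) ℂ} (hM : M.IsSymm) {lam : Fin 3 → ℂ}
    (h : ga M lam ≠ 0) : ∃ v : Fin 3 → ℂ, gD M (crossProduct lam v) ≠ 0 := by
  by_contra hcon
  push Not at hcon
  have h1 : ∀ v v', dotProduct (crossProduct lam v) (M.mulVec (crossProduct lam v')) = 0 := by
    intro v v'
    have h2 := hcon (v + v')
    have h3 := hcon v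
    have h4 := hcon v'
    rw [gD] at h2 h3 h4
    rw [map_add, Matrix.mulVec_add, dotProduct_add, add_dotProduct, add_dotProduct, h3, h4,
      dot_mulVec_comm hM (crossProduct lam v') (crossProduct lam v)] at h2
    linear_combination h2 / 2
  have h2 : ∀ v v', dotProduct v (crossProduct lam v') = 0 := by
    intro v v'
    have h3 : crossProduct (crossProduct lam v) (crossProduct lam v') =
        (- dotProduct v (crossProduct lam v')) • lam := by
      rw [cross_cross_eq_smul_sub_smul, dot_self_cross, zero_smul, zero_sub, neg_smul]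
    have h4 : dotProduct (crossProduct (crossProduct lam v) (crossProduct lam v'))
        (M.adjugate.mulVec (crossProduct (crossProduct lam v) (crossProduct lam v'))) = 0 := by
      rw [adj_cross hM, cross_dot_cross, h1, h1, h1]
      ring
    rw [h3, Matrix.mulVec_smul, smul_dotProduct, dotProduct_smul, smul_eq_mul, smul_eq_mul] at h4
    change _ * (_ * ga M lam) = 0 at h4
    rcases mul_eq_zero.1 h4 with h5 | h5
    · exact neg_eq_zero.1 h5
    · rcases mul_eq_zero.1 h5 with h6 | h6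
      · exact neg_eq_zero.1 h6
      · exact absurd h6 h
  apply h
  have h3 : lam = 0 := by
    have e0 := h2 (Pi.single 1 1) (Pi.single 2 1)
    have e1 := h2 (Pi.single 2 1) (Pi.single 0 1)
    have e2 := h2 (Pi.single 0 1) (Pi.single 1 1)
    rw [single_one_dotProduct, cross_apply] at e0 e1 e2
    refine vec_ext ?_ ?_ ?_
    · simpa using e0
    · simpa using e1
    · simpa using e2
  rw [h3, ga, zero_dotProduct]

/-- a general constant vector -/
lemma exists_lam (S : Finset (Fin 3 → ℂ)) (hS : S.Nonempty) (M : (Fin 3 → ℂ) →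
    Matrix (Fin 3) (Fin 3) ℂ) (hM : ∀ s ∈ S, (M s).IsSymm) (hM0 : ∀ s ∈ S, ∃ i j, M s i j ≠ 0)
    {w : Fin 3 → ℂ} (hw : w ≠ 0) :
    ∃ x : Fin 3 → ℂ, dotProduct w x ≠ 0 ∧ ∀ s ∈ S, dotProduct x ((M s).mulVec x) ≠ 0 := by
  have hev : ∀ (N : Matrix (Fin 3) (Fin 3) ℂ) (z : Fin 3 → ℂ),
      eval z (dotProduct (fun i => (X i : P3)) ((N.map C).mulVec fun i => (X i : P3))) =
        dotProduct z (N.mulVec z) := by
    intro N z
    rw [map_dot, map_mulV]
    have h1 : (N.map C).map (eval z) = N := by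
      ext i j
      simp
    rw [h1]
    simp only [eval_X]
  obtain ⟨x, hx⟩ := exists_eval_ne S (fun s => linForm w *
    dotProduct (fun i => (X i : P3)) (((M s).map C).mulVec fun i => (X i : P3))) (by
    intro s hs
    refine mul_ne_zero ?_ ?_
    · intro h0
      apply hw
      funext i
      have h1 := congrArg (eval (Pi.single i 1)) h0
      rw [eval_linForm, map_zero] at h1
      simpa using h1
    · intro h0
      obtain ⟨i, j, hij⟩ := hM0 s hs
      obtain ⟨x, hx⟩ := exists_quad_ne (hM s hs) hij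
      apply hx
      rw [← hev, h0, map_zero])
  refine ⟨x, ?_, fun s hs => ?_⟩
  · obtain ⟨s, hs⟩ := hS
    have h1 := hx s hs
    rw [map_mul, eval_linForm] at h1
    exact left_ne_zero_of_mul h1
  · have h1 := hx s hs
    rw [map_mul, hev] at h1
    exact right_ne_zero_of_mul h1

/-- a general vector of the plane orthogonal to `lam` -/
lemma exists_v (S : Finset (Fin 3 → ℂ)) (M : (Fin 3 → ℂ) → Matrix (Fin 3) (Fin 3) ℂ)
    (hM : ∀ s ∈ S, (M s).IsSymm) {lam : Fin 3 → ℂ} (h : ∀ s ∈ S, ga (M s) lam ≠ 0) :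
    ∃ v : Fin 3 → ℂ, ∀ s ∈ S, gD (M s) (crossProduct lam v) ≠ 0 := by
  have hev : ∀ (N : Matrix (Fin 3) (Fin 3) ℂ) (z : Fin 3 → ℂ),
      eval z (gD (N.map C) (crossProduct (fun i => C (lam i)) fun i => (X i : P3))) =
        gD N (crossProduct lam z) := by
    intro N z
    rw [map_gD]
    have h1 : (N.map C).map (eval z) = N := by
      ext i j
      simp
    rw [h1, map_crossP]
    simp only [eval_X, eval_C]
  obtain ⟨x, hx⟩ := exists_eval_ne S (fun s =>
    gD ((M s).map C) (crossProduct (fun i => C (lam i)) fun i => (X i : P3))) (by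
    intro s hs h0
    obtain ⟨v, hv⟩ := exists_plane_ne (hM s hs) (h s hs)
    apply hv
    rw [← hev, h0, map_zero])
  refine ⟨x, fun s hs => ?_⟩
  have h1 := hx s hs
  rwa [hev] at h1

/-- a functional which does not vanish on a given vector of residue classes -/
lemma exists_functional {g : P3} {x : Fin 3 → P3} (h : ∃ i, ¬ g ∣ x i) :
    ∃ w : Fin 3 → ℂ, w ≠ 0 ∧ ∀ c : Fin 3 → ℂ, g ∣ ∑ i, C (c i) * x i → dotProduct w c = 0 := by
  obtain ⟨i, hi⟩ := h
  have h1 : q g (x i) ≠ 0 := by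
    intro h0
    exact hi (Ideal.mem_span_singleton.1 (Ideal.Quotient.eq_zero_iff_mem.1 h0))
  obtain ⟨φ, hφ⟩ : ∃ φ : Module.Dual ℂ (RG g), φ (q g (x i)) ≠ 0 := by
    by_contra hcon
    push Not at hcon
    exact h1 ((Module.forall_dual_apply_eq_zero_iff ℂ _).1 hcon)
  refine ⟨fun i => φ (q g (x i)), fun h0 => hφ (congrFun h0 i), fun c hc => ?_⟩
  have h2 : q g (∑ i, C (c i) * x i) = ∑ i, c i • q g (x i) := by
    change Ideal.Quotient.mkₐ ℂ (Ideal.span {g}) _ = _
    rw [map_sum]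
    refine Finset.sum_congr rfl fun i _ => ?_
    rw [← smul_eq_C_mul, map_smul]
    rfl
  have h3 : q g (∑ i, C (c i) * x i) = 0 :=
    Ideal.Quotient.eq_zero_iff_mem.2 (Ideal.mem_span_singleton.2 hc)
  rw [h2] at h3
  have h4 := congrArg φ h3
  rw [map_sum, map_zero] at h4
  rw [dotProduct, ← h4]
  refine Finset.sum_congr rfl fun i _ => ?_
  rw [map_smul, smul_eq_mul, mul_comm]

end Choice

/-- dot products of vectors of forms -/
lemma dot_hom {x y : Fin 3 → P3} {a b : ℕ} (hx : ∀ i, (x i).IsHomogeneous a)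
    (hy : ∀ i, (y i).IsHomogeneous b) : (dotProduct x y).IsHomogeneous (a + b) :=
  IsHomogeneous.sum _ _ _ fun i _ => (hx i).mul (hy i)

lemma mulV_hom {M : Matrix (Fin 3) (Fin 3) P3} {x : Fin 3 → P3} {a b : ℕ}
    (hM : ∀ i j, (M i j).IsHomogeneous a) (hx : ∀ i, (x i).IsHomogeneous b) (i : Fin 3) :
    ((M.mulVec x) i).IsHomogeneous (a + b) :=
  IsHomogeneous.sum _ _ _ fun j _ => (hM i j).mul (hx j)

lemma cross_hom {x y : Fin 3 → P3} {a b : ℕ} (hx : ∀ i, (x i).IsHomogeneous a)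
    (hy : ∀ i, (y i).IsHomogeneous b) (i : Fin 3) :
    (crossProduct x y i).IsHomogeneous (a + b) := by
  rw [cross_apply]
  fin_cases i
  · exact ((hx 1).mul (hy 2)).sub ((hx 2).mul (hy 1))
  · exact ((hx 2).mul (hy 0)).sub ((hx 0).mul (hy 2))
  · exact ((hx 0).mul (hy 1)).sub ((hx 1).mul (hy 0))

section Main

variable {f g : P3} {m : ℕ} {Q : Matrix (Fin 3) (Fin 3) P3}

/-- The new vector does not vanish at the points where `f` vanishes. -/
lemma gvec_ne {lam n l₀ : Fin 3 → P3} (hn : dotProduct n lam = 0)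
    {e y r s : P3} {z : Fin 3 → ℂ} (hf : eval z Q.det = 0) (he : eval z e ≠ 0)
    (hr : eval z r ≠ 0) (ha : eval z (ga Q lam) ≠ 0) (hD : eval z (gD Q n) ≠ 0) :
    ∃ i, eval z (gvec Q lam n l₀ e y r s i) ≠ 0 := by
  by_contra hcon
  push Not at hcon
  have h1 : eval z (dotProduct (gvec Q lam n l₀ e y r s) (crossProduct (gz2 Q n) lam)) = 0 := by
    rw [map_dot]
    simp only [hcon]
    simp [dotProduct]
  have h2 : dotProduct (gvec Q lam n l₀ e y r s) (crossProduct (gz2 Q n) lam) =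
      2 * (e * r ^ 2 - Q.det * y * dotProduct l₀ n ^ 2) * (r * (gD Q n * ga Q lam)) -
        (gD Q n * Q.det * y * (r * dotProduct l₀ (crossProduct (gz2 Q n) lam) -
          s * dotProduct l₀ n)) * dotProduct l₀ (crossProduct (gz2 Q n) lam) := by
    rw [gvec, sub_dotProduct, smul_dotProduct, smul_dotProduct, add_dotProduct, smul_dotProduct,
      smul_dotProduct, gz1_dot hn, dot_self_cross, smul_eq_mul, smul_eq_mul, smul_eq_mul,
      smul_eq_mul, mul_zero, add_zero]
    rfl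
  rw [h2] at h1
  simp only [map_sub, map_mul, map_pow, hf, map_ofNat] at h1
  have h3 : (2 : ℂ) * (eval z e * eval z r ^ 2) * (eval z r * (eval z (gD Q n) *
      eval z (ga Q lam))) = 0 := by linear_combination h1
  exact mul_ne_zero (mul_ne_zero two_ne_zero (mul_ne_zero he (pow_ne_zero 2 hr)))
    (mul_ne_zero hr (mul_ne_zero hD ha)) h3

/-- **Good isotropic vectors.** Over a plane curve `g = 0` there is an isotropic vector of the
form `A = adj Q` which does not vanish at any point of `f = g = 0`, where `f = det Q`. -/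
theorem exists_good_isotropic (hf : f.IsHomogeneous 6) (hg : g.IsHomogeneous m) (hm : 0 < m)
    (pg : Prime g) (hgf : ¬ g ∣ f) (sQ : Q.IsSymm) (hQ : ∀ i j, (Q i j).IsHomogeneous 2)
    (hdet : Q.det = f)
    (hA0 : ∀ z : Fin 3 → ℂ, z ≠ 0 → eval z f = 0 → eval z g = 0 →
      ∃ i j, eval z (Q.adjugate i j) ≠ 0) :
    ∃ (d : ℕ) (l : Fin 3 → P3), (∀ i, (l i).IsHomogeneous d) ∧ (∃ i, ¬ g ∣ l i) ∧
      g ∣ l ⬝ᵥ Q.adjugate.mulVec l ∧
      ∀ z : Fin 3 → ℂ, z ≠ 0 → eval z f = 0 → eval z g = 0 → ∃ i, eval z (l i) ≠ 0 := by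
  have hA : ∀ i j, (Q.adjugate i j).IsHomogeneous 4 := fun i j => by
    have := adj_hom hQ i j
    exact this
  obtain ⟨d₀, l₀, hl₀, hl₀g, hiso⟩ := exists_isotropic hg pg.ne_zero hm Q.adjugate hA
  obtain ⟨S, hS, hS'⟩ := finite_zeros hg pg hf hgf
  rcases S.eq_empty_or_nonempty with rfl | hSne
  · refine ⟨d₀, l₀, hl₀, hl₀g, hiso, fun z hz hzf hzg => ?_⟩
    obtain ⟨s, hs, _⟩ := hS' z hz hzg hzf
    exact absurd hs (Finset.notMem_empty _)
  -- the choice of `lam`
  have hAl₀ : ∃ i, ¬ g ∣ (Q.adjugate.mulVec l₀) i := by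
    by_contra hcon
    push Not at hcon
    obtain ⟨i, hi⟩ := hl₀g
    apply hi
    have h1 : g ∣ (Q.mulVec (Q.adjugate.mulVec l₀)) i := by
      rw [Matrix.mulVec, dotProduct]
      exact Finset.dvd_sum fun j _ => (hcon j).mul_left _
    rw [Q_adj, Pi.smul_apply, smul_eq_mul, hdet] at h1
    exact (pg.dvd_or_dvd h1).resolve_left hgf
  obtain ⟨w, hw, hw'⟩ := exists_functional hAl₀
  have hsymm : ∀ s : Fin 3 → ℂ, (Q.map (eval s)).IsSymm := fun s => by
    rw [Matrix.IsSymm, ← Matrix.transpose_map, sQ.eq]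
  obtain ⟨lam, hlamw, hlam⟩ := exists_lam S hSne (fun s => (Q.map (eval s)).adjugate)
    (fun s _ => adj_isSymm (hsymm s)) (fun s hs => by
      obtain ⟨i, j, hij⟩ := hA0 s (hS s hs).1 (hS s hs).2.2 (hS s hs).2.1
      refine ⟨i, j, ?_⟩
      rw [← map_adj]
      exact hij) hw
  obtain ⟨v, hv⟩ := exists_v S (fun s => Q.map (eval s)) (fun s _ => hsymm s) (lam := lam) hlam
  set lamP : Fin 3 → P3 := fun i => C (lam i) with hlamP
  set nP : Fin 3 → P3 := fun i => C (crossProduct lam v i) with hnP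
  have hn : dotProduct nP lamP = 0 := by
    have h1 := map_dot (C : ℂ →+* P3) (crossProduct lam v) lam
    rw [dotProduct_comm, dot_self_cross, map_zero] at h1
    exact h1.symm
  have hlamh : ∀ i, (lamP i).IsHomogeneous 0 := fun i => isHomogeneous_C _ _
  have hnh : ∀ i, (nP i).IsHomogeneous 0 := fun i => isHomogeneous_C _ _
  have ha : ∀ s ∈ S, eval s (ga Q lamP) ≠ 0 := by
    intro s hs
    rw [map_ga]
    simp only [hlamP, eval_C]
    exact hlam s hs
  have hD : ∀ s ∈ S, eval s (gD Q nP) ≠ 0 := by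
    intro s hs
    rw [map_gD]
    simp only [hnP, eval_C]
    exact hv s hs
  have hah : (ga Q lamP).IsHomogeneous 4 := by
    have := dot_hom hlamh (mulV_hom hA hlamh)
    exact this
  have hDh : (gD Q nP).IsHomogeneous 2 := by
    have := dot_hom hnh (mulV_hom hQ hnh)
    exact this
  have hz2h : ∀ i, (gz2 Q nP i).IsHomogeneous 2 := fun i => by
    have := mulV_hom hQ hnh i
    exact this
  have hz1h : ∀ i, (gz1 Q lamP nP i).IsHomogeneous 4 := fun i => by
    have := cross_hom hnh (mulV_hom hA hlamh) i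
    exact this
  have hY1h : (dotProduct l₀ (crossProduct (gz2 Q nP) lamP)).IsHomogeneous (d₀ + 2) := by
    have := dot_hom hl₀ (cross_hom hz2h hlamh)
    exact this
  have hY2h : (dotProduct l₀ nP).IsHomogeneous d₀ := by
    have := dot_hom hl₀ hnh
    exact this
  set Y1 := dotProduct l₀ (crossProduct (gz2 Q nP) lamP) with hY1
  set Y2 := dotProduct l₀ nP with hY2
  set N₀ := Y1 ^ 2 + ga Q lamP * Y2 ^ 2 with hN₀
  have hN₀h : N₀.IsHomogeneous (2 * d₀ + 4) := by
    have e1 := hY1h.pow 2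
    have e2 := hah.mul (hY2h.pow 2)
    rw [show (d₀ + 2) * 2 = 2 * d₀ + 4 by ring] at e1
    rw [show 4 + d₀ * 2 = 2 * d₀ + 4 by ring] at e2
    exact e1.add e2
  have hgN₀ : ¬ g ∣ N₀ := by
    intro hdiv
    have h1 := gval sQ hn l₀
    rw [hdet] at h1
    have h2 : g ∣ gD Q nP * dotProduct l₀ (Q.adjugate.mulVec lamP) ^ 2 := by
      have e : gD Q nP * dotProduct l₀ (Q.adjugate.mulVec lamP) ^ 2 =
          ga Q lamP * gD Q nP * dotProduct l₀ (Q.adjugate.mulVec l₀) - f * N₀ := by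
        rw [hN₀, hY1, hY2]
        linear_combination -h1
      rw [e]
      exact dvd_sub (hiso.mul_left _) (hdiv.mul_left _)
    rcases pg.dvd_or_dvd h2 with h3 | h3
    · obtain ⟨s, hs⟩ := hSne
      obtain ⟨c, hc⟩ := h3
      apply hD s hs
      rw [hc, map_mul, (hS s hs).2.1, zero_mul]
    · have h4 := pg.dvd_of_dvd_pow h3
      apply hlamw
      apply hw' lam
      rw [dot_mulVec_comm (adj_isSymm sQ)] at h4
      exact h4
  -- the square root
  obtain ⟨tv, htv⟩ := exists_dot_ne S fun s hs => (hS s hs).1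
  set t := linForm tv with ht
  have hth : t.IsHomogeneous 1 := linForm_hom tv
  have htS : ∀ s ∈ S, eval s t ≠ 0 := fun s hs => by
    rw [ht, eval_linForm]
    exact htv s hs
  obtain ⟨k₀, ρ₀, hρ₀, hρ₀S⟩ := exists_sqrt_at hah hth S fun s hs => ⟨(hS s hs).1, htS s hs⟩
  set E₀ := ga Q lamP * (t ^ k₀) ^ 2 + ρ₀ ^ 2 with hE₀
  have hE₀h : E₀.IsHomogeneous (2 * k₀ + 3 + 1) := by
    have e1 := hah.mul ((hth.pow k₀).pow 2)
    have e2 := hρ₀.pow 2
    rw [show 4 + 1 * k₀ * 2 = 2 * k₀ + 3 + 1 by ring] at e1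
    rw [show (k₀ + 2) * 2 = 2 * k₀ + 3 + 1 by ring] at e2
    exact e1.add e2
  have hE₀S : ∀ s ∈ S, eval s E₀ = 0 := by
    intro s hs
    rw [hE₀, map_add, map_mul, map_pow, map_pow, map_pow, hρ₀S s hs, ← pow_mul,
      mul_comm k₀ 2, add_neg_cancel]
  have hgu : ¬ g ∣ f * N₀ := fun h => (pg.dvd_or_dvd h).elim hgf hgN₀
  have huh : (f * N₀).IsHomogeneous (6 + (2 * d₀ + 4)) := hf.mul hN₀h
  obtain ⟨j, N, e', he'h, he'S, he'N⟩ := exists_pow_mem hg pg huh hgu hE₀h S
    (fun s hs => ⟨(hS s hs).1, (hS s hs).2.2, hE₀S s hs⟩) hS' hf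
  obtain ⟨k, ρ, σ, hρ, hσ, hρσ, hσS⟩ := exists_newton hah hρ₀
    (by have := hth.pow k₀; rwa [one_mul] at this) rfl S
    (fun s hs => ⟨hE₀S s hs, ha s hs, by rw [map_pow]; exact pow_ne_zero _ (htS s hs)⟩) N
  -- the multiplier
  set e := e' ^ N * t ^ (2 * d₀ + 10) with he
  have heh : e.IsHomogeneous (j * N + (2 * d₀ + 10)) := by
    have := (he'h.pow N).mul (hth.pow (2 * d₀ + 10))
    rwa [one_mul] at this
  have heS : ∀ s ∈ S, eval s e ≠ 0 := by
    intro s hs
    rw [he, map_mul, map_pow, map_pow]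
    exact mul_ne_zero (pow_ne_zero _ (he'S s hs)) (pow_ne_zero _ (htS s hs))
  have hEh : (ga Q lamP * σ ^ 2 + ρ ^ 2).IsHomogeneous (2 * k + 4) := by
    have e1 := hah.mul (hσ.pow 2)
    have e2 := hρ.pow 2
    rw [show 4 + k * 2 = 2 * k + 4 by ring] at e1
    rw [show (k + 2) * 2 = 2 * k + 4 by ring] at e2
    exact e1.add e2
  have hmem : e * (ga Q lamP * σ ^ 2 + ρ ^ 2) ∈ (Ideal.span {f * N₀, g} : Ideal P3) := by
    rw [hρσ]
    obtain ⟨c, hc⟩ := Nat.exists_eq_add_of_le (Nat.lt_two_pow_self (n := N)).le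
    have h1 : e * E₀ ^ 2 ^ N = (t ^ (2 * d₀ + 10) * E₀ ^ c) * (e' * E₀) ^ N := by
      rw [he, hc, mul_pow, pow_add]
      ring
    rw [h1]
    exact Ideal.mul_mem_left _ _ he'N
  obtain ⟨y, hyh, hy⟩ := exists_homog_coeff (m := j * N + 2 * k + 4)
    (by
      have := heh.mul hEh
      rwa [show j * N + (2 * d₀ + 10) + (2 * k + 4) =
        6 + (2 * d₀ + 4) + (j * N + 2 * k + 4) by ring] at this) huh hg hmem
  have hne : ∀ s ∈ S, ∃ i, eval s (gvec Q lamP nP l₀ e y σ ρ i) ≠ 0 := fun s hs =>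
    gvec_ne hn (by rw [hdet]; exact (hS s hs).2.2) (heS s hs) (hσS s hs) (ha s hs)
      (hD s hs)
  have hh : ∀ i, (gvec Q lamP nP l₀ e y σ ρ i).IsHomogeneous
      (j * N + 2 * d₀ + 3 * k + 14) := by
    intro i
    have hD1 : (Q.det).IsHomogeneous 6 := by rw [hdet]; exact hf
    have e1 : (2 * (e * σ ^ 2 - Q.det * y * Y2 ^ 2)).IsHomogeneous
        (j * N + (2 * d₀ + 10) + 2 * k) := by
      have c1 := heh.mul (hσ.pow 2)
      have c2 := (hD1.mul hyh).mul (hY2h.pow 2)
      rw [show j * N + (2 * d₀ + 10) + k * 2 = j * N + (2 * d₀ + 10) + 2 * k by ring] at c1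
      rw [show 6 + (j * N + 2 * k + 4) + d₀ * 2 = j * N + (2 * d₀ + 10) + 2 * k by ring] at c2
      have c3 := (isHomogeneous_C (Fin 3) (2 : ℂ)).mul (c1.sub c2)
      rw [zero_add] at c3
      exact c3
    have e2 : ((σ • gz1 Q lamP nP + ρ • gz2 Q nP) i).IsHomogeneous (k + 4) := by
      exact (hσ.mul (hz1h i)).add (hρ.mul (hz2h i))
    have e3 : (gD Q nP * Q.det * y * (σ * Y1 - ρ * Y2)).IsHomogeneous
        (2 + 6 + (j * N + 2 * k + 4) + (k + (d₀ + 2))) := by
      have c1 := hσ.mul hY1h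
      have c2 := hρ.mul hY2h
      rw [show k + 2 + d₀ = k + (d₀ + 2) by ring] at c2
      exact ((hDh.mul hD1).mul hyh).mul (c1.sub c2)
    have e4 := e1.mul e2
    have e5 := e3.mul (hl₀ i)
    rw [show j * N + (2 * d₀ + 10) + 2 * k + (k + 4) = j * N + 2 * d₀ + 3 * k + 14 by ring] at e4
    rw [show 2 + 6 + (j * N + 2 * k + 4) + (k + (d₀ + 2)) + d₀ =
      j * N + 2 * d₀ + 3 * k + 14 by ring] at e5
    exact e4.sub e5
  refine ⟨_, gvec Q lamP nP l₀ e y σ ρ, hh, ?_, ?_, ?_⟩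
  · obtain ⟨s, hs⟩ := hSne
    obtain ⟨i, hi⟩ := hne s hs
    refine ⟨i, ?_⟩
    rintro ⟨c, hc⟩
    apply hi
    rw [hc, map_mul, (hS s hs).2.1, zero_mul]
  · rw [gvec_norm sQ hn, hdet]
    refine dvd_add (Dvd.dvd.mul_left ?_ _) (hiso.mul_left _)
    exact hy
  · intro z hz hzf hzg
    obtain ⟨s, hs, c, rfl⟩ := hS' z hz hzg hzf
    obtain ⟨i, hi⟩ := hne s hs
    refine ⟨i, ?_⟩
    rw [eval_smul' (hh i)]
    refine mul_ne_zero (pow_ne_zero _ ?_) hi
    rintro rfl
    exact hz (zero_smul _ _)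

/-- Good isotropic vectors, with coordinates in which `g` is monic in the last variable and neither
`f` nor some entry of the isotropic vector has a zero on the curve at infinity. -/
theorem exists_good_isotropic_coord (hf : f.IsHomogeneous 6) (hg : g.IsHomogeneous m)
    (hm : 0 < m) (pg : Prime g) (hgf : ¬ g ∣ f) (sQ : Q.IsSymm)
    (hQ : ∀ i j, (Q i j).IsHomogeneous 2) (hdet : Q.det = f)
    (hA0 : ∀ z : Fin 3 → ℂ, z ≠ 0 → eval z f = 0 → eval z g = 0 →
      ∃ i j, eval z (Q.adjugate i j) ≠ 0) :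
    ∃ (a : ℕ) (l : Fin 3 → P3) (P : Matrix (Fin 3) (Fin 3) ℂ) (i : Fin 3),
      (∀ i, (l i).IsHomogeneous a) ∧ (¬ g ∣ l i) ∧ g ∣ l ⬝ᵥ Q.adjugate.mulVec l ∧
      (∀ z : Fin 3 → ℂ, z ≠ 0 → eval z f = 0 → eval z g = 0 → ∃ i, eval z (l i) ≠ 0) ∧
      IsUnit P.det ∧ eval ![0, 0, 1] (lin P g) ≠ 0 ∧
      ∀ z : Fin 3 → ℂ, z ≠ 0 → z 0 = 0 → eval z (lin P g) = 0 →
        eval z (lin P f) ≠ 0 ∧ eval z (lin P (l i)) ≠ 0 := by
  obtain ⟨a, l, hl, ⟨i, hi⟩, hz, hgood⟩ := exists_good_isotropic hf hg hm pg hgf sQ hQ hdet hA0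
  obtain ⟨P, hP, h1, h2⟩ := exists_coord hg pg (hf.mul (hl i))
    (fun h => (pg.dvd_or_dvd h).elim hgf hi)
  refine ⟨a, l, P, i, hl, hi, hz, hgood, hP, h1, fun z hz0 hz1 hz2 => ?_⟩
  have h3 := h2 z hz0 hz1 hz2
  rw [map_mul, map_mul] at h3
  exact ⟨left_ne_zero_of_mul h3, right_ne_zero_of_mul h3⟩

end Main

end Forms

end Vale.Agent.P287.C8
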