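import Vale.Agent.P287.C8.Inv
import Vale.Agent.P287.C8.BasicM

/-!
Invariance of the lattices of `C8/BasicM.lean` under linear changes of the homogeneous coordinates.
-/

namespace Vale.Agent.P287.C8

open MvPolynomial Module Vale.Agent.P287 Vale.Agent.P287.H925 Vale.Agent.P287.Theta

variable {T : Matrix (Fin 3) (Fin 3) ℂ}

/-- componentwise application of `qe` -/
noncomputable def qe4 (hT : IsUnit T.det) (g : P3) :
    (Fin 4 → RG g) ≃ₗ[ℂ] (Fin 4 → RG (lin T g)) :=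
  LinearEquiv.piCongrRight fun _ => (qe hT g).toLinearEquiv

lemma qe4_apply (hT : IsUnit T.det) (g : P3) (v : Fin 4 → RG g) (i : Fin 4) :
    qe4 hT g v i = qe hT g (v i) := rfl

lemma mulVec_lin4 (hT : IsUnit T.det) (g : P3) (A : Matrix (Fin 4) (Fin 4) P3)
    (v : Fin 4 → RG g) (i : Fin 4) :
    ((qm4 (lin T g) (A.map (lin T))).mulVec (qe4 hT g v)) i = qe hT g (((qm4 g A).mulVec v) i) :=
  (RingHom.map_mulVec ((qe hT g : RG g ≃ₐ[ℂ] RG (lin T g)) : RG g →+* RG (lin T g))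
    (qm4 g A) v i).symm

lemma dotProduct_lin4 (hT : IsUnit T.det) (g : P3) (v w : Fin 4 → RG g) :
    dotProduct (qe4 hT g v) (qe4 hT g w) = qe hT g (dotProduct v w) := by
  simp only [dotProduct, map_sum, map_mul, qe4_apply]

lemma minor3_lin (hT : IsUnit T.det) (g : P3) (l u v : Fin 4 → RG g) (i j k : Fin 4) :
    minor3 (qe4 hT g l) (qe4 hT g u) (qe4 hT g v) i j k = qe hT g (minor3 l u v i j k) := by
  simp only [minor3, map_add, map_sub, map_mul, qe4_apply]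

lemma WM_lin (hT : IsUnit T.det) (f g : P3) (A : Matrix (Fin 4) (Fin 4) P3) (d : ℕ) :
    WM (lin T f) (lin T g) (A.map (lin T)) d = (WM f g A d).map (qe4 hT g).toLinearMap := by
  have key : ∀ v : Fin 4 → RG g, qe4 hT g v ∈ WM (lin T f) (lin T g) (A.map (lin T)) d ↔
      v ∈ WM f g A d := by
    intro v
    change ((∀ i, qe4 hT g v i ∈ gr (lin T g) (d + wt i)) ∧ ∀ j,
      ((qm4 (lin T g) (A.map (lin T))).mulVec (qe4 hT g v)) j ∈
        Jq (lin T f) (lin T g) (d + 5 - wt j)) ↔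
      ((∀ i, v i ∈ gr g (d + wt i)) ∧ ∀ j, ((qm4 g A).mulVec v) j ∈ Jq f g (d + 5 - wt j))
    simp only [mulVec_lin4 hT, qe4_apply, mem_gr_lin hT, mem_Jq_lin hT]
  ext v
  obtain ⟨w, rfl⟩ := (qe4 hT g).surjective v
  rw [key]
  constructor
  · intro h
    exact ⟨w, h, rfl⟩
  · rintro ⟨y, hy, h⟩
    have : y = w := (qe4 hT g).injective h
    rwa [← this]

lemma KM_lin (hT : IsUnit T.det) (g : P3) (u v : Fin 4 → RG g) (d : ℕ) :
    KM (lin T g) (qe4 hT g u) (qe4 hT g v) d = (KM g u v d).map (qe4 hT g).toLinearMap := by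
  have key : ∀ l : Fin 4 → RG g, qe4 hT g l ∈ KM (lin T g) (qe4 hT g u) (qe4 hT g v) d ↔
      l ∈ KM g u v d := by
    intro l
    change ((∀ i, qe4 hT g l i ∈ gr (lin T g) (d + wt i)) ∧ ∀ i j k,
      minor3 (qe4 hT g l) (qe4 hT g u) (qe4 hT g v) i j k = 0) ↔
      ((∀ i, l i ∈ gr g (d + wt i)) ∧ ∀ i j k, minor3 l u v i j k = 0)
    simp only [minor3_lin hT, qe4_apply, mem_gr_lin hT, EmbeddingLike.map_eq_zero_iff]
  ext l
  obtain ⟨w, rfl⟩ := (qe4 hT g).surjective l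
  rw [key]
  constructor
  · intro h
    exact ⟨w, h, rfl⟩
  · rintro ⟨y, hy, h⟩
    have : y = w := (qe4 hT g).injective h
    rwa [← this]

theorem finrank_WM_lin (hT : IsUnit T.det) (f g : P3) (A : Matrix (Fin 4) (Fin 4) P3) (d : ℕ) :
    finrank ℂ (WM (lin T f) (lin T g) (A.map (lin T)) d) = finrank ℂ (WM f g A d) := by
  rw [WM_lin hT]
  exact LinearEquiv.finrank_map_eq (qe4 hT g) _

theorem finrank_KM_lin (hT : IsUnit T.det) (g : P3) (u v : Fin 4 → RG g) (d : ℕ) :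
    finrank ℂ (KM (lin T g) (qe4 hT g u) (qe4 hT g v) d) = finrank ℂ (KM g u v d) := by
  rw [KM_lin hT]
  exact LinearEquiv.finrank_map_eq (qe4 hT g) _

end Vale.Agent.P287.C8
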