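import Mathlib

/-!
The rank of an alternating form is even; parity of the intersections of three Lagrangian subspaces.
-/

namespace Vale.Agent.P287.C8

open Module LinearMap LinearMap.BilinForm

section alt

variable {k : Type*} [Field k] {V : Type*} [AddCommGroup V] [Module k V] [FiniteDimensional k V]

/-- A space with a nondegenerate alternating form has even dimension. -/
lemma even_finrank_of_alt (h2 : (2 : k) ≠ 0) (ω : LinearMap.BilinForm k V)
    (hω : ∀ x, ω x x = 0) (hnd : ∀ x, (∀ y, ω x y = 0) → x = 0) : Even (finrank k V) := by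
  classical
  by_contra hodd
  rw [Nat.not_even_iff_odd] at hodd
  let b := finBasis k V
  set M : Matrix (Fin (finrank k V)) (Fin (finrank k V)) k :=
    Matrix.of fun i j => ω (b i) (b j) with hM
  have hskew : ∀ x y, ω x y = - ω y x := by
    intro x y
    have h := hω (x + y)
    simp only [map_add, LinearMap.add_apply, hω, zero_add, add_zero] at h
    exact eq_neg_of_add_eq_zero_right h
  have hMt : M.transpose = -M := by
    ext i j
    rw [Matrix.transpose_apply, Matrix.neg_apply, hM, Matrix.of_apply, Matrix.of_apply, hskew]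
  have hdet : M.det = 0 := by
    have h1 := congrArg Matrix.det hMt
    rw [Matrix.det_transpose, Matrix.det_neg, Fintype.card_fin, hodd.neg_one_pow, neg_one_mul]
      at h1
    have h3 : (2 : k) * M.det = 0 := by linear_combination h1
    exact (mul_eq_zero.mp h3).resolve_left h2
  obtain ⟨v, hv, hv0⟩ := Matrix.exists_vecMul_eq_zero_iff.mpr hdet
  apply hv
  have hx : (∑ i, v i • b i) = 0 := by
    apply hnd
    intro y
    have key : ∀ j, ω (∑ i, v i • b i) (b j) = 0 := by
      intro j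
      have h4 := congrFun hv0 j
      rw [Matrix.vecMul, dotProduct] at h4
      rw [map_sum, LinearMap.sum_apply]
      simp only [map_smul, LinearMap.smul_apply, smul_eq_mul]
      simpa [hM] using h4
    rw [← b.sum_repr y, map_sum]
    refine Finset.sum_eq_zero fun j _ => ?_
    rw [map_smul, key, smul_zero]
  funext i
  have := b.linearIndependent
  rw [Fintype.linearIndependent_iff] at this
  exact this v hx i

/-- The rank of an alternating form is even. -/
lemma even_finrank_sub_radical (h2 : (2 : k) ≠ 0) (ω : LinearMap.BilinForm k V)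
    (hω : ∀ x, ω x x = 0) (R : Submodule k V) (hR : ∀ x, x ∈ R ↔ ∀ y, ω x y = 0) :
    Even (finrank k V + finrank k R) := by
  obtain ⟨C, hC⟩ := Submodule.exists_isCompl R
  have h1 : finrank k R + finrank k C = finrank k V :=
    Submodule.finrank_add_eq_of_isCompl hC
  have hskew : ∀ x y, ω x y = - ω y x := by
    intro x y
    have h := hω (x + y)
    simp only [map_add, LinearMap.add_apply, hω, zero_add, add_zero] at h
    exact eq_neg_of_add_eq_zero_right h
  have h3 : Even (finrank k C) := by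
    refine even_finrank_of_alt h2 (ω.restrict C) (fun x => hω x) ?_
    intro x hx
    have hxR : (x : V) ∈ R := by
      rw [hR]
      intro y
      obtain ⟨r, hr, c, hc, rfl⟩ := Submodule.mem_sup.mp
        (hC.sup_eq_top ▸ Submodule.mem_top : y ∈ R ⊔ C)
      rw [map_add, hskew _ r, (hR r).mp hr, neg_zero, zero_add]
      exact hx ⟨c, hc⟩
    have h4 : (x : V) ∈ R ⊓ C := ⟨hxR, x.2⟩
    rw [hC.inf_eq_bot, Submodule.mem_bot] at h4
    exact Subtype.ext h4
  rw [← h1]
  obtain ⟨c, hc⟩ := h3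
  exact ⟨finrank k R + c, by omega⟩

end alt

section three

variable {k : Type*} [Field k] {V : Type*} [AddCommGroup V] [Module k V] [FiniteDimensional k V]

/-- A Lagrangian subspace is its own orthogonal. -/
lemma orthogonal_eq_self {B : LinearMap.BilinForm k V} (hnd : B.Nondegenerate)
    {L : Submodule k V} {h : ℕ} (hV : finrank k V = 2 * h) (hL : ∀ x ∈ L, ∀ y ∈ L, B x y = 0)
    (hLh : finrank k L = h) : B.orthogonal L = L := by
  symm
  refine Submodule.eq_of_le_of_finrank_eq (fun x hx y hy => hL y hy x hx) ?_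
  rw [finrank_orthogonal hnd, hV, hLh]
  omega

/-- **Parity of the intersections of three Lagrangian subspaces.** -/
theorem lagrangian_triple (h2 : (2 : k) ≠ 0) (B : LinearMap.BilinForm k V)
    (hB : ∀ x y, B x y = B y x) (hnd : B.Nondegenerate) {h : ℕ} (hV : finrank k V = 2 * h)
    (L₁ L₂ L₃ : Submodule k V)
    (h₁ : ∀ x ∈ L₁, ∀ y ∈ L₁, B x y = 0) (h₂ : ∀ x ∈ L₂, ∀ y ∈ L₂, B x y = 0)
    (h₃ : ∀ x ∈ L₃, ∀ y ∈ L₃, B x y = 0)
    (d₁ : finrank k L₁ = h) (d₂ : finrank k L₂ = h) (d₃ : finrank k L₃ = h) :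
    Even (finrank k ↥(L₁ ⊓ L₂) + finrank k ↥(L₂ ⊓ L₃) + finrank k ↥(L₁ ⊓ L₃) + h) := by
  have hrefl : B.IsRefl := fun x y hxy => by rw [hB]; exact hxy
  have o₁ := orthogonal_eq_self hnd hV h₁ d₁
  have o₂ := orthogonal_eq_self hnd hV h₂ d₂
  have o₃ := orthogonal_eq_self hnd hV h₃ d₃
  have osup : ∀ P Q : Submodule k V, B.orthogonal (P ⊔ Q) = B.orthogonal P ⊓ B.orthogonal Q := by
    intro P Q
    apply le_antisymm
    · exact le_inf (orthogonal_le le_sup_left) (orthogonal_le le_sup_right)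
    · rintro x ⟨hx1, hx2⟩ y hy
      obtain ⟨p, hp, q, hq, rfl⟩ := Submodule.mem_sup.mp hy
      rw [map_add, LinearMap.add_apply]
      rw [show B p x = 0 from hx1 p hp, show B q x = 0 from hx2 q hq, add_zero]
  -- the space of triples with zero sum
  let s : (L₁ × L₂) →ₗ[k] V := (L₁.subtype.comp (LinearMap.fst k L₁ L₂)) +
    (L₂.subtype.comp (LinearMap.snd k L₁ L₂))
  have hs : ∀ p, s p = (p.1 : V) + (p.2 : V) := fun p => rfl
  let T : Submodule k (L₁ × L₂) := L₃.comap s
  have hT : ∀ p, p ∈ T ↔ (p.1 : V) + (p.2 : V) ∈ L₃ := fun p => Iff.rfl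
  let ω : LinearMap.BilinForm k T :=
    ((B.compl₁₂ (L₁.subtype.comp (LinearMap.fst k L₁ L₂))
      (L₂.subtype.comp (LinearMap.snd k L₁ L₂))).domRestrict₁₂ T T)
  have hω : ∀ p q : T, ω p q = B ((p : L₁ × L₂).1 : V) ((q : L₁ × L₂).2 : V) := fun p q => rfl
  have halt : ∀ p : T, ω p p = 0 := by
    intro p
    rw [hω]
    have h5 := h₃ _ ((hT p).mp p.2) _ ((hT p).mp p.2)
    simp only [map_add, LinearMap.add_apply] at h5
    rw [h₁ _ (p : L₁ × L₂).1.2 _ (p : L₁ × L₂).1.2,
      h₂ _ (p : L₁ × L₂).2.2 _ (p : L₁ × L₂).2.2, zero_add, add_zero,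
      hB ((p : L₁ × L₂).2 : V)] at h5
    have h6 : (2 : k) * B ((p : L₁ × L₂).1 : V) ((p : L₁ × L₂).2 : V) = 0 := by
      linear_combination h5
    exact (mul_eq_zero.mp h6).resolve_left h2
  -- the radical
  let e : ((↥(L₁ ⊓ L₂)) × (↥(L₁ ⊓ L₃)) × (↥(L₂ ⊓ L₃))) →ₗ[k] T :=
    LinearMap.codRestrict T
      (LinearMap.prod
        (((Submodule.inclusion (inf_le_left : L₁ ⊓ L₂ ≤ L₁)).comp (LinearMap.fst k _ _)) +
          ((Submodule.inclusion (inf_le_left : L₁ ⊓ L₃ ≤ L₁)).comp
            ((LinearMap.fst k _ _).comp (LinearMap.snd k _ _))))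
        (((Submodule.inclusion (inf_le_left : L₂ ⊓ L₃ ≤ L₂)).comp
            ((LinearMap.snd k _ _).comp (LinearMap.snd k _ _))) -
          ((Submodule.inclusion (inf_le_right : L₁ ⊓ L₂ ≤ L₂)).comp (LinearMap.fst k _ _))))
      (by
        rintro ⟨x, y, z⟩
        rw [hT]
        have : ((x : V) + (y : V)) + ((z : V) - (x : V)) = y + z := by abel
        change ((x : V) + (y : V)) + ((z : V) - (x : V)) ∈ L₃
        rw [this]
        exact L₃.add_mem y.2.2 z.2.2)
  have he1 : ∀ x y z, (((e (x, y, z) : T) : L₁ × L₂).1 : V) = (x : V) + (y : V) := fun _ _ _ => rfl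
  have he2 : ∀ x y z, (((e (x, y, z) : T) : L₁ × L₂).2 : V) = (z : V) - (x : V) := fun _ _ _ => rfl
  have hrad : ∀ p : T, p ∈ LinearMap.range e ↔ ∀ q, ω p q = 0 := by
    intro p
    constructor
    · rintro ⟨⟨x, y, z⟩, rfl⟩ q
      rw [hω, he1, map_add, LinearMap.add_apply, h₂ _ x.2.2 _ (q : L₁ × L₂).2.2, zero_add]
      have h7 : ((q : L₁ × L₂).2 : V) =
          (((q : L₁ × L₂).1 : V) + ((q : L₁ × L₂).2 : V)) - ((q : L₁ × L₂).1 : V) := by abel
      rw [h7, map_sub, h₃ _ y.2.2 _ ((hT q).mp q.2), h₁ _ y.2.1 _ (q : L₁ × L₂).1.2, sub_zero]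
    · intro hp
      have h8 : ((p : L₁ × L₂).1 : V) ∈ B.orthogonal (L₂ ⊓ (L₁ ⊔ L₃)) := by
        rintro b' ⟨hb2, hb'⟩
        obtain ⟨a', ha', c', hc', hac⟩ := Submodule.mem_sup.mp hb'
        have hq : ((⟨-a', L₁.neg_mem ha'⟩ : L₁), (⟨b', hb2⟩ : L₂)) ∈ T := by
          rw [hT]
          change -a' + b' ∈ L₃
          have : -a' + b' = c' := by rw [← hac]; abel
          rw [this]; exact hc'
        have h9 := hp ⟨_, hq⟩
        rw [hω] at h9
        rw [hB]
        exact h9
      have h10 : B.orthogonal (L₂ ⊓ (L₁ ⊔ L₃)) = L₂ ⊔ (L₁ ⊓ L₃) := by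
        have : L₂ ⊓ (L₁ ⊔ L₃) = B.orthogonal (L₂ ⊔ (L₁ ⊓ L₃)) := by
          rw [osup, o₂]
          congr 1
          have h11 : L₁ ⊓ L₃ = B.orthogonal (L₁ ⊔ L₃) := by rw [osup, o₁, o₃]
          rw [h11, orthogonal_orthogonal hnd hrefl]
        rw [this, orthogonal_orthogonal hnd hrefl]
      rw [h10] at h8
      obtain ⟨b₀, hb₀, e₀, he₀, hbe⟩ := Submodule.mem_sup.mp h8
      have hb₁ : b₀ ∈ L₁ := by
        have : b₀ = ((p : L₁ × L₂).1 : V) - e₀ := by rw [← hbe]; abel
        rw [this]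
        exact L₁.sub_mem (p : L₁ × L₂).1.2 he₀.1
      have hz : ((p : L₁ × L₂).2 : V) + b₀ ∈ L₃ := by
        have : ((p : L₁ × L₂).2 : V) + b₀ =
            (((p : L₁ × L₂).1 : V) + ((p : L₁ × L₂).2 : V)) - e₀ := by rw [← hbe]; abel
        rw [this]
        exact L₃.sub_mem ((hT p).mp p.2) he₀.2
      refine ⟨(⟨b₀, hb₁, hb₀⟩, ⟨e₀, he₀⟩, ⟨((p : L₁ × L₂).2 : V) + b₀,
        L₂.add_mem (p : L₁ × L₂).2.2 hb₀, hz⟩), ?_⟩
      apply Subtype.ext
      apply Prod.ext
      · apply Subtype.ext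
        rw [he1]
        exact hbe
      · apply Subtype.ext
        rw [he2]
        change ((p : L₁ × L₂).2 : V) + b₀ - b₀ = _
        abel
  have heven := even_finrank_sub_radical h2 ω halt (LinearMap.range e) hrad
  -- dimension of `T`
  have hL123 : finrank k ↥(L₁ ⊔ L₂ ⊔ L₃) + finrank k ↥(L₁ ⊓ L₂ ⊓ L₃) = 2 * h := by
    have h12 : L₁ ⊓ L₂ ⊓ L₃ = B.orthogonal (L₁ ⊔ L₂ ⊔ L₃) := by rw [osup, osup, o₁, o₂, o₃]
    rw [h12, finrank_orthogonal hnd, hV]
    have := Submodule.finrank_le (L₁ ⊔ L₂ ⊔ L₃)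
    omega
  have hTd : finrank k T = h + finrank k ↥(L₁ ⊓ L₂ ⊓ L₃) := by
    let s' : (L₁ × L₂ × L₃) →ₗ[k] V := s.comp
      (LinearMap.prod (LinearMap.fst k _ _) ((LinearMap.fst k _ _).comp (LinearMap.snd k _ _))) -
      L₃.subtype.comp ((LinearMap.snd k _ _).comp (LinearMap.snd k _ _))
    have hs' : ∀ x y z, s' (x, y, z) = (x : V) + (y : V) - (z : V) := fun _ _ _ => rfl
    have hr : LinearMap.range s' = L₁ ⊔ L₂ ⊔ L₃ := by
      apply le_antisymm
      · rintro _ ⟨⟨x, y, z⟩, rfl⟩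
        rw [hs', sub_eq_add_neg]
        exact Submodule.add_mem_sup (Submodule.add_mem_sup x.2 y.2) (L₃.neg_mem z.2)
      · intro v hv
        obtain ⟨u, hu, z, hz, rfl⟩ := Submodule.mem_sup.mp hv
        obtain ⟨x, hx, y, hy, rfl⟩ := Submodule.mem_sup.mp hu
        refine ⟨(⟨x, hx⟩, ⟨y, hy⟩, ⟨-z, L₃.neg_mem hz⟩), ?_⟩
        rw [hs']
        change x + y - -z = _
        abel
    have hk : finrank k (LinearMap.ker s') = finrank k T := by
      refine LinearEquiv.finrank_eq (LinearEquiv.ofBijective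
        (LinearMap.codRestrict T ((LinearMap.prod (LinearMap.fst k _ _)
          ((LinearMap.fst k _ _).comp (LinearMap.snd k _ _))).comp
            (LinearMap.ker s').subtype) ?_) ⟨?_, ?_⟩)
      · rintro ⟨⟨x, y, z⟩, hxyz⟩
        rw [LinearMap.mem_ker, hs', sub_eq_zero] at hxyz
        rw [hT]
        change (x : V) + (y : V) ∈ L₃
        rw [hxyz]
        exact z.2
      · rw [injective_iff_map_eq_zero]
        rintro ⟨⟨x, y, z⟩, hxyz⟩ h0
        rw [LinearMap.mem_ker, hs', sub_eq_zero] at hxyz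
        have h1 := congrArg (fun t : T => (t : L₁ × L₂)) h0
        have h2' : x = 0 := congrArg Prod.fst h1
        have h3' : y = 0 := congrArg Prod.snd h1
        apply Subtype.ext
        refine Prod.ext h2' (Prod.ext h3' ?_)
        rw [h2', h3'] at hxyz
        apply Subtype.ext
        change (z : V) = 0
        rw [← hxyz]
        simp
      · rintro ⟨⟨x, y⟩, hxy⟩
        refine ⟨⟨(x, y, ⟨(x : V) + (y : V), (hT _).mp hxy⟩), ?_⟩, rfl⟩
        rw [LinearMap.mem_ker, hs']
        exact sub_self _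
    have h13 := LinearMap.finrank_range_add_finrank_ker s'
    rw [hr, hk, finrank_prod, finrank_prod, d₁, d₂, d₃] at h13
    omega
  have hed : finrank k (LinearMap.range e) + finrank k ↥(L₁ ⊓ L₂ ⊓ L₃) =
      finrank k ↥(L₁ ⊓ L₂) + finrank k ↥(L₁ ⊓ L₃) + finrank k ↥(L₂ ⊓ L₃) := by
    have h14 := LinearMap.finrank_range_add_finrank_ker e
    rw [finrank_prod, finrank_prod] at h14
    have h15 : finrank k (LinearMap.ker e) = finrank k ↥(L₁ ⊓ L₂ ⊓ L₃) := by
      symm
      refine LinearEquiv.finrank_eq (LinearEquiv.ofBijective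
        (LinearMap.codRestrict (LinearMap.ker e)
          (LinearMap.prod (Submodule.inclusion (inf_le_left : L₁ ⊓ L₂ ⊓ L₃ ≤ L₁ ⊓ L₂))
            (LinearMap.prod
              (-(Submodule.inclusion (le_inf (inf_le_left.trans inf_le_left) inf_le_right :
                L₁ ⊓ L₂ ⊓ L₃ ≤ L₁ ⊓ L₃)))
              (Submodule.inclusion (le_inf (inf_le_left.trans inf_le_right) inf_le_right :
                L₁ ⊓ L₂ ⊓ L₃ ≤ L₂ ⊓ L₃)))) ?_) ⟨?_, ?_⟩)
      · intro x
        rw [LinearMap.mem_ker]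
        apply Subtype.ext
        apply Prod.ext
        · apply Subtype.ext
          change (x : V) + -(x : V) = 0
          abel
        · apply Subtype.ext
          change (x : V) - (x : V) = 0
          abel
      · rw [injective_iff_map_eq_zero]
        intro x hx
        have h17 := congrArg (fun t : LinearMap.ker e =>
          (((t : ↥(L₁ ⊓ L₂) × ↥(L₁ ⊓ L₃) × ↥(L₂ ⊓ L₃)).1 : ↥(L₁ ⊓ L₂)) : V)) hx
        exact Subtype.ext h17
      · rintro ⟨⟨x, y, z⟩, hxyz⟩
        rw [LinearMap.mem_ker] at hxyz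
        have h18 : (x : V) + (y : V) = 0 := by rw [← he1 x y z, hxyz]; rfl
        have h19 : (z : V) - (x : V) = 0 := by rw [← he2 x y z, hxyz]; rfl
        have hy : (y : V) = -(x : V) := by rw [eq_neg_iff_add_eq_zero, add_comm]; exact h18
        have hz : (z : V) = x := sub_eq_zero.mp h19
        refine ⟨⟨x, ⟨x.2, hz ▸ z.2.2⟩⟩, ?_⟩
        apply Subtype.ext
        refine Prod.ext (Subtype.ext rfl) (Prod.ext (Subtype.ext ?_) (Subtype.ext ?_))
        · exact hy.symm
        · exact hz.symm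
    omega
  rw [Nat.even_iff] at heven ⊢
  omega

end three

end Vale.Agent.P287.C8
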