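import Vale.Agent.P287.C8.Basic

/-!
The odd theta characteristic of the cubic: it has exactly one section.
-/

namespace Vale.Agent.P287.C8

open MvPolynomial Matrix Vale.Agent.P287 Vale.Agent.P287.H925 Vale.Agent.P287.Theta

/-- entries of the adjugate of a weighted homogeneous matrix -/
lemma adj_weighted {n : ℕ} (M : Matrix (Fin (n + 1)) (Fin (n + 1)) P3) (w : Fin (n + 1) → ℕ)
    (h : ∀ i j, (M i j).IsHomogeneous (1 + w i + w j)) (i j : Fin (n + 1)) (e : ℕ)
    (he : e + (1 + w i + w j) = ∑ k, (1 + w k + w k)) :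
    (M.adjugate i j).IsHomogeneous e := by
  rw [Matrix.adjugate_fin_succ_eq_det_submatrix]
  have h1 : (M.submatrix j.succAbove i.succAbove).det.IsHomogeneous e := by
    rw [Matrix.det_apply]
    refine IsHomogeneous.sum _ _ _ fun τ _ => ?_
    have h1 : (∏ k, (M.submatrix j.succAbove i.succAbove) (τ k) k).IsHomogeneous
        (∑ k, (1 + w (j.succAbove (τ k)) + w (i.succAbove k))) :=
      IsHomogeneous.prod _ _ _ fun k _ => h _ _
    have h2 : ∑ k, (1 + w (j.succAbove (τ k)) + w (i.succAbove k)) = e := by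
      simp only [Finset.sum_add_distrib, Finset.sum_const, Finset.card_univ, Fintype.card_fin,
        smul_eq_mul, mul_one] at he ⊢
      rw [Equiv.sum_comp τ (fun k => w (j.succAbove k))]
      have h3 := Fin.sum_univ_succAbove w i
      have h4 := Fin.sum_univ_succAbove w j
      omega
    rw [h2] at h1
    rcases Int.units_eq_one_or (Equiv.Perm.sign τ) with h3 | h3 <;> rw [h3]
    · simpa using h1
    · simpa using h1.neg
  rcases neg_one_pow_eq_or P3 ((j : ℕ) + (i : ℕ)) with h3 | h3 <;> rw [h3]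
  · simpa using h1
  · simpa using h1.neg

/-- a form of degree `d` divisible by a form of degree `d` is a constant multiple of it -/
lemma eq_C_mul_of_dvd {f p : P3} {d : ℕ} (hf : f.IsHomogeneous d) (hp : p.IsHomogeneous d)
    (h : f ∣ p) : ∃ c : ℂ, p = C c * f := by
  by_cases hp0 : p = 0
  · exact ⟨0, by rw [hp0, map_zero, zero_mul]⟩
  obtain ⟨q, hq⟩ := h
  obtain ⟨n, hn, hqn⟩ := degree_le_of_mul hf (hq ▸ hp) (hq ▸ hp0)
  have h0 : n = 0 := by omega
  subst h0
  have hq0 : q ≠ 0 := by
    rintro rfl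
    exact hp0 (by rw [hq, mul_zero])
  refine ⟨q.coeff 0, ?_⟩
  have h2 : q = C (q.coeff 0) := by
    rw [← totalDegree_eq_zero_iff_eq_C]
    exact hqn.totalDegree hq0
  rw [← h2, hq, mul_comm]

/-- The odd theta characteristic has exactly one section (distinguished index `0`). -/
theorem odd_aux {N : Matrix (Fin 4) (Fin 4) P3} (hN : N.IsSymm)
    (hdeg : ∀ i j, (N i j).IsHomogeneous
      (1 + (![1, 0, 0, 0] : Fin 4 → ℕ) i + (![1, 0, 0, 0] : Fin 4 → ℕ) j))
    (hsm : SmoothP N.det) (hδ : N.adjugate 0 0 ≠ 0) {a : P3} (ha : a.IsHomogeneous 3)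
    (h : a ^ 2 ∈ (Ideal.span {N.adjugate 0 0, N.det} : Ideal P3)) :
    ∃ c : ℂ, a = C c * N.adjugate 0 0 := by
  set w : Fin 4 → ℕ := ![1, 0, 0, 0] with hw
  have hf : N.det.IsHomogeneous 6 := det_weighted N w 6 hdeg (by rw [hw]; decide)
  have hp : Prime N.det := prime_of_smoothP hf (by norm_num) hsm
  have hδ3 : (N.adjugate 0 0).IsHomogeneous 3 :=
    adj_weighted N w hdeg 0 0 3 (by rw [hw]; decide)
  have hfδ : ¬ N.det ∣ N.adjugate 0 0 := not_dvd_of_degree hf hδ3 hδ (by norm_num)
  have hv : ∀ i, (N.adjugate i 0).IsHomogeneous (4 - w i) := by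
    intro i
    refine adj_weighted N w hdeg i 0 _ ?_
    rw [hw]
    fin_cases i <;> decide
  have hv2 : ∀ i, (N.adjugate i 0) ^ 2 ∈ (Ideal.span {N.adjugate 0 0, N.det} : Ideal P3) := by
    intro i
    have h1 : N.det ∣ N.adjugate 0 0 * N.adjugate i i - N.adjugate 0 i ^ 2 := by
      have h1 := dvd_minor_adjugate N hp dvd_rfl hfδ i i
      have h2 : N.adjugate i 0 = N.adjugate 0 i := by
        have h := Matrix.adjugate_transpose N
        rw [hN.eq] at h
        exact (congrFun (congrFun h i) 0).symm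
      rw [h2] at h1
      rwa [pow_two]
    have h2 : N.adjugate i 0 = N.adjugate 0 i := by
      have h := Matrix.adjugate_transpose N
      rw [hN.eq] at h
      exact (congrFun (congrFun h i) 0).symm
    obtain ⟨c, hc⟩ := h1
    rw [h2]
    exact Ideal.mem_span_pair.2 ⟨N.adjugate i i, -c, by linear_combination hc⟩
  have hex : ∀ i, ∃ y : P3, y.IsHomogeneous (4 - w i) ∧ (i = 0 → y = a) ∧
      N.det ∣ a * N.adjugate i 0 - N.adjugate 0 0 * y := by
    intro i
    by_cases hi : i = 0
    · subst hi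
      refine ⟨a, ?_, fun _ => rfl, ?_⟩
      · have h3 : 4 - w 0 = 3 := by rw [hw]; decide
        rw [h3]; exact ha
      · rw [mul_comm, sub_self]; exact dvd_zero _
    · have hb := ha.mul (hv i)
      obtain ⟨y, hy, hy'⟩ := exists_homog_coeff hb hδ3 hf
        (mul_mem_span hf (by norm_num) hp hsm hδ3 hfδ hb h (hv2 i))
      exact ⟨y, hy, fun h => absurd h hi, hy'⟩
  choose y hy hy0 hyd using hex
  have hNv : ∀ i, ∑ j, N i j * N.adjugate j 0 = if i = 0 then N.det else 0 := by
    intro i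
    have h1 := congrFun (congrFun (Matrix.mul_adjugate N) i) 0
    rw [Matrix.mul_apply] at h1
    rw [h1, Matrix.smul_apply, Matrix.one_apply, smul_eq_mul]
    split_ifs <;> simp
  have hNy : ∀ i, N.det ∣ ∑ j, N i j * y j := by
    intro i
    have h1 : N.det ∣ N.adjugate 0 0 * ∑ j, N i j * y j := by
      have e : N.adjugate 0 0 * ∑ j, N i j * y j = a * (∑ j, N i j * N.adjugate j 0) -
          ∑ j, N i j * (a * N.adjugate j 0 - N.adjugate 0 0 * y j) := by
        rw [Finset.mul_sum, Finset.mul_sum, ← Finset.sum_sub_distrib]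
        refine Finset.sum_congr rfl fun j _ => ?_
        ring
      rw [e, hNv]
      refine dvd_sub ?_ (Finset.dvd_sum fun j _ => (hyd j).mul_left _)
      split_ifs
      · exact dvd_mul_left _ _
      · rw [mul_zero]; exact dvd_zero _
    exact (hp.dvd_or_dvd h1).resolve_left hfδ
  have hNyh : ∀ i, (∑ j, N i j * y j).IsHomogeneous (5 + w i) := by
    intro i
    refine IsHomogeneous.sum _ _ _ fun j _ => ?_
    have h1 := (hdeg i j).mul (hy j)
    have h2 : 1 + w i + w j + (4 - w j) = 5 + w i := by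
      have : w j ≤ 4 := by rw [hw]; fin_cases j <;> decide
      omega
    rwa [h2] at h1
  obtain ⟨c, hc⟩ : ∃ c : ℂ, ∑ j, N 0 j * y j = C c * N.det := by
    refine eq_C_mul_of_dvd hf ?_ (hNy 0)
    have h1 := hNyh 0
    have h2 : 5 + w 0 = 6 := by rw [hw]; decide
    rwa [h2] at h1
  have hz : ∀ i, ∑ j, N i j * (y j - C c * N.adjugate j 0) = 0 := by
    intro i
    have e : ∑ j, N i j * (y j - C c * N.adjugate j 0) = ∑ j, N i j * y j -
        C c * ∑ j, N i j * N.adjugate j 0 := by
      rw [Finset.mul_sum, ← Finset.sum_sub_distrib]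
      refine Finset.sum_congr rfl fun j _ => ?_
      ring
    rw [e, hNv]
    by_cases hi : i = 0
    · subst hi
      rw [if_pos rfl, hc, sub_self]
    · rw [if_neg hi, mul_zero, sub_zero]
      by_contra h0
      refine not_dvd_of_degree hf (hNyh i) h0 ?_ (hNy i)
      have h3 : ∀ i : Fin 4, i ≠ 0 → (![1, 0, 0, 0] : Fin 4 → ℕ) i = 0 := by decide
      have h2 : w i = 0 := h3 i hi
      omega
  have h0 : (fun j => y j - C c * N.adjugate j 0) = 0 :=
    Matrix.eq_zero_of_mulVec_eq_zero hp.ne_zero (funext hz)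
  have h1 := congrFun h0 0
  simp only [Pi.zero_apply, hy0 0 rfl, sub_eq_zero] at h1
  exact ⟨c, h1⟩

/-- **The odd theta characteristic** of the discriminant sextic has exactly one section: a cubic
form whose square lies in `(δ, f)` is a multiple of `δ`. -/
theorem odd_theta {M : Matrix (Fin 4) (Fin 4) P3} (hM : M.IsSymm)
    (hdeg : ∀ i j, (M i j).IsHomogeneous (1 + wt i + wt j)) (hsm : SmoothP M.det)
    (hδ : M.adjugate 3 3 ≠ 0) {a : P3} (ha : a.IsHomogeneous 3)
    (h : a ^ 2 ∈ (Ideal.span {M.adjugate 3 3, M.det} : Ideal P3)) :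
    ∃ c : ℂ, a = C c * M.adjugate 3 3 := by
  have hdet : (M.submatrix sw sw).det = M.det := Matrix.det_submatrix_equiv_self sw M
  have hadj : (M.submatrix sw sw).adjugate 0 0 = M.adjugate 3 3 := by
    rw [Matrix.adjugate_submatrix_equiv_self]
    rfl
  have := odd_aux (N := M.submatrix sw sw) (hM.submatrix sw)
    (fun i j => by rw [← wt_sw, ← wt_sw]; exact hdeg _ _) (by rw [hdet]; exact hsm)
    (by rw [hadj]; exact hδ) ha (by rw [hdet, hadj]; exact h)
  rwa [hadj] at this

/-- the same statement for the space `rt` -/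
theorem rt_odd {M : Matrix (Fin 4) (Fin 4) P3} (hM : M.IsSymm)
    (hdeg : ∀ i j, (M i j).IsHomogeneous (1 + wt i + wt j)) (hsm : SmoothP M.det)
    (hδ : M.adjugate 3 3 ≠ 0) :
    rt M.det (M.adjugate 3 3) 3 = Submodule.span ℂ {M.adjugate 3 3} := by
  refine le_antisymm (Submodule.span_le.2 ?_) (Submodule.span_le.2 ?_)
  · rintro a ⟨ha, h⟩
    obtain ⟨c, rfl⟩ := odd_theta hM hdeg hsm hδ ha h
    rw [C_mul']
    exact Submodule.smul_mem _ _ (Submodule.mem_span_singleton_self _)
  · rintro _ rfl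
    refine Submodule.subset_span ⟨adj_hom3 hdeg, ?_⟩
    rw [pow_two]
    exact Ideal.mul_mem_left _ _ (Ideal.subset_span (by simp))

end Vale.Agent.P287.C8
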