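import Vale.Agent.P287.C8.LatW
import Vale.Agent.P287.C8.Odd
import Vale.Agent.P287.C8.BasicM

/-!
The lattice `WM` over the coordinate ring of the plane curve `g = 0`: products, division by a form
without zeros on `f = g = 0`, and a lower bound for its dimension.
-/

namespace Vale.Agent.P287.C8

open MvPolynomial Module Matrix Vale.Agent.P287 Vale.Agent.P287.H925 Vale.Agent.P287.Theta

section RankOne

variable {R : Type*} [CommRing R] {n : ℕ} {f : R} {A : Matrix (Fin n) (Fin n) R}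

lemma rank_one_vec (hm : ∀ i j k l, f ∣ A i j * A k l - A i l * A k j) (v x : Fin n → R)
    (i k : Fin n) : f ∣ (A *ᵥ v) i * (A *ᵥ x) k - (A *ᵥ x) i * (A *ᵥ v) k := by
  have h1 : (A *ᵥ v) i * (A *ᵥ x) k - (A *ᵥ x) i * (A *ᵥ v) k =
      ∑ j, ∑ l, (v j * x l) * (A i j * A k l - A i l * A k j) := by
    simp only [Matrix.mulVec, dotProduct]
    rw [Finset.sum_mul_sum, Finset.sum_mul_sum]
    conv_lhs =>
      rhs
      rw [Finset.sum_comm]
    rw [← Finset.sum_sub_distrib]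
    refine Finset.sum_congr rfl fun j _ => ?_
    rw [← Finset.sum_sub_distrib]
    exact Finset.sum_congr rfl fun l _ => by ring
  rw [h1]
  exact Finset.dvd_sum fun j _ => Finset.dvd_sum fun l _ => (hm i j k l).mul_left _

/-- rank one modulo `f` -/
lemma rank_one_forms' (hm : ∀ i j k l, f ∣ A i j * A k l - A i l * A k j)
    (u v w x : Fin n → R) :
    f ∣ (u ⬝ᵥ (A *ᵥ v)) * (w ⬝ᵥ (A *ᵥ x)) - (u ⬝ᵥ (A *ᵥ x)) * (w ⬝ᵥ (A *ᵥ v)) := by
  have h1 : (u ⬝ᵥ (A *ᵥ v)) * (w ⬝ᵥ (A *ᵥ x)) - (u ⬝ᵥ (A *ᵥ x)) * (w ⬝ᵥ (A *ᵥ v)) =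
      ∑ i, ∑ k, (u i * w k) * ((A *ᵥ v) i * (A *ᵥ x) k - (A *ᵥ x) i * (A *ᵥ v) k) := by
    simp only [dotProduct]
    rw [Finset.sum_mul_sum, Finset.sum_mul_sum, ← Finset.sum_sub_distrib]
    refine Finset.sum_congr rfl fun j _ => ?_
    rw [← Finset.sum_sub_distrib]
    exact Finset.sum_congr rfl fun l _ => by ring
  rw [h1]
  exact Finset.dvd_sum fun j _ => Finset.dvd_sum fun l _ => (rank_one_vec hm v x j l).mul_left _

/-- the `2 × 2` minors of the adjugate, when a diagonal entry is prime to the determinant -/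
lemma adj_minor' {M : Matrix (Fin (n + 1)) (Fin (n + 1)) R} (hf : Prime f) (hM : f ∣ M.det)
    {k : Fin (n + 1)} (hδ : ¬ f ∣ M.adjugate k k) (i j p l : Fin (n + 1)) :
    f ∣ M.adjugate i j * M.adjugate p l - M.adjugate i l * M.adjugate p j := by
  have h1 := dvd_minor_adj M hf hM k hδ i j
  have h2 := dvd_minor_adj M hf hM k hδ p l
  have h3 := dvd_minor_adj M hf hM k hδ i l
  have h4 := dvd_minor_adj M hf hM k hδ p j
  have h5 : f ∣ M.adjugate k k ^ 2 * (M.adjugate i j * M.adjugate p l -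
      M.adjugate i l * M.adjugate p j) := by
    have e : M.adjugate k k ^ 2 * (M.adjugate i j * M.adjugate p l -
        M.adjugate i l * M.adjugate p j) =
        (M.adjugate k k * M.adjugate i j - M.adjugate i k * M.adjugate k j) *
          (M.adjugate k k * M.adjugate p l) +
        (M.adjugate i k * M.adjugate k j) *
          (M.adjugate k k * M.adjugate p l - M.adjugate p k * M.adjugate k l) -
        ((M.adjugate k k * M.adjugate i l - M.adjugate i k * M.adjugate k l) *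
          (M.adjugate k k * M.adjugate p j) +
        (M.adjugate i k * M.adjugate k l) *
          (M.adjugate k k * M.adjugate p j - M.adjugate p k * M.adjugate k j)) := by ring
    rw [e]
    exact dvd_sub (dvd_add (h1.mul_right _) (h2.mul_left _))
      (dvd_add (h3.mul_right _) (h4.mul_left _))
  exact (hf.dvd_or_dvd h5).resolve_left fun h6 => hδ (hf.dvd_of_dvd_pow h6)

end RankOne

section Degrees

variable {A M : Matrix (Fin 4) (Fin 4) P3}

lemma wt_leM (i : Fin 4) : wt i ≤ 1 := by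
  fin_cases i <;> simp [wt]

/-- the degrees of the entries of the adjugate -/
lemma adj_hom4 (hM : ∀ i j, (M i j).IsHomogeneous (1 + wt i + wt j)) (i j : Fin 4) :
    (M.adjugate i j).IsHomogeneous (5 - wt i - wt j) := by
  refine adj_weighted M wt hM i j _ ?_
  have h1 := wt_leM i
  have h2 := wt_leM j
  have h3 : ∑ k : Fin 4, (1 + wt k + wt k) = 6 := by
    simp [Fin.sum_univ_four, wt]
  rw [h3]
  omega

lemma mulVec_hom4 (hA : ∀ i j, (A i j).IsHomogeneous (5 - wt i - wt j)) {d : ℕ} {p : Fin 4 → P3}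
    (hp : ∀ i, (p i).IsHomogeneous (d + wt i)) (j : Fin 4) :
    ((A *ᵥ p) j).IsHomogeneous (d + 5 - wt j) := by
  rw [Matrix.mulVec, dotProduct]
  refine IsHomogeneous.sum _ _ _ fun k _ => ?_
  have := (hA j k).mul (hp k)
  have h1 := wt_leM j
  have h2 := wt_leM k
  rwa [show 5 - wt j - wt k + (d + wt k) = d + 5 - wt j by omega] at this

lemma dot_hom4 {d e : ℕ} {x y : Fin 4 → P3} (hx : ∀ i, (x i).IsHomogeneous (d + wt i))
    (hy : ∀ i, (y i).IsHomogeneous (e - wt i)) (he : 1 ≤ e) :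
    (x ⬝ᵥ y).IsHomogeneous (d + e) := by
  rw [dotProduct]
  refine IsHomogeneous.sum _ _ _ fun k _ => ?_
  have := (hx k).mul (hy k)
  have h2 := wt_leM k
  rwa [show d + wt k + (e - wt k) = d + e by omega] at this

lemma qM_mulVec (g : P3) (A : Matrix (Fin 4) (Fin 4) P3) (p : Fin 4 → P3) (j : Fin 4) :
    ((qm4 g A).mulVec fun i => q g (p i)) j = q g ((A *ᵥ p) j) := by
  change ∑ k, (Ideal.Quotient.mk (Ideal.span {g})) (A j k) * (Ideal.Quotient.mk _) (p k) =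
    Ideal.Quotient.mk (Ideal.span {g}) (∑ k, A j k * p k)
  rw [map_sum]
  exact Finset.sum_congr rfl fun k _ => (map_mul _ _ _).symm

lemma q_dot4 (g : P3) (x y : Fin 4 → P3) :
    dotProduct (fun i => q g (x i)) (fun i => q g (y i)) = q g (x ⬝ᵥ y) := by
  rw [dotProduct, dotProduct]
  exact ((map_sum (Ideal.Quotient.mk (Ideal.span {g})) _ _).trans
    (Finset.sum_congr rfl fun i _ => map_mul _ _ _)).symm

lemma bil_symm4 (sA : A.IsSymm) (u v : Fin 4 → P3) :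
    u ⬝ᵥ (A *ᵥ v) = v ⬝ᵥ (A *ᵥ u) := by
  rw [Matrix.dotProduct_mulVec, ← Matrix.mulVec_transpose, sA.eq, dotProduct_comm]

/-- a vector outside finitely many hyperplanes -/
lemma exists_dot_neM {n : ℕ} (S : Finset (Fin n → ℂ)) (hS : ∀ s ∈ S, s ≠ 0) :
    ∃ c : Fin n → ℂ, ∀ s ∈ S, c ⬝ᵥ s ≠ 0 := by
  classical
  have h1 : (∏ s ∈ S, ∑ i, C (s i) * X i : MvPolynomial (Fin n) ℂ) ≠ 0 := by
    rw [Finset.prod_ne_zero_iff]
    intro s hs h0
    apply hS s hs
    funext i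
    have h2 := congrArg (eval (Pi.single i 1)) h0
    simpa [Pi.single_apply] using h2
  obtain ⟨c, hc⟩ : ∃ c, eval c (∏ s ∈ S, ∑ i, C (s i) * X i : MvPolynomial (Fin n) ℂ) ≠ 0 := by
    by_contra hcon
    push Not at hcon
    exact h1 (MvPolynomial.funext fun z => by rw [hcon, map_zero])
  refine ⟨c, fun s hs h0 => hc ?_⟩
  rw [map_prod]
  refine Finset.prod_eq_zero hs ?_
  rw [map_sum, ← h0, dotProduct]
  refine Finset.sum_congr rfl fun i _ => ?_
  rw [map_mul, eval_C, eval_X, mul_comm]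

end Degrees

variable {f g : P3} {m : ℕ} {A M : Matrix (Fin 4) (Fin 4) P3}

/-- membership in `WM`, for vectors of forms -/
lemma mem_WM_iff (H : EvenOn f g m) (hA : ∀ i j, (A i j).IsHomogeneous (5 - wt i - wt j)) {d : ℕ}
    {p : Fin 4 → P3} (hp : ∀ i, (p i).IsHomogeneous (d + wt i)) :
    (fun i => q g (p i)) ∈ WM f g A d ↔
      ∀ j, ((A *ᵥ p) j) ^ 2 ∈ (Ideal.span {g, f} : Ideal P3) := by
  constructor
  · rintro ⟨_, h2⟩ j
    have h3 := h2 j
    rwa [qM_mulVec, mem_Jq H (mulVec_hom4 hA hp j)] at h3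
  · intro h
    refine ⟨fun i => mem_gr.2 ⟨_, hp i, rfl⟩, fun j => ?_⟩
    rw [qM_mulVec, mem_Jq H (mulVec_hom4 hA hp j)]
    exact h j

/-- representing a vector by forms -/
lemma exists_rep {d : ℕ} {w : Fin 4 → RG g} (hw : ∀ i, w i ∈ gr g (d + wt i)) :
    ∃ p : Fin 4 → P3, (∀ i, (p i).IsHomogeneous (d + wt i)) ∧ (fun i => q g (p i)) = w := by
  have hw' : ∀ i, ∃ p : P3, p.IsHomogeneous (d + wt i) ∧ q g p = w i := fun i => mem_gr.1 (hw i)
  choose p hp hpw using hw'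
  exact ⟨p, hp, funext hpw⟩

/-- division by a form without zeros on `f = g = 0`, in `WM` -/
theorem smul_mem_WM_iff (H : EvenOn f g m) (hA : ∀ i j, (A i j).IsHomogeneous (5 - wt i - wt j))
    {t : P3} {k d : ℕ}
    (ht : ∀ z : Fin 3 → ℂ, eval z f = 0 → eval z g = 0 → eval z t = 0 → z = 0)
    (htk : t.IsHomogeneous k) {w : Fin 4 → RG g} (hw : ∀ i, w i ∈ gr g (d + wt i)) :
    q g t • w ∈ WM f g A (k + d) ↔ w ∈ WM f g A d := by
  obtain ⟨p, hp, rfl⟩ := exists_rep hw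
  have h1 : q g t • (fun i => q g (p i)) = fun i => q g (t * p i) := by
    funext i
    exact (map_mul (Ideal.Quotient.mk (Ideal.span {g})) t (p i)).symm
  have h2 : ∀ j, (A *ᵥ fun i => t * p i) j = t * (A *ᵥ p) j := by
    intro j
    have h3 : (fun i => t * p i) = t • p := rfl
    rw [h3, Matrix.mulVec_smul]
    rfl
  rw [h1, mem_WM_iff H hA (fun i => by
    have := htk.mul (hp i)
    rwa [← add_assoc] at this), mem_WM_iff H hA hp]
  refine forall_congr' fun j => ?_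
  rw [h2]
  have h4 := mulVec_hom4 hA hp j
  rw [← mem_Jq H h4, ← mul_mem_Jq_iff H ht htk (mem_gr.2 ⟨_, h4, rfl⟩), ← map_mul,
    mem_Jq H (htk.mul h4)]

/-- an isotropic vector lies in `WM` -/
theorem mem_WM_of_isotropic (H : EvenOn f g m) (sA : A.IsSymm)
    (hA : ∀ i j, (A i j).IsHomogeneous (5 - wt i - wt j))
    (hm : ∀ i j k l, f ∣ A i j * A k l - A i l * A k j) {d : ℕ} {w : Fin 4 → RG g}
    (hw : ∀ i, w i ∈ gr g (d + wt i)) (h0 : dotProduct ((qm4 g A).mulVec w) w = 0) :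
    w ∈ WM f g A d := by
  obtain ⟨p, hp, rfl⟩ := exists_rep hw
  rw [mem_WM_iff H hA hp]
  intro j
  have h1 : g ∣ p ⬝ᵥ (A *ᵥ p) := by
    have h2 : ((qm4 g A).mulVec fun i => q g (p i)) = fun i => q g ((A *ᵥ p) i) :=
      funext fun i => qM_mulVec g A p i
    rw [h2, q_dot4, dotProduct_comm] at h0
    rw [← Ideal.mem_span_singleton, ← Ideal.Quotient.eq_zero_iff_mem]
    exact h0
  obtain ⟨y, hy⟩ := rank_one_forms' hm (Pi.single j 1) p p (Pi.single j 1)
  rw [bil_symm4 sA p (Pi.single j 1), single_dotProduct, one_mul] at hy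
  obtain ⟨x, hx⟩ := h1
  rw [hx] at hy
  rw [Ideal.mem_span_pair]
  exact ⟨(Pi.single j 1 ⬝ᵥ (A *ᵥ Pi.single j 1)) * x, y, by linear_combination -hy⟩

section Kappa

/-- a vector of forms of degrees `0, 0, 0, 1` with prescribed coefficients -/
noncomputable def kap (c : Fin 6 → ℂ) : Fin 4 → P3 :=
  ![C (c 0), C (c 1), C (c 2), C (c 3) * X 0 + C (c 4) * X 1 + C (c 5) * X 2]

lemma kap_hom (c : Fin 6 → ℂ) (i : Fin 4) : (kap c i).IsHomogeneous (0 + wt i) := by
  have h : ∀ (a : ℂ) (j : Fin 3), (C a * X j : P3).IsHomogeneous 1 := fun a j => by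
    have := (isHomogeneous_C (Fin 3) a).mul (isHomogeneous_X ℂ j)
    rwa [zero_add] at this
  match i with
  | 0 => exact isHomogeneous_C _ _
  | 1 => exact isHomogeneous_C _ _
  | 2 => exact isHomogeneous_C _ _
  | 3 => exact ((h _ _).add (h _ _)).add (h _ _)

lemma eval_kap_dot (c : Fin 6 → ℂ) (z : Fin 3 → ℂ) (x : Fin 4 → ℂ) :
    (fun i => eval z (kap c i)) ⬝ᵥ x = c ⬝ᵥ ![x 0, x 1, x 2, z 0 * x 3, z 1 * x 3, z 2 * x 3] := by
  simp [kap, dotProduct, Fin.sum_univ_succ]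
  ring

/-- the coefficients of the evaluation of `kap` -/
noncomputable def kvec (z : Fin 3 → ℂ) (x : Fin 4 → ℂ) : Fin 6 → ℂ :=
  ![x 0, x 1, x 2, z 0 * x 3, z 1 * x 3, z 2 * x 3]

lemma kvec_ne {z : Fin 3 → ℂ} (hz : z ≠ 0) {x : Fin 4 → ℂ} (hx : x ≠ 0) : kvec z x ≠ 0 := by
  intro h0
  have e0 : x 0 = 0 := congrFun h0 0
  have e1 : x 1 = 0 := congrFun h0 1
  have e2 : x 2 = 0 := congrFun h0 2
  have e3 : z 0 * x 3 = 0 := congrFun h0 3
  have e4 : z 1 * x 3 = 0 := congrFun h0 4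
  have e5 : z 2 * x 3 = 0 := congrFun h0 5
  by_cases h3 : x 3 = 0
  · apply hx
    funext j
    fin_cases j
    · exact e0
    · exact e1
    · exact e2
    · exact h3
  · apply hz
    funext k
    fin_cases k
    · exact (mul_eq_zero.1 e3).resolve_right h3
    · exact (mul_eq_zero.1 e4).resolve_right h3
    · exact (mul_eq_zero.1 e5).resolve_right h3

/-- the value at a point, by rank one -/
lemma eval_kap_form {s : Fin 3 → ℂ} (sA : A.IsSymm) (hfs : eval s f = 0)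
    (hm : ∀ i j k l, f ∣ A i j * A k l - A i l * A k j) (c : Fin 6 → ℂ) (i : Fin 4)
    (h : eval s (kap c ⬝ᵥ (A *ᵥ kap c)) = 0) : c ⬝ᵥ kvec s (fun j => eval s (A i j)) = 0 := by
  obtain ⟨y, hy⟩ := rank_one_forms' hm (kap c) (kap c) (Pi.single i 1) (Pi.single i 1)
  rw [bil_symm4 sA (kap c) (Pi.single i 1), single_dotProduct (A *ᵥ kap c), one_mul] at hy
  have h5 := congrArg (eval s) hy
  rw [map_mul, hfs, zero_mul, map_sub, map_mul, map_mul, h, zero_mul, zero_sub,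
    neg_eq_zero, mul_self_eq_zero] at h5
  rw [← h5, kvec, ← eval_kap_dot c s (fun j => eval s (A i j)), Matrix.mulVec, dotProduct,
    dotProduct, map_sum]
  exact Finset.sum_congr rfl fun j _ => by rw [map_mul, mul_comm]

/-- a vector on which the quadratic form `adj M` has no zeros on `f = g = 0` -/
theorem exists_kap (H : EvenOn f g m) (pg : Prime g) (sM : M.IsSymm) (hdet : M.det = f)
    (hA : ∀ i j, (M.adjugate i j).IsHomogeneous (5 - wt i - wt j))
    (hm : ∀ i j k l, f ∣ M.adjugate i j * M.adjugate k l - M.adjugate i l * M.adjugate k j) :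
    ∃ c : Fin 6 → ℂ, ∀ z : Fin 3 → ℂ, eval z f = 0 → eval z g = 0 →
      eval z (kap c ⬝ᵥ (M.adjugate *ᵥ kap c)) = 0 → z = 0 := by
  classical
  have sA : M.adjugate.IsSymm := by rw [Matrix.IsSymm, Matrix.adjugate_transpose, sM.eq]
  have hgf : ¬ g ∣ f := fun h1 =>
    H.hfu ((pg.irreducible.associated_of_dvd H.pf.irreducible h1).symm.dvd)
  obtain ⟨S, hS, hS'⟩ := finite_zeros H.hu pg H.hf hgf
  have h1 : ∀ s : Fin 3 → ℂ, ∃ i, s ∈ S → ∃ j, eval s (M.adjugate i j) ≠ 0 := by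
    intro s
    by_cases hs : s ∈ S
    · obtain ⟨i, j, hij⟩ := exists_adj_ne_zero M (by rw [hdet]; exact H.sf) (hS s hs).1
        (by rw [hdet]; exact (hS s hs).2.2)
      exact ⟨i, fun _ => ⟨j, hij⟩⟩
    · exact ⟨0, fun h => absurd h hs⟩
  choose ι hι using h1
  obtain ⟨c, hc⟩ := exists_dot_neM
    (S.image fun s => kvec s (fun j => eval s (M.adjugate (ι s) j))) (by
      intro s' hs'
      obtain ⟨s, hs, rfl⟩ := Finset.mem_image.1 hs'
      obtain ⟨j, hj⟩ := hι s hs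
      exact kvec_ne (hS s hs).1 fun h0 => hj (congrFun h0 j))
  refine ⟨c, fun z hzf hzg hzt => ?_⟩
  by_contra hz
  obtain ⟨s, hs, x, rfl⟩ := hS' z hz hzg hzf
  have hx : x ≠ 0 := by
    rintro rfl
    exact hz (zero_smul _ _)
  have ht : eval s (kap c ⬝ᵥ (M.adjugate *ᵥ kap c)) = 0 := by
    have h2 : (kap c ⬝ᵥ (M.adjugate *ᵥ kap c) : P3).IsHomogeneous (0 + 5) :=
      dot_hom4 (kap_hom c) (fun i => by
        have := mulVec_hom4 hA (kap_hom c) i
        rwa [zero_add] at this) (by norm_num)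
    rw [eval_smul' h2] at hzt
    exact (mul_eq_zero.1 hzt).resolve_left (pow_ne_zero _ hx)
  exact hc _ (Finset.mem_image_of_mem _ hs)
    (eval_kap_form sA (hS s hs).2.2 hm c (ι s) ht)

/-- a section of `J` from a vector of `WM` -/
lemma kap_dot_mem (H : EvenOn f g m) (hA : ∀ i j, (A i j).IsHomogeneous (5 - wt i - wt j))
    (c : Fin 6 → ℂ) {e : ℕ} {p : Fin 4 → P3} (hp : ∀ i, (p i).IsHomogeneous (e + wt i))
    (h : ∀ j, ((A *ᵥ p) j) ^ 2 ∈ (Ideal.span {g, f} : Ideal P3)) :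
    kap c ⬝ᵥ (A *ᵥ p) ∈ rt f g (e + 5) := by
  rw [dotProduct]
  refine Submodule.sum_mem _ fun i _ => ?_
  have h1 := H.mul_mem_rt (kap_hom c i) (H.mem_rt.2 ⟨mulVec_hom4 hA hp i, h i⟩)
  have h2 := wt_leM i
  rwa [show 0 + wt i + (e + 5 - wt i) = e + 5 by omega] at h1

/-- products in `WM` -/
theorem WM_mul (H : EvenOn f g m) (sA : A.IsSymm)
    (hA : ∀ i j, (A i j).IsHomogeneous (5 - wt i - wt j))
    (hm : ∀ i j k l, f ∣ A i j * A k l - A i l * A k j) {c : Fin 6 → ℂ}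
    (hc : ∀ z : Fin 3 → ℂ, eval z f = 0 → eval z g = 0 →
      eval z (kap c ⬝ᵥ (A *ᵥ kap c)) = 0 → z = 0) {d d' k : ℕ} (hd : d + d' + 5 = 6 + k)
    {w w' : Fin 4 → RG g} (hw : w ∈ WM f g A d) (hw' : w' ∈ WM f g A d') :
    ∃ h ∈ gr g k, dotProduct ((qm4 g A).mulVec w) w' = q g f * h := by
  obtain ⟨p, hp, rfl⟩ := exists_rep hw.1
  obtain ⟨p', hp', rfl⟩ := exists_rep hw'.1
  rw [mem_WM_iff H hA hp] at hw
  rw [mem_WM_iff H hA hp'] at hw'
  have h1 := H.rt_mul_mem (kap_dot_mem H hA c hp hw) (kap_dot_mem H hA c hp' hw')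
  obtain ⟨y, hy⟩ := rank_one_forms' hm (kap c) (kap c) p p'
  rw [bil_symm4 sA p (kap c)] at hy
  have h2 : (kap c ⬝ᵥ (A *ᵥ kap c)) * (p ⬝ᵥ (A *ᵥ p')) ∈ (Ideal.span {g, f} : Ideal P3) := by
    have h3 : (kap c ⬝ᵥ (A *ᵥ kap c)) * (p ⬝ᵥ (A *ᵥ p')) =
        (kap c ⬝ᵥ (A *ᵥ p)) * (kap c ⬝ᵥ (A *ᵥ p')) + f * y := by
      linear_combination hy
    rw [h3]
    exact add_mem h1 (Ideal.mul_mem_right _ _ (Ideal.subset_span (by simp)))
  have h4 : (p ⬝ᵥ (A *ᵥ p')).IsHomogeneous (6 + k) := by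
    have := dot_hom4 hp (mulVec_hom4 hA hp') (by omega)
    rwa [← add_assoc, hd] at this
  obtain ⟨h', hh', hh⟩ := exists_hom_of_mem H.hf H.hu h4 (H.nzd hc h4 h2)
  refine ⟨q g h', mem_gr.2 ⟨h', hh', rfl⟩, ?_⟩
  have h5 : ((qm4 g A).mulVec fun i => q g (p i)) = fun i => q g ((A *ᵥ p) i) :=
    funext fun i => qM_mulVec g A p i
  rw [h5, q_dot4, dotProduct_comm, bil_symm4 sA p' p]
  exact (ThreeData.q_eq_q.2 hh).trans (map_mul _ _ _)

/-- if the combination `κ · A l` lies in `J`, then `l` lies in `WM` -/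
theorem mem_WM_of_dot (H : EvenOn f g m)
    (hA : ∀ i j, (A i j).IsHomogeneous (5 - wt i - wt j))
    (hm : ∀ i j k l, f ∣ A i j * A k l - A i l * A k j) {c : Fin 6 → ℂ}
    (hc : ∀ z : Fin 3 → ℂ, eval z f = 0 → eval z g = 0 →
      eval z (kap c ⬝ᵥ (A *ᵥ kap c)) = 0 → z = 0)
    {d : ℕ} {w : Fin 4 → RG g} (hw : ∀ i, w i ∈ gr g (d + wt i))
    (h : dotProduct (fun i => q g (kap c i)) ((qm4 g A).mulVec w) ∈ Jq f g (d + 5)) :
    w ∈ WM f g A d := by
  obtain ⟨p, hp, rfl⟩ := exists_rep hw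
  rw [mem_WM_iff H hA hp]
  intro j
  have h0 : (kap c ⬝ᵥ (A *ᵥ p)).IsHomogeneous (0 + (d + 5)) :=
    dot_hom4 (kap_hom c) (mulVec_hom4 hA hp) (by omega)
  rw [zero_add] at h0
  have h1 : (kap c ⬝ᵥ (A *ᵥ p)) ^ 2 ∈ (Ideal.span {g, f} : Ideal P3) := by
    rw [← mem_Jq H h0]
    have h5 : ((qm4 g A).mulVec fun i => q g (p i)) = fun i => q g ((A *ᵥ p) i) :=
      funext fun i => qM_mulVec g A p i
    rwa [h5, q_dot4] at h
  obtain ⟨y, hy⟩ := rank_one_forms' hm (kap c) (kap c) (Pi.single j 1) p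
  rw [single_dotProduct, single_dotProduct, one_mul, one_mul] at hy
  have h4 := mulVec_hom4 hA hp j
  have ht : (kap c ⬝ᵥ (A *ᵥ kap c) : P3).IsHomogeneous (0 + 5) :=
    dot_hom4 (kap_hom c) (fun i => by
      have := mulVec_hom4 hA (kap_hom c) i
      rwa [zero_add] at this) (by norm_num)
  rw [zero_add] at ht
  refine (H.mem_rt.1 (H.nzd_rt (t := kap c ⬝ᵥ (A *ᵥ kap c)) (d := 5 + (d + 5 - wt j)) hc ht h4
    (H.mem_rt.2 ⟨ht.mul h4, ?_⟩))).2
  have h5 : (kap c ⬝ᵥ (A *ᵥ kap c) * (A *ᵥ p) j) ^ 2 =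
      (kap c ⬝ᵥ (A *ᵥ p)) ^ 2 * (A *ᵥ kap c) j ^ 2 +
        f * (y * (kap c ⬝ᵥ (A *ᵥ kap c) * (A *ᵥ p) j +
          (kap c ⬝ᵥ (A *ᵥ p)) * (A *ᵥ kap c) j)) := by
    linear_combination (kap c ⬝ᵥ (A *ᵥ kap c) * (A *ᵥ p) j +
      (kap c ⬝ᵥ (A *ᵥ p)) * (A *ᵥ kap c) j) * hy
  rw [h5]
  exact add_mem (Ideal.mul_mem_right _ _ h1) (Ideal.mul_mem_right _ _ (Ideal.subset_span (by simp)))

end Kappa

/-- the Hilbert function of a plane curve of even degree -/
lemma finrank_gr_even {s d : ℕ} (hg : g.IsHomogeneous (2 * s + 2)) (hg0 : g ≠ 0)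
    (hd : s + 2 ≤ d) : finrank ℂ (gr g (s + d)) = (s + 1) * (2 * d + 1) := by
  obtain ⟨e, rfl⟩ := Nat.exists_eq_add_of_le hd
  have h1 := finrank_gr_ge hg hg0 e
  rw [show 2 * s + 2 + e = s + (s + 2 + e) by ring] at h1
  nlinarith

/-- the dimension of `WM` -/
theorem finrank_WM_ge {s : ℕ} (H : EvenOn f g (2 * s + 2))
    (hA : ∀ i j, (A i j).IsHomogeneous (5 - wt i - wt j))
    (hm : ∀ i j k l, f ∣ A i j * A k l - A i l * A k j) {c : Fin 6 → ℂ}
    (hc : ∀ z : Fin 3 → ℂ, eval z f = 0 → eval z g = 0 →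
      eval z (kap c ⬝ᵥ (A *ᵥ kap c)) = 0 → z = 0) {n : ℕ} (hn : s + 2 ≤ n) :
    4 * ((2 * s + 2) * n) ≤ finrank ℂ (WM f g A (s + n)) := by
  have hg0 : g ≠ 0 := fun h => H.hfu (h ▸ dvd_zero _)
  set d := s + n with hd
  set ψ : ((i : Fin 4) → gr g (d + wt i)) →ₗ[ℂ] RG g :=
    { toFun := fun w => dotProduct (fun i => q g (kap c i))
        ((qm4 g A).mulVec fun i => (w i : RG g))
      map_add' := by
        intro v w
        rw [← dotProduct_add, ← Matrix.mulVec_add]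
        rfl
      map_smul' := by
        intro x w
        rw [RingHom.id_apply, ← dotProduct_smul, ← Matrix.mulVec_smul]
        rfl } with hψ
  have hψ' : ∀ w, ψ w = dotProduct (fun i => q g (kap c i))
        ((qm4 g A).mulVec fun i => (w i : RG g)) := fun w => rfl
  have h1 := finrank_comap_ge ψ (Jq_le H (d + 5)) (by
    intro w
    obtain ⟨p, hp, hpw⟩ := exists_rep (fun i => (w i).2)
    rw [hψ', ← hpw]
    have h5 : ((qm4 g A).mulVec fun i => q g (p i)) = fun i => q g ((A *ᵥ p) i) :=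
      funext fun i => qM_mulVec g A p i
    rw [h5, q_dot4]
    refine mem_gr.2 ⟨_, ?_, rfl⟩
    have := dot_hom4 (kap_hom c) (mulVec_hom4 hA hp) (by omega)
    rwa [zero_add] at this)
  have h3 : finrank ℂ ((Jq f g (d + 5)).comap ψ) ≤ finrank ℂ (WM f g A d) := by
    let e : ((Jq f g (d + 5)).comap ψ) →ₗ[ℂ] WM f g A d :=
      { toFun := fun w => ⟨fun i => (w.1 i : RG g),
          mem_WM_of_dot H hA hm hc (fun i => (w.1 i).2) w.2⟩
        map_add' := fun _ _ => rfl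
        map_smul' := fun _ _ => rfl }
    have hfin : FiniteDimensional ℂ (WM f g A d) := by
      let e' : WM f g A d →ₗ[ℂ] ((i : Fin 4) → gr g (d + wt i)) :=
        { toFun := fun l i => ⟨l.1 i, l.2.1 i⟩
          map_add' := fun _ _ => rfl
          map_smul' := fun _ _ => rfl }
      refine FiniteDimensional.of_injective e' ?_
      intro x y hxy
      apply Subtype.ext
      funext i
      exact congrArg Subtype.val (congrFun hxy i)
    refine LinearMap.finrank_le_finrank_of_injective (f := e) ?_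
    intro x y hxy
    apply Subtype.ext
    funext i
    apply Subtype.ext
    exact congrFun (congrArg Subtype.val hxy) i
  have h4 := finrank_gr_le H (d + 5)
  rw [Module.finrank_pi_fintype, Fin.sum_univ_four] at h1
  have h5 : finrank ℂ (gr g (d + wt 0)) = (s + 1) * (2 * n + 1) := finrank_gr_even H.hu hg0 hn
  have h6 : finrank ℂ (gr g (d + wt 1)) = (s + 1) * (2 * n + 1) := finrank_gr_even H.hu hg0 hn
  have h7 : finrank ℂ (gr g (d + wt 2)) = (s + 1) * (2 * n + 1) := finrank_gr_even H.hu hg0 hn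
  have h8 : finrank ℂ (gr g (d + wt 3)) = (s + 1) * (2 * (n + 1) + 1) := by
    have := finrank_gr_even H.hu hg0 (show s + 2 ≤ n + 1 by omega)
    rwa [← add_assoc] at this
  rw [h5, h6, h7, h8] at h1
  nlinarith

/-- All facts on the lattice `WM` needed for the parity theorem. -/
theorem latticeM_facts {s : ℕ} (H : EvenOn f g (2 * s + 2))
    (pg : Prime g) (sM : M.IsSymm) (hM : ∀ i j, (M i j).IsHomogeneous (1 + wt i + wt j))
    (hdet : M.det = f) (hδ : ¬ f ∣ M.adjugate 3 3)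
    (hX : ∀ z : Fin 3 → ℂ, z ≠ 0 → z 0 = 0 → eval z g = 0 → eval z f ≠ 0) {n : ℕ}
    (hn : s + 2 ≤ n) :
    (∀ w ∈ WM f g M.adjugate (s + n), ∀ w' ∈ WM f g M.adjugate (s + n),
      ∃ h ∈ gr g (2 * s + 2 * n - 1), dotProduct ((qm4 g M.adjugate).mulVec w) w' = q g f * h) ∧
    (∀ w : Fin 4 → RG g, (∀ i, w i ∈ gr g (s + wt i)) →
      (q g (X 0) ^ n • w ∈ WM f g M.adjugate (s + n) ↔ w ∈ WM f g M.adjugate s)) ∧
    4 * ((2 * s + 2) * n) ≤ finrank ℂ (WM f g M.adjugate (s + n)) ∧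
    (∀ w : Fin 4 → RG g, (∀ i, w i ∈ gr g (s + n + wt i)) →
      dotProduct ((qm4 g M.adjugate).mulVec w) w = 0 → w ∈ WM f g M.adjugate (s + n)) := by
  have sA : M.adjugate.IsSymm := by rw [Matrix.IsSymm, Matrix.adjugate_transpose, sM.eq]
  have hA := adj_hom4 hM
  have hm := adj_minor' (M := M) H.pf (by rw [hdet]) hδ
  obtain ⟨c, hc⟩ := exists_kap H pg sM hdet hA hm
  have ht := X0_pow_ne hX n
  have htn : (X 0 ^ n : P3).IsHomogeneous n := by
    have := (isHomogeneous_X ℂ (0 : Fin 3)).pow n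
    rwa [one_mul] at this
  have hq : q g (X 0) ^ n = q g (X 0 ^ n) := (map_pow _ _ _).symm
  refine ⟨?_, ?_, finrank_WM_ge H hA hm hc hn, ?_⟩
  · intro w hw w' hw'
    exact WM_mul H sA hA hm hc (by omega) hw hw'
  · intro w hw
    rw [hq, add_comm s n]
    exact smul_mem_WM_iff H hA ht htn hw
  · intro w hw h0
    exact mem_WM_of_isotropic H sA hA hm hw h0

end Vale.Agent.P287.C8
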