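import Vale.Agent.P287.C8.Basic

/-!
A general line meets a plane curve transversally, away from the zeros of a second form.
-/

namespace Vale.Agent.P287.C8

open MvPolynomial Vale.Agent.P287 Vale.Agent.P287.H925 Vale.Agent.P287.Theta

/-- homogeneous forms of degree zero are constants -/
lemma exists_C_of_hom_zero {x : P3} (hx : x.IsHomogeneous 0) : ∃ c : ℂ, x = C c := by
  refine ⟨x.coeff 0, ?_⟩
  rw [← totalDegree_eq_zero_iff_eq_C]
  by_cases h : x = 0
  · rw [h, totalDegree_zero]
  · exact hx.totalDegree h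

/-- quotient of homogeneous polynomials -/
lemma exists_hom_of_dvd {p q : P3} {m n d : ℕ} (hp : p.IsHomogeneous m) (hq : q.IsHomogeneous n)
    (hmn : n = m + d) (h : p ∣ q) : ∃ s : P3, s.IsHomogeneous d ∧ q = p * s := by
  by_cases hq0 : q = 0
  · exact ⟨0, isHomogeneous_zero _ _ _, by rw [hq0, mul_zero]⟩
  · obtain ⟨s, rfl⟩ := h
    obtain ⟨d', hd, hs⟩ := degree_le_of_mul hp hq hq0
    obtain rfl : d' = d := by omega
    exact ⟨s, hs, rfl⟩

/-- Bezout relation over `ℂ[x]` -/
lemma exists_bezout {F H : Polynomial (Polynomial ℂ)} (hF : Prime F) (hd : F.natDegree ≠ 0)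
    (hH : ¬ F ∣ H) : ∃ (a b : Polynomial (Polynomial ℂ)) (r : Polynomial ℂ), r ≠ 0 ∧
      a * F + b * H = Polynomial.C r := by
  have h1 : IsCoprime (crF F) (crF H) := by
    rw [Irreducible.coprime_iff_not_dvd (prime_crF hF hd).irreducible]
    exact fun h => hH (dvd_of_crF_dvd hF hd h)
  obtain ⟨a, b, hab⟩ := h1
  obtain ⟨α, a', hα, ha'⟩ := exists_crF a
  obtain ⟨β, b', hβ, hb'⟩ := exists_crF b
  refine ⟨Polynomial.C β * a', Polynomial.C α * b', α * β, mul_ne_zero hα hβ, ?_⟩
  apply crF_injective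
  have hC : ∀ r : Polynomial ℂ, crF (Polynomial.C r) =
      Polynomial.C (algebraMap (Polynomial ℂ) FF r) := fun r => by
    rw [crF, Polynomial.coe_mapRingHom, Polynomial.map_C]
  rw [map_add, map_mul, map_mul, map_mul, map_mul, ← ha', ← hb', hC, hC, hC, map_mul,
    Polynomial.C_mul]
  linear_combination (Polynomial.C (algebraMap (Polynomial ℂ) FF α) *
    Polynomial.C (algebraMap (Polynomial ℂ) FF β)) * hab

lemma not_dvd_derivative {F : Polynomial (Polynomial ℂ)} (hd : F.natDegree ≠ 0) :
    ¬ F ∣ Polynomial.derivative F := by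
  intro h
  have h1 : Polynomial.derivative F ≠ 0 := by
    intro h0
    exact hd (Polynomial.derivative_eq_zero.1 h0)
  have h2 := Polynomial.natDegree_le_of_dvd h h1
  have h3 := Polynomial.natDegree_derivative_lt hd
  omega

lemma coeff_resL {p : P3} {d : ℕ} (hp : p.IsHomogeneous d) :
    (resL p).coeff d = eval ![0, 1, 0] p := by
  rw [resL, aeval_def, eval₂_eq', Polynomial.finsetSum_coeff, eval_eq']
  refine Finset.sum_congr rfl fun m hm => ?_
  have h1 : m 0 + m 1 + m 2 = d := by
    have h2 := hp (mem_support_iff.1 hm)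
    rw [Finsupp.weight_apply, Finsupp.sum_fintype _ _ (by simp), Fin.sum_univ_three] at h2
    simpa using h2
  rw [Fin.prod_univ_three, Fin.prod_univ_three]
  simp only [Matrix.cons_val_zero, Matrix.cons_val_one, Matrix.cons_val_two, one_pow, one_mul,
    Matrix.tail_cons, Matrix.head_cons, mul_one, Polynomial.algebraMap_eq]
  by_cases h2 : m 2 = 0
  · rw [h2, pow_zero, mul_one, pow_zero, mul_one, Polynomial.coeff_C_mul_X_pow]
    by_cases h0 : m 0 = 0
    · rw [if_pos (by omega), h0, pow_zero, mul_one]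
    · rw [if_neg (by omega), zero_pow h0, mul_zero]
  · rw [zero_pow h2, mul_zero, mul_zero, Polynomial.coeff_zero, zero_pow h2, mul_zero, mul_zero]

lemma natDegree_resL_le {p : P3} {d : ℕ} (hp : p.IsHomogeneous d) :
    (resL p).natDegree ≤ d := by
  have h1 : (resL p).natDegree ≤ d * 1 := by
    refine MvPolynomial.aeval_natDegree_le p hp.totalDegree_le _ fun i => ?_
    fin_cases i
    · simp
    · simp
    · simp
  omega

/-- **A general line** is transversal to a plane curve `f = 0` and avoids the common zeros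
of `f` and `u`. -/
theorem exists_generic_line {f u : P3} {d e : ℕ} (hf : f.IsHomogeneous d) (hd : 2 ≤ d)
    (pf : Prime f) (hu : u.IsHomogeneous e) (hfu : ¬ f ∣ u) :
    ∃ P : Matrix (Fin 3) (Fin 3) ℂ, IsUnit P.det ∧ (resL (lin P f)).natDegree = d ∧
      (resL (lin P f)).Separable ∧ IsCoprime (resL (lin P f)) (resL (lin P u)) := by
  obtain ⟨z, hz⟩ : ∃ z, eval z f ≠ 0 := by
    by_contra hcon
    push Not at hcon
    exact pf.ne_zero (MvPolynomial.funext fun z => by rw [hcon, map_zero])
  have hz0 : z ≠ 0 := by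
    rintro rfl
    apply hz
    have h1 := aeval_scale (S := ℂ) hf 0 (0 : Fin 3 → ℂ)
    rw [zero_pow (by omega), zero_mul, ← eval_eq_aeval] at h1
    rw [← h1]
    congr 2
    funext i
    simp
  obtain ⟨P, hP, hPz⟩ := exists_matrix_col hz0
  have hf1 := lin_homogeneous P hf
  have pf1 := (prime_lin hP).2 pf
  have hu1 := lin_homogeneous P hu
  have hfu1 : ¬ lin P f ∣ lin P u := fun h => hfu ((lin_dvd_lin hP).1 h)
  set f1 := lin P f with hf1d
  set u1 := lin P u with hu1d
  have pF := prime_cr hf1 pf1 (by omega)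
  have dF := natDegree_cr_ne_zero hf1 pf1 hd
  obtain ⟨a, b, r, hr, hab⟩ := exists_bezout pF dF
    (H := Polynomial.derivative (cr f1) * cr u1) (fun h => by
      rcases pF.dvd_or_dvd h with h1 | h1
      · exact not_dvd_derivative dF h1
      · exact hfu1 (dvd_of_cr_dvd hf1 pf1 (by omega) hu1 h1))
  obtain ⟨x, hx⟩ : ∃ x : ℂ, r.eval x ≠ 0 := by
    by_contra hcon
    push Not at hcon
    exact hr (Polynomial.funext fun x => by rw [hcon, Polynomial.eval_zero])
  -- the second change of coordinates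
  set Q : Matrix (Fin 3) (Fin 3) ℂ := Matrix.of ![![1, 0, 0], ![x, 0, 1], ![0, 1, 0]] with hQ
  have hQd : IsUnit Q.det := by
    rw [isUnit_iff_ne_zero, hQ, Matrix.det_fin_three]
    simp
  have key : ∀ p : P3, resL (lin Q p) = (cr p).map (Polynomial.evalRingHom x) := by
    intro p
    apply Polynomial.funext
    intro t
    rw [eval_resL, eval_lin, Polynomial.map_evalRingHom_eval, evalEval_cr]
    congr 2
    funext i
    fin_cases i <;> simp [hQ, Matrix.mulVec, dotProduct, Fin.sum_univ_three]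
  have hab' := congrArg (Polynomial.map (Polynomial.evalRingHom x)) hab
  rw [Polynomial.map_add, Polynomial.map_mul, Polynomial.map_mul, Polynomial.map_mul,
    ← Polynomial.derivative_map, ← key, ← key, Polynomial.map_C] at hab'
  have hcop : IsCoprime (resL (lin Q f1))
      (Polynomial.derivative (resL (lin Q f1)) * resL (lin Q u1)) := by
    refine ⟨Polynomial.C (r.eval x)⁻¹ * a.map (Polynomial.evalRingHom x),
      Polynomial.C (r.eval x)⁻¹ * b.map (Polynomial.evalRingHom x), ?_⟩
    have h1 : (Polynomial.C (r.eval x)⁻¹ : Polynomial ℂ) * Polynomial.C (r.eval x) = 1 := by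
      rw [← Polynomial.C_mul, inv_mul_cancel₀ hx, Polynomial.C_1]
    rw [Polynomial.coe_evalRingHom] at hab'
    linear_combination (Polynomial.C (r.eval x)⁻¹) * hab' + h1
  refine ⟨P * Q, by rw [Matrix.det_mul]; exact hP.mul hQd, ?_, ?_, ?_⟩
  · rw [← lin_lin]
    have h2 := lin_homogeneous Q hf1
    refine le_antisymm (natDegree_resL_le h2) (Polynomial.le_natDegree_of_ne_zero ?_)
    rw [coeff_resL h2, eval_lin, hf1d, eval_lin]
    have h3 : Q.mulVec ![0, 1, 0] = ![0, 0, 1] := by
      funext i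
      fin_cases i <;> simp [hQ, Matrix.mulVec, dotProduct, Fin.sum_univ_three]
    rw [h3, hPz]
    exact hz
  · rw [← lin_lin]
    exact hcop.of_mul_right_left
  · rw [← lin_lin, ← lin_lin]
    exact hcop.of_mul_right_right

open Polynomial in
/-- a polynomial vanishing at the roots of a separable polynomial -/
lemma dvd_of_isRoot {L p : ℂ[X]} (hL : L.Separable)
    (h : ∀ x, L.IsRoot x → p.IsRoot x) : L ∣ p := by
  have h1 := (Polynomial.isRoot_of_isRoot_iff_dvd_derivative_mul hL.ne_zero).1 h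
  exact hL.dvd_of_dvd_mul_left h1

open Polynomial in
/-- Lagrange interpolation and the determinant -/
lemma exists_combination {n : ℕ} {L μ : ℂ[X]} (hL : L.Separable) (hLn : L.natDegree = n)
    (hLμ : IsCoprime L μ) (v : Fin n → ℂ[X]) (a : Matrix (Fin n) (Fin n) ℂ[X])
    (ha : ∀ i j, (a i j).natDegree < n) (h : ∀ i j, L ∣ v i * v j - μ * a i j)
    (hdet : a.det = 0) : ∃ c : Fin n → ℂ, c ≠ 0 ∧ L ∣ ∑ i, Polynomial.C (c i) * v i := by
  classical
  have hcard : L.roots.toFinset.card = n := by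
    rw [Multiset.toFinset_card_of_nodup (nodup_roots hL), IsAlgClosed.card_roots_eq_natDegree, hLn]
  let t : Fin n ≃ L.roots.toFinset := (Finset.equivFinOfCardEq hcard).symm
  have ht : ∀ m, L.IsRoot (t m : ℂ) := fun m => by
    have := (t m).2
    rw [Multiset.mem_toFinset, mem_roots hL.ne_zero] at this
    exact this
  have ht' : ∀ x, L.IsRoot x → ∃ m, (t m : ℂ) = x := fun x hx => by
    have h1 : x ∈ L.roots.toFinset := by
      rw [Multiset.mem_toFinset, mem_roots hL.ne_zero]
      exact hx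
    refine ⟨t.symm ⟨x, h1⟩, ?_⟩
    rw [Equiv.apply_symm_apply]
  have hinj : Set.InjOn (fun m => (t m : ℂ)) (Finset.univ : Finset (Fin n)) := fun x _ y _ hxy =>
    t.injective (Subtype.ext hxy)
  have hμ : ∀ m, μ.eval (t m : ℂ) ≠ 0 := by
    intro m h0
    obtain ⟨p, q, hpq⟩ := hLμ
    have h1 := congrArg (Polynomial.eval (t m : ℂ)) hpq
    rw [Polynomial.eval_add, Polynomial.eval_mul, Polynomial.eval_mul, (ht m : L.eval _ = 0), h0,
      Polynomial.eval_one, mul_zero, mul_zero, add_zero] at h1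
    exact zero_ne_one h1
  set V : Matrix (Fin n) (Fin n) ℂ := Matrix.of fun m i => (v i).eval (t m : ℂ) with hV
  set D : Fin n → ℂ[X] := fun m => Polynomial.C (μ.eval (t m : ℂ))⁻¹ *
    Lagrange.basis Finset.univ (fun m => (t m : ℂ)) m with hD
  have hD0 : ∀ m, D m ≠ 0 := fun m => mul_ne_zero
    (by rw [Ne, Polynomial.C_eq_zero]; exact inv_ne_zero (hμ m))
    (Lagrange.basis_ne_zero hinj (Finset.mem_univ m))
  have hav : ∀ i j m, (a i j).eval (t m : ℂ) = V m i * V m j * (μ.eval (t m : ℂ))⁻¹ := by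
    intro i j m
    obtain ⟨p, hp⟩ := h i j
    have h1 := congrArg (Polynomial.eval (t m : ℂ)) hp
    rw [Polynomial.eval_mul, (ht m : L.eval _ = 0), zero_mul, Polynomial.eval_sub,
      Polynomial.eval_mul, Polynomial.eval_mul, sub_eq_zero] at h1
    rw [hV, Matrix.of_apply, Matrix.of_apply, h1]
    field_simp [hμ m]
  have hfac : a = (V.map Polynomial.C).transpose * Matrix.diagonal D * V.map Polynomial.C := by
    refine Matrix.ext fun i j => ?_
    rw [Matrix.mul_apply]
    have h1 : (a i j).degree < ((Finset.univ : Finset (Fin n)).card : WithBot ℕ) := by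
      rw [Finset.card_univ, Fintype.card_fin]
      exact lt_of_le_of_lt Polynomial.degree_le_natDegree (by exact_mod_cast ha i j)
    rw [Lagrange.eq_interpolate hinj h1, Lagrange.interpolate_apply]
    refine Finset.sum_congr rfl fun m _ => ?_
    rw [hav, Matrix.mul_diagonal, Matrix.transpose_apply, Matrix.map_apply, Matrix.map_apply, hD,
      Polynomial.C_mul, Polynomial.C_mul]
    ring
  have hdetV : V.det = 0 := by
    by_contra hne
    have h1 := congrArg Matrix.det hfac
    rw [hdet, Matrix.det_mul, Matrix.det_mul, Matrix.det_transpose, Matrix.det_diagonal] at h1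
    have h2 : (V.map Polynomial.C).det = Polynomial.C V.det := by
      have := RingHom.map_det (Polynomial.C : ℂ →+* ℂ[X]) V
      rw [this]; rfl
    have h3 : (V.map Polynomial.C).det ≠ 0 := by
      rw [h2, Ne, Polynomial.C_eq_zero]; exact hne
    exact mul_ne_zero (mul_ne_zero h3 (Finset.prod_ne_zero_iff.2 fun m _ => hD0 m)) h3 h1.symm
  obtain ⟨c, hc, hVc⟩ := Matrix.exists_mulVec_eq_zero_iff.2 hdetV
  refine ⟨c, hc, dvd_of_isRoot hL fun x hx => ?_⟩
  obtain ⟨m, rfl⟩ := ht' x hx
  have h1 := congrFun hVc m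
  rw [Matrix.mulVec, dotProduct, Pi.zero_apply] at h1
  rw [Polynomial.IsRoot, Polynomial.eval_finsetSum, ← h1]
  refine Finset.sum_congr rfl fun i _ => ?_
  rw [Polynomial.eval_mul, Polynomial.eval_C, hV, Matrix.of_apply, mul_comm]

/-- a form with given restriction to the line `x₂ = 0` -/
lemma exists_resL_eq {q : Polynomial ℂ} {d : ℕ} (hq : q.natDegree ≤ d) :
    ∃ h : P3, h.IsHomogeneous d ∧ resL h = q := by
  refine ⟨∑ i ∈ Finset.range (d + 1), C (q.coeff i) * X 1 ^ i * X 0 ^ (d - i), ?_, ?_⟩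
  · refine IsHomogeneous.sum _ _ _ fun i hi => ?_
    have h3 := (isHomogeneous_C_mul_X_pow (q.coeff i) (1 : Fin 3) i).mul
      ((isHomogeneous_X ℂ (0 : Fin 3)).pow (d - i))
    have h4 : i + 1 * (d - i) = d := by
      rw [Finset.mem_range] at hi
      omega
    rwa [h4] at h3
  · rw [map_sum]
    conv_rhs => rw [Polynomial.as_sum_range' q (d + 1) (by omega)]
    refine Finset.sum_congr rfl fun i _ => ?_
    have hC : resL (C (q.coeff i)) = Polynomial.C (q.coeff i) := resL.commutes _
    have hX0 : resL (X 0) = 1 := by simp [resL]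
    have hX1 : resL (X 1) = Polynomial.X := by simp [resL]
    rw [map_mul, map_mul, map_pow, map_pow, hC, hX0, hX1, one_pow, mul_one,
      Polynomial.C_mul_X_pow_eq_monomial]

/-- a form divisible by `f` on the line `x₂ = 0` -/
lemma exists_line_decomp {f β : P3} {m d : ℕ} (hf : f.IsHomogeneous m)
    (hβ : β.IsHomogeneous (d + 1)) (hL : (resL f).natDegree = m) (hL0 : resL f ≠ 0)
    (h : resL f ∣ resL β) : ∃ s t : P3, s.IsHomogeneous d ∧ β = X 2 * s + f * t := by
  by_cases h0 : resL β = 0
  · obtain ⟨s, hs, hs'⟩ := exists_hom_of_dvd (d := d) (isHomogeneous_X ℂ (2 : Fin 3)) hβ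
      (by omega) (X2_dvd_of_resL hβ h0)
    exact ⟨s, 0, hs, by rw [hs']; ring⟩
  · obtain ⟨q, hq⟩ := h
    have hq0 : q ≠ 0 := by
      rintro rfl
      exact h0 (by rw [hq, mul_zero])
    have h1 := natDegree_resL_le hβ
    rw [hq, Polynomial.natDegree_mul hL0 hq0, hL] at h1
    obtain ⟨k, hk⟩ := Nat.exists_eq_add_of_le (show m ≤ d + 1 by omega)
    obtain ⟨t, ht, ht'⟩ := exists_resL_eq (q := q) (d := k) (by omega)
    have h2 : (β - f * t).IsHomogeneous (d + 1) := by
      have h3 := hf.mul ht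
      rw [← hk] at h3
      exact hβ.sub h3
    obtain ⟨s, hs, hs'⟩ := exists_hom_of_dvd (d := d) (isHomogeneous_X ℂ (2 : Fin 3)) h2
      (by omega) (X2_dvd_of_resL h2 (by rw [map_sub, map_mul, ht', hq, sub_self]))
    exact ⟨s, t, hs, by linear_combination hs'⟩

/-- `x₂` is not a zero divisor modulo `(u, f)` if `u` and `f` have no common zero on the line. -/
lemma mem_span_of_X2_mul {f u x : P3} {m : ℕ} (hf : f.IsHomogeneous m)
    (hL : (resL f).natDegree = m) (hL0 : resL f ≠ 0) (hc : IsCoprime (resL f) (resL u))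
    (h : X 2 * x ∈ Ideal.span {u, f}) : x ∈ Ideal.span {u, f} := by
  obtain ⟨p, q, hpq⟩ := Ideal.mem_span_pair.1 h
  set θ : P3 →ₐ[ℂ] P3 := aeval (![X 0, X 1, 0] : Fin 3 → P3) with hθ
  have hθX : θ (X 2) = 0 := by simp [hθ]
  have hres : ∀ y, resL (θ y) = resL y := by
    intro y
    have h1 : resL.comp θ = resL := by
      apply algHom_ext
      intro i
      fin_cases i <;> simp [hθ, resL]
    exact AlgHom.congr_fun h1 y
  have h1 := congrArg θ hpq
  rw [map_add, map_mul, map_mul, map_mul, hθX, zero_mul] at h1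
  have hθf : (θ f).IsHomogeneous m := by
    have h2 : ∀ i : Fin 3, ((![X 0, X 1, 0] : Fin 3 → P3) i).IsHomogeneous 1 := by
      intro i
      fin_cases i
      · exact isHomogeneous_X _ _
      · exact isHomogeneous_X _ _
      · exact isHomogeneous_zero _ _ _
    have h3 := hf.aeval (φ := f) _ h2
    rwa [one_mul] at h3
  have hθf0 : θ f ≠ 0 := by
    intro h0
    apply hL0
    rw [← hres, h0, map_zero]
  have hrel : IsRelPrime (θ f) (θ u) := by
    intro d hd1 hd2
    obtain ⟨w, hw⟩ := hd1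
    obtain ⟨k, hk⟩ := homog_of_mul (hw ▸ hθf) (hw ▸ hθf0)
    have h2 : IsUnit (resL d) := by
      refine hc.isUnit_of_dvd' ?_ ?_
      · rw [← hres f, hw, map_mul]
        exact dvd_mul_right _ _
      · rw [← hres u]
        exact map_dvd resL hd2
    have h3 : (resL d).natDegree = 0 := Polynomial.natDegree_eq_zero_of_isUnit h2
    have h4 : eval ![0, 1, 0] d ≠ 0 := by
      intro h0
      have h5 := coeff_resL hθf
      rw [hres, hw, map_mul, h0, zero_mul] at h5
      have h6 : (resL f).leadingCoeff = 0 := by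
        rw [Polynomial.leadingCoeff, hL]; exact h5
      exact hL0 (Polynomial.leadingCoeff_eq_zero.1 h6)
    have h5 : k = 0 := by
      by_contra hk0
      rw [← coeff_resL hk, Polynomial.coeff_eq_zero_of_natDegree_lt (by omega)] at h4
      exact h4 rfl
    subst h5
    refine isUnit_of_homog_zero hk ?_
    rintro rfl
    rw [map_zero] at h4
    exact h4 rfl
  have h2 : θ f ∣ θ p := by
    have h3 : θ f ∣ θ u * θ p := ⟨- θ q, by linear_combination h1⟩
    exact hrel.dvd_of_dvd_mul_left h3
  obtain ⟨c, hc'⟩ := h2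
  have h3 : θ q = - θ u * c := by
    apply mul_left_cancel₀ hθf0
    rw [hc'] at h1
    linear_combination h1
  obtain ⟨p', hp'⟩ := X2_dvd_sub p
  obtain ⟨q', hq'⟩ := X2_dvd_sub q
  obtain ⟨f', hf'⟩ := X2_dvd_sub f
  obtain ⟨u', hu'⟩ := X2_dvd_sub u
  change p - θ p = _ at hp'
  change q - θ q = _ at hq'
  change f - θ f = _ at hf'
  change u - θ u = _ at hu'
  refine Ideal.mem_span_pair.2 ⟨p' - f' * c, q' + u' * c, ?_⟩
  apply mul_left_cancel₀ (X_ne_zero (R := ℂ) (2 : Fin 3))
  linear_combination (-u) * hp' - f * hq' + (u * c) * hf' - (f * c) * hu' + hpq - f * h3 - u * hc'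

end Vale.Agent.P287.C8
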