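import Vale.Agent.P287.C8.TypeA

/-!
A line never satisfies the parity condition: the space of sections has dimension three.
-/

namespace Vale.Agent.P287.C8

open MvPolynomial Module Vale.Agent.P287 Vale.Agent.P287.H925 Vale.Agent.P287.Theta

variable {f g : P3}

/-- For a line `g` the sections of degree two are the multiples of `g`. -/
theorem EvenOn.finrank_thetaSp_line (H : EvenOn f g 1) (pg : Prime g) :
    finrank ℂ (thetaSp f g 2) = 3 := by
  have hfin := H.finite_rt 2
  have h1 : rt f g 2 = (homogeneousSubmodule (Fin 3) ℂ 1).map (LinearMap.mulLeft ℂ g) := by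
    ext b
    rw [H.mem_rt, Submodule.mem_map]
    constructor
    · rintro ⟨hb, hb2⟩
      have h2 : g ∣ b ^ 2 := by
        refine dvd_of_mem_of_lt (n := 2 + 2) H.hu H.hf ?_ (by norm_num) ?_
        · rw [pow_two]
          exact hb.mul hb
        · rwa [Set.pair_comm]
      obtain ⟨a, ha⟩ := pg.dvd_of_dvd_pow h2
      by_cases h0 : b = 0
      · exact ⟨0, zero_mem _, by rw [map_zero, h0]⟩
      · obtain ⟨n, hn, hn'⟩ := degree_le_of_mul H.hu (ha ▸ hb) (ha ▸ h0)
        have : n = 1 := by omega
        subst this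
        exact ⟨a, hn', ha.symm⟩
    · rintro ⟨a, ha, rfl⟩
      refine ⟨H.hu.mul ha, ?_⟩
      change (g * a) ^ 2 ∈ _
      rw [pow_two, mul_assoc]
      exact Ideal.mul_mem_right _ _ (Ideal.subset_span (by simp))
  have h2 : finrank ℂ (rt f g 2) = 3 := by
    rw [h1]
    have hinj : Function.Injective (LinearMap.mulLeft ℂ g) := fun a b hab =>
      mul_left_cancel₀ pg.ne_zero hab
    rw [← LinearEquiv.finrank_eq (Submodule.equivMapOfInjective _ hinj _), finrank_homog]
    rfl
  have h3 : finrank ℂ (thetaSp f g 2) ≤ finrank ℂ (rt f g 2) := Submodule.finrank_map_le _ _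
  have h4 : finrank ℂ (rt f g 2) ≤ finrank ℂ (thetaSp f g 2) := H.finrank_rt_of_lt (by norm_num)
  omega

end Vale.Agent.P287.C8
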