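import Vale.Agent.P287.C8.Coker

/-!
A lower bound for the dimension of the graded pieces of the lattice `N`.
-/

namespace Vale.Agent.P287.C8

open MvPolynomial Module Vale.Agent.P287 Vale.Agent.P287.H925 Vale.Agent.P287.Theta

variable {f g : P3} {Q : Matrix (Fin 3) (Fin 3) P3} {l : Fin 3 → RG g} {e : ℕ}

lemma f_mul_mem_Jq (H : EvenOn f g e) {n : ℕ} {y : RG g} (hy : y ∈ gr g n) :
    q g f * y ∈ Jq f g (6 + n) := by
  obtain ⟨p, hp, rfl⟩ := mem_gr.1 hy
  exact ⟨f * p, H.mul_f_mem_rt hp, map_mul (Ideal.Quotient.mk (Ideal.span {g})) _ _⟩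

/-- right multiplication by `f l`, on the quaternions `(σ e_j, b)` -/
noncomputable def nMap (f : P3) (Q : Matrix (Fin 3) (Fin 3) P3) (l : Fin 3 → RG g) (j : Fin 3)
    (m : ℕ) : (↥(gr g (m + 2)) × ↥(gr g m)) →ₗ[ℂ] ((Fin 3 → RG g) × RG g) :=
  ((LinearMap.lsmul (RG g) ((Fin 3 → RG g) × RG g) (q g f)).restrictScalars ℂ).comp
    (((rho (qm g Q) (l, 0)).restrictScalars ℂ).comp
      (((LinearMap.single ℂ (fun _ : Fin 3 => RG g) j).comp
        ((gr g m).subtype.comp (LinearMap.snd ℂ _ _))).prod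
          ((gr g (m + 2)).subtype.comp (LinearMap.fst ℂ _ _))))

lemma nMap_apply (j : Fin 3) (m : ℕ) (v : ↥(gr g (m + 2)) × ↥(gr g m)) :
    nMap f Q l j m v = q g f • qmul (qm g Q) (Pi.single j (v.2 : RG g), (v.1 : RG g)) (l, 0) := rfl

/-- lower bound -/
theorem finrank_NT_ge (H : EvenOn f g e) (pg : Prime g) (hgf : ¬ g ∣ f) (sQ : Q.IsSymm)
    (hdet : Q.det = f) (hQ : ∀ i j, (Q i j).IsHomogeneous 2)
    (hA : ∀ i j, (Q.adjugate i j).IsHomogeneous 4) {a : ℕ} (hl : ∀ i, l i ∈ gr g a)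
    (hl0 : l ≠ 0) (hll : dotProduct l ((qm g Q).adjugate.mulVec l) = 0) (m : ℕ) :
    finrank ℂ (gr g (m + 2)) + finrank ℂ (gr g m) ≤ finrank ℂ (NT f g Q l (m + a + 8)) := by
  have hprime : (Ideal.span {g}).IsPrime := (Ideal.span_singleton_prime pg.ne_zero).2 pg
  have : IsDomain (RG g) := Ideal.Quotient.isDomain _
  have hadjq : qm g Q.adjugate = (qm g Q).adjugate := RingHom.map_adjugate _ Q
  have sq : (qm g Q).IsSymm := by
    rw [Matrix.IsSymm, ← Matrix.transpose_map, sQ.eq]
  have hf0 : q g f ≠ 0 := by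
    rw [Ne, Ideal.Quotient.eq_zero_iff_mem, Ideal.mem_span_singleton]
    exact hgf
  have hdq : (qm g Q).det = q g f := by
    rw [← hdet]
    exact (RingHom.map_det _ Q).symm
  obtain ⟨j, hj⟩ : ∃ j, (qm g Q).adjugate.mulVec l j ≠ 0 := by
    by_contra hcon
    push Not at hcon
    apply hl0
    have h1 : (qm g Q).adjugate.mulVec l = 0 := funext hcon
    have h2 : (qm g Q).mulVec ((qm g Q).adjugate.mulVec l) = 0 := by rw [h1, Matrix.mulVec_zero]
    rw [Matrix.mulVec_mulVec, Matrix.mul_adjugate, Matrix.smul_mulVec, Matrix.one_mulVec, hdq] at h2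
    exact (smul_eq_zero.1 h2).resolve_left hf0
  have hmem : ∀ v, nMap f Q l j m v ∈ Nq f g Q Q.adjugate l (m + a + 8) := by
    intro v
    rw [nMap_apply]
    set v' : (Fin 3 → RG g) × RG g := (Pi.single j (v.2 : RG g), (v.1 : RG g)) with hv'
    have h1 : ∀ i, v'.1 i ∈ gr g m := by
      intro i
      change (Pi.single j (v.2 : RG g) : Fin 3 → RG g) i ∈ _
      by_cases hij : i = j
      · subst hij
        rw [Pi.single_eq_same]
        exact v.2.2
      · rw [Pi.single_eq_of_ne hij]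
        exact zero_mem _
    obtain ⟨h2, h3⟩ := qmul_gr (v := v') (d := m) hQ hA hl h1 v.1.2
    set w := qmul (qm g Q) v' (l, 0) with hw
    have h4 : ∀ i, ((qm g Q.adjugate).mulVec w.1) i ∈ gr g (m + a + 2 + 4) := by
      intro i
      rw [Matrix.mulVec, dotProduct]
      refine Submodule.sum_mem _ fun j _ => ?_
      have h3 := gr_mul (mem_gr.2 ⟨_, hA i j, rfl⟩) (h2 j)
      rwa [add_comm] at h3
    refine ⟨⟨fun i => ?_, fun i => ?_⟩, ?_, ?_⟩
    · change q g f * w.1 i ∈ _
      have h5 := gr_mul (mem_gr.2 ⟨f, H.hf, rfl⟩) (h2 i)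
      rwa [show 6 + (m + a + 2) = m + a + 8 by ring] at h5
    · change ((qm g Q.adjugate).mulVec (q g f • w.1)) i ∈ _
      rw [Matrix.mulVec_smul, Pi.smul_apply, smul_eq_mul]
      have h5 := f_mul_mem_Jq H (h4 i)
      rwa [show 6 + (m + a + 2 + 4) = m + a + 8 + 4 by ring] at h5
    · change q g f * w.2 ∈ _
      have h5 := f_mul_mem_Jq H h3
      rwa [show 6 + (m + a + 4) = m + a + 8 + 2 by ring] at h5
    · rw [hadjq]
      have h5 := (qmul_pure_eq_zero_iff (qm g Q) l (q g f • w)).1 (by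
        have h6 := rho_rho sq hll v'
        rw [rho_apply, rho_apply] at h6
        rw [qmul_smul_left, hw, h6, smul_zero])
      exact h5
  let E : (↥(gr g (m + 2)) × ↥(gr g m)) →ₗ[ℂ] NT f g Q l (m + a + 8) :=
    (nMap f Q l j m).codRestrict _ hmem
  have hE : Function.Injective E := by
    rw [injective_iff_map_eq_zero]
    intro v hv
    have h1 : q g f • qmul (qm g Q) (Pi.single j (v.2 : RG g), (v.1 : RG g)) (l, 0) = 0 :=
      congrArg Subtype.val hv
    have h2 := (smul_eq_zero.1 h1).resolve_left hf0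
    have h3 : (v.2 : RG g) = 0 := by
      have h4 := congrArg Prod.snd h2
      simp only [qmul, mul_zero, zero_sub, Prod.snd_zero, neg_eq_zero] at h4
      rw [dotProduct, Finset.sum_eq_single j] at h4
      · rw [Pi.single_eq_same] at h4
        exact (mul_eq_zero.1 h4).resolve_right hj
      · intro i _ hij
        rw [Pi.single_eq_of_ne hij, zero_mul]
      · intro h5
        exact absurd (Finset.mem_univ j) h5
    have h4 : (v.1 : RG g) = 0 := by
      have h5 := congrArg Prod.fst h2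
      rw [h3, Pi.single_zero] at h5
      simp only [qmul, map_zero, LinearMap.zero_apply, Matrix.mulVec_zero, smul_zero, add_zero,
        zero_smul, Prod.fst_zero] at h5
      exact (smul_eq_zero.1 h5).resolve_right hl0
    exact Prod.ext (Subtype.ext h4) (Subtype.ext h3)
  have fN : FiniteDimensional ℂ (NT f g Q l (m + a + 8)) := by
    have := finite_Wq f g Q.adjugate (m + a + 8)
    have := finite_Jq H (m + a + 8 + 2)
    let E : NT f g Q l (m + a + 8) →ₗ[ℂ] (Wq f g Q.adjugate (m + a + 8) ×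
        Jq f g (m + a + 8 + 2)) :=
      { toFun := fun w => (⟨w.1.1, w.2.1⟩, ⟨w.1.2, w.2.2.1⟩)
        map_add' := fun _ _ => rfl
        map_smul' := fun _ _ => rfl }
    refine FiniteDimensional.of_injective E ?_
    intro w w' h
    apply Subtype.ext
    exact Prod.ext (congrArg (fun v => (v.1 : Fin 3 → RG g)) h)
      (congrArg (fun v => (v.2 : RG g)) h)
  have h1 := LinearMap.finrank_le_finrank_of_injective hE
  rwa [finrank_prod] at h1

end Vale.Agent.P287.C8
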