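import Vale.Agent.P287.H139.Verra

/-!
A generic linear combination of elements of a finite-dimensional algebra, one of which is a unit,
is a nonzerodivisor.
-/

namespace Vale.Agent.P287.C8

open MvPolynomial Module Vale.Agent.P287 Vale.Agent.P287.H925 Vale.Agent.P287.Theta
open scoped TensorProduct

theorem nzd_tensor {BB : Type*} [CommRing BB] [Algebra ℂ BB] [FiniteDimensional ℂ BB]
    (l : Fin 3 → BB) (i₀ : Fin 3) (h : IsUnit (l i₀)) (y : TensorProduct ℂ RatK BB)
    (hy : (∑ i, tvec i ⊗ₜ[ℂ] l i) * y = 0) : y = 0 := by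
  classical
  set b := finBasis ℂ BB with hb
  set n := finrank ℂ BB with hn
  set b' : Basis (Fin n) RatK (RatK ⊗[ℂ] BB) := b.baseChange RatK with hb'
  set L : Fin 3 → Matrix (Fin n) (Fin n) ℂ := fun i => Algebra.leftMulMatrix b (l i) with hL
  set P : Matrix (Fin n) (Fin n) P3 := ∑ i, (X i : P3) • (L i).map C with hP
  -- the matrix of the multiplication
  have key : ∀ (c : RatK) (a : BB), Algebra.leftMulMatrix b' (c ⊗ₜ[ℂ] a) =
      c • (Algebra.leftMulMatrix b a).map (algebraMap ℂ RatK) := by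
    intro c a
    ext i j
    rw [Algebra.leftMulMatrix_eq_repr_mul, Matrix.smul_apply, Matrix.map_apply,
      Algebra.leftMulMatrix_eq_repr_mul, hb', Basis.baseChange_apply,
      Algebra.TensorProduct.tmul_mul_tmul, mul_one, Basis.baseChange_repr_tmul]
    rw [smul_eq_mul, Algebra.smul_def, mul_comm]
  have hmat : Algebra.leftMulMatrix b' (∑ i, tvec i ⊗ₜ[ℂ] l i) =
      P.map (aeval tvec : P3 →ₐ[ℂ] RatK) := by
    rw [map_sum]
    simp only [key]
    ext i j
    simp only [hP, Matrix.sum_apply, Matrix.smul_apply, Matrix.map_apply, map_sum, smul_eq_mul,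
      map_mul, aeval_X, algHom_C]
    rfl
  have hdet : (Algebra.leftMulMatrix b' (∑ i, tvec i ⊗ₜ[ℂ] l i)).det ≠ 0 := by
    rw [hmat]
    have h1 : (P.map (aeval tvec : P3 →ₐ[ℂ] RatK)).det = aeval tvec P.det :=
      (AlgHom.map_det (aeval tvec : P3 →ₐ[ℂ] RatK) P).symm
    rw [h1]
    intro h2
    have h3 : ∀ i j, (P i j).IsHomogeneous 1 := by
      intro i j
      simp only [hP, Matrix.sum_apply, Matrix.smul_apply, Matrix.map_apply, smul_eq_mul]
      refine IsHomogeneous.sum _ _ _ fun k _ => ?_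
      have h4 := (isHomogeneous_X ℂ k).mul (isHomogeneous_C (Fin 3) (L k i j))
      simpa using h4
    have h4 := H139.aeval_tvec_inj (H139.det_homog P 1 h3) h2
    have h5 : (L i₀).det = 0 := by
      have h6 := congrArg (eval (Pi.single i₀ 1 : Fin 3 → ℂ)) h4
      rw [map_zero, RingHom.map_det] at h6
      rw [← h6]
      congr 1
      ext i j
      simp only [hP, RingHom.mapMatrix_apply, Matrix.map_apply, Matrix.sum_apply,
        Matrix.smul_apply, smul_eq_mul, map_sum, map_mul, eval_X, eval_C]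
      rw [Finset.sum_eq_single i₀]
      · simp
      · intro k _ hk
        rw [Pi.single_eq_of_ne hk, zero_mul]
      · intro hk
        exact absurd (Finset.mem_univ _) hk
    have h6 : IsUnit (L i₀) := h.map (Algebra.leftMulMatrix b)
    rw [Matrix.isUnit_iff_isUnit_det, h5] at h6
    exact not_isUnit_zero h6
  have h1 : Algebra.leftMulMatrix b' (∑ i, tvec i ⊗ₜ[ℂ] l i) * Algebra.leftMulMatrix b' y = 0 := by
    rw [← map_mul, hy, map_zero]
  have h2 : Algebra.leftMulMatrix b' y = 0 := by
    have h3 := congrArg (fun M => (Algebra.leftMulMatrix b' (∑ i, tvec i ⊗ₜ[ℂ] l i)).adjugate * M) h1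
    simp only [← mul_assoc, Matrix.adjugate_mul, Matrix.smul_mul, one_mul, mul_zero] at h3
    exact (smul_eq_zero.1 h3).resolve_left hdet
  exact Algebra.leftMulMatrix_injective b' (by rw [h2, map_zero])

end Vale.Agent.P287.C8
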