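import Vale.Agent.P287.C8.Zeros
import Vale.Agent.P287.C8.Even

/-!
The last step of the second parity theorem: at a point of the curve `g = 0` over an extension field,
the value of the second form is a square as soon as this holds after multiplication with all the
`h² / f`, where `h` runs through the forms with `h² ∈ (f, g)`.
-/

namespace Vale.Agent.P287.C8

open MvPolynomial Vale.Agent.P287 Vale.Agent.P287.H925 Vale.Agent.P287.Theta

variable {f g : P3} {m : ℕ}

/-- A common zero of `g` and a form not divisible by `g` is a complex point. -/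
lemma coords_complex {c : P3} {e : ℕ} (hg : g.IsHomogeneous m) (hp : Prime g)
    (hc : c.IsHomogeneous e) (hgc : ¬ g ∣ c) {L : Type*} [Field L] [Algebra ℂ L] (σ : Fin 3 → L)
    (h0 : σ 0 = 1) (h1 : aeval σ g = 0) (h2 : aeval σ c = 0) :
    ∃ z : Fin 3 → ℂ, z 0 = 1 ∧ σ = fun i => algebraMap ℂ L (z i) := by
  classical
  obtain ⟨S, hS, hS'⟩ := finite_zeros hg hp hc hgc
  have key : ∀ i, ∃ z : ℂ, σ i = algebraMap ℂ L z := by
    intro i
    set I : Ideal P3 := Ideal.span {g, c, X 0 - 1} with hI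
    set p : P3 := ∏ s ∈ S.filter (fun s => s 0 ≠ 0), (C (s 0) * X i - C (s i)) with hpdef
    have h3 : p ∈ I.radical := by
      rw [← vanishingIdeal_zeroLocus_eq_radical (k := ℂ) (K := ℂ), mem_vanishingIdeal_iff]
      intro z hz
      rw [hI, zeroLocus_span] at hz
      have hzg : eval z g = 0 := by
        rw [eval_eq_aeval]
        exact hz g (by simp)
      have hzc : eval z c = 0 := by
        rw [eval_eq_aeval]
        exact hz c (by simp)
      have hz0 : z 0 = 1 := by
        have h4 := hz (X 0 - 1) (by simp)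
        rw [map_sub, aeval_X, map_one, sub_eq_zero] at h4
        exact h4
      have hzn : z ≠ 0 := by
        rintro rfl
        exact zero_ne_one hz0
      obtain ⟨s, hs, κ, hκ⟩ := hS' z hzn hzg hzc
      have e0 : κ * s 0 = 1 := by rw [← hz0, hκ]; rfl
      have ei : z i = κ * s i := by rw [hκ]; rfl
      have hs0 : s 0 ≠ 0 := by
        intro h4
        rw [h4, mul_zero] at e0
        exact zero_ne_one e0
      rw [← eval_eq_aeval, hpdef, map_prod]
      refine Finset.prod_eq_zero (Finset.mem_filter.2 ⟨hs, hs0⟩) ?_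
      rw [map_sub, map_mul, eval_C, eval_C, eval_X, ei]
      linear_combination s i * e0
    obtain ⟨n, hn⟩ := h3
    have h4 : aeval σ (p ^ n) = 0 := by
      have h5 : I ≤ RingHom.ker (aeval σ : P3 →ₐ[ℂ] L) := by
        rw [hI, Ideal.span_le]
        rintro a (rfl | rfl | rfl)
        · exact h1
        · exact h2
        · change aeval σ (X 0 - 1) = 0
          rw [map_sub, aeval_X, map_one, h0, sub_self]
      exact h5 hn
    rw [map_pow] at h4
    have h5 := eq_zero_of_pow_eq_zero h4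
    rw [hpdef, map_prod, Finset.prod_eq_zero_iff] at h5
    obtain ⟨s, hs, hs'⟩ := h5
    have hs0 := (Finset.mem_filter.1 hs).2
    rw [map_sub, map_mul, aeval_X, algHom_C, algHom_C, sub_eq_zero] at hs'
    refine ⟨s i / s 0, ?_⟩
    rw [map_div₀, eq_div_iff (by rwa [Ne, map_eq_zero])]
    rw [mul_comm]
    exact hs'
  choose z hz using key
  refine ⟨z, ?_, funext hz⟩
  have h3 := hz 0
  rw [h0, ← map_one (algebraMap ℂ L)] at h3
  exact ((algebraMap ℂ L).injective h3).symm

/-- the value at a complex point -/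
lemma aeval_complex {L : Type*} [Field L] [Algebra ℂ L] (z : Fin 3 → ℂ) (p : P3) :
    aeval (fun i => algebraMap ℂ L (z i)) p = algebraMap ℂ L (eval z p) := by
  rw [eval_eq_aeval]
  exact aeval_algebraMap_apply L z p

/-- local evenness with homogeneous data -/
lemma even_homog {d : ℕ} (hf : f.IsHomogeneous d) (pf : Prime f) (hd : d ≠ 1)
    (hg : g.IsHomogeneous m) {z : Fin 3 → ℂ} (hz0 : z 0 = 1) {v ε : P3}
    (hv : eval z v ≠ 0) (h : f ∣ v * g - ε ^ 2) :
    ∃ (n : ℕ) (v' ε' : P3), v'.IsHomogeneous n ∧ ε'.IsHomogeneous (m + n) ∧ eval z v' ≠ 0 ∧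
      f ∣ v' * X 0 ^ (m + n) * g - ε' ^ 2 := by
  have hzz : z = Fin.cons 1 (fun i : Fin 2 => z i.succ) := by
    funext i
    refine Fin.cases ?_ (fun i => ?_) i
    · rw [hz0]; rfl
    · rfl
  obtain ⟨n1, h1⟩ := exists_homogenisation (dehom v)
  obtain ⟨n2, h2⟩ := exists_homogenisation (dehom ε)
  obtain ⟨v', hv', hv''⟩ := h1 (n1 + n2) (by omega)
  obtain ⟨ε', hε', hε''⟩ := h2 (m + (n1 + n2)) (by omega)
  refine ⟨n1 + n2, v', ε', hv', hε', ?_, ?_⟩
  · rw [hzz, ← eval_dehom, hv'', eval_dehom, ← hzz]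
    exact hv
  · have hh : (v' * X 0 ^ (m + (n1 + n2)) * g - ε' ^ 2).IsHomogeneous
        ((m + (n1 + n2)) + (m + (n1 + n2))) := by
      refine IsHomogeneous.sub ?_ ?_
      · have h3 := (hv'.mul ((isHomogeneous_X ℂ (0 : Fin 3)).pow (m + (n1 + n2)))).mul hg
        have e1 : n1 + n2 + 1 * (m + (n1 + n2)) + m = (m + (n1 + n2)) + (m + (n1 + n2)) := by ring
        rwa [e1] at h3
      · rw [pow_two]
        exact hε'.mul hε'
    refine dvd_of_cr_dvd hf pf hd hh ?_
    have hcr : ∀ p : P3, cr p = crInv (dehom p) := fun p => rfl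
    have h3 : cr (v' * X 0 ^ (m + (n1 + n2)) * g - ε' ^ 2) = cr (v * g - ε ^ 2) := by
      rw [map_sub, map_mul, map_mul, map_pow, map_pow, cr_X0, one_pow, mul_one, map_sub, map_mul,
        map_pow, hcr v', hcr v, hcr ε', hcr ε, hv'', hε'']
    rw [h3]
    exact map_dvd cr h

/-- The last step of the parity theorem. -/
theorem exists_sqrt_of_point (H : EvenOn f g m) (pg : Prime g) (hgf : ¬ g ∣ f)
    (nice : ∀ z : Fin 3 → ℂ, z ≠ 0 → eval z f = 0 → eval z g = 0 →
      ∃ i, eval z (pderiv i g) ≠ 0)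
    (hsq : ∃ (e : ℕ) (s c : P3), c.IsHomogeneous e ∧ ¬ g ∣ c ∧ g ∣ c ^ 2 * f - s ^ 2)
    {L : Type*} [Field L] [Algebra ℂ L] (σ : Fin 3 → L) (h0 : σ 0 = 1) (hσ : aeval σ g = 0)
    (D : L)
    (hy : ∀ (d e : ℕ) (h c : P3), h.IsHomogeneous d → c.IsHomogeneous e → 6 + e = 2 * d →
      g ∣ f * c - h ^ 2 → ∃ y : L, y ^ 2 = - aeval σ c * D) :
    ∃ w : L, w ^ 2 = D := by
  obtain ⟨e, s, c, hc, hgc, hcs⟩ := hsq
  set I : L := algebraMap ℂ L Complex.I with hI
  have hII : I ^ 2 = -1 := by
    rw [hI, ← map_pow, Complex.I_sq, map_neg, map_one]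
  -- it suffices that `- c D` is a square for a `c` which is a nonzero square
  have fin : ∀ (a z : L), z ^ 2 = a → a ≠ 0 → (∃ y : L, y ^ 2 = - a * D) → ∃ w : L, w ^ 2 = D := by
    rintro a z hz ha ⟨y, hy⟩
    have hz0 : z ≠ 0 := by
      rintro rfl
      apply ha
      rw [← hz]
      ring
    refine ⟨I * y / z, ?_⟩
    rw [div_pow, mul_pow, hII, hy, hz]
    field_simp
  have hf2 : ∃ y : L, y ^ 2 = - aeval σ f * D :=
    hy 6 6 f f H.hf H.hf (by norm_num) (by rw [pow_two, sub_self]; exact dvd_zero g)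
  have hdvd : ∀ a, g ∣ a → aeval σ a = 0 := by
    rintro _ ⟨b, rfl⟩
    rw [map_mul, hσ, zero_mul]
  by_cases hc0 : aeval σ (c * f) = 0
  · obtain ⟨z, hz0, rfl⟩ := coords_complex H.hu pg (hc.mul H.hf)
      (fun h => (pg.dvd_or_dvd h).elim hgc hgf) σ h0 hσ hc0
    have hsqc : ∀ a : ℂ, a ≠ 0 → (∃ y : L, y ^ 2 = - algebraMap ℂ L a * D) →
        ∃ w : L, w ^ 2 = D := by
      intro a ha hya
      obtain ⟨ρ, hρ⟩ := IsAlgClosed.exists_pow_nat_eq a (n := 2) (by norm_num)
      refine fin (algebraMap ℂ L a) (algebraMap ℂ L ρ) ?_ (by rwa [Ne, map_eq_zero]) hya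
      rw [← map_pow, hρ]
    have hzg : eval z g = 0 := by
      rw [aeval_complex] at hσ
      exact (map_eq_zero (algebraMap ℂ L)).1 hσ
    have hzn : z ≠ 0 := by
      rintro rfl
      exact zero_ne_one hz0
    by_cases hzf : eval z f = 0
    · -- a point of `f = g = 0`
      obtain ⟨v, ε, hv, hvε⟩ := H.even z hzn hzf
      obtain ⟨n, v', ε', hv', hε', hzv', hd⟩ := even_homog H.hf H.pf (by norm_num) H.hu hz0 hv hvε
      obtain ⟨w, hw⟩ := hd
      set V := v' * X 0 ^ (m + n) with hV
      have hzV : eval z V ≠ 0 := by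
        rw [hV, map_mul, map_pow, eval_X, hz0, one_pow, mul_one]
        exact hzv'
      -- degrees
      have hfw : (f * w).IsHomogeneous ((m + n) + (m + n)) := by
        rw [← hw]
        refine IsHomogeneous.sub ?_ ?_
        · have h3 := (hv'.mul ((isHomogeneous_X ℂ (0 : Fin 3)).pow (m + n))).mul H.hu
          have e1 : n + 1 * (m + n) + m = (m + n) + (m + n) := by ring
          rwa [e1] at h3
        · rw [pow_two]
          exact hε'.mul hε'
      have hzε : eval z ε' = 0 := by
        have h3 := congrArg (eval z) hw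
        rw [map_sub, map_mul _ V g, map_mul _ f w, hzg, hzf, mul_zero, zero_mul, zero_sub,
          neg_eq_zero, map_pow] at h3
        exact eq_zero_of_pow_eq_zero h3
      -- `w` does not vanish at `z`
      have hzw : eval z w ≠ 0 := by
        intro hzw
        obtain ⟨i, hi⟩ := nice z hzn hzf hzg
        have h3 := congrArg (fun p => eval z (pderiv i p)) hw
        simp only [pow_two, map_sub, pderiv_mul, map_add, map_mul, hzg, hzf, hzw, hzε,
          mul_zero, zero_mul, zero_add, add_zero, sub_zero] at h3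
        rcases mul_eq_zero.1 h3 with h4 | h4
        · exact hzV h4
        · exact hi h4
      have hw0 : w ≠ 0 := by
        rintro rfl
        exact hzw (map_zero _)
      obtain ⟨k, hk, hwk⟩ := degree_le_of_mul H.hf hfw (mul_ne_zero H.pf.ne_zero hw0)
      apply hsqc (eval z (-w)) (by rw [map_neg]; exact neg_ne_zero.2 hzw)
      have h4 := hy (m + n) k ε' (-w) hε' hwk.neg (by omega)
        ⟨-V, by linear_combination hw⟩
      rwa [aeval_complex] at h4
    · apply hsqc _ hzf
      rwa [aeval_complex] at hf2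
  · rw [map_mul] at hc0
    have hc1 := left_ne_zero_of_mul hc0
    have hf0 := right_ne_zero_of_mul hc0
    have h3 := hdvd _ hcs
    rw [map_sub, map_mul, map_pow, map_pow, sub_eq_zero] at h3
    refine fin (aeval σ f) (aeval σ s / aeval σ c) ?_ hf0 hf2
    rw [div_pow, ← h3]
    field_simp

end Vale.Agent.P287.C8
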