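import Vale.Agent.P287.C8.ParGraded
import Vale.Agent.P287.C8.Functional
import Vale.Agent.P287.C8.LatW

/-!
The parity theorem: for a sextic `f = det Q`, `Q` a symmetric matrix of quadratic forms, a plane
curve `g = 0` of odd degree `2 r + 1` meeting `f = 0` with even multiplicities, and an isotropic
vector `l` for `adj Q` over `g = 0`, the dimensions of `N`, `W` and `J` are congruent modulo two.
-/

namespace Vale.Agent.P287.C8

open MvPolynomial Module Vale.Agent.P287 Vale.Agent.P287.H925 Vale.Agent.P287.Theta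

variable {f g : P3} {r a : ℕ} {Q : Matrix (Fin 3) (Fin 3) P3}

lemma q_eq_zero_iff {g p : P3} : q g p = 0 ↔ g ∣ p := by
  rw [q, Ideal.Quotient.eq_zero_iff_mem, Ideal.mem_span_singleton]

/-- the theorem in suitable coordinates -/
theorem parity1_chart (H : EvenOn f g (2 * r + 1)) (pg : Prime g) (sQ : Q.IsSymm)
    (hQ : ∀ i j, (Q i j).IsHomogeneous 2) (hA : ∀ i j, (Q.adjugate i j).IsHomogeneous 4)
    (hdet : Q.det = f) {l : Fin 3 → RG g} (hl : ∀ i, l i ∈ gr g a)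
    (hll : dotProduct l ((qm g Q).adjugate.mulVec l) = 0)
    (hg1 : eval ![0, 0, 1] g ≠ 0)
    (hf1 : ∀ z : Fin 3 → ℂ, z ≠ 0 → z 0 = 0 → eval z g = 0 → eval z f ≠ 0)
    {i₀ : Fin 3} {L : P3} (hLl : q g L = l i₀)
    (hL1 : ∀ z : Fin 3 → ℂ, z ≠ 0 → z 0 = 0 → eval z g = 0 → eval z L ≠ 0)
    {n : ℕ} (hn : r + a + 4 < n) :
    finrank ℂ (Jq f g (r + 2 + n)) = (2 * r + 1) * n ∧
      Even (finrank ℂ (Nq f g Q Q.adjugate l (r + n)) + finrank ℂ (Wq f g Q.adjugate r) +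
        finrank ℂ (Jq f g (r + 2))) := by
  have := finite_BB H.hu hg1 (2 * n)
  have hn0 : 0 < 2 * n := by omega
  obtain ⟨hJJ, hWW, hJn, hWn, hJc, hWc⟩ := lattice_facts (n := n) H pg sQ hdet hA hf1 (by omega)
    (by omega)
  refine parity_graded H sQ hQ hA hdet hl hll (toBB g (2 * n)) (lamB H.hu hg1 hn0)
    (lamB_nondeg H.hu hg1 hn0) (bb_dim H.hu hg1 n) (bb_deg H.hu hg1 hn0) (bb_tt H.hu hg1 n)
    (bb_inj H.hu hg1 n) (bb_div H.hu hg1 n) (isUnit_toBB g (2 * n) hf1) (i₀ := i₀) ?_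
    (X0_pow_mul_eq_zero hg1 n) hJJ hWW hJn hWn hJc hWc hn
  rw [← hLl]
  exact isUnit_toBB g (2 * n) hL1

/-- `g` does not divide the smooth sextic `f` -/
lemma EvenOn.not_dvd {f g : P3} {e : ℕ} (H : EvenOn f g e) (pg : Prime g) : ¬ g ∣ f := by
  intro h
  exact H.hfu ((pg.associated_of_dvd H.pf h).symm.dvd)

/-- **The parity theorem.** -/
theorem parity1 (H : EvenOn f g (2 * r + 1)) (pg : Prime g) {A : Matrix (Fin 3) (Fin 3) P3}
    (sQ : Q.IsSymm) (hQ : ∀ i j, (Q i j).IsHomogeneous 2) (hA : ∀ i j, (A i j).IsHomogeneous 4)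
    (hQA : Q * A = f • (1 : Matrix (Fin 3) (Fin 3) P3)) (hdet : Q.det = f)
    {l : Fin 3 → RG g} (hl : ∀ i, l i ∈ gr g a) (hl0 : l ≠ 0)
    (hll : dotProduct ((qm g A).mulVec l) l = 0) :
    ∃ n₀, ∀ n, n₀ ≤ n →
      Even (finrank ℂ (Nq f g Q A l (r + n)) + finrank ℂ (Wq f g A r) +
        finrank ℂ (Jq f g (r + 2))) ∧
      finrank ℂ (gr g (r + n)) = (2 * r + 1) * (n + 1) ∧
      finrank ℂ (Jq f g (r + 2 + n)) = (2 * r + 1) * n := by
  have hA' : A = Q.adjugate := by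
    refine eq_adjugate_of_mul ?_ ?_
    · rw [hdet]
      exact H.pf.ne_zero
    · rw [hQA, hdet]
  subst hA'
  -- a nonzero coordinate
  obtain ⟨i₀, hi₀⟩ : ∃ i, l i ≠ 0 := by
    by_contra hcon
    push Not at hcon
    exact hl0 (funext hcon)
  obtain ⟨L, hL, hLl⟩ := mem_gr.1 (hl i₀)
  have hgL : ¬ g ∣ L := by
    rw [← q_eq_zero_iff, hLl]
    exact hi₀
  have hgf : ¬ g ∣ f * L := fun h => (pg.dvd_or_dvd h).elim (H.not_dvd pg) hgL
  obtain ⟨P, hP, hP1, hP2⟩ := exists_coord H.hu pg (H.hf.mul hL) hgf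
  have H' := H.lin hP
  have pg' : Prime (lin P g) := (MulEquiv.prime_iff (linEquiv P hP)).2 pg
  refine ⟨r + a + 5, fun n hn => ?_⟩
  have key := parity1_chart (f := lin P f) (g := lin P g) (r := r) (a := a) (Q := Q.map (lin P))
    H' pg' (isSymm_lin sQ) (homog_lin (e := fun _ _ => 2) hQ)
    (by rw [adj_lin]; exact homog_lin (e := fun _ _ => 4) hA)
    (by rw [det_lin, hdet]) (l := qe3 hP g l) (fun i => (mem_gr_lin hP).2 (hl i))
    (by
      have h1 : (qm (lin P g) (Q.map (lin P))).adjugate =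
          qm (lin P g) (Q.adjugate.map (lin P)) := by
        rw [← adj_lin]
        exact (RingHom.map_adjugate (Ideal.Quotient.mk (Ideal.span {lin P g})) _).symm
      have h2 : (qm (lin P g) (Q.adjugate.map (lin P))).mulVec (qe3 hP g l) =
          qe3 hP g ((qm g Q.adjugate).mulVec l) := funext fun i => mulVec_lin hP g _ l i
      rw [h1, h2, dotProduct_lin, dotProduct_comm, hll, map_zero]) hP1
    (fun z hz hz0 hzg hzf => hP2 z hz hz0 hzg (by rw [map_mul, map_mul, hzf, zero_mul]))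
    (i₀ := i₀) (L := lin P L)
    (by rw [← qe_mk hP, hLl, qe3_apply])
    (fun z hz hz0 hzg hzf => hP2 z hz hz0 hzg (by rw [map_mul, map_mul, hzf, mul_zero]))
    (n := n) (by omega)
  rw [adj_lin, finrank_Nq_lin hP, finrank_Wq_lin hP, finrank_Jq_lin hP, finrank_Jq_lin hP] at key
  refine ⟨key.2, finrank_gr_odd H.hu pg.ne_zero (by omega), key.1⟩

end Vale.Agent.P287.C8
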