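import Vale.Agent.P287.C8.TypeC
import Vale.Agent.P287.C8.GoodVec
import Vale.Agent.P287.C8.DimTheta
import Vale.Agent.P287.C8.Line0
import Vale.Agent.P287.C8.Parity1

/-!
Splitting curves of odd degree.
-/

namespace Vale.Agent.P287.C8

open MvPolynomial Module Vale.Agent.P287 Vale.Agent.P287.H925 Vale.Agent.P287.H925.NetResult
  Vale.Agent.P287.Theta Vale.Agent.P287.H139

/-- The statement of the second half of the parity theorem. -/
def Parity2 (f g : P3) (r : ℕ) : Prop :=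
  ∀ (Q : Matrix (Fin 3) (Fin 3) P3) (d : ℕ) (l : Fin 3 → P3), Q.IsSymm →
    (∀ i j, (Q i j).IsHomogeneous 2) → Q.det = f → (∀ i, (l i).IsHomogeneous d) →
    (∃ i, ¬ g ∣ l i) → g ∣ l ⬝ᵥ Q.adjugate.mulVec l →
    (∀ z : Fin 3 → ℂ, z ≠ 0 → eval z f = 0 → eval z g = 0 → ∃ i, eval z (l i) ≠ 0) →
    (∃ n₀, ∀ n ≥ n₀, Even (finrank ℂ (Nq f g Q Q.adjugate (fun i => q g (l i)) (r + n))) ∧
      finrank ℂ (gr g (r + n)) = (2 * r + 1) * (n + 1) ∧
      finrank ℂ (Jq f g (r + 2 + n)) = (2 * r + 1) * n) →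
    ∃ v : Fin 4 → RatK, v ≠ 0 ∧ qf (vmat (tens Q)) v = 0

/-- **Splitting curves of odd degree**: the cubic fourfold is rational if the theta characteristic
of the splitting curve has an even number of sections. -/
theorem typeC_of_parity2 {M : Matrix (Fin 4) (Fin 4) P3} {g : P3} {r : ℕ} (hM : M.IsSymm)
    (hdeg : ∀ i j, (M i j).IsHomogeneous (1 + wt i + wt j))
    (hs : SmoothForm (cubicOf M)) (hsm : SmoothP M.det) (hg : Irreducible g)
    (hgr : g.IsHomogeneous (2 * r + 1)) (hgf : ¬ g ∣ M.det)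
    (hsq : ∃ (e : ℕ) (s c : P3), c.IsHomogeneous e ∧ ¬ g ∣ c ∧ g ∣ c ^ 2 * M.det - s ^ 2)
    (hθ : Even (finrank ℂ (thetaSp M.det g (r + 2)))) (hP2 : Parity2 M.det g r) :
    RationalHypersurface (cubicOf M) := by
  have H : EvenOn M.det g (2 * r + 1) := evenOn_split (det_hom6 hdeg) hsm hgr hg.prime hgf hsq
  rcases Nat.eq_zero_or_pos r with hr | hr
  · subst hr
    have H1 : EvenOn M.det g 1 := H
    have h3 := H1.finrank_thetaSp_line hg.prime
    have h4 : finrank ℂ (thetaSp M.det g (0 + 2)) = 3 := h3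
    rw [h4] at hθ
    exact absurd hθ (by decide)
  refine typeC_of hM hdeg hs hsm hg hgr hr hgf hsq fun b Q D hdet => ?_
  have hA : ∀ i j, (Q.adjugate i j).IsHomogeneous 4 := D.hA
  obtain ⟨d, l, hl, hlg, hll, good⟩ := exists_good_isotropic (det_hom6 hdeg) hgr (by omega)
    hg.prime hgf D.sQ D.hQ hdet (fun z hz hfz _ => D.exists_A_ne hz hfz)
  refine hP2 Q d l D.sQ D.hQ hdet hl hlg hll good ?_
  have hl0 : (fun i => q g (l i)) ≠ 0 := by
    obtain ⟨i, hi⟩ := hlg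
    intro h0
    apply hi
    rw [← Ideal.mem_span_singleton, ← Ideal.Quotient.eq_zero_iff_mem]
    exact congrFun h0 i
  have hll' : dotProduct ((qm g Q.adjugate).mulVec fun i => q g (l i)) (fun i => q g (l i)) = 0 := by
    rw [← Ideal.mem_span_singleton, ← Ideal.Quotient.eq_zero_iff_mem] at hll
    rw [← hll, dotProduct_comm]
    simp only [dotProduct, Matrix.mulVec, map_sum, map_mul, Matrix.map_apply]
  obtain ⟨n₀, hn₀⟩ := parity1 H hg.prime D.sQ D.hQ D.hA D.hQA hdet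
    (fun i => mem_gr.2 ⟨l i, hl i, rfl⟩) hl0 hll'
  have hW := D.finrank_Wq
  have hJ := H.finrank_Jq_theta hr
  refine ⟨n₀, fun n hn => ?_⟩
  obtain ⟨h1, h2, h3⟩ := hn₀ n hn
  exact ⟨even_of_parity hr hW hJ h1 hθ, h2, h3⟩

end Vale.Agent.P287.C8
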