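import Vale.Agent.P287.C8.Point
import Vale.Agent.P287.C8.NBound
import Vale.Agent.P287.C8.AffEx
import Vale.Agent.P287.C8.Nzd
import Vale.Agent.P287.C8.PointLift
import Vale.Agent.P287.C8.TypeCFinal
import Vale.Agent.P287.H139.Springer

/-!
The second half of the parity theorem: the lattice `N` of even dimension gives a point of odd
degree, hence a zero of the second quadratic form of the Verra correspondence.
-/

namespace Vale.Agent.P287.C8

open MvPolynomial Module Vale.Agent.P287 Vale.Agent.P287.H925 Vale.Agent.P287.H925.NetResult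
  Vale.Agent.P287.Theta Vale.Agent.P287.H139
open scoped TensorProduct

/-- the coordinates of the generic point are linearly independent over `ℂ` -/
lemma tvec_indep {c : Fin 3 → ℂ} (h : ∑ i, tvec i * algebraMap ℂ RatK (c i) = 0) : c = 0 := by
  have h1 : (∑ i, (C (c i) * X i : P3)).IsHomogeneous 1 :=
    IsHomogeneous.sum _ _ _ fun i _ => isHomogeneous_C_mul_X _ _
  have h2 : aeval tvec (∑ i, (C (c i) * X i : P3)) = 0 := by
    rw [map_sum, ← h]
    refine Finset.sum_congr rfl fun i _ => ?_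
    rw [map_mul, aeval_X, algHom_C, mul_comm]
  have h3 := aeval_tvec_inj h1 h2
  funext i
  have h4 := congrArg (eval (Pi.single i 1 : Fin 3 → ℂ)) h3
  rw [map_sum, map_zero, Finset.sum_eq_single i] at h4
  · rw [map_mul, eval_C, eval_X, Pi.single_eq_same, mul_one] at h4
    exact h4
  · intro j _ hj
    rw [map_mul, eval_C, eval_X, Pi.single_eq_of_ne hj, mul_zero]
  · intro h5
    exact absurd (Finset.mem_univ i) h5

/-- The last step: the second form takes a square value. -/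
lemma exists_sqrt_good {f g : P3} {m : ℕ} (H : EvenOn f g m) (pg : Prime g)
    (hsq : ∃ (e : ℕ) (s c : P3), c.IsHomogeneous e ∧ ¬ g ∣ c ∧ g ∣ c ^ 2 * f - s ^ 2)
    {l : Fin 3 → P3}
    (good : ∀ z : Fin 3 → ℂ, z ≠ 0 → eval z f = 0 → eval z g = 0 → ∃ i, eval z (l i) ≠ 0)
    {L : Type*} [Field L] [Algebra ℂ L] [Algebra RatK L] [IsScalarTower ℂ RatK L]
    (τ : Fin 3 → L) (h0 : τ 0 = 1) (hτ : aeval τ g = 0) (D y : L)
    (hy : y ^ 2 + D * aeval τ f = 0)
    (hl : ∑ i, algebraMap RatK L (tvec i) * aeval τ (l i) = 0) : ∃ w : L, w ^ 2 = D := by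
  have hgf : ¬ g ∣ f := H.not_dvd pg
  obtain ⟨e, s, c, hc, hgc, hcs⟩ := hsq
  have hII : (algebraMap ℂ L Complex.I) ^ 2 = -1 := by
    rw [← map_pow, Complex.I_sq, map_neg, map_one]
  have hf0 : aeval τ f ≠ 0 := by
    intro hf
    obtain ⟨z, hz0, rfl⟩ := coords_complex H.hu pg H.hf hgf τ h0 hτ hf
    have hzf : eval z f = 0 := by
      rw [aeval_complex] at hf
      exact (map_eq_zero (algebraMap ℂ L)).1 hf
    have hzg : eval z g = 0 := by
      rw [aeval_complex] at hτ
      exact (map_eq_zero (algebraMap ℂ L)).1 hτ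
    have hzn : z ≠ 0 := by
      rintro rfl
      exact zero_ne_one hz0
    obtain ⟨i, hi⟩ := good z hzn hzf hzg
    apply hi
    have h1 : algebraMap RatK L (∑ i, tvec i * algebraMap ℂ RatK (eval z (l i))) = 0 := by
      rw [map_sum, ← hl]
      refine Finset.sum_congr rfl fun i _ => ?_
      rw [map_mul, aeval_complex, ← IsScalarTower.algebraMap_apply]
    have h2 := tvec_indep ((map_eq_zero (algebraMap RatK L)).1 h1)
    exact congrFun h2 i
  obtain ⟨ρ, hρ⟩ : ∃ ρ : L, ρ ^ 2 = aeval τ f := by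
    by_cases hc0 : aeval τ c = 0
    · obtain ⟨z, hz0, rfl⟩ := coords_complex H.hu pg hc hgc τ h0 hτ hc0
      obtain ⟨ρ, hρ⟩ := IsAlgClosed.exists_pow_nat_eq (eval z f) (n := 2) (by norm_num)
      exact ⟨algebraMap ℂ L ρ, by rw [aeval_complex, ← map_pow, hρ]⟩
    · refine ⟨aeval τ s / aeval τ c, ?_⟩
      obtain ⟨u, hu⟩ := hcs
      have h1 := congrArg (aeval τ : P3 →ₐ[ℂ] L) hu
      rw [map_sub, map_mul, map_pow, map_pow, map_mul, hτ, zero_mul, sub_eq_zero] at h1
      rw [div_pow, ← h1]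
      field_simp
  have hρ0 : ρ ≠ 0 := by
    rintro rfl
    apply hf0
    rw [← hρ]
    ring
  refine ⟨algebraMap ℂ L Complex.I * y / ρ, ?_⟩
  rw [div_pow, mul_pow, hII, div_eq_iff (pow_ne_zero 2 hρ0), hρ]
  linear_combination -hy

theorem parity2_chart {f g : P3} {Q : Matrix (Fin 3) (Fin 3) P3} {r a : ℕ} (hr : 1 ≤ r)
    (H : EvenOn f g (2 * r + 1)) (pg : Prime g)
    (hsq : ∃ (e : ℕ) (s c : P3), c.IsHomogeneous e ∧ ¬ g ∣ c ∧ g ∣ c ^ 2 * f - s ^ 2)
    (sQ : Q.IsSymm) (hQ : ∀ i j, (Q i j).IsHomogeneous 2)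
    (hA : ∀ i j, (Q.adjugate i j).IsHomogeneous 4) (hdet : Q.det = f)
    {l : Fin 3 → P3} (hl : ∀ i, (l i).IsHomogeneous a)
    (hll : g ∣ l ⬝ᵥ Q.adjugate.mulVec l)
    (good : ∀ z : Fin 3 → ℂ, z ≠ 0 → eval z f = 0 → eval z g = 0 → ∃ i, eval z (l i) ≠ 0)
    (hg1 : eval ![0, 0, 1] g ≠ 0) {i₀ : Fin 3} (hli : ¬ g ∣ l i₀)
    (hinf : ∀ z : Fin 3 → ℂ, z ≠ 0 → z 0 = 0 → eval z g = 0 →
      eval z f ≠ 0 ∧ eval z (l i₀) ≠ 0)
    (hN : ∃ n₀, ∀ n ≥ n₀, Even (finrank ℂ (Nq f g Q Q.adjugate (fun i => q g (l i)) (r + n))) ∧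
      finrank ℂ (gr g (r + n)) = (2 * r + 1) * (n + 1) ∧
      finrank ℂ (Jq f g (r + 2 + n)) = (2 * r + 1) * n) :
    ∃ (L : Type) (_ : Field L) (_ : Algebra ℂ L) (_ : Algebra RatK L)
      (_ : IsScalarTower ℂ RatK L) (_ : FiniteDimensional RatK L),
      Odd (finrank RatK L) ∧ ∃ (τ : Fin 3 → L) (w : L), τ 0 = 1 ∧
        w ^ 2 = ∑ i, ∑ j, algebraMap RatK L (tvec i * tvec j) * aeval τ (Q i j) := by
  have hgf : ¬ g ∣ f := H.not_dvd pg
  have hX : ∀ z : Fin 3 → ℂ, eval z f = 0 → eval z g = 0 → z 0 = 0 → z = 0 := by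
    intro z hzf hzg hz0
    by_contra hz
    exact (hinf z hz hz0 hzg).1 hzf
  obtain ⟨B, i1, i2, i3, ⟨D⟩⟩ := exists_affChart H.hu pg (by omega)
  set l' : Fin 3 → RG g := fun i => q g (l i) with hl'
  have hlgr : ∀ i, l' i ∈ gr g a := fun i => mem_gr.2 ⟨l i, hl i, rfl⟩
  have hl0 : l' ≠ 0 := by
    intro h0
    apply hli
    rw [← Ideal.mem_span_singleton, ← Ideal.Quotient.eq_zero_iff_mem]
    exact congrFun h0 i₀
  have hf0 : D.psi f ≠ 0 := by
    intro h0
    apply hgf
    rw [← Ideal.mem_span_singleton, ← Ideal.Quotient.eq_zero_iff_mem]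
    exact D.inj 6 _ (mem_gr.2 ⟨f, H.hf, rfl⟩) h0
  have hll' : dotProduct l' ((qm g Q).adjugate.mulVec l') = 0 := by
    have hadjq : qm g Q.adjugate = (qm g Q).adjugate := RingHom.map_adjugate _ Q
    rw [← hadjq]
    rw [← Ideal.mem_span_singleton, ← Ideal.Quotient.eq_zero_iff_mem] at hll
    rw [← hll]
    simp only [hl', dotProduct, Matrix.mulVec, map_sum, map_mul, Matrix.map_apply]
  have hgr0 : g ≠ 0 := pg.ne_zero
  -- dimensions
  obtain ⟨n₀, hn₀⟩ := hN
  have fJ := finite_Jq H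
  have hMT : ∀ n, n₀ ≤ n → finrank ℂ (MT f g (r + n)) =
      (2 * r + 1) * (n + 1) + (2 * r + 1) * n := by
    intro n hn
    have h1 := hn₀ n hn
    have h2 : finrank ℂ (MT f g (r + n)) = finrank ℂ (gr g (r + n)) +
        finrank ℂ (Jq f g (r + n + 2)) := finrank_prod
    rw [h2, h1.2.1, show r + n + 2 = r + 2 + n by ring, h1.2.2]
  have hfinB : FiniteDimensional ℂ (BB g 1) := finite_BB H.hu hg1 1
  have htt : toBB g 1 (q g (X 0)) = 0 := by
    have h1 := toBB_X0_pow g 1 1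
    rw [pow_one] at h1
    rw [h1, mkB_X_pow]
  obtain ⟨hfin, hodd⟩ := odd_coker D (k := RatK) (l := l') H hX hQ hA hlgr (toBB g 1) htt
    (fun d y hy h0 => by
      obtain ⟨x', hx', hxx'⟩ := (exists_X0_pow H.hu hg1 (le_refl 1) hy (c := 0)
        (by rw [h0, mul_zero])).1 (by omega)
      exact ⟨x', hx', by rw [hxx', pow_one]⟩)
    (fun y hy h0 => (exists_X0_pow H.hu hg1 (le_refl 1) hy (c := 0)
        (by rw [h0, mul_zero])).2 (by omega))
    tvec
    (fun y hy => nzd_tensor (fun i => toBB g 1 (l' i)) i₀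
      (isUnit_toBB g 1 fun z hz hz0 hzg => (hinf z hz hz0 hzg).2) y hy)
    (by rw [hdet]; exact isUnit_toBB g 1 fun z hz hz0 hzg => (hinf z hz hz0 hzg).1)
    (r + (n₀ + a + 8 + r)) ((2 * r + 1) * (2 * a + 13))
    (fun d hd => by
      obtain ⟨n, rfl⟩ := Nat.exists_eq_add_of_le (show r ≤ d by omega)
      have h1 := hMT n (by omega)
      have h2 := (hn₀ n (by omega)).1
      rw [h1]
      refine Odd.add_even ?_ h2
      exact ⟨r * (2 * n + 1) + n, by ring⟩)
    (fun d hd => by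
      obtain ⟨n, rfl⟩ := Nat.exists_eq_add_of_le (show r + (a + 8) ≤ d by omega)
      have h1 := hMT (a + 8 + n) (by omega)
      have h2 := finrank_NT_ge H pg hgf sQ hdet hQ hA hlgr hl0 hll' (r + n)
      have h3 := finrank_gr_odd H.hu hgr0 (n := n + 2) (by omega)
      have h4 := finrank_gr_odd H.hu hgr0 (n := n) (by omega)
      rw [show r + n + 2 = r + (n + 2) by ring, h3, h4,
        show r + n + a + 8 = r + (a + 8) + n by ring] at h2
      rw [show r + (a + 8) + n = r + (a + 8 + n) by ring] at h2 ⊢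
      rw [h1]
      nlinarith)
  obtain ⟨L, j1, j2, j3, hLodd, σ, y, hσ, hy, hr'⟩ :=
    exists_point D tvec H hX hf0 sQ hdet hfin hodd
  letI : Algebra ℂ L := ((algebraMap RatK L).comp (algebraMap ℂ RatK)).toAlgebra
  haveI : IsScalarTower ℂ RatK L := IsScalarTower.of_algebraMap_eq fun _ => rfl
  set τ : Fin 3 → L := fun i => σ (D.psi (X i)) with hτ
  have hτ0 : τ 0 = 1 := by
    change σ (D.psi (X 0)) = 1
    rw [D.psi_X0, map_one]
  have key : ∀ p : P3, σ (D.psi p) = aeval τ p := by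
    intro p
    have h1 : σ.comp D.psi = ((aeval τ : P3 →ₐ[ℂ] L) : P3 →+* L) := by
      apply MvPolynomial.ringHom_ext
      · intro c
        change σ (D.psi (C c)) = aeval τ (C c)
        rw [algHom_C]
        have h2 : D.psi (C c) = algebraMap ℂ B c := by
          change D.dh (algebraMap ℂ (RG g) c) = _
          exact D.dh.commutes c
        rw [h2, hσ]
        rfl
      · intro i
        change σ (D.psi (X i)) = aeval τ (X i)
        rw [aeval_X]
    exact RingHom.congr_fun h1 p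
  have hτg : aeval τ g = 0 := by
    rw [← key, D.psi_g, map_zero]
  have hQB : ∀ i j, σ (D.QB Q i j) = aeval τ (Q i j) := fun i j => key (Q i j)
  have hy' : y ^ 2 + (∑ i, ∑ j, algebraMap RatK L (tvec i * tvec j) * aeval τ (Q i j)) *
      aeval τ f = 0 := by
    rw [key] at hy
    simp only [hQB] at hy
    exact hy
  have hpure : ((fun i => D.psi (l i), 0) : (Fin 3 → B) × B) ∈ D.NB f Q l' := by
    refine D.pure_mem_NB H hX sQ hdet ?_ ?_
    · rw [D.QB_adjugate]
      obtain ⟨u, hu⟩ := hll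
      have h1 := congrArg D.psi hu
      rw [map_mul, D.psi_g, zero_mul] at h1
      rw [← h1]
      simp only [dotProduct, Matrix.mulVec, map_sum, map_mul, AffChart.QB, Matrix.map_apply]
    · have h1 : (fun i => D.dh (l' i)) = fun i => D.psi (l i) := rfl
      rw [h1]
      have h2 : dotProduct (fun i => D.psi (l i))
          ((D.QB Q).adjugate.mulVec fun i => D.psi (l i)) = 0 := by
        rw [D.QB_adjugate]
        obtain ⟨u, hu⟩ := hll
        have h1 := congrArg D.psi hu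
        rw [map_mul, D.psi_g, zero_mul] at h1
        rw [← h1]
        simp only [dotProduct, Matrix.mulVec, map_sum, map_mul, AffChart.QB, Matrix.map_apply]
      refine Prod.ext ?_ ?_
      · simp only [qmul, zero_smul, zero_add, cross_self, Matrix.mulVec_zero, Prod.fst_zero]
      · simp only [qmul, mul_zero, zero_sub, h2, neg_zero, Prod.snd_zero]
  have hlτ : ∑ i, algebraMap RatK L (tvec i) * aeval τ (l i) = 0 := by
    rw [← hr' _ hpure]
    exact Finset.sum_congr rfl fun i _ => by rw [key]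
  obtain ⟨w, hw⟩ := exists_sqrt_good H pg hsq good τ hτ0 hτg _ y hy' hlτ
  exact ⟨L, j1, inferInstance, j2, inferInstance, j3, hLodd, τ, w, hτ0, hw⟩

/-- **The second half of the parity theorem.** -/
theorem parity2 {f g : P3} {r : ℕ} (hr : 1 ≤ r) (H : EvenOn f g (2 * r + 1)) (pg : Prime g)
    (hsq : ∃ (e : ℕ) (s c : P3), c.IsHomogeneous e ∧ ¬ g ∣ c ∧ g ∣ c ^ 2 * f - s ^ 2) :
    Parity2 f g r := by
  intro Q d l sQ hQ hdet hl hlg hll good hN
  obtain ⟨i₀, hi₀⟩ := hlg
  have hgf := H.not_dvd pg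
  obtain ⟨P, hP, hP1, hP2⟩ := exists_coord H.hu pg (H.hf.mul (hl i₀))
    (fun h => (pg.dvd_or_dvd h).elim hgf hi₀)
  have hA : ∀ i j, (Q.adjugate i j).IsHomogeneous 4 := fun i j => by
    have := adj_hom hQ i j
    exact this
  have pg' : Prime (lin P g) := (MulEquiv.prime_iff (linEquiv P hP)).2 pg
  obtain ⟨L, j1, j2, j3, j4, j5, hodd, τ, w, hτ0, hw⟩ := parity2_chart (Q := Q.map (lin P))
    (l := fun i => lin P (l i)) hr (H.lin hP) pg' (split_lin hP hsq) (isSymm_lin sQ)
    (homog_lin (e := fun _ _ => 2) hQ) (by rw [adj_lin]; exact homog_lin (e := fun _ _ => 4) hA)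
    (by rw [det_lin, hdet]) (fun i => lin_homogeneous P (hl i))
    (by
      have h1 := (lin_dvd_lin hP).2 hll
      have h2 : (fun i => lin P (l i)) ⬝ᵥ (Q.map (lin P)).adjugate.mulVec (fun i => lin P (l i)) =
          lin P (l ⬝ᵥ Q.adjugate.mulVec l) := by
        rw [adj_lin]
        simp only [dotProduct, Matrix.mulVec, map_sum, map_mul, Matrix.map_apply]
      rw [h2]
      exact h1)
    (by
      intro z hz hzf hzg
      rw [eval_lin] at hzf hzg
      obtain ⟨i, hi⟩ := good _ (mulVec_ne_zero hP hz) hzf hzg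
      exact ⟨i, by rw [eval_lin]; exact hi⟩)
    hP1 (i₀ := i₀) (fun h => hi₀ ((lin_dvd_lin hP).1 h))
    (by
      intro z hz hz0 hzg
      have h3 := hP2 z hz hz0 hzg
      rw [map_mul, map_mul] at h3
      exact ⟨left_ne_zero_of_mul h3, right_ne_zero_of_mul h3⟩)
    (by
      obtain ⟨n₀, hn₀⟩ := hN
      refine ⟨n₀, fun n hn => ?_⟩
      obtain ⟨h1, h2, h3⟩ := hn₀ n hn
      rw [adj_lin, ← qe3_mk hP, finrank_Nq_lin hP, finrank_gr_lin hP, finrank_Jq_lin hP]
      exact ⟨h1, h2, h3⟩)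
  have hchar : CharZero RatK := charZero_of_injective_algebraMap (algebraMap ℂ RatK).injective
  have hsep : Algebra.IsSeparable RatK L := inferInstance
  set τ' : Fin 3 → L := fun i => aeval τ (lin P (X i)) with hτ'
  have hcomp : ∀ p : P3, aeval τ (lin P p) = aeval τ' p := by
    intro p
    have h1 : (aeval τ : P3 →ₐ[ℂ] L).comp (lin P) = aeval τ' := by
      apply algHom_ext
      intro i
      rw [AlgHom.comp_apply, aeval_X]
    rw [← h1]
    rfl
  have hτ'0 : τ' ≠ 0 := by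
    intro h0
    have h1 : aeval τ' (lin P⁻¹ (X 0)) = 1 := by
      rw [← hcomp, lin_lin_inv hP, aeval_X, hτ0]
    rw [h0, lin_X, map_sum] at h1
    have h2 : ∑ j, aeval (0 : Fin 3 → L) (C (P⁻¹ 0 j) * X j : P3) = 0 := by
      refine Finset.sum_eq_zero fun j _ => ?_
      rw [map_mul, aeval_X, Pi.zero_apply, mul_zero]
    rw [h2] at h1
    exact zero_ne_one h1
  refine springer hodd (vmat (tens Q)) (![τ' 0, τ' 1, τ' 2, w] : Fin 4 → L) ?_ ?_
  · intro h0
    apply hτ'0
    have e0 := congrFun h0 0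
    have e1 := congrFun h0 1
    have e2 := congrFun h0 2
    simp only [Matrix.cons_val_zero, Matrix.cons_val_one, Matrix.cons_val, Pi.zero_apply] at e0 e1 e2
    exact vec_ext e0 e1 e2
  · rw [qf_vmat]
    have h1 : (![(![τ' 0, τ' 1, τ' 2, w] : Fin 4 → L) 0, (![τ' 0, τ' 1, τ' 2, w] : Fin 4 → L) 1,
        (![τ' 0, τ' 1, τ' 2, w] : Fin 4 → L) 2] : Fin 3 → L) = τ' := by
      refine vec_ext ?_ ?_ ?_ <;> simp
    have h2 : (![τ' 0, τ' 1, τ' 2, w] : Fin 4 → L) 3 = w := by simp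
    rw [h1, h2, ← matA_matB, hw]
    have h3 : matA (tens Q) τ' = Q.map (aeval τ' : P3 →ₐ[ℂ] L) := by
      have h := map_matA (aeval τ' : P3 →ₐ[ℂ] L) (tens Q) (X : Fin 3 → P3)
      rw [matA_tens hQ] at h
      rw [h]
      congr 1
      funext i
      rw [aeval_X]
    rw [h3, sub_eq_zero]
    simp only [dotProduct, Matrix.mulVec, Finset.mul_sum, Matrix.map_apply]
    refine Finset.sum_congr rfl fun i _ => Finset.sum_congr rfl fun j _ => ?_
    rw [hcomp, map_mul]
    ring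

/-- **Splitting curves of odd degree.** A smooth cubic fourfold containing a plane is rational if
there is a splitting curve of odd degree whose theta characteristic has an even number of
sections. -/
theorem typeC {M : Matrix (Fin 4) (Fin 4) P3} {g : P3} {r : ℕ} (hM : M.IsSymm)
    (hdeg : ∀ i j, (M i j).IsHomogeneous (1 + wt i + wt j))
    (hs : SmoothForm (cubicOf M)) (hsm : SmoothP M.det) (hg : Irreducible g)
    (hgr : g.IsHomogeneous (2 * r + 1)) (hgf : ¬ g ∣ M.det)
    (hsq : ∃ (e : ℕ) (s c : P3), c.IsHomogeneous e ∧ ¬ g ∣ c ∧ g ∣ c ^ 2 * M.det - s ^ 2)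
    (hθ : Even (finrank ℂ (thetaSp M.det g (r + 2)))) :
    RationalHypersurface (cubicOf M) := by
  have H : EvenOn M.det g (2 * r + 1) := evenOn_split (det_hom6 hdeg) hsm hgr hg.prime hgf hsq
  rcases Nat.eq_zero_or_pos r with hr | hr
  · subst hr
    have H1 : EvenOn M.det g 1 := H
    have h3 := H1.finrank_thetaSp_line hg.prime
    have h4 : finrank ℂ (thetaSp M.det g (0 + 2)) = 3 := h3
    rw [h4] at hθ
    exact absurd hθ (by decide)
  · exact typeC_of_parity2 hM hdeg hs hsm hg hgr hgf hsq hθ (parity2 hr H hg.prime hsq)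

end Vale.Agent.P287.C8
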