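import Vale.Agent.P287.C8.GenusFinal
import Vale.Agent.P287.C8.Parity2

/-!
The odd half in geometric form: the double plane `Z² = det M` contains an irreducible curve of odd
degree and odd arithmetic genus.
-/

namespace Vale.Agent.P287.C8

open MvPolynomial Module Vale.Agent.P287 Vale.Agent.P287.H925 Vale.Agent.P287.H925.NetResult
  Vale.Agent.P287.Theta Vale.Agent.P287.H139

/-- If the double plane contains an irreducible curve of odd degree and odd arithmetic genus, then
the cubic fourfold is rational. -/
theorem rational_of_curve {M : Matrix (Fin 4) (Fin 4) P3} (hM : M.IsSymm)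
    (hdeg : ∀ i j, (M i j).IsHomogeneous (1 + wt i + wt j))
    (hs : SmoothForm (cubicOf M)) (hsm : SmoothP M.det) {P : Ideal P4} {d p : ℤ}
    (h : CurveOn M.det P d p) (hd : Odd d) (hp : Odd p) :
    RationalHypersurface (cubicOf M) := by
  obtain ⟨r, g, hg, pg, hgf, hsq, hev⟩ := h.even_sections (det_hom6 hdeg) hsm hd hp
  exact typeC hM hdeg hs hsm pg.irreducible hg hgf hsq hev

end Vale.Agent.P287.C8
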