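import Mathlib

/-!
A finite-dimensional module of odd dimension has a point of odd degree.
-/

namespace Vale.Agent.P287.C8

open Module

universe u

/-- A module of odd dimension over a field `k`, on which a commutative `k`-algebra `R` acts, has
in its support a maximal ideal of `R` whose residue field has odd degree over `k`. -/
theorem exists_odd_maximal (k R : Type*) [Field k] [CommRing R] [Algebra k R] :
    ∀ (n : ℕ) (T : Type*) [AddCommGroup T] [Module k T] [Module R T] [IsScalarTower k R T]
      [FiniteDimensional k T], finrank k T = n → Odd n →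
      ∃ m : Ideal R, m.IsMaximal ∧ Module.Finite k (R ⧸ m) ∧ Odd (finrank k (R ⧸ m)) ∧
        ∀ r : R, (∀ t : T, r • t = 0) → r ∈ m := by
  intro n
  induction n using Nat.strong_induction_on with
  | _ n ih =>
    intro T _ _ _ _ _ hn hodd
    have hnt : Nontrivial T := by
      apply nontrivial_of_finrank_pos (R := k)
      rw [hn]
      exact hodd.pos
    have hart : IsArtinian R T := isArtinian_of_tower k inferInstance
    obtain ⟨S, hS⟩ := IsAtomic.exists_atom (Submodule R T)
    have hsimple : IsSimpleModule R S := isSimpleModule_iff_isAtom.2 hS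
    obtain ⟨m, hm, ⟨e⟩⟩ := isSimpleModule_iff_quot_maximal.1 hsimple
    have e' : S ≃ₗ[k] (R ⧸ m) := e.restrictScalars k
    have hSfin : FiniteDimensional k S :=
      FiniteDimensional.finiteDimensional_submodule (S.restrictScalars k)
    have hfin : Module.Finite k (R ⧸ m) := Module.Finite.equiv e'
    by_cases hS1 : Odd (finrank k (R ⧸ m))
    · refine ⟨m, hm, hfin, hS1, fun r hr => ?_⟩
      have h1 : r • (e.symm 1) = 0 := Subtype.ext (hr _)
      have h2 := congrArg e h1
      rw [map_smul, LinearEquiv.apply_symm_apply, map_zero, Algebra.smul_def, mul_one] at h2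
      exact Ideal.Quotient.eq_zero_iff_mem.1 h2
    · have hq : finrank k (T ⧸ S) + finrank k S = finrank k T :=
        Submodule.finrank_quotient_add_finrank (S.restrictScalars k)
      have h3 : finrank k S = finrank k (R ⧸ m) := e'.finrank_eq
      have hSpos : 0 < finrank k S := by
        have : Nontrivial S := IsSimpleModule.nontrivial R S
        exact finrank_pos
      have hfq : FiniteDimensional k (T ⧸ S) :=
        FiniteDimensional.finiteDimensional_quotient (S.restrictScalars k)
      have hodd' : Odd (finrank k (T ⧸ S)) := by
        rw [← hn, ← hq, h3] at hodd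
        rcases Nat.even_or_odd (finrank k (T ⧸ S)) with h4 | h4
        · exfalso
          have h5 := h4.add (Nat.not_odd_iff_even.1 hS1)
          exact (Nat.not_odd_iff_even.2 h5) hodd
        · exact h4
      obtain ⟨m', h1, h2, h4, h5⟩ := ih (finrank k (T ⧸ S)) (by omega) (T ⧸ S) rfl hodd'
      refine ⟨m', h1, h2, h4, fun r hr => h5 r fun t => ?_⟩
      obtain ⟨t, rfl⟩ := Submodule.Quotient.mk_surjective S t
      rw [← Submodule.Quotient.mk_smul, hr, Submodule.Quotient.mk_zero]

open scoped IsMulCommutative in
/-- Commuting endomorphisms of a space of odd dimension have a common eigenvalue system in an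
extension of odd degree: there are a finite extension `L` of odd degree and a homomorphism to `L`
of the algebra generated by them. -/
theorem exists_odd_field (k : Type*) (T : Type u) [Field k] [AddCommGroup T] [Module k T]
    [FiniteDimensional k T] (hodd : Odd (finrank k T)) (S : Set (Module.End k T))
    (hS : ∀ a ∈ S, ∀ b ∈ S, a * b = b * a) :
    ∃ (L : Type u) (_ : Field L) (_ : Algebra k L) (_ : FiniteDimensional k L),
      Odd (finrank k L) ∧ Nonempty (Algebra.adjoin k S →ₐ[k] L) := by
  have := Algebra.isMulCommutative_adjoin k hS
  obtain ⟨m, hm, hfin, hodd', _⟩ := exists_odd_maximal k (Algebra.adjoin k S) _ T rfl hodd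
  exact ⟨Algebra.adjoin k S ⧸ m, Ideal.Quotient.field m, inferInstance, hfin, hodd',
    ⟨Ideal.Quotient.mkₐ k m⟩⟩

end Vale.Agent.P287.C8
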