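import Vale.Agent.P287.C8.OddPoint

/-!
Commuting endomorphisms of a space `Z` which preserve a subspace `P` with `Z / P` of odd dimension:
a point of odd degree.
-/

namespace Vale.Agent.P287.C8

open Module

universe u v

section

variable {k : Type u} {Z : Type v} [Field k] [AddCommGroup Z] [Module k Z]

/-- the algebra of endomorphisms preserving `P` -/
def stabQ (P : Submodule k Z) : Subalgebra k (Module.End k Z) where
  carrier := {u | ∀ z ∈ P, u z ∈ P}
  mul_mem' {a b} ha hb z hz := ha _ (hb z hz)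
  one_mem' z hz := hz
  add_mem' {a b} ha hb z hz := add_mem (ha z hz) (hb z hz)
  zero_mem' z _ := zero_mem _
  algebraMap_mem' c z hz := P.smul_mem c hz

/-- the action on the quotient -/
noncomputable def quotHom (P : Submodule k Z) : stabQ P →ₐ[k] Module.End k (Z ⧸ P) where
  toFun a := P.mapQ P a.1 (fun z hz => a.2 z hz)
  map_one' := by
    apply Submodule.linearMap_qext
    rfl
  map_mul' a b := by
    apply Submodule.linearMap_qext
    rfl
  map_zero' := by
    apply Submodule.linearMap_qext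
    rfl
  map_add' a b := by
    apply Submodule.linearMap_qext
    rfl
  commutes' c := by
    apply Submodule.linearMap_qext
    rfl

lemma quotHom_mk (P : Submodule k Z) (a : stabQ P) (z : Z) :
    quotHom P a (Submodule.Quotient.mk z) = Submodule.Quotient.mk (a.1 z) := rfl

lemma quotHom_eq_zero {P : Submodule k Z} {a : stabQ P} (h : ∀ z, a.1 z ∈ P) :
    quotHom P a = 0 := by
  apply Submodule.linearMap_qext
  apply LinearMap.ext
  intro z
  exact (Submodule.Quotient.mk_eq_zero P).2 (h z)

/-- a point of odd degree of a commutative algebra acting on a quotient of odd dimension -/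
theorem exists_odd_quot (P : Submodule k Z) [FiniteDimensional k (Z ⧸ P)]
    (hodd : Odd (finrank k (Z ⧸ P))) (S : Set (stabQ P)) (hS : ∀ a ∈ S, ∀ b ∈ S, a * b = b * a) :
    ∃ (L : Type v) (_ : Field L) (_ : Algebra k L) (_ : FiniteDimensional k L),
      Odd (finrank k L) ∧ ∃ φ : Algebra.adjoin k S →ₐ[k] L,
        ∀ a : Algebra.adjoin k S, quotHom P a = 0 → φ a = 0 := by
  obtain ⟨L, i1, i2, i3, h1, ⟨φ⟩⟩ := exists_odd_field k (Z ⧸ P) hodd (quotHom P '' S) (by
    rintro _ ⟨a, ha, rfl⟩ _ ⟨b, hb, rfl⟩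
    rw [← map_mul, ← map_mul, hS a ha b hb])
  have key : ∀ a : Algebra.adjoin k S, quotHom P a ∈ Algebra.adjoin k (quotHom P '' S) := by
    intro a
    rw [← AlgHom.map_adjoin]
    exact ⟨a.1, a.2, rfl⟩
  refine ⟨L, i1, i2, i3, h1, φ.comp (((quotHom P).comp (Algebra.adjoin k S).val).codRestrict _ key),
    fun a ha => ?_⟩
  rw [AlgHom.comp_apply]
  have h2 : (((quotHom P).comp (Algebra.adjoin k S).val).codRestrict _ key) a = 0 :=
    Subtype.ext ha
  rw [h2, map_zero]

/-- the same in terms of a ring of operators and one more operator -/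
theorem exists_odd_quot_ring (P : Submodule k Z) [FiniteDimensional k (Z ⧸ P)]
    (hodd : Odd (finrank k (Z ⧸ P))) {B : Type*} [CommRing B] (s : B →+* Module.End k Z)
    (hs : ∀ b, ∀ z ∈ P, s b z ∈ P) (y : Module.End k Z) (hy : ∀ z ∈ P, y z ∈ P)
    (hsy : ∀ b, y * s b = s b * y) :
    ∃ (L : Type v) (_ : Field L) (_ : Algebra k L) (_ : FiniteDimensional k L),
      Odd (finrank k L) ∧ ∃ (σ : B →+* L) (η : L),
        (∀ (c : k) (b : B), s b = algebraMap k (Module.End k Z) c → σ b = algebraMap k L c) ∧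
        (∀ (c : Fin 3 → Fin 3 → k) (b : Fin 3 → Fin 3 → B) (b' : B),
          y * y + (∑ i, ∑ j, c i j • s (b i j)) * s b' = 0 →
            η ^ 2 + (∑ i, ∑ j, algebraMap k L (c i j) * σ (b i j)) * σ b' = 0) ∧
        (∀ (c : Fin 3 → k) (b : Fin 3 → B),
          (∀ z, ((∑ i, c i • s (b i)) * (∑ i, c i • s (b i))) z ∈ P) →
            ∑ i, algebraMap k L (c i) * σ (b i) = 0) := by
  classical
  let sS : B → stabQ P := fun b => ⟨s b, hs b⟩
  let yS : stabQ P := ⟨y, hy⟩
  set S : Set (stabQ P) := Set.range sS ∪ {yS} with hS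
  have hcomm : ∀ a ∈ S, ∀ b ∈ S, a * b = b * a := by
    rintro _ (⟨a, rfl⟩ | rfl) _ (⟨b, rfl⟩ | rfl)
    · apply Subtype.ext
      change s a * s b = s b * s a
      rw [← map_mul, ← map_mul, mul_comm]
    · exact Subtype.ext (hsy a).symm
    · exact Subtype.ext (hsy b)
    · rfl
  obtain ⟨L, i1, i2, i3, h1, φ, hφ⟩ := exists_odd_quot P hodd S hcomm
  let a : B → Algebra.adjoin k S := fun b =>
    ⟨sS b, Algebra.subset_adjoin (Set.mem_union_left _ ⟨b, rfl⟩)⟩
  let yy : Algebra.adjoin k S := ⟨yS, Algebra.subset_adjoin (Set.mem_union_right _ rfl)⟩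
  let ι : Algebra.adjoin k S →ₐ[k] Module.End k Z :=
    (stabQ P).val.comp (Algebra.adjoin k S).val
  have hι : ∀ u v, ι u = ι v → u = v := by
    intro u v huv
    exact Subtype.ext (Subtype.ext huv)
  have hιa : ∀ b, ι (a b) = s b := fun b => rfl
  have hιy : ι yy = y := rfl
  have a1 : a 1 = 1 := hι _ _ (by rw [hιa, map_one, map_one])
  have a0 : a 0 = 0 := hι _ _ (by rw [hιa, map_zero, map_zero])
  have am : ∀ b b', a (b * b') = a b * a b' := fun b b' => hι _ _ (by
    rw [map_mul ι, hιa, hιa, hιa, map_mul])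
  have aa : ∀ b b', a (b + b') = a b + a b' := fun b b' => hι _ _ (by
    rw [map_add ι, hιa, hιa, hιa, map_add])
  let σ : B →+* L :=
    { toFun := fun b => φ (a b)
      map_one' := by rw [a1, map_one]
      map_mul' := fun b b' => by rw [am, map_mul]
      map_zero' := by rw [a0, map_zero]
      map_add' := fun b b' => by rw [aa, map_add] }
  have hσ : ∀ b, σ b = φ (a b) := fun b => rfl
  refine ⟨L, i1, i2, i3, h1, σ, φ yy, ?_, ?_, ?_⟩
  · intro c b hb
    have h2 : a b = algebraMap k _ c := by
      apply hι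
      rw [hιa, hb, AlgHom.commutes]
    rw [hσ, h2, AlgHom.commutes]
  · intro c b b' hbb
    have h2 : yy * yy + (∑ i, ∑ j, c i j • a (b i j)) * a b' = 0 := by
      apply hι
      have h5 : ι (∑ i, ∑ j, c i j • a (b i j)) = ∑ i, ∑ j, c i j • s (b i j) := by
        rw [map_sum ι]
        refine Finset.sum_congr rfl fun i _ => ?_
        rw [map_sum ι]
        refine Finset.sum_congr rfl fun j _ => ?_
        rw [map_smul ι, hιa]
      rw [map_zero, ← hbb, map_add ι, map_mul ι, map_mul ι, hιy, hιa, h5]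
    have h3 := congrArg φ h2
    rw [map_add φ, map_mul φ, map_mul φ, map_sum φ, map_zero φ] at h3
    rw [pow_two, ← h3, hσ]
    congr 2
    refine Finset.sum_congr rfl fun i _ => ?_
    rw [map_sum φ]
    refine Finset.sum_congr rfl fun j _ => ?_
    rw [map_smul φ, Algebra.smul_def, hσ]
  · intro c b hcb
    have h2 : φ ((∑ i, c i • a (b i)) * (∑ i, c i • a (b i))) = 0 := by
      apply hφ
      apply quotHom_eq_zero
      intro z
      have h3 := hcb z
      have h4 : ι ((∑ i, c i • a (b i)) * (∑ i, c i • a (b i))) =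
          (∑ i, c i • s (b i)) * (∑ i, c i • s (b i)) := by
        have h5 : ι (∑ i, c i • a (b i)) = ∑ i, c i • s (b i) := by
          rw [map_sum ι]
          refine Finset.sum_congr rfl fun i _ => ?_
          rw [map_smul ι, hιa]
        rw [map_mul ι, h5]
      rw [← h4] at h3
      exact h3
    rw [map_mul φ] at h2
    have h3 := mul_self_eq_zero.1 h2
    rw [map_sum φ] at h3
    rw [← h3]
    refine Finset.sum_congr rfl fun i _ => ?_
    rw [map_smul φ, Algebra.smul_def, hσ]

end

end Vale.Agent.P287.C8
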