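import Vale.Agent.P287.C8.Coker
import Vale.Agent.P287.C8.QuotPoint

/-!
The operators on the cokernel `T`: the chart ring and `Y` with `Y² = - f Q(x, x)`.
-/

namespace Vale.Agent.P287.C8

open MvPolynomial Module Vale.Agent.P287 Vale.Agent.P287.H925 Vale.Agent.P287.Theta
open scoped TensorProduct

section

variable {f g : P3} {Q : Matrix (Fin 3) (Fin 3) P3} {l : Fin 3 → RG g}
  {B : Type} [CommRing B] [Algebra ℂ B] (D : AffChart g B)
  (k : Type) [Field k] [Algebra ℂ k]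

/-- the ambient space -/
abbrev ZZ (D : AffChart g B) (f : P3) (k : Type) [Field k] [Algebra ℂ k] : Type :=
  k ⊗[ℂ] (B × ↥(D.JB f))

/-- the chart ring acting on the ambient space -/
noncomputable def sZ (f : P3) : B →ₐ[ℂ] Module.End k (ZZ D f k) :=
  (Module.End.baseChangeHom ℂ k (B × ↥(D.JB f))).comp (Algebra.lsmul ℂ ℂ (B × ↥(D.JB f)))

lemma sZ_tmul (b : B) (c : k) (m : B × ↥(D.JB f)) :
    sZ D k f b (c ⊗ₜ[ℂ] m) = c ⊗ₜ[ℂ] (b • m) := rfl

/-- `(a, s) ↦ (s, 0)` -/
noncomputable def thM (f : P3) : (B × ↥(D.JB f)) →ₗ[B] (B × ↥(D.JB f)) where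
  toFun m := (m.2, 0)
  map_add' a b := Prod.ext rfl (add_zero 0).symm
  map_smul' c a := Prod.ext rfl (smul_zero c).symm

/-- `(a, s) ↦ (0, - f a)` -/
noncomputable def etM (f : P3) : (B × ↥(D.JB f)) →ₗ[B] (B × ↥(D.JB f)) where
  toFun m := (0, ⟨-(D.psi f * m.1), neg_mem (D.f_mul_mem_JB _)⟩)
  map_add' a b := Prod.ext (add_zero 0).symm (Subtype.ext (by
    change -(D.psi f * (a.1 + b.1)) = -(D.psi f * a.1) + -(D.psi f * b.1)
    ring))
  map_smul' c a := Prod.ext (smul_zero c).symm (Subtype.ext (by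
    change -(D.psi f * (c * a.1)) = c * -(D.psi f * a.1)
    ring))

/-- the operators on the ambient space -/
noncomputable def thZ (f : P3) : Module.End k (ZZ D f k) :=
  Module.End.baseChangeHom ℂ k (B × ↥(D.JB f)) ((thM D f).restrictScalars ℂ)

noncomputable def etZ (f : P3) : Module.End k (ZZ D f k) :=
  Module.End.baseChangeHom ℂ k (B × ↥(D.JB f)) ((etM D f).restrictScalars ℂ)

lemma thZ_tmul (c : k) (m : B × ↥(D.JB f)) :
    thZ D k f (c ⊗ₜ[ℂ] m) = c ⊗ₜ[ℂ] (thM D f m) := rfl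

lemma etZ_tmul (c : k) (m : B × ↥(D.JB f)) :
    etZ D k f (c ⊗ₜ[ℂ] m) = c ⊗ₜ[ℂ] (etM D f m) := rfl

lemma thZ_sZ (b : B) : thZ D k f * sZ D k f b = sZ D k f b * thZ D k f := by
  rw [thZ, sZ, AlgHom.comp_apply, ← map_mul, ← map_mul]
  congr 1
  apply LinearMap.ext
  intro m
  exact (thM D f).map_smul b m

lemma etZ_sZ (b : B) : etZ D k f * sZ D k f b = sZ D k f b * etZ D k f := by
  rw [etZ, sZ, AlgHom.comp_apply, ← map_mul, ← map_mul]
  congr 1
  apply LinearMap.ext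
  intro m
  exact (etM D f).map_smul b m

lemma thZ_thZ : thZ D k f * thZ D k f = 0 := by
  rw [thZ, ← map_mul]
  have h : (thM D f).restrictScalars ℂ * (thM D f).restrictScalars ℂ =
      (0 : Module.End ℂ (B × ↥(D.JB f))) := by
    apply LinearMap.ext
    intro m
    rfl
  rw [h, map_zero]

lemma etZ_etZ : etZ D k f * etZ D k f = 0 := by
  rw [etZ, ← map_mul]
  have h : (etM D f).restrictScalars ℂ * (etM D f).restrictScalars ℂ =
      (0 : Module.End ℂ (B × ↥(D.JB f))) := by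
    apply LinearMap.ext
    intro m
    refine Prod.ext rfl (Subtype.ext ?_)
    change -(D.psi f * 0) = 0
    rw [mul_zero, neg_zero]
  rw [h, map_zero]

lemma thZ_etZ : thZ D k f * etZ D k f + etZ D k f * thZ D k f + sZ D k f (D.psi f) = 0 := by
  rw [thZ, etZ, sZ, AlgHom.comp_apply, ← map_mul, ← map_mul, ← map_add, ← map_add]
  have h : (thM D f).restrictScalars ℂ * (etM D f).restrictScalars ℂ +
      (etM D f).restrictScalars ℂ * (thM D f).restrictScalars ℂ +
      Algebra.lsmul ℂ ℂ (B × ↥(D.JB f)) (D.psi f) = (0 : Module.End ℂ (B × ↥(D.JB f))) := by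
    apply LinearMap.ext
    intro m
    refine Prod.ext ?_ (Subtype.ext ?_)
    · change -(D.psi f * m.1) + 0 + D.psi f * m.1 = 0
      ring
    · change 0 + -(D.psi f * m.2) + D.psi f * m.2 = 0
      ring
  rw [h, map_zero]

/-- `Q(x, x)` as an operator -/
noncomputable def qxZ (f : P3) (Q : Matrix (Fin 3) (Fin 3) P3) (x : Fin 3 → k) :
    Module.End k (ZZ D f k) :=
  ∑ i, ∑ j, (x i * x j) • sZ D k f (D.QB Q i j)

/-- the operator `Y` -/
noncomputable def yZ (f : P3) (Q : Matrix (Fin 3) (Fin 3) P3) (x : Fin 3 → k) :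
    Module.End k (ZZ D f k) :=
  qxZ D k f Q x * thZ D k f + etZ D k f

lemma sZ_comm (a b : B) : sZ D k f a * sZ D k f b = sZ D k f b * sZ D k f a := by
  rw [← map_mul, ← map_mul, mul_comm]

lemma qxZ_sZ (x : Fin 3 → k) (b : B) :
    qxZ D k f Q x * sZ D k f b = sZ D k f b * qxZ D k f Q x := by
  rw [qxZ, Finset.sum_mul, Finset.mul_sum]
  refine Finset.sum_congr rfl fun i _ => ?_
  rw [Finset.sum_mul, Finset.mul_sum]
  refine Finset.sum_congr rfl fun j _ => ?_
  rw [smul_mul_assoc, mul_smul_comm, sZ_comm]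

lemma qxZ_thZ (x : Fin 3 → k) :
    qxZ D k f Q x * thZ D k f = thZ D k f * qxZ D k f Q x := by
  rw [qxZ, Finset.sum_mul, Finset.mul_sum]
  refine Finset.sum_congr rfl fun i _ => ?_
  rw [Finset.sum_mul, Finset.mul_sum]
  refine Finset.sum_congr rfl fun j _ => ?_
  rw [smul_mul_assoc, mul_smul_comm, thZ_sZ]

lemma qxZ_etZ (x : Fin 3 → k) :
    qxZ D k f Q x * etZ D k f = etZ D k f * qxZ D k f Q x := by
  rw [qxZ, Finset.sum_mul, Finset.mul_sum]
  refine Finset.sum_congr rfl fun i _ => ?_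
  rw [Finset.sum_mul, Finset.mul_sum]
  refine Finset.sum_congr rfl fun j _ => ?_
  rw [smul_mul_assoc, mul_smul_comm, etZ_sZ]

lemma yZ_sZ (x : Fin 3 → k) (b : B) :
    yZ D k f Q x * sZ D k f b = sZ D k f b * yZ D k f Q x := by
  rw [yZ, add_mul, mul_add, mul_assoc, thZ_sZ, ← mul_assoc, qxZ_sZ, mul_assoc, etZ_sZ]

/-- the relation `Y² = - f Q(x, x)` -/
lemma yZ_sq (x : Fin 3 → k) :
    yZ D k f Q x * yZ D k f Q x + qxZ D k f Q x * sZ D k f (D.psi f) = 0 := by
  have h1 := thZ_thZ D k (f := f)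
  have h2 := etZ_etZ D k (f := f)
  have h3 := thZ_etZ D k (f := f)
  have h4 := qxZ_thZ D k (f := f) (Q := Q) x
  have h5 := qxZ_etZ D k (f := f) (Q := Q) x
  set q' := qxZ D k f Q x
  set t := thZ D k f
  set e := etZ D k f
  set w := sZ D k f (D.psi f)
  rw [yZ]
  calc (q' * t + e) * (q' * t + e) + q' * w
      = q' * (t * q') * t + q' * (t * e) + (e * q') * t + e * e + q' * w := by noncomm_ring
    _ = q' * (q' * t) * t + q' * (t * e) + (q' * e) * t + e * e + q' * w := by rw [← h4, ← h5]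
    _ = q' * q' * (t * t) + q' * (t * e + e * t + w) + e * e := by noncomm_ring
    _ = 0 := by
        rw [h1, h2, h3, mul_zero, mul_zero, zero_add, add_zero]

end

end Vale.Agent.P287.C8
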