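import Vale.Agent.P287.C8.Basic
import Vale.Agent.P287.C8.Lagr3

/-!
The three Lagrangian subspaces of the parity theorem, over an abstract artinian algebra.
-/

namespace Vale.Agent.P287.C8

set_option linter.unusedSectionVars false

open Module

section half

variable {k U : Type*} [Field k] [AddCommGroup U] [Module k U] [FiniteDimensional k U]

/-- An endomorphism of square zero with a contracting homotopy. -/
lemma two_mul_finrank_inf_ker (U₁ : Submodule k U) (ρ ρ₀ : U →ₗ[k] U)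
    (hs : ∀ u ∈ U₁, ρ u ∈ U₁) (hs₀ : ∀ u ∈ U₁, ρ₀ u ∈ U₁) (h1 : ∀ u, ρ (ρ u) = 0)
    (h2 : ∀ u, ρ (ρ₀ u) + ρ₀ (ρ u) = u) :
    2 * finrank k ↥(U₁ ⊓ LinearMap.ker ρ) = finrank k U₁ := by
  let σ : U₁ →ₗ[k] U₁ := ρ.restrict hs
  have hσ : ∀ u : U₁, ((σ u : U₁) : U) = ρ u := fun u => rfl
  have hk : LinearMap.range σ = LinearMap.ker σ := by
    apply le_antisymm
    · rintro _ ⟨u, rfl⟩
      rw [LinearMap.mem_ker]
      apply Subtype.ext
      rw [hσ, hσ, h1]
      rfl
    · intro u hu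
      refine ⟨⟨ρ₀ u, hs₀ u u.2⟩, ?_⟩
      apply Subtype.ext
      rw [hσ]
      have h3 : ρ (u : U) = 0 := by
        rw [LinearMap.mem_ker] at hu
        rw [← hσ, hu]
        rfl
      have h4 := h2 u
      rw [h3, map_zero, add_zero] at h4
      exact h4
  have h3 := LinearMap.finrank_range_add_finrank_ker σ
  have h4 : finrank k ↥(U₁ ⊓ LinearMap.ker ρ) = finrank k (LinearMap.ker σ) := by
    have h5 : (LinearMap.ker σ).map U₁.subtype = U₁ ⊓ LinearMap.ker ρ := by
      ext u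
      constructor
      · rintro ⟨v, hv, rfl⟩
        refine ⟨v.2, ?_⟩
        rw [SetLike.mem_coe, LinearMap.mem_ker] at hv
        rw [SetLike.mem_coe, LinearMap.mem_ker, Submodule.subtype_apply, ← hσ, hv]
        rfl
      · rintro ⟨hu, hk'⟩
        refine ⟨⟨u, hu⟩, ?_, rfl⟩
        rw [SetLike.mem_coe, LinearMap.mem_ker] at hk' ⊢
        exact Subtype.ext hk'
    rw [← h5, Submodule.finrank_map_subtype_eq]
  rw [h4]
  rw [hk] at h3
  omega

end half

section core

variable {BB : Type*} [CommRing BB] [Algebra ℂ BB] [FiniteDimensional ℂ BB]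

/-- the ambient space -/
abbrev VV (BB : Type*) : Type _ := (Fin 3 → BB) × BB

/-- the form `s s' + A(l, l')` -/
noncomputable def nf (Am : Matrix (Fin 3) (Fin 3) BB) (v w : VV BB) : BB :=
  v.2 * w.2 + dotProduct (Am.mulVec v.1) w.1

/-- the complex bilinear form `λ (c (s s' + A(l, l')))` -/
noncomputable def lamForm (lam : BB →ₗ[ℂ] ℂ) (c : BB) (Am : Matrix (Fin 3) (Fin 3) BB) :
    LinearMap.BilinForm ℂ (VV BB) :=
  LinearMap.mk₂ ℂ (fun v w => lam (c * nf Am v w))
    (fun v v' w => by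
      rw [← map_add, ← mul_add]
      congr 2
      simp only [nf, Prod.fst_add, Prod.snd_add, Matrix.mulVec_add, add_dotProduct]
      ring)
    (fun a v w => by
      rw [← map_smul, ← mul_smul_comm]
      congr 2
      simp only [nf, Prod.smul_fst, Prod.smul_snd, Matrix.mulVec_smul, smul_dotProduct, smul_mul_assoc,
        smul_add])
    (fun v w w' => by
      rw [← map_add, ← mul_add]
      congr 2
      simp only [nf, Prod.fst_add, Prod.snd_add, dotProduct_add]
      ring)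
    (fun a v w => by
      rw [← map_smul, ← mul_smul_comm]
      congr 2
      simp only [nf, Prod.smul_fst, Prod.smul_snd, dotProduct_smul, mul_smul_comm, smul_add])

lemma lamForm_apply (lam : BB →ₗ[ℂ] ℂ) (c : BB) (Am : Matrix (Fin 3) (Fin 3) BB) (v w : VV BB) :
    lamForm lam c Am v w = lam (c * nf Am v w) := rfl

lemma nf_comm {Am : Matrix (Fin 3) (Fin 3) BB} (hA : Am.IsSymm) (v w : VV BB) :
    nf Am v w = nf Am w v := by
  rw [nf, nf, mul_comm v.2]
  congr 1
  rw [dotProduct_comm, Matrix.dotProduct_mulVec, ← Matrix.mulVec_transpose, hA.eq]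

lemma lamForm_comm (lam : BB →ₗ[ℂ] ℂ) (c : BB) {Am : Matrix (Fin 3) (Fin 3) BB} (hA : Am.IsSymm)
    (v w : VV BB) : lamForm lam c Am v w = lamForm lam c Am w v := by
  rw [lamForm_apply, lamForm_apply, nf_comm hA]

lemma lamForm_nondegenerate {lam : BB →ₗ[ℂ] ℂ} (hlam : ∀ a, (∀ b, lam (a * b) = 0) → a = 0)
    {c f : BB} (hcf : c * f = 1) {Qm Am : Matrix (Fin 3) (Fin 3) BB} (hA : Am.IsSymm)
    (hQA : Qm * Am = f • (1 : Matrix (Fin 3) (Fin 3) BB)) :
    (lamForm lam c Am).Nondegenerate := by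
  have hc : ∀ a, c * a = 0 → a = 0 := by
    intro a ha
    have : f * (c * a) = a := by linear_combination a * hcf
    rw [← this, ha, mul_zero]
  have key : ∀ v : VV BB, (∀ w, lamForm lam c Am v w = 0) → v = 0 := by
    intro v hv
    have h1 : v.2 = 0 := by
      apply hc
      apply hlam
      intro b
      have h2 := hv (0, b)
      rw [lamForm_apply, nf] at h2
      simp only [dotProduct_zero, add_zero] at h2
      rwa [mul_assoc]
    have h2 : Am.mulVec v.1 = 0 := by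
      funext i
      apply hc
      apply hlam
      intro b
      have h3 := hv (Pi.single i b, 0)
      rw [lamForm_apply, nf] at h3
      simp only [mul_zero, zero_add, dotProduct_single] at h3
      rwa [mul_assoc]
    have h3 : v.1 = 0 := by
      have h4 : (Qm * Am).mulVec v.1 = 0 := by
        rw [← Matrix.mulVec_mulVec, h2, Matrix.mulVec_zero]
      rw [hQA, Matrix.smul_mulVec, Matrix.one_mulVec] at h4
      funext i
      have h5 := congrFun h4 i
      rw [Pi.smul_apply, smul_eq_mul, Pi.zero_apply] at h5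
      have h6 : v.1 i = c * (f * v.1 i) := by linear_combination (-v.1 i) * hcf
      rw [h6, h5, mul_zero]
      rfl
    exact Prod.ext h3 h1
  refine ⟨fun v hv => key v hv, fun v hv => key v fun w => ?_⟩
  rw [lamForm_comm lam c hA]
  exact hv w

/-- multiplication by an element, on the ambient space -/
noncomputable def mulV (t : BB) : VV BB →ₗ[ℂ] VV BB :=
  (LinearMap.pi fun i => (LinearMap.mulLeft ℂ t).comp
    ((LinearMap.proj i).comp (LinearMap.fst ℂ (Fin 3 → BB) BB))).prod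
      ((LinearMap.mulLeft ℂ t).comp (LinearMap.snd ℂ (Fin 3 → BB) BB))

lemma mulV_fst (t : BB) (v : VV BB) (i : Fin 3) : (mulV t v).1 i = t * v.1 i := rfl

lemma mulV_snd (t : BB) (v : VV BB) : (mulV t v).2 = t * v.2 := rfl

lemma mulV_apply (t : BB) (v : VV BB) : mulV t v = (t • v.1, t * v.2) := rfl

lemma range_mulV_eq_ker {t : BB} (ht : ∀ b, t * b = 0 ↔ ∃ c, b = t * c) :
    LinearMap.range (mulV t) = LinearMap.ker (mulV t) := by
  ext v
  constructor
  · rintro ⟨w, rfl⟩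
    rw [LinearMap.mem_ker]
    refine Prod.ext (funext fun i => ?_) ?_
    · rw [mulV_fst, mulV_fst]
      exact (ht _).2 ⟨_, rfl⟩
    · rw [mulV_snd, mulV_snd]
      exact (ht _).2 ⟨_, rfl⟩
  · intro hv
    rw [LinearMap.mem_ker] at hv
    have h1 : ∀ i, ∃ c, v.1 i = t * c := fun i =>
      (ht _).1 (by rw [← mulV_fst, hv]; rfl)
    have h2 : ∃ c, v.2 = t * c := (ht _).1 (by rw [← mulV_snd, hv]; rfl)
    choose c hc using h1
    obtain ⟨d, hd⟩ := h2
    exact ⟨(c, d), Prod.ext (funext fun i => (hc i).symm) hd.symm⟩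

lemma finrank_VV : finrank ℂ (VV BB) = 4 * finrank ℂ BB := by
  rw [finrank_prod, finrank_pi_fintype]
  simp only [Finset.sum_const, Finset.card_univ, Fintype.card_fin, smul_eq_mul]
  ring

/-- **Parity, abstract form.** -/
theorem parity_abstract {h : ℕ} (lam : BB →ₗ[ℂ] ℂ) (hlam : ∀ a, (∀ b, lam (a * b) = 0) → a = 0)
    (hdim : finrank ℂ BB = 2 * h) {c f t : BB} (hcf : c * f = 1)
    (ht : ∀ b, t * b = 0 ↔ ∃ c, b = t * c)
    {Qm Am : Matrix (Fin 3) (Fin 3) BB} (hA : Am.IsSymm)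
    (hQA : Qm * Am = f • (1 : Matrix (Fin 3) (Fin 3) BB))
    (ρ ρ₀ : VV BB →ₗ[ℂ] VV BB) (hρt : ∀ v, ρ (mulV t v) = mulV t (ρ v))
    (hρ₀t : ∀ v, ρ₀ (mulV t v) = mulV t (ρ₀ v)) (hρρ : ∀ v, ρ (ρ v) = 0)
    (hρρ₀ : ∀ v, ρ (ρ₀ v) + ρ₀ (ρ v) = v) (hρn : ∀ v w, nf Am (ρ v) (ρ w) = 0)
    (L₂ : Submodule ℂ (VV BB)) (hL₂ : ∀ v ∈ L₂, ∀ w ∈ L₂, lam (c * nf Am v w) = 0)
    (hL₂d : 4 * h ≤ finrank ℂ L₂) :
    finrank ℂ L₂ = 4 * h ∧
      Even (finrank ℂ ↥(LinearMap.range (mulV t) ⊓ L₂) + finrank ℂ ↥(L₂ ⊓ LinearMap.ker ρ)) := by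
  have hnd := lamForm_nondegenerate hlam hcf hA hQA
  have hrefl : (lamForm lam c Am).IsRefl := fun x y hxy => by
    rw [lamForm_comm lam c hA]; exact hxy
  have hV : finrank ℂ (VV BB) = 2 * (4 * h) := by rw [finrank_VV, hdim]; ring
  have d₂ : finrank ℂ L₂ = 4 * h := by
    apply le_antisymm _ hL₂d
    have h1 : L₂ ≤ (lamForm lam c Am).orthogonal L₂ := fun v hv w hw => hL₂ w hw v hv
    have h2 := Submodule.finrank_mono h1
    rw [LinearMap.BilinForm.finrank_orthogonal hnd, hV] at h2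
    omega
  have d₁ : finrank ℂ (LinearMap.range (mulV t)) = 4 * h := by
    have h1 := LinearMap.finrank_range_add_finrank_ker (mulV t)
    rw [← range_mulV_eq_ker ht, hV] at h1
    omega
  have d₃ : finrank ℂ (LinearMap.ker ρ) = 4 * h := by
    have h1 := two_mul_finrank_inf_ker ⊤ ρ ρ₀ (fun _ _ => trivial) (fun _ _ => trivial) hρρ hρρ₀
    rw [top_inf_eq, finrank_top, hV] at h1
    omega
  have hkr : ∀ v ∈ LinearMap.ker ρ, ∃ w, v = ρ w := by
    intro v hv
    rw [LinearMap.mem_ker] at hv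
    refine ⟨ρ₀ v, ?_⟩
    have h1 := hρρ₀ v
    rw [hv, map_zero, add_zero] at h1
    exact h1.symm
  have key := lagrangian_triple (two_ne_zero) (lamForm lam c Am) (lamForm_comm lam c hA) hnd hV
    (LinearMap.range (mulV t)) L₂ (LinearMap.ker ρ)
    (by
      rintro _ ⟨v, rfl⟩ _ ⟨w, rfl⟩
      rw [lamForm_apply, nf]
      have htt : t * t = 0 := (ht t).2 ⟨1, (mul_one t).symm⟩
      have h1 : (mulV t v).2 * (mulV t w).2 = 0 := by
        rw [mulV_snd, mulV_snd]
        linear_combination (v.2 * w.2) * htt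
      have h2 : dotProduct (Am.mulVec (mulV t v).1) (mulV t w).1 = 0 := by
        rw [mulV_apply, mulV_apply, Matrix.mulVec_smul, smul_dotProduct, dotProduct_smul, smul_smul,
          htt, zero_smul]
      rw [h1, h2, add_zero, mul_zero, map_zero])
    (by
      intro v hv w hw
      exact hL₂ v hv w hw)
    (by
      intro v hv w hw
      obtain ⟨v, rfl⟩ := hkr v hv
      obtain ⟨w, rfl⟩ := hkr w hw
      rw [lamForm_apply, hρn, mul_zero, map_zero])
    d₁ d₂ d₃
  have h13 := two_mul_finrank_inf_ker (LinearMap.range (mulV t)) ρ ρ₀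
    (by rintro _ ⟨v, rfl⟩; exact ⟨ρ v, (hρt v).symm⟩)
    (by rintro _ ⟨v, rfl⟩; exact ⟨ρ₀ v, (hρ₀t v).symm⟩) hρρ hρρ₀
  rw [d₁] at h13
  refine ⟨d₂, ?_⟩
  rw [Nat.even_iff] at key ⊢
  omega

end core

end Vale.Agent.P287.C8
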