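import Vale.Agent.P287.C8.ParGraded
import Vale.Agent.P287.C8.BasicM

/-!
The three Lagrangian subspaces of the parity theorem for the matrix of the quadric surface
fibration, over an abstract artinian algebra.
-/

namespace Vale.Agent.P287.C8

open Module

section plane

variable {R : Type*} [CommRing R]

lemma minor3_comb (u v : Fin 4 → R) (a b : R) (i j k : Fin 4) :
    minor3 (a • u + b • v) u v i j k = 0 := by
  simp only [minor3, Pi.add_apply, Pi.smul_apply, smul_eq_mul]
  ring

/-- a vector whose minors with `u`, `v` vanish is a combination of `u`, `v`, up to a minor -/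
lemma comb_of_minor3 {l u v : Fin 4 → R} {i j : Fin 4} (h : ∀ k, minor3 l u v i j k = 0) :
    (u i * v j - u j * v i) • l = (l i * v j - l j * v i) • u + (l j * u i - l i * u j) • v := by
  funext k
  have h1 := h k
  simp only [minor3, Pi.add_apply, Pi.smul_apply, smul_eq_mul] at h1 ⊢
  linear_combination h1

lemma minor3_map {S : Type*} [CommRing S] (φ : R →+* S) (l u v : Fin 4 → R) (i j k : Fin 4) :
    minor3 (fun i => φ (l i)) (fun i => φ (u i)) (fun i => φ (v i)) i j k =
      φ (minor3 l u v i j k) := by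
  simp only [minor3, map_add, map_sub, map_mul]

end plane

section core

variable {BB : Type*} [CommRing BB] [Algebra ℂ BB]

/-- the complex bilinear form `λ (c A(v, w))` -/
noncomputable def formM (lam : BB →ₗ[ℂ] ℂ) (c : BB) (Am : Matrix (Fin 4) (Fin 4) BB) :
    LinearMap.BilinForm ℂ (Fin 4 → BB) :=
  LinearMap.mk₂ ℂ (fun v w => lam (c * dotProduct (Am.mulVec v) w))
    (fun v v' w => by
      rw [← map_add, ← mul_add, Matrix.mulVec_add, add_dotProduct])
    (fun a v w => by
      rw [← map_smul, ← mul_smul_comm, Matrix.mulVec_smul, smul_dotProduct])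
    (fun v w w' => by
      rw [← map_add, ← mul_add, dotProduct_add])
    (fun a v w => by
      rw [← map_smul, ← mul_smul_comm, dotProduct_smul])

lemma formM_apply (lam : BB →ₗ[ℂ] ℂ) (c : BB) (Am : Matrix (Fin 4) (Fin 4) BB)
    (v w : Fin 4 → BB) : formM lam c Am v w = lam (c * dotProduct (Am.mulVec v) w) := rfl

lemma dot_comm_of_symm {R : Type*} [CommRing R] {Am : Matrix (Fin 4) (Fin 4) R} (hA : Am.IsSymm)
    (v w : Fin 4 → R) : dotProduct (Am.mulVec v) w = dotProduct (Am.mulVec w) v := by
  rw [dotProduct_comm, Matrix.dotProduct_mulVec, ← Matrix.mulVec_transpose, hA.eq]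

lemma formM_comm (lam : BB →ₗ[ℂ] ℂ) (c : BB) {Am : Matrix (Fin 4) (Fin 4) BB} (hA : Am.IsSymm)
    (v w : Fin 4 → BB) : formM lam c Am v w = formM lam c Am w v := by
  rw [formM_apply, formM_apply, dot_comm_of_symm hA]

lemma formM_nondegenerate {lam : BB →ₗ[ℂ] ℂ} (hlam : ∀ a, (∀ b, lam (a * b) = 0) → a = 0)
    {c f : BB} (hcf : c * f = 1) {Qm Am : Matrix (Fin 4) (Fin 4) BB} (hA : Am.IsSymm)
    (hQA : Qm * Am = f • (1 : Matrix (Fin 4) (Fin 4) BB)) :
    (formM lam c Am).Nondegenerate := by
  have hc : ∀ a, c * a = 0 → a = 0 := by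
    intro a ha
    have : f * (c * a) = a := by linear_combination a * hcf
    rw [← this, ha, mul_zero]
  have key : ∀ v : Fin 4 → BB, (∀ w, formM lam c Am v w = 0) → v = 0 := by
    intro v hv
    have h2 : Am.mulVec v = 0 := by
      funext i
      apply hc
      apply hlam
      intro b
      have h3 := hv (Pi.single i b)
      rw [formM_apply] at h3
      simp only [dotProduct_single] at h3
      rwa [mul_assoc]
    have h4 : (Qm * Am).mulVec v = 0 := by
      rw [← Matrix.mulVec_mulVec, h2, Matrix.mulVec_zero]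
    rw [hQA, Matrix.smul_mulVec, Matrix.one_mulVec] at h4
    funext i
    have h5 := congrFun h4 i
    rw [Pi.smul_apply, smul_eq_mul, Pi.zero_apply] at h5
    have h6 : v i = c * (f * v i) := by linear_combination (-v i) * hcf
    rw [h6, h5, mul_zero]
    rfl
  refine ⟨fun v hv => key v hv, fun v hv => key v fun w => ?_⟩
  rw [formM_comm lam c hA]
  exact hv w

/-- multiplication by an element, on the ambient space -/
noncomputable def mulM (t : BB) : (Fin 4 → BB) →ₗ[ℂ] (Fin 4 → BB) :=
  LinearMap.pi fun i => (LinearMap.mulLeft ℂ t).comp (LinearMap.proj i)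

lemma mulM_apply (t : BB) (v : Fin 4 → BB) : mulM t v = t • v := rfl

lemma range_mulM_eq_ker {t : BB} (ht : ∀ b, t * b = 0 ↔ ∃ c, b = t * c) :
    LinearMap.range (mulM t) = LinearMap.ker (mulM t) := by
  ext v
  constructor
  · rintro ⟨w, rfl⟩
    rw [LinearMap.mem_ker]
    funext i
    exact (ht _).2 ⟨_, rfl⟩
  · intro hv
    rw [LinearMap.mem_ker] at hv
    have h1 : ∀ i, ∃ c, v i = t * c := fun i => (ht _).1 (congrFun hv i)
    choose c hc using h1
    exact ⟨c, funext fun i => (hc i).symm⟩

/-- the plane spanned by two vectors -/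
noncomputable def planeM (u v : Fin 4 → BB) : (BB × BB) →ₗ[ℂ] (Fin 4 → BB) where
  toFun p := p.1 • u + p.2 • v
  map_add' p q := by
    rw [Prod.fst_add, Prod.snd_add, add_smul, add_smul]
    abel
  map_smul' a p := by
    rw [Prod.smul_fst, Prod.smul_snd, RingHom.id_apply, smul_add, smul_assoc, smul_assoc]

lemma planeM_apply (u v : Fin 4 → BB) (p : BB × BB) : planeM u v p = p.1 • u + p.2 • v := rfl

omit [Algebra ℂ BB] in
/-- the coefficients of a combination vanish with it -/
lemma coeff_zero {u v : Fin 4 → BB} {i j : Fin 4} (h : IsUnit (u i * v j - u j * v i)) {a b : BB}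
    (h0 : a • u + b • v = 0) : a = 0 ∧ b = 0 := by
  have hi := congrFun h0 i
  have hj := congrFun h0 j
  simp only [Pi.add_apply, Pi.smul_apply, smul_eq_mul, Pi.zero_apply] at hi hj
  constructor
  · refine h.mul_left_eq_zero.1 ?_
    linear_combination v j * hi - v i * hj
  · refine h.mul_left_eq_zero.1 ?_
    linear_combination u i * hj - u j * hi

lemma mem_range_planeM {u v l : Fin 4 → BB} {i j : Fin 4} (h : IsUnit (u i * v j - u j * v i)) :
    l ∈ LinearMap.range (planeM u v) ↔ ∀ i j k, minor3 l u v i j k = 0 := by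
  constructor
  · rintro ⟨p, rfl⟩ i j k
    exact minor3_comb u v _ _ i j k
  · intro hl
    obtain ⟨c, hc⟩ := h.exists_left_inv
    have h1 := comb_of_minor3 (fun k => hl i j k)
    refine ⟨(c * (l i * v j - l j * v i), c * (l j * u i - l i * u j)), ?_⟩
    rw [planeM_apply, mul_smul, mul_smul, ← smul_add, ← h1, smul_smul, hc, one_smul]

variable [FiniteDimensional ℂ BB]

lemma finrank_VM : finrank ℂ (Fin 4 → BB) = 4 * finrank ℂ BB := by
  rw [finrank_pi_fintype]
  simp only [Finset.sum_const, Finset.card_univ, Fintype.card_fin, smul_eq_mul]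

/-- **Parity for the fibration, abstract form.** -/
theorem parityM_abstract {h : ℕ} (lam : BB →ₗ[ℂ] ℂ) (hlam : ∀ a, (∀ b, lam (a * b) = 0) → a = 0)
    (hdim : finrank ℂ BB = 2 * h) {c f t : BB} (hcf : c * f = 1)
    (ht : ∀ b, t * b = 0 ↔ ∃ c, b = t * c)
    {Qm Am : Matrix (Fin 4) (Fin 4) BB} (hA : Am.IsSymm)
    (hQA : Qm * Am = f • (1 : Matrix (Fin 4) (Fin 4) BB))
    {u v : Fin 4 → BB} {i j : Fin 4} (huv : IsUnit (u i * v j - u j * v i))
    (huu : dotProduct (Am.mulVec u) u = 0) (huv0 : dotProduct (Am.mulVec u) v = 0)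
    (hvv : dotProduct (Am.mulVec v) v = 0)
    (L₂ : Submodule ℂ (Fin 4 → BB))
    (hL₂ : ∀ v ∈ L₂, ∀ w ∈ L₂, lam (c * dotProduct (Am.mulVec v) w) = 0)
    (hL₂d : 4 * h ≤ finrank ℂ L₂) :
    finrank ℂ L₂ = 4 * h ∧ Even (finrank ℂ ↥(LinearMap.range (mulM t) ⊓ L₂) +
      finrank ℂ ↥(L₂ ⊓ LinearMap.range (planeM u v))) := by
  have hnd := formM_nondegenerate hlam hcf hA hQA
  have hrefl : (formM lam c Am).IsRefl := fun x y hxy => by
    rw [formM_comm lam c hA]; exact hxy
  have hV : finrank ℂ (Fin 4 → BB) = 2 * (4 * h) := by rw [finrank_VM, hdim]; ring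
  have d₂ : finrank ℂ L₂ = 4 * h := by
    apply le_antisymm _ hL₂d
    have h1 : L₂ ≤ (formM lam c Am).orthogonal L₂ := fun v hv w hw => hL₂ w hw v hv
    have h2 := Submodule.finrank_mono h1
    rw [LinearMap.BilinForm.finrank_orthogonal hnd, hV] at h2
    omega
  have d₁ : finrank ℂ (LinearMap.range (mulM t)) = 4 * h := by
    have h1 := LinearMap.finrank_range_add_finrank_ker (mulM t)
    rw [← range_mulM_eq_ker ht, hV] at h1
    omega
  have d₃ : finrank ℂ (LinearMap.range (planeM u v)) = 4 * h := by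
    rw [LinearMap.finrank_range_of_inj]
    · rw [finrank_prod, hdim]
      ring
    · rw [injective_iff_map_eq_zero]
      rintro ⟨a, b⟩ hp
      obtain ⟨h1, h2⟩ := coeff_zero huv hp
      exact Prod.ext h1 h2
  have htt : t * t = 0 := (ht t).2 ⟨1, (mul_one t).symm⟩
  have key := lagrangian_triple (two_ne_zero) (formM lam c Am) (formM_comm lam c hA) hnd hV
    (LinearMap.range (mulM t)) L₂ (LinearMap.range (planeM u v))
    (by
      rintro _ ⟨v, rfl⟩ _ ⟨w, rfl⟩
      rw [formM_apply, mulM_apply, mulM_apply, Matrix.mulVec_smul, smul_dotProduct,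
        dotProduct_smul, smul_smul, htt, zero_smul, mul_zero, map_zero])
    (by
      intro v hv w hw
      exact hL₂ v hv w hw)
    (by
      rintro _ ⟨p, rfl⟩ _ ⟨p', rfl⟩
      have h1 : dotProduct (Am.mulVec v) u = 0 := by rw [dot_comm_of_symm hA, huv0]
      rw [formM_apply, planeM_apply, planeM_apply, Matrix.mulVec_add, Matrix.mulVec_smul,
        Matrix.mulVec_smul, add_dotProduct, smul_dotProduct, smul_dotProduct, dotProduct_add,
        dotProduct_add, dotProduct_smul, dotProduct_smul, dotProduct_smul, dotProduct_smul,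
        huu, huv0, h1, hvv]
      simp)
    d₁ d₂ d₃
  -- the intersection with the plane
  have d₁₃ : finrank ℂ ↥(LinearMap.range (mulM t) ⊓ LinearMap.range (planeM u v)) = 2 * h := by
    have h1 : LinearMap.range (mulM t) ⊓ LinearMap.range (planeM u v) =
        LinearMap.range ((planeM u v).comp
          (LinearMap.prodMap (LinearMap.mulLeft ℂ t) (LinearMap.mulLeft ℂ t))) := by
      apply le_antisymm
      · rintro x ⟨hx, ⟨a, b⟩, rfl⟩
        rw [range_mulM_eq_ker ht] at hx
        have hx' : mulM t (planeM u v (a, b)) = 0 := hx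
        have h2 : (t * a) • u + (t * b) • v = 0 := by
          rw [← hx', mulM_apply, planeM_apply, smul_add, smul_smul, smul_smul]
        obtain ⟨h3, h4⟩ := coeff_zero huv h2
        obtain ⟨a', ha'⟩ := (ht a).1 h3
        obtain ⟨b', hb'⟩ := (ht b).1 h4
        refine ⟨(a', b'), ?_⟩
        rw [LinearMap.comp_apply]
        congr 1
        exact Prod.ext ha'.symm hb'.symm
      · rintro _ ⟨⟨a, b⟩, rfl⟩
        refine ⟨⟨planeM u v (a, b), ?_⟩, ⟨_, rfl⟩⟩
        rw [LinearMap.comp_apply, mulM_apply, planeM_apply, planeM_apply, smul_add, smul_smul,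
          smul_smul]
        rfl
    have h2 : finrank ℂ (LinearMap.range (LinearMap.mulLeft ℂ t)) = h := by
      have h3 := LinearMap.finrank_range_add_finrank_ker (LinearMap.mulLeft ℂ t)
      have h4 : LinearMap.range (LinearMap.mulLeft ℂ t) = LinearMap.ker (LinearMap.mulLeft ℂ t) := by
        ext b
        rw [LinearMap.mem_ker, LinearMap.mulLeft_apply, ht]
        exact ⟨fun ⟨c, hc⟩ => ⟨c, hc.symm⟩, fun ⟨c, hc⟩ => ⟨c, hc.symm⟩⟩
      rw [← h4, hdim] at h3
      omega
    rw [h1, LinearMap.range_comp, LinearMap.range_prodMap]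
    have h3 : Function.Injective (planeM u v) := by
      rw [injective_iff_map_eq_zero]
      rintro ⟨a, b⟩ hp
      obtain ⟨h1, h2⟩ := coeff_zero huv hp
      exact Prod.ext h1 h2
    rw [finrank_map_of_injOn _ _ (fun x _ hx => h3 (by rw [hx, map_zero])), finrank_prod_submodule,
      h2]
    ring
  refine ⟨d₂, ?_⟩
  rw [d₁₃] at key
  rw [Nat.even_iff] at key ⊢
  omega

end core

end Vale.Agent.P287.C8
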