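import Vale.Agent.P287.C8.ParM
import Vale.Agent.P287.C8.LatM
import Vale.Agent.P287.C8.InvM
import Vale.Agent.P287.C8.Functional
import Vale.Agent.P287.C8.Parity1

/-!
The parity theorem for the matrix `M` of the quadric surface fibration, over a plane curve `g = 0`
of even degree `2 s + 2` over which the quadric contains a line.
-/

namespace Vale.Agent.P287.C8

open MvPolynomial Module Vale.Agent.P287 Vale.Agent.P287.H925 Vale.Agent.P287.Theta

variable {f g : P3} {s a b : ℕ} {M : Matrix (Fin 4) (Fin 4) P3}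

/-- the theorem in suitable coordinates -/
theorem parityM_chart (H : EvenOn f g (2 * s + 2)) (pg : Prime g) (sM : M.IsSymm)
    (hM : ∀ i j, (M i j).IsHomogeneous (1 + wt i + wt j)) (hdet : M.det = f)
    (hδ : ¬ f ∣ M.adjugate 3 3)
    {u v : Fin 4 → RG g} (hu : ∀ i, u i ∈ gr g (a + wt i)) (hv : ∀ i, v i ∈ gr g (b + wt i))
    (huu : dotProduct ((qm4 g M.adjugate).mulVec u) u = 0)
    (huv : dotProduct ((qm4 g M.adjugate).mulVec u) v = 0)
    (hvv : dotProduct ((qm4 g M.adjugate).mulVec v) v = 0)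
    (hg1 : eval ![0, 0, 1] g ≠ 0)
    (hf1 : ∀ z : Fin 3 → ℂ, z ≠ 0 → z 0 = 0 → eval z g = 0 → eval z f ≠ 0)
    {i₀ j₀ : Fin 4} {L : P3} (hL : q g L = u i₀ * v j₀ - u j₀ * v i₀)
    (hL1 : ∀ z : Fin 3 → ℂ, z ≠ 0 → z 0 = 0 → eval z g = 0 → eval z L ≠ 0)
    {n : ℕ} (hn : s + a + b + 3 < n) :
    Even (finrank ℂ (WM f g M.adjugate s) + finrank ℂ (KM g u v (s + n))) := by
  have := finite_BB H.hu hg1 (2 * n)
  have hn0 : 0 < 2 * n := by omega
  obtain ⟨hWW, hWn, hWc, hKW⟩ := latticeM_facts (n := n) H pg sM hM hdet hδ hf1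
    (by omega)
  refine parityM_graded pg sM hdet hu hv huu huv hvv (toBB g (2 * n)) (lamB H.hu hg1 hn0)
    (lamB_nondeg H.hu hg1 hn0) (bb_dim H.hu hg1 n) ?_ (bb_tt H.hu hg1 n)
    (bb_inj H.hu hg1 n) (bb_div H.hu hg1 n) (isUnit_toBB g (2 * n) hf1) (i₀ := i₀) (j₀ := j₀) ?_
    (X0_pow_mul_eq_zero hg1 n) hWW hWn hWc hKW hn
  · rintro x ⟨p, hp, rfl⟩
    exact lamB_degree H.hu hg1 hn0 hp (by omega)
  · rw [← hL]
    exact isUnit_toBB g (2 * n) hL1

/-- **The parity theorem for the fibration.** -/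
theorem parityM (H : EvenOn f g (2 * s + 2)) (pg : Prime g) (sM : M.IsSymm)
    (hM : ∀ i j, (M i j).IsHomogeneous (1 + wt i + wt j)) (hdet : M.det = f)
    (hδ : ¬ f ∣ M.adjugate 3 3)
    {u v : Fin 4 → RG g} (hu : ∀ i, u i ∈ gr g (a + wt i)) (hv : ∀ i, v i ∈ gr g (b + wt i))
    (huu : dotProduct ((qm4 g M.adjugate).mulVec u) u = 0)
    (huv : dotProduct ((qm4 g M.adjugate).mulVec u) v = 0)
    (hvv : dotProduct ((qm4 g M.adjugate).mulVec v) v = 0)
    {i₀ j₀ : Fin 4} (hD : u i₀ * v j₀ - u j₀ * v i₀ ≠ 0) :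
    ∃ n₀, ∀ n, n₀ ≤ n →
      Even (finrank ℂ (WM f g M.adjugate s) + finrank ℂ (KM g u v (s + n))) := by
  obtain ⟨L, hL, hLl⟩ := mem_gr.1 (sub_mem (gr_mul (hu i₀) (hv j₀))
    (show u j₀ * v i₀ ∈ gr g (a + wt i₀ + (b + wt j₀)) by
      have := gr_mul (hu j₀) (hv i₀)
      rwa [show a + wt j₀ + (b + wt i₀) = a + wt i₀ + (b + wt j₀) by ring] at this))
  have hgL : ¬ g ∣ L := by
    rw [← q_eq_zero_iff, hLl]
    exact hD
  have hgf : ¬ g ∣ f * L := fun h => (pg.dvd_or_dvd h).elim (H.not_dvd pg) hgL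
  obtain ⟨P, hP, hP1, hP2⟩ := exists_coord H.hu pg (H.hf.mul hL) hgf
  have H' := H.lin hP
  have pg' : Prime (lin P g) := (MulEquiv.prime_iff (linEquiv P hP)).2 pg
  have hdot : ∀ x y : Fin 4 → RG g, dotProduct ((qm4 g M.adjugate).mulVec x) y = 0 →
      dotProduct ((qm4 (lin P g) (M.map (lin P)).adjugate).mulVec (qe4 hP g x)) (qe4 hP g y) = 0 := by
    intro x y hxy
    have h2 : (qm4 (lin P g) (M.adjugate.map (lin P))).mulVec (qe4 hP g x) =
        qe4 hP g ((qm4 g M.adjugate).mulVec x) := funext fun i => mulVec_lin4 hP g _ x i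
    rw [adj_lin, h2, dotProduct_lin4, hxy, map_zero]
  refine ⟨s + a + b + 4, fun n hn => ?_⟩
  have key := parityM_chart (f := lin P f) (g := lin P g) (s := s) (a := a) (b := b)
    (M := M.map (lin P)) H' pg' (isSymm_lin sM)
    (homog_lin (e := fun i j => 1 + wt i + wt j) hM) (by rw [det_lin, hdet])
    (by
      rw [adj_lin]
      exact fun h => hδ ((lin_dvd_lin hP).1 h))
    (u := qe4 hP g u) (v := qe4 hP g v) (fun i => (mem_gr_lin hP).2 (hu i))
    (fun i => (mem_gr_lin hP).2 (hv i)) (hdot _ _ huu) (hdot _ _ huv) (hdot _ _ hvv) hP1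
    (fun z hz hz0 hzg hzf => hP2 z hz hz0 hzg (by rw [map_mul, map_mul, hzf, zero_mul]))
    (i₀ := i₀) (j₀ := j₀) (L := lin P L)
    (by rw [← qe_mk hP, hLl, map_sub, map_mul, map_mul]; rfl)
    (fun z hz hz0 hzg hzf => hP2 z hz hz0 hzg (by rw [map_mul, map_mul, hzf, mul_zero]))
    (n := n) (by omega)
  rwa [adj_lin, finrank_WM_lin hP, finrank_KM_lin hP] at key

end Vale.Agent.P287.C8
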