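import Vale.Agent.P287.C8.Stable

/-!
The point of odd degree on the curve `g = 0` at which `- f Q(x, x)` is a square.
-/

namespace Vale.Agent.P287.C8

open MvPolynomial Module Vale.Agent.P287 Vale.Agent.P287.H925 Vale.Agent.P287.Theta
open scoped TensorProduct

theorem exists_point {f g : P3} {Q : Matrix (Fin 3) (Fin 3) P3} {l : Fin 3 → RG g}
    {B : Type} [CommRing B] [IsDomain B] [Algebra ℂ B] (D : AffChart g B)
    {k : Type} [Field k] [Algebra ℂ k] (x : Fin 3 → k) {e : ℕ} (H : EvenOn f g e)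
    (hX : ∀ z : Fin 3 → ℂ, eval z f = 0 → eval z g = 0 → z 0 = 0 → z = 0)
    (hf0 : D.psi f ≠ 0) (sQ : Q.IsSymm) (hdet : Q.det = f)
    (hfin : FiniteDimensional k ((ZZ D f k) ⧸ LinearMap.range (PiB D f Q l x)))
    (hodd : Odd (finrank k ((ZZ D f k) ⧸ LinearMap.range (PiB D f Q l x)))) :
    ∃ (L : Type) (_ : Field L) (_ : Algebra k L) (_ : FiniteDimensional k L),
      Odd (finrank k L) ∧ ∃ (σ : B →+* L) (y : L),
        (∀ c : ℂ, σ (algebraMap ℂ B c) = algebraMap k L (algebraMap ℂ k c)) ∧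
        y ^ 2 + (∑ i, ∑ j, algebraMap k L (x i * x j) * σ (D.QB Q i j)) * σ (D.psi f) = 0 ∧
        ∀ r : Fin 3 → B, (r, 0) ∈ D.NB f Q l → ∑ i, algebraMap k L (x i) * σ (r i) = 0 := by
  obtain ⟨L, i1, i2, i3, h1, σ, y, ha, hb, hc⟩ := exists_odd_quot_ring
    (LinearMap.range (PiB D f Q l x)) hodd (sZ D k f : B →+* Module.End k (ZZ D f k))
    (fun b => sZ_stable D x b) (yZ D k f Q x) (yZ_stable D x sQ hdet) (yZ_sZ D k x)
  refine ⟨L, i1, i2, i3, h1, σ, y, fun c => ?_, ?_, fun r hr => ?_⟩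
  · apply ha
    change sZ D k f (algebraMap ℂ B c) = _
    rw [AlgHom.commutes]
    apply LinearMap.ext
    intro z
    rw [Module.algebraMap_end_apply, Module.algebraMap_end_apply, algebraMap_smul]
  · exact hb (fun i j => x i * x j) (fun i j => D.QB Q i j) (D.psi f) (yZ_sq D k x)
  · exact hc x r (fun z => xrZ_sq D x H hX hf0 sQ hdet hr z)

end Vale.Agent.P287.C8
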