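import Vale.Agent.P287.C8.BasicM
import Vale.Agent.P287.C8.Dim

/-!
Scrolls in the cubic fourfold: a surface swept by lines of the quadric fibres over a plane curve
gives an isotropic plane of the quadratic form over the curve; hence the double plane splits over
the curve. Dimension of the forms restricted to the scroll.
-/

namespace Vale.Agent.P287.C8

open MvPolynomial Module Matrix Vale.Agent.P287 Vale.Agent.P287.H925 Vale.Agent.P287.Theta

section Identity

variable {R : Type*} [CommRing R]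

/-- the determinant of a `4 × 4` matrix with a zero `2 × 2` block -/
lemma det_zero_block (S : Matrix (Fin 4) (Fin 4) R) (h00 : S 0 0 = 0) (h01 : S 0 1 = 0)
    (h10 : S 1 0 = 0) (h11 : S 1 1 = 0) :
    S.det = (S 0 2 * S 1 3 - S 0 3 * S 1 2) * (S 2 0 * S 3 1 - S 2 1 * S 3 0) := by
  rw [Matrix.det_succ_row_zero]
  simp only [Fin.sum_univ_succ, Matrix.det_fin_three, Matrix.submatrix_apply, Fin.succAbove,
    Fin.isValue]
  simp [h00, h01, h10, h11, Fin.succ, Fin.lt_def]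
  ring

/-- the matrix with rows `p`, `q`, `e_k`, `e_l` -/
def rowsB (p q : Fin 4 → R) (k l : Fin 4) : Matrix (Fin 4) (Fin 4) R :=
  Matrix.of ![p, q, Pi.single k 1, Pi.single l 1]

/-- If `p`, `q` span an isotropic plane of the quadratic form `M`, then the determinant of `M` is a
square up to squares. -/
theorem split_identity {M : Matrix (Fin 4) (Fin 4) R} (sM : M.IsSymm) {p q : Fin 4 → R}
    (hpp : p ⬝ᵥ M *ᵥ p = 0) (hpq : p ⬝ᵥ M *ᵥ q = 0) (hqq : q ⬝ᵥ M *ᵥ q = 0) (k l : Fin 4) :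
    (rowsB p q k l).det ^ 2 * M.det =
      ((M *ᵥ p) k * (M *ᵥ q) l - (M *ᵥ p) l * (M *ᵥ q) k) ^ 2 := by
  have hsym : ∀ x y : Fin 4 → R, x ⬝ᵥ M *ᵥ y = y ⬝ᵥ M *ᵥ x := by
    intro x y
    rw [dotProduct_mulVec, ← mulVec_transpose, sM.eq, dotProduct_comm]
  set B := rowsB p q k l with hB
  have hS : ∀ i j, (B * M * Bᵀ) i j = B i ⬝ᵥ M *ᵥ B j := by
    intro i j
    rw [Matrix.mul_assoc, Matrix.mul_apply]
    simp only [dotProduct, Matrix.mulVec, Matrix.mul_apply, Matrix.transpose_apply]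
  have h0 : B 0 = p := rfl
  have h1 : B 1 = q := rfl
  have h2 : B 2 = Pi.single k 1 := rfl
  have h3 : B 3 = Pi.single l 1 := rfl
  have hdet : (B * M * Bᵀ).det = B.det ^ 2 * M.det := by
    rw [Matrix.det_mul, Matrix.det_mul, Matrix.det_transpose]
    ring
  rw [← hdet, det_zero_block _ (by rw [hS, h0, hpp]) (by rw [hS, h0, h1, hpq])
    (by rw [hS, h0, h1, hsym, hpq]) (by rw [hS, h1, hqq])]
  simp only [hS, h0, h1, h2, h3]
  have e1 : ∀ (x : Fin 4 → R) (i : Fin 4), x ⬝ᵥ M *ᵥ Pi.single i 1 = (M *ᵥ x) i := by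
    intro x i
    rw [hsym, single_one_dotProduct]
  simp only [e1, single_one_dotProduct]
  ring

/-- Laplace expansion along the first two rows -/
lemma det_rows (p q x y : Fin 4 → R) : (Matrix.of ![p, q, x, y]).det =
    (p 0 * q 1 - p 1 * q 0) * (x 2 * y 3 - x 3 * y 2) -
    (p 0 * q 2 - p 2 * q 0) * (x 1 * y 3 - x 3 * y 1) +
    (p 0 * q 3 - p 3 * q 0) * (x 1 * y 2 - x 2 * y 1) +
    (p 1 * q 2 - p 2 * q 1) * (x 0 * y 3 - x 3 * y 0) -
    (p 1 * q 3 - p 3 * q 1) * (x 0 * y 2 - x 2 * y 0) +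
    (p 2 * q 3 - p 3 * q 2) * (x 0 * y 1 - x 1 * y 0) := by
  rw [Matrix.det_succ_row_zero]
  simp [Fin.sum_univ_succ, Matrix.det_fin_three, Fin.succAbove]
  ring

/-- every `2 × 2` minor of `(p, q)` is one of the determinants of `split_identity` -/
lemma exists_rowsB (p q : Fin 4 → R) (i j : Fin 4) : ∃ k l : Fin 4,
    (rowsB p q k l).det = p i * q j - p j * q i ∨ p i * q j - p j * q i = 0 := by
  simp only [rowsB, det_rows]
  fin_cases i <;> fin_cases j
  · exact ⟨0, 0, Or.inr (sub_self _)⟩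
  · exact ⟨2, 3, Or.inl (by simp)⟩
  · exact ⟨3, 1, Or.inl (by simp)⟩
  · exact ⟨1, 2, Or.inl (by simp)⟩
  · exact ⟨3, 2, Or.inl (by simp)⟩
  · exact ⟨0, 0, Or.inr (sub_self _)⟩
  · exact ⟨0, 3, Or.inl (by simp)⟩
  · exact ⟨2, 0, Or.inl (by simp)⟩
  · exact ⟨1, 3, Or.inl (by simp)⟩
  · exact ⟨3, 0, Or.inl (by simp)⟩
  · exact ⟨0, 0, Or.inr (sub_self _)⟩
  · exact ⟨0, 1, Or.inl (by simp)⟩
  · exact ⟨2, 1, Or.inl (by simp)⟩
  · exact ⟨0, 2, Or.inl (by simp)⟩
  · exact ⟨1, 0, Or.inl (by simp)⟩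
  · exact ⟨0, 0, Or.inr (sub_self _)⟩

/-- Cramer's rule for three vectors orthogonal to `p`. -/
lemma sum_minor3 (l u v p : Fin 4 → R) (hl : l ⬝ᵥ p = 0) (hu : u ⬝ᵥ p = 0) (hv : v ⬝ᵥ p = 0)
    (i j : Fin 4) : ∑ t, minor3 l u v i j t * p t = 0 := by
  simp only [dotProduct, Fin.sum_univ_four, minor3] at *
  linear_combination (l i * u j - l j * u i) * hv - (l i * v j - l j * v i) * hu +
    (u i * v j - u j * v i) * hl

lemma minor3_swap (l u v : Fin 4 → R) (i j k : Fin 4) : minor3 l u v i j k = -minor3 l u v j i k := by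
  simp only [minor3]
  ring

lemma minor3_rot (l u v : Fin 4 → R) (i j k : Fin 4) : minor3 l u v i j k = minor3 l u v j k i := by
  simp only [minor3]
  ring

lemma minor3_self (l u v : Fin 4 → R) (i j : Fin 4) : minor3 l u v i j i = 0 := by
  simp only [minor3]
  ring

/-- Three vectors orthogonal to two independent ones are dependent. -/
lemma minor3_eq_zero [IsDomain R] {l u v p q : Fin 4 → R} (hlp : l ⬝ᵥ p = 0) (hup : u ⬝ᵥ p = 0)
    (hvp : v ⬝ᵥ p = 0) (hlq : l ⬝ᵥ q = 0) (huq : u ⬝ᵥ q = 0) (hvq : v ⬝ᵥ q = 0)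
    (hpq : ∃ i j, p i * q j - p j * q i ≠ 0) (i j k : Fin 4) : minor3 l u v i j k = 0 := by
  -- the vector of minors
  set e : Fin 4 → R := ![minor3 l u v 1 2 3, -minor3 l u v 0 2 3, minor3 l u v 0 1 3,
    -minor3 l u v 0 1 2] with he
  have key : ∀ r : Fin 4 → R, l ⬝ᵥ r = 0 → u ⬝ᵥ r = 0 → v ⬝ᵥ r = 0 →
      ∀ a b, e a * r b = e b * r a := by
    intro r h1 h2 h3
    have s01 := sum_minor3 l u v r h1 h2 h3 0 1
    have s02 := sum_minor3 l u v r h1 h2 h3 0 2
    have s03 := sum_minor3 l u v r h1 h2 h3 0 3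
    have s12 := sum_minor3 l u v r h1 h2 h3 1 2
    have s13 := sum_minor3 l u v r h1 h2 h3 1 3
    have s23 := sum_minor3 l u v r h1 h2 h3 2 3
    simp only [Fin.sum_univ_four, minor3] at s01 s02 s03 s12 s13 s23
    intro a b
    fin_cases a <;> fin_cases b <;> simp only [he, minor3] <;>
      simp only [Fin.zero_eta, Fin.isValue, Fin.mk_one, Fin.reduceFinMk, Matrix.cons_val_zero,
        Matrix.cons_val_one, Matrix.cons_val]
    · linear_combination s23
    · linear_combination -s13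
    · linear_combination s12
    · linear_combination -s23
    · linear_combination s03
    · linear_combination -s02
    · linear_combination s13
    · linear_combination -s03
    · linear_combination s01
    · linear_combination -s12
    · linear_combination s02
    · linear_combination -s01
  have hp := key p hlp hup hvp
  have hq := key q hlq huq hvq
  obtain ⟨b, c, hbc⟩ := hpq
  have h0 : ∀ a, e a = 0 := by
    intro a
    have h1 : e a * (p b * q c - p c * q b) = 0 := by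
      have h2 := hp a b
      have h3 := hp a c
      have h4 := hq b c
      linear_combination q c * h2 - q b * h3 + p a * h4
    exact (mul_eq_zero.1 h1).resolve_right hbc
  have d0 := h0 0
  have d1 := h0 1
  have d2 := h0 2
  have d3 := h0 3
  simp only [he, minor3, Matrix.cons_val_zero, Matrix.cons_val_one, Matrix.cons_val] at d0 d1 d2 d3
  fin_cases i <;> fin_cases j <;> fin_cases k <;>
    simp only [minor3, Fin.zero_eta, Fin.isValue, Fin.mk_one, Fin.reduceFinMk] <;>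
    first
      | ring1
      | (linear_combination (norm := ring1) d0)
      | (linear_combination (norm := ring1) -d0)
      | (linear_combination (norm := ring1) d1)
      | (linear_combination (norm := ring1) -d1)
      | (linear_combination (norm := ring1) d2)
      | (linear_combination (norm := ring1) -d2)
      | (linear_combination (norm := ring1) d3)
      | (linear_combination (norm := ring1) -d3)

/-- Two independent vectors are mapped to independent vectors. -/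
lemma exists_minor_mulVec [IsDomain R] {M : Matrix (Fin 4) (Fin 4) R} (sM : M.IsSymm)
    (hM : M.det ≠ 0) {p q : Fin 4 → R} (hpp : p ⬝ᵥ M *ᵥ p = 0) (hpq : p ⬝ᵥ M *ᵥ q = 0)
    (hqq : q ⬝ᵥ M *ᵥ q = 0) (hi : ∃ i j, p i * q j - p j * q i ≠ 0) :
    ∃ i j, (M *ᵥ p) i * (M *ᵥ q) j - (M *ᵥ p) j * (M *ᵥ q) i ≠ 0 := by
  obtain ⟨i, j, hij⟩ := hi
  obtain ⟨k, l, h | h⟩ := exists_rowsB p q i j
  · refine ⟨k, l, fun h0 => ?_⟩
    have h1 := split_identity sM hpp hpq hqq k l
    rw [h0, h, zero_pow two_ne_zero] at h1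
    rcases mul_eq_zero.1 h1 with h2 | h2
    · exact hij (pow_eq_zero_iff two_ne_zero |>.1 h2)
    · exact hM h2
  · exact absurd h hij

/-- A vector in the plane of `u`, `v` is orthogonal to what `u` and `v` are. -/
lemma dot_eq_zero_of_minor3 [IsDomain R] {l u v p : Fin 4 → R} (hup : u ⬝ᵥ p = 0)
    (hvp : v ⬝ᵥ p = 0) (huv : ∃ i j, u i * v j - u j * v i ≠ 0)
    (h : ∀ i j k, minor3 l u v i j k = 0) : l ⬝ᵥ p = 0 := by
  obtain ⟨i, j, hij⟩ := huv
  have h1 : (u i * v j - u j * v i) * (l ⬝ᵥ p) = 0 := by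
    have h2 : ∑ k, minor3 l u v i j k * p k = 0 :=
      Finset.sum_eq_zero fun k _ => by rw [h i j k, zero_mul]
    simp only [dotProduct, Fin.sum_univ_four, minor3] at h2 hup hvp ⊢
    linear_combination h2 - (l i * u j - l j * u i) * hvp + (l i * v j - l j * v i) * hup
  exact (mul_eq_zero.1 h1).resolve_left hij

end Identity

section Lines

/-- `p` and `p'` are two sections of the projective bundle `{(v₀ : v₁ : v₂ : v₃)}` over the plane
curve `g = 0` (the point `(v₀ : v₁ : v₂ : v₃)` of the fibre over `s` is the point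
`(v₃ s : v₀ : v₁ : v₂)` of the projective space); the line joining them is contained in the quadric
surface `v^T M v = 0`. -/
structure LinePair (M : Matrix (Fin 4) (Fin 4) P3) (g : P3) (a b : ℕ) (p p' : Fin 4 → P3) :
    Prop where
  hp : ∀ i, (p i).IsHomogeneous (a + (1 - wt i))
  hp' : ∀ i, (p' i).IsHomogeneous (b + (1 - wt i))
  h11 : g ∣ p ⬝ᵥ M *ᵥ p
  h12 : g ∣ p ⬝ᵥ M *ᵥ p'
  h22 : g ∣ p' ⬝ᵥ M *ᵥ p'
  ind : ∃ i j, ¬ g ∣ p i * p' j - p j * p' i

variable {M : Matrix (Fin 4) (Fin 4) P3} {g : P3} {a b : ℕ} {p p' : Fin 4 → P3}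

/-- a vector of polynomials over `RG g` -/
noncomputable abbrev qv (g : P3) (p : Fin 4 → P3) : Fin 4 → RG g := fun i => q g (p i)

lemma q_eq_zeroS {g x : P3} : q g x = 0 ↔ g ∣ x := by
  rw [Ideal.Quotient.eq_zero_iff_mem, Ideal.mem_span_singleton]

lemma wt_le (i : Fin 4) : wt i ≤ 1 := by
  fin_cases i <;> simp [wt]

lemma qm4_mulVec (g : P3) (M : Matrix (Fin 4) (Fin 4) P3) (p : Fin 4 → P3) :
    qm4 g M *ᵥ qv g p = qv g (M *ᵥ p) := by
  funext i
  exact (RingHom.map_mulVec (Ideal.Quotient.mk (Ideal.span {g})) M p i).symm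

lemma qv_dot (g : P3) (p p' : Fin 4 → P3) : qv g p ⬝ᵥ qv g p' = q g (p ⬝ᵥ p') := by
  exact (RingHom.map_dotProduct (Ideal.Quotient.mk (Ideal.span {g})) p p').symm

lemma qm4_symm (sM : M.IsSymm) : (qm4 g M).IsSymm := by
  rw [Matrix.IsSymm, ← Matrix.transpose_map, sM.eq]

lemma qm4_det (g : P3) (M : Matrix (Fin 4) (Fin 4) P3) : (qm4 g M).det = q g M.det :=
  (RingHom.map_det (Ideal.Quotient.mk (Ideal.span {g})) M).symm

lemma isDomain_RGS (pg : Prime g) : IsDomain (RG g) := by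
  have : (Ideal.span {g}).IsPrime := (Ideal.span_singleton_prime pg.ne_zero).2 pg
  infer_instance

lemma dvd_dot_symm (sM : M.IsSymm) (x y : Fin 4 → P3) : x ⬝ᵥ M *ᵥ y = y ⬝ᵥ M *ᵥ x := by
  rw [dotProduct_mulVec, ← mulVec_transpose, sM.eq, dotProduct_comm]

namespace LinePair

lemma iso11 (H : LinePair M g a b p p') : qv g p ⬝ᵥ qm4 g M *ᵥ qv g p = 0 := by
  rw [qm4_mulVec, qv_dot, q_eq_zeroS]
  exact H.h11

lemma iso12 (H : LinePair M g a b p p') : qv g p ⬝ᵥ qm4 g M *ᵥ qv g p' = 0 := by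
  rw [qm4_mulVec, qv_dot, q_eq_zeroS]
  exact H.h12

lemma iso22 (H : LinePair M g a b p p') : qv g p' ⬝ᵥ qm4 g M *ᵥ qv g p' = 0 := by
  rw [qm4_mulVec, qv_dot, q_eq_zeroS]
  exact H.h22

lemma iso21 (H : LinePair M g a b p p') (sM : M.IsSymm) :
    qv g p' ⬝ᵥ qm4 g M *ᵥ qv g p = 0 := by
  rw [qm4_mulVec, qv_dot, q_eq_zeroS, dvd_dot_symm sM]
  exact H.h12

lemma ind' (H : LinePair M g a b p p') :
    ∃ i j, qv g p i * qv g p' j - qv g p j * qv g p' i ≠ 0 := by
  obtain ⟨i, j, hij⟩ := H.ind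
  refine ⟨i, j, fun h => hij ?_⟩
  rw [← q_eq_zeroS, ← h]
  simp only [map_sub, map_mul]

/-- The double plane splits over the curve. -/
theorem split (H : LinePair M g a b p p') (sM : M.IsSymm) :
    ∃ (e : ℕ) (s c : P3), c.IsHomogeneous e ∧ ¬ g ∣ c ∧ g ∣ c ^ 2 * M.det - s ^ 2 := by
  obtain ⟨i, j, hij⟩ := H.ind
  refine ⟨a + b + (1 - wt i) + (1 - wt j), ?_⟩
  have hc : (p i * p' j - p j * p' i).IsHomogeneous (a + b + (1 - wt i) + (1 - wt j)) := by
    have h1 := (H.hp i).mul (H.hp' j)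
    have h2 := (H.hp j).mul (H.hp' i)
    have e1 : a + (1 - wt i) + (b + (1 - wt j)) = a + b + (1 - wt i) + (1 - wt j) := by ring
    have e2 : a + (1 - wt j) + (b + (1 - wt i)) = a + b + (1 - wt i) + (1 - wt j) := by ring
    rw [e1] at h1
    rw [e2] at h2
    exact h1.sub h2
  obtain ⟨k, l, h | h⟩ := exists_rowsB p p' i j
  · refine ⟨(M *ᵥ p) k * (M *ᵥ p') l - (M *ᵥ p) l * (M *ᵥ p') k, p i * p' j - p j * p' i, hc, hij,
      ?_⟩
    have h1 := split_identity (qm4_symm (g := g) sM) H.iso11 H.iso12 H.iso22 k l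
    have h2 : (rowsB (qv g p) (qv g p') k l).det = q g (p i * p' j - p j * p' i) := by
      rw [← h]
      have h3 : rowsB (qv g p) (qv g p') k l = (rowsB p p' k l).map
          (Ideal.Quotient.mk (Ideal.span {g})) := by
        ext x y
        fin_cases x
        · rfl
        · rfl
        · simp [rowsB, Pi.single_apply]
        · simp [rowsB, Pi.single_apply]
      rw [h3]
      exact (RingHom.map_det (Ideal.Quotient.mk (Ideal.span {g})) _).symm
    rw [h2, qm4_det, qm4_mulVec, qm4_mulVec, ← map_pow, ← map_mul] at h1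
    refine q_eq_zeroS.1 (show Ideal.Quotient.mk (Ideal.span {g}) _ = 0 from ?_)
    rw [map_sub, h1, sub_eq_zero]
    simp only [map_pow, map_sub, map_mul]
  · exact absurd (h ▸ dvd_zero g) hij

/-- the two equations of the line -/
lemma isoU (H : LinePair M g a b p p') (sM : M.IsSymm) :
    qv g (M *ᵥ p) ⬝ᵥ qv g p = 0 ∧ qv g (M *ᵥ p) ⬝ᵥ qv g p' = 0 ∧
      qv g (M *ᵥ p') ⬝ᵥ qv g p = 0 ∧ qv g (M *ᵥ p') ⬝ᵥ qv g p' = 0 := by
  refine ⟨?_, ?_, ?_, ?_⟩
  · rw [dotProduct_comm, ← qm4_mulVec, H.iso11]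
  · rw [dotProduct_comm, ← qm4_mulVec, H.iso21 sM]
  · rw [dotProduct_comm, ← qm4_mulVec, H.iso12]
  · rw [dotProduct_comm, ← qm4_mulVec, H.iso22]

lemma indU (H : LinePair M g a b p p') (sM : M.IsSymm) (pg : Prime g) (hgf : ¬ g ∣ M.det) :
    ∃ i j, qv g (M *ᵥ p) i * qv g (M *ᵥ p') j - qv g (M *ᵥ p) j * qv g (M *ᵥ p') i ≠ 0 := by
  have := isDomain_RGS pg
  have h := exists_minor_mulVec (qm4_symm (g := g) sM)
    (by rw [qm4_det, Ne, q_eq_zeroS]; exact hgf) H.iso11 H.iso12 H.iso22 H.ind'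
  simpa only [qm4_mulVec] using h

/-- The vectors in the plane of the two equations of the line are the linear equations of the
line. -/
theorem mem_KM (H : LinePair M g a b p p') (sM : M.IsSymm) (pg : Prime g) (hgf : ¬ g ∣ M.det)
    {d : ℕ} {l : Fin 4 → RG g} : l ∈ KM g (qv g (M *ᵥ p)) (qv g (M *ᵥ p')) d ↔
      (∀ i, l i ∈ gr g (d + wt i)) ∧ l ⬝ᵥ qv g p = 0 ∧ l ⬝ᵥ qv g p' = 0 := by
  have := isDomain_RGS pg
  obtain ⟨h1, h2, h3, h4⟩ := H.isoU sM
  constructor
  · rintro ⟨hl, hm⟩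
    exact ⟨hl, dot_eq_zero_of_minor3 h1 h3 (H.indU sM pg hgf) hm,
      dot_eq_zero_of_minor3 h2 h4 (H.indU sM pg hgf) hm⟩
  · rintro ⟨hl, hp, hp'⟩
    exact ⟨hl, fun i j k => minor3_eq_zero hp h1 h3 hp' h2 h4 H.ind' i j k⟩

/-- the equations of the line are isotropic for the adjugate -/
lemma isoA (H : LinePair M g a b p p') (sM : M.IsSymm) :
    dotProduct ((qm4 g M.adjugate).mulVec (qv g (M *ᵥ p))) (qv g (M *ᵥ p)) = 0 ∧
    dotProduct ((qm4 g M.adjugate).mulVec (qv g (M *ᵥ p))) (qv g (M *ᵥ p')) = 0 ∧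
    dotProduct ((qm4 g M.adjugate).mulVec (qv g (M *ᵥ p'))) (qv g (M *ᵥ p')) = 0 := by
  obtain ⟨h1, h2, h3, h4⟩ := H.isoU sM
  have key : ∀ x : Fin 4 → P3, (qm4 g M.adjugate).mulVec (qv g (M *ᵥ x)) =
      q g M.det • qv g x := by
    intro x
    rw [qm4_mulVec, Matrix.mulVec_mulVec, Matrix.adjugate_mul, Matrix.smul_mulVec,
      Matrix.one_mulVec]
    funext i
    exact map_mul _ _ _
  rw [key, key]
  refine ⟨?_, ?_, ?_⟩
  · rw [smul_dotProduct, dotProduct_comm, h1, smul_zero]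
  · rw [smul_dotProduct, dotProduct_comm, h3, smul_zero]
  · rw [smul_dotProduct, dotProduct_comm, h4, smul_zero]

lemma mem_gr_mulVec (hdeg : ∀ i j, (M i j).IsHomogeneous (1 + wt i + wt j)) {c : ℕ}
    {x : Fin 4 → P3} (hx : ∀ i, (x i).IsHomogeneous (c + (1 - wt i))) (i : Fin 4) :
    qv g (M *ᵥ x) i ∈ gr g (c + 2 + wt i) := by
  refine ⟨(M *ᵥ x) i, ?_, rfl⟩
  change ((M *ᵥ x) i).IsHomogeneous (c + 2 + wt i)
  rw [Matrix.mulVec, dotProduct]
  refine IsHomogeneous.sum _ _ _ fun j _ => ?_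
  have h := (hdeg i j).mul (hx j)
  have e : 1 + wt i + wt j + (c + (1 - wt j)) = c + 2 + wt i := by
    have := wt_le j
    omega
  rwa [e] at h

end LinePair

section Dimension

/-- vectors of forms of degrees `d + wt i` over the curve -/
noncomputable def grW (g : P3) (d : ℕ) : Submodule ℂ (Fin 4 → RG g) where
  carrier := {l | ∀ i, l i ∈ gr g (d + wt i)}
  add_mem' ha hb := fun i => add_mem (ha i) (hb i)
  zero_mem' := fun _ => zero_mem _
  smul_mem' c _ ha := fun i => Submodule.smul_mem _ c (ha i)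

/-- `grW` as a product -/
noncomputable def grWEquiv (g : P3) (d : ℕ) : grW g d ≃ₗ[ℂ] (∀ i, gr g (d + wt i)) where
  toFun l := fun i => ⟨l.1 i, l.2 i⟩
  invFun l := ⟨fun i => (l i).1, fun i => (l i).2⟩
  left_inv _ := rfl
  right_inv _ := rfl
  map_add' _ _ := rfl
  map_smul' _ _ := rfl

instance finite_grW (g : P3) (d : ℕ) : FiniteDimensional ℂ (grW g d) :=
  Module.Finite.equiv (grWEquiv g d).symm

lemma finrank_grW (g : P3) (d : ℕ) :
    finrank ℂ (grW g d) = 3 * finrank ℂ (gr g d) + finrank ℂ (gr g (d + 1)) := by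
  rw [(grWEquiv g d).finrank_eq, finrank_pi_fintype, Fin.sum_univ_four]
  have h0 : wt 0 = 0 := rfl
  have h1 : wt 1 = 0 := rfl
  have h2 : wt 2 = 0 := rfl
  have h3 : wt 3 = 1 := rfl
  rw [h0, h1, h2, h3, add_zero]
  ring

/-- Over a curve of even degree the dimension of `grW` is even. -/
lemma even_finrank_grW {r : ℕ} (hg : g.IsHomogeneous (2 * r)) (hg0 : g ≠ 0) {d : ℕ}
    (hd : 2 * r ≤ d) : Even (finrank ℂ (grW g d)) := by
  obtain ⟨k, rfl⟩ := Nat.exists_eq_add_of_le hd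
  rw [finrank_grW]
  have h1 := finrank_gr_ge hg hg0 k
  have h2 := finrank_gr_ge hg hg0 (k + 1)
  rw [← add_assoc] at h2
  have h3 : finrank ℂ (gr g (2 * r + k)) = r * (2 * k + 2 * r + 3) := by nlinarith
  have h4 : finrank ℂ (gr g (2 * r + k + 1)) = r * (2 * (k + 1) + 2 * r + 3) := by nlinarith
  rw [h3, h4]
  exact ⟨r * (4 * k + 4 * r + 7), by ring⟩

/-- restriction of the linear forms in `v` to the line -/
noncomputable def restr (g : P3) (p p' : Fin 4 → P3) : (Fin 4 → RG g) →ₗ[ℂ] RG g × RG g where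
  toFun l := (l ⬝ᵥ qv g p, l ⬝ᵥ qv g p')
  map_add' l l' := by simp only [add_dotProduct, Prod.mk_add_mk]
  map_smul' c l := by simp only [smul_dotProduct, RingHom.id_apply, Prod.smul_mk]

/-- The parity of the dimension of the space of the restrictions to the scroll. -/
theorem even_restr (H : LinePair M g a b p p') (sM : M.IsSymm) (pg : Prime g)
    (hgf : ¬ g ∣ M.det) {r : ℕ} (hg : g.IsHomogeneous (2 * r)) {d : ℕ} (hd : 2 * r ≤ d) :
    Even (finrank ℂ ((grW g d).map (restr g p p')) +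
      finrank ℂ (KM g (qv g (M *ᵥ p)) (qv g (M *ᵥ p')) d)) := by
  have h1 := LinearMap.finrank_range_add_finrank_ker ((restr g p p').comp (grW g d).subtype)
  rw [LinearMap.range_comp, Submodule.range_subtype] at h1
  have h2 : finrank ℂ (LinearMap.ker ((restr g p p').comp (grW g d).subtype)) =
      finrank ℂ (KM g (qv g (M *ᵥ p)) (qv g (M *ᵥ p')) d) := by
    rw [← Submodule.finrank_map_subtype_eq (grW g d)
      (LinearMap.ker ((restr g p p').comp (grW g d).subtype))]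
    suffices h : (LinearMap.ker ((restr g p p').comp (grW g d).subtype)).map (grW g d).subtype =
        KM g (qv g (M *ᵥ p)) (qv g (M *ᵥ p')) d by rw [h]
    ext l
    rw [H.mem_KM sM pg hgf]
    constructor
    · rintro ⟨⟨l, hl⟩, hk, rfl⟩
      have hk' : restr g p p' l = 0 := hk
      exact ⟨hl, congrArg Prod.fst hk', congrArg Prod.snd hk'⟩
    · rintro ⟨hl, h3, h4⟩
      refine ⟨⟨l, hl⟩, ?_, rfl⟩
      change restr g p p' l = 0
      exact Prod.ext h3 h4
  rw [← h2, h1]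
  exact even_finrank_grW hg pg.ne_zero hd

end Dimension

end Lines

end Vale.Agent.P287.C8
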