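import Vale.Agent.P287.C8.NetCase
import Vale.Agent.P287.C8.Dixon
import Vale.Agent.P287.C8.EvenEx
import Vale.Agent.P287.C8.Count
import Vale.Agent.P287.C8.Dim

/-!
Splitting curves of even degree: the cubic fourfold is rational unless the theta characteristic has
exactly one section.
-/

namespace Vale.Agent.P287.C8

open MvPolynomial Module Vale.Agent.P287 Vale.Agent.P287.H925 Vale.Agent.P287.H925.NetResult
  Vale.Agent.P287.Theta

/-- the sections of degree `d`, modulo `f` -/
noncomputable def thetaSp (f u : P3) (d : ℕ) : Submodule ℂ (P3 ⧸ (Ideal.span {f} : Ideal P3)) :=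
  (rt f u d).map (Ideal.Quotient.mkₐ ℂ (Ideal.span {f})).toLinearMap

section

variable {f u : P3} {e : ℕ}

lemma EvenOn.finite_rt (H : EvenOn f u e) (d : ℕ) : FiniteDimensional ℂ (rt f u d) :=
  Submodule.finiteDimensional_of_le (H.rt_le d)

lemma EvenOn.finite_thetaSp (H : EvenOn f u e) (d : ℕ) : FiniteDimensional ℂ (thetaSp f u d) := by
  have := H.finite_rt d
  unfold thetaSp
  infer_instance

/-- the kernel of the reduction modulo `f` -/
lemma EvenOn.finrank_rt_le (H : EvenOn f u e) (d : ℕ) :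
    finrank ℂ (rt f u (6 + d)) ≤ finrank ℂ (thetaSp f u (6 + d)) + (d + 2).choose 2 := by
  have hfin := H.finite_rt (6 + d)
  let φ : P3 →ₗ[ℂ] (P3 ⧸ (Ideal.span {f} : Ideal P3)) :=
    (Ideal.Quotient.mkₐ ℂ (Ideal.span {f})).toLinearMap
  have h1 := LinearMap.finrank_range_add_finrank_ker (φ.comp (rt f u (6 + d)).subtype)
  rw [LinearMap.range_comp, Submodule.range_subtype] at h1
  have h2 : finrank ℂ (LinearMap.ker (φ.comp (rt f u (6 + d)).subtype)) ≤ (d + 2).choose 2 := by
    rw [← finrank_homog d]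
    have h3 : (LinearMap.ker (φ.comp (rt f u (6 + d)).subtype)).map (rt f u (6 + d)).subtype ≤
        (homogeneousSubmodule (Fin 3) ℂ d).map (LinearMap.mulLeft ℂ f) := by
      rintro _ ⟨⟨b, hb⟩, hb0, rfl⟩
      have h4 : f ∣ b := by
        have h5 : Ideal.Quotient.mk (Ideal.span {f}) b = 0 := hb0
        rwa [Ideal.Quotient.eq_zero_iff_mem, Ideal.mem_span_singleton] at h5
      obtain ⟨p, rfl⟩ := h4
      by_cases hp0 : f * p = 0
      · refine ⟨0, zero_mem _, ?_⟩
        change f * 0 = f * p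
        rw [hp0, mul_zero]
      · obtain ⟨n, hn, hn'⟩ := degree_le_of_mul H.hf (H.mem_rt.1 hb).1 hp0
        have : n = d := by omega
        subst this
        exact ⟨p, hn', rfl⟩
    have h4 := Submodule.finrank_mono h3
    rw [← LinearEquiv.finrank_eq (Submodule.equivMapOfInjective (rt f u (6 + d)).subtype
      (Submodule.subtype_injective _) _)] at h4
    exact h4.trans (Submodule.finrank_map_le _ _)
  have h5 : finrank ℂ (thetaSp f u (6 + d)) = finrank ℂ ((rt f u (6 + d)).map φ) := rfl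
  omega

lemma EvenOn.finrank_rt_of_lt (H : EvenOn f u e) {d : ℕ} (hd : d < 6) :
    finrank ℂ (rt f u d) ≤ finrank ℂ (thetaSp f u d) := by
  have hfin := H.finite_rt d
  let φ : P3 →ₗ[ℂ] (P3 ⧸ (Ideal.span {f} : Ideal P3)) :=
    (Ideal.Quotient.mkₐ ℂ (Ideal.span {f})).toLinearMap
  have h1 := LinearMap.finrank_range_add_finrank_ker (φ.comp (rt f u d).subtype)
  rw [LinearMap.range_comp, Submodule.range_subtype] at h1
  have h2 : LinearMap.ker (φ.comp (rt f u d).subtype) = ⊥ := by
    rw [eq_bot_iff]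
    rintro ⟨b, hb⟩ hb0
    have h4 : f ∣ b := by
      have h5 : Ideal.Quotient.mk (Ideal.span {f}) b = 0 := hb0
      rwa [Ideal.Quotient.eq_zero_iff_mem, Ideal.mem_span_singleton] at h5
    rw [Submodule.mem_bot, Subtype.ext_iff]
    by_contra hb1
    exact not_dvd_of_degree H.hf (H.mem_rt.1 hb).1 hb1 hd h4
  rw [h2, finrank_bot] at h1
  have h5 : finrank ℂ (thetaSp f u d) = finrank ℂ ((rt f u d).map φ) := rfl
  omega

/-- independent sections -/
lemma exists_sections (H : EvenOn f u e) {d n : ℕ} (h : n ≤ finrank ℂ (thetaSp f u d)) :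
    ∃ b : Fin n → P3, (∀ i, b i ∈ rt f u d) ∧
      ∀ c : Fin n → ℂ, f ∣ ∑ i, C (c i) * b i → c = 0 := by
  have hfin := H.finite_thetaSp d
  have h1 : ∃ v : Fin n → thetaSp f u d, LinearIndependent ℂ v := by
    let B := finBasis ℂ (thetaSp f u d)
    exact ⟨fun i => B (Fin.castLE h i), B.linearIndependent.comp _ (Fin.castLE_injective h)⟩
  obtain ⟨v, hv⟩ := h1
  have h2 : ∀ i, ∃ b ∈ rt f u d, Ideal.Quotient.mk (Ideal.span {f}) b = (v i : _) := fun i =>
    (v i).2
  choose b hb hbv using h2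
  refine ⟨b, hb, fun c hc => ?_⟩
  have h3 := Fintype.linearIndependent_iff.1 hv c (by
    apply Subtype.ext
    have h4 : Ideal.Quotient.mk (Ideal.span {f}) (∑ i, C (c i) * b i) = 0 := by
      rwa [Ideal.Quotient.eq_zero_iff_mem, Ideal.mem_span_singleton]
    rw [map_sum] at h4
    rw [Submodule.coe_sum, ZeroMemClass.coe_zero, ← h4]
    refine Finset.sum_congr rfl fun i _ => ?_
    rw [Submodule.coe_smul, ← hbv]
    change Ideal.Quotient.mk _ (c i • b i) = _
    rw [smul_eq_C_mul])
  exact funext h3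

end

section

variable {M : Matrix (Fin 4) (Fin 4) P3} {g : P3} {r : ℕ}

/-- **Splitting curves of even degree.** The cubic fourfold is rational unless the theta
characteristic has exactly one section. -/
theorem typeA (hM : M.IsSymm) (hdeg : ∀ i j, (M i j).IsHomogeneous (1 + wt i + wt j))
    (hs : SmoothForm (cubicOf M)) (hsm : SmoothP M.det) (hg : Irreducible g)
    (hgr : g.IsHomogeneous (2 * r)) (hgf : ¬ g ∣ M.det)
    (hsq : ∃ (e : ℕ) (s c : P3), c.IsHomogeneous e ∧ ¬ g ∣ c ∧ g ∣ c ^ 2 * M.det - s ^ 2)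
    (hθ : finrank ℂ (thetaSp M.det (M.adjugate 3 3 * g) (r + 3)) ≠ 1) :
    RationalHypersurface (cubicOf M) := by
  have hdet' : (M.submatrix sw sw).det = M.det := Matrix.det_submatrix_equiv_self sw M
  have hadj : (M.submatrix sw sw).adjugate 0 0 = M.adjugate 3 3 := by
    rw [Matrix.adjugate_submatrix_equiv_self]
    rfl
  have hr : 1 ≤ r := by
    by_contra h
    obtain rfl : r = 0 := by omega
    exact hg.not_isUnit (isUnit_of_homog_zero hgr hg.ne_zero)
  by_cases hδ : M.adjugate 3 3 = 0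
  · obtain ⟨v, hv, hqv⟩ := isotropic_of_minor (M := M.submatrix sw sw) (by rw [hadj, hδ])
    refine rational_of_isotropic_matrix M hdeg hs (v ∘ sw) ?_ ?_
    · intro h
      apply hv
      funext i
      have := congrFun h (sw i)
      simpa using this
    · rw [← hqv, ← sw_dot]
      have : (v ∘ sw) ∘ sw = v := by
        funext i
        simp
      rw [this]
      rfl
  have H : EvenOn M.det (M.adjugate 3 3 * g) (3 + 2 * r) :=
    (evenOn_adj hM (det_hom6 hdeg) hsm (adj_hom3 hdeg) hδ).mul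
      (evenOn_split (det_hom6 hdeg) hsm hgr hg.prime hgf hsq)
  have hfin := H.finite_thetaSp (r + 3)
  rcases Nat.lt_or_ge 1 (finrank ℂ (thetaSp M.det (M.adjugate 3 3 * g) (r + 3))) with h2 | h2
  · -- two sections
    obtain ⟨b, hb, hb'⟩ := exists_sections H (d := r + 3) (n := 2) h2
    refine two_sections M hM hdeg hs hsm hg hgr hgf hsq (H.mem_rt.1 (hb 0)).1
      (H.mem_rt.1 (hb 1)).1 (fun c₁ c₂ h => ?_) (H.mem_rt.1 (hb 0)).2 (H.mem_rt.1 (hb 1)).2
    have h3 := hb' ![c₁, c₂] (by simpa [Fin.sum_univ_two] using h)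
    exact ⟨by simpa using congrFun h3 0, by simpa using congrFun h3 1⟩
  · -- no section
    have h0 : finrank ℂ (thetaSp M.det (M.adjugate 3 3 * g) (r + 3)) = 0 := by omega
    have hsec : ∀ s : P3, s.IsHomogeneous (r + 3) →
        s ^ 2 ∈ Ideal.span {M.adjugate 3 3 * g, M.det} → M.det ∣ s := by
      intro s hs1 hs2
      have h3 : thetaSp M.det (M.adjugate 3 3 * g) (r + 3) = ⊥ := Submodule.finrank_eq_zero.1 h0
      have h4 : Ideal.Quotient.mk (Ideal.span {M.det}) s ∈
          thetaSp M.det (M.adjugate 3 3 * g) (r + 3) := ⟨s, H.mem_rt.2 ⟨hs1, hs2⟩, rfl⟩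
      rw [h3, Submodule.mem_bot, Ideal.Quotient.eq_zero_iff_mem, Ideal.mem_span_singleton] at h4
      exact h4
    have h6 : 6 ≤ finrank ℂ (thetaSp M.det (M.adjugate 3 3 * g) (r + 4)) := by
      have hcount := H.count (r + 4)
      rw [finrank_homog] at hcount
      rcases Nat.lt_or_ge r 2 with hr2 | hr2
      · have h7 := H.finrank_rt_of_lt (d := r + 4) (by omega)
        obtain rfl : r = 1 := by omega
        have h8 : (1 + 4 + 2).choose 2 = 21 := by decide
        omega
      · obtain ⟨k, rfl⟩ := Nat.exists_eq_add_of_le hr2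
        have h7 := H.finrank_rt_le k
        have h8 : 2 + k + 4 = 6 + k := by omega
        rw [h8] at hcount ⊢
        have h9 := choose_two_mul (6 + k)
        have h10 := choose_two_mul k
        nlinarith
    obtain ⟨b, hb, hb'⟩ := exists_sections H (d := r + 4) (n := 6) h6
    have hfu := H.hfu
    obtain ⟨A, sA, hA, hbA⟩ := exists_gram (n := 6) (d := r + 4) (e := 3 + 2 * r) (a := 5)
      H.hf H.sf H.hu hfu (by omega) b (fun i => (H.mem_rt.1 (hb i)).1)
      (fun i => (H.mem_rt.1 (hb i)).2)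
    obtain ⟨N, sN, hN, hNA, -, ⟨x, hx, hxN⟩, -⟩ := dixon_six (d := r + 3) H.hf H.pf H.hu hfu b
      (fun i => (H.mem_rt.1 (hb i)).1) A sA hA hbA hb' hsec
    refine rational_of_net_matrix hM hdeg hs hsm hg hgr (by omega) hgf hsq sN sA hN hNA hx hxN
      hA hbA (e := 0) ?_
    intro h
    have h3 := hb' (Pi.single 0 1) (by
      rw [Finset.sum_eq_single 0]
      · simpa using h
      · intro j _ hj
        rw [Pi.single_eq_of_ne hj, map_zero, zero_mul]
      · simp)
    have h4 := congrFun h3 0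
    simp at h4

end

end Vale.Agent.P287.C8
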