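import Vale.Agent.P287.C8.Scroll
import Vale.Agent.P287.C8.ParityM
import Vale.Agent.P287.C8.DimWM
import Vale.Agent.P287.C8.TypeA

/-!
Line scrolls over a plane curve of even degree: the parity of the dimension of the space of the
restrictions to the scroll decides the parity of the number of sections of the theta
characteristic.
-/

namespace Vale.Agent.P287.C8

open MvPolynomial Module Matrix Vale.Agent.P287 Vale.Agent.P287.H925
  Vale.Agent.P287.H925.NetResult Vale.Agent.P287.Theta

variable {M : Matrix (Fin 4) (Fin 4) P3} {g : P3} {a b s : ℕ} {p p' : Fin 4 → P3}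

/-- The parity formula. -/
theorem even_theta_restr (H : LinePair M g a b p p') (sM : M.IsSymm)
    (hdeg : ∀ i j, (M i j).IsHomogeneous (1 + wt i + wt j)) (hsm : SmoothP M.det)
    (pg : Prime g) (hg : g.IsHomogeneous (2 * s + 2)) (hgf : ¬ g ∣ M.det)
    (hδ : M.adjugate 3 3 ≠ 0) : ∃ n₀, ∀ n, n₀ ≤ n →
      Even (finrank ℂ (thetaSp M.det (M.adjugate 3 3 * g) (s + 4)) + s +
        finrank ℂ ((grW g n).map (restr g p p'))) := by
  have HE : EvenOn M.det g (2 * s + 2) := evenOn_split (det_hom6 hdeg) hsm hg pg hgf (H.split sM)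
  have hfδ : ¬ M.det ∣ M.adjugate 3 3 :=
    not_dvd_of_degree (det_hom6 hdeg) (adj_hom3 hdeg) hδ (by norm_num)
  obtain ⟨i, j, hij⟩ := H.indU sM pg hgf
  obtain ⟨huu, huv, hvv⟩ := H.isoA sM
  obtain ⟨n₀, hn₀⟩ := parityM HE pg sM hdeg rfl hfδ
    (fun i => LinePair.mem_gr_mulVec hdeg H.hp i) (fun i => LinePair.mem_gr_mulVec hdeg H.hp' i)
    huu huv hvv hij
  have hW := FourData.finrank_WM (M := M) (g := g) (s := s)
    { sM := sM, hM := hdeg, even := HE, pg := pg, hδ := hδ }
  refine ⟨s + n₀ + (2 * s + 2), fun n hn => ?_⟩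
  obtain ⟨k, rfl⟩ := Nat.exists_eq_add_of_le (show s ≤ n by omega)
  have h1 := hn₀ k (by omega)
  have hg' : g.IsHomogeneous (2 * (s + 1)) := by
    have e : 2 * (s + 1) = 2 * s + 2 := by ring
    rwa [e]
  have h2 := even_restr H sM pg hgf hg' (d := s + k) (by omega)
  have h3 : Even (3 * (s + 1).choose 2 + s.choose 2 + s) := by
    rcases Nat.eq_zero_or_pos s with h0 | h0
    · subst h0
      decide
    · obtain ⟨t, rfl⟩ := Nat.exists_eq_add_of_le h0
      have h4 := choose_two_mul t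
      have h5 : (1 + t).choose 2 * 2 = (t + 1) * t := by
        rw [add_comm 1 t, Nat.choose_two_right, Nat.div_mul_cancel, Nat.add_sub_cancel]
        exact even_iff_two_dvd.1 (Nat.even_mul_pred_self (t + 1))
      rw [show 1 + t + 1 = t + 2 by ring]
      exact ⟨(t + 1) ^ 2 + (t + 1), by nlinarith⟩
  rw [hW] at h1
  obtain ⟨x, hx⟩ := h1
  obtain ⟨y, hy⟩ := h2
  obtain ⟨z, hz⟩ := h3
  rw [Nat.even_iff]
  omega

/-- **Line scrolls over a curve of even degree**, in terms of the restrictions. -/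
theorem rational_of_restr {r : ℕ} (H : LinePair M g a b p p') (sM : M.IsSymm)
    (hdeg : ∀ i j, (M i j).IsHomogeneous (1 + wt i + wt j)) (hs : SmoothForm (cubicOf M))
    (hsm : SmoothP M.det) (hg : Irreducible g) (hgr : g.IsHomogeneous (2 * r))
    (hgf : ¬ g ∣ M.det)
    (hodd : ∀ n₀, ∃ n, n₀ ≤ n ∧ Odd (finrank ℂ ((grW g n).map (restr g p p')) + r)) :
    RationalHypersurface (cubicOf M) := by
  have hr : 1 ≤ r := by
    by_contra h
    obtain rfl : r = 0 := by omega
    exact hg.not_isUnit (isUnit_of_homog_zero hgr hg.ne_zero)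
  by_cases hδ : M.adjugate 3 3 = 0
  · have hadj : (M.submatrix sw sw).adjugate 0 0 = M.adjugate 3 3 := by
      rw [Matrix.adjugate_submatrix_equiv_self]
      rfl
    obtain ⟨v, hv, hqv⟩ := isotropic_of_minor (M := M.submatrix sw sw) (by rw [hadj, hδ])
    refine rational_of_isotropic_matrix M hdeg hs (v ∘ sw) ?_ ?_
    · intro h
      apply hv
      funext i
      have := congrFun h (sw i)
      simpa using this
    · rw [← hqv, ← sw_dot]
      have : (v ∘ sw) ∘ sw = v := by
        funext i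
        simp
      rw [this]
      rfl
  obtain ⟨s, rfl⟩ := Nat.exists_eq_add_of_le hr
  have hgs : g.IsHomogeneous (2 * s + 2) := by
    have e : 2 * (1 + s) = 2 * s + 2 := by ring
    rwa [e] at hgr
  refine typeA sM hdeg hs hsm hg hgr hgf (H.split sM) fun h1 => ?_
  obtain ⟨n₀, hn₀⟩ := even_theta_restr H sM hdeg hsm hg.prime hgs hgf hδ
  obtain ⟨n, hn, hodd'⟩ := hodd n₀
  have h2 := hn₀ n hn
  rw [show 1 + s + 3 = s + 4 by ring] at h1
  rw [h1] at h2
  obtain ⟨x, hx⟩ := h2
  obtain ⟨y, hy⟩ := hodd'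
  omega

end Vale.Agent.P287.C8
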