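import Vale.Agent.P287.C8.ScrollFinal
import Vale.Agent.P287.H925.Smooth
import Vale.Agent.P287.H925.Hom

/-!
The geometric form of the dimension of the space of the restrictions to a line scroll: forms of
degree `n + 1` with multiplicity at least `n` along the plane, restricted to the scroll.
-/

namespace Vale.Agent.P287.C8

open MvPolynomial Module Matrix Vale.Agent.P287 Vale.Agent.P287.H925
  Vale.Agent.P287.H925.NetResult Vale.Agent.P287.Theta

/-- The ideal of the plane `x₀ = x₁ = x₂ = 0`. -/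
noncomputable def idP : Ideal (MvPolynomial (Fin 6) ℂ) := Ideal.span {X 0, X 1, X 2}

/-- The forms of degree `n + 1` which vanish with multiplicity at least `n` along the plane
`x₀ = x₁ = x₂ = 0`. -/
noncomputable def vForms (n : ℕ) : Submodule ℂ (MvPolynomial (Fin 6) ℂ) :=
  homogeneousSubmodule (Fin 6) ℂ (n + 1) ⊓ (idP ^ n).restrictScalars ℂ

/-- vectors of forms of degrees `d + wt i` -/
noncomputable def hW (d : ℕ) : Submodule ℂ (Fin 4 → P3) where
  carrier := {l | ∀ i, (l i).IsHomogeneous (d + wt i)}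
  add_mem' ha hb := fun i => (ha i).add (hb i)
  zero_mem' := fun _ => isHomogeneous_zero _ _ _
  smul_mem' c _ ha := fun i => (homogeneousSubmodule (Fin 3) ℂ _).smul_mem c (ha i)

/-- the polynomial `φ₀ x₃ + φ₁ x₄ + φ₂ x₅ + φ₃` -/
noncomputable def psi : (Fin 4 → P3) →ₗ[ℂ] MvPolynomial (Fin 6) ℂ where
  toFun l := ∑ i, rename emb (l i) * vv i
  map_add' l l' := by simp only [Pi.add_apply, map_add, add_mul, Finset.sum_add_distrib]
  map_smul' c l := by
    simp only [Pi.smul_apply, map_smul, smul_mul_assoc, Finset.smul_sum, RingHom.id_apply]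

lemma idP_eq : idP = (idealOfVars (Fin 3) ℂ).map (rename emb : P3 →ₐ[ℂ] MvPolynomial (Fin 6) ℂ) := by
  rw [idP, idealOfVars, Ideal.map_span, ← Set.range_comp]
  congr 1
  ext x
  constructor
  · rintro (rfl | rfl | rfl)
    · exact ⟨0, rename_X _ _⟩
    · exact ⟨1, rename_X _ _⟩
    · exact ⟨2, rename_X _ _⟩
  · rintro ⟨i, rfl⟩
    fin_cases i
    · exact Or.inl (rename_X _ _)
    · exact Or.inr (Or.inl (rename_X _ _))
    · exact Or.inr (Or.inr (rename_X _ _))

lemma rename_mem_idP {m : ℕ} {φ : P3} (hφ : φ.IsHomogeneous m) : rename emb φ ∈ idP ^ m := by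
  rw [idP_eq, ← Ideal.map_pow]
  refine Ideal.mem_map_of_mem _ ((mem_pow_idealOfVars_iff m φ).2 fun x hx => ?_)
  exact (hφ.degree_eq_sum_deg_support hx).le

lemma idP_pow_eq_span (n : ℕ) : idP ^ n =
    Ideal.span {F | ∃ m : P3, m.IsHomogeneous n ∧ F = rename emb m} := by
  apply le_antisymm
  · rw [idP_eq, ← Ideal.map_pow, pow_idealOfVars_eq_span, Ideal.map_span, Ideal.span_le]
    rintro x ⟨y, ⟨d, hd, rfl⟩, rfl⟩
    exact Ideal.subset_span ⟨_, isHomogeneous_monomial 1 hd, rfl⟩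
  · rw [Ideal.span_le]
    rintro x ⟨m, hm, rfl⟩
    exact rename_mem_idP hm

lemma wt_cases (i : Fin 4) : wt i = 0 ∨ wt i = 1 := by
  have := wt_le i
  omega

lemma vv_homog (i : Fin 4) : (vv i).IsHomogeneous (1 - wt i) := by
  fin_cases i
  · exact isHomogeneous_X _ _
  · exact isHomogeneous_X _ _
  · exact isHomogeneous_X _ _
  · exact isHomogeneous_one _ _

lemma map_psi (n : ℕ) : (hW n).map psi = vForms n := by
  apply le_antisymm
  · rintro _ ⟨φ, hφ, rfl⟩
    refine ⟨?_, ?_⟩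
    · rw [SetLike.mem_coe, mem_homogeneousSubmodule]
      refine IsHomogeneous.sum _ _ _ fun i _ => ?_
      have h := ((hφ i).rename_isHomogeneous (f := emb)).mul (vv_homog i)
      have e : n + wt i + (1 - wt i) = n + 1 := by
        rcases wt_cases i with h | h <;> omega
      rwa [e] at h
    · change psi φ ∈ idP ^ n
      change ∑ i, rename emb (φ i) * vv i ∈ idP ^ n
      refine Ideal.sum_mem _ fun i _ => Ideal.mul_mem_right (vv i) (idP ^ n) ?_
      exact Ideal.pow_le_pow_right (Nat.le_add_right n (wt i)) (rename_mem_idP (hφ i))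
  · rintro F ⟨hF, hF'⟩
    have hF1 : F.IsHomogeneous (n + 1) := (mem_homogeneousSubmodule _ _).1 hF
    have hF2 : F ∈ idP ^ n := hF'
    rw [idP_pow_eq_span] at hF2
    suffices h : ∀ a : MvPolynomial (Fin 6) ℂ,
        homogeneousComponent (n + 1) (a * F) ∈ (hW n).map psi by
      have h1 := h 1
      rwa [one_mul, homogeneousComponent_eq_self hF1] at h1
    clear hF hF' hF1
    induction hF2 using Submodule.span_induction with
    | mem x hx =>
      obtain ⟨m, hm, rfl⟩ := hx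
      intro a
      rw [mul_comm, hc_mul (hm.rename_isHomogeneous (f := emb)) 1]
      have h1 : homogeneousComponent 1 a ∈ homogeneousSubmodule (Fin 6) ℂ 1 :=
        homogeneousComponent_isHomogeneous _ _
      rw [homogeneousSubmodule_one_eq_span_X] at h1
      generalize homogeneousComponent 1 a = b at h1 ⊢
      induction h1 using Submodule.span_induction with
      | mem y hy =>
        obtain ⟨j, rfl⟩ := hy
        by_cases hj : (j : ℕ) < 3
        · obtain ⟨k, rfl⟩ : ∃ k : Fin 3, j = emb k := ⟨⟨j, hj⟩, rfl⟩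
          refine ⟨Pi.single 3 (m * X k), ?_, ?_⟩
          · intro i
            by_cases hi : i = 3
            · subst hi
              rw [Pi.single_eq_same]
              exact hm.mul (isHomogeneous_X _ _)
            · rw [Pi.single_eq_of_ne hi]
              exact isHomogeneous_zero _ _ _
          · simp only [psi, LinearMap.coe_mk, AddHom.coe_mk]
            rw [Finset.sum_eq_single 3]
            · rw [Pi.single_eq_same, map_mul, rename_X]
              simp [vv]
            · intro i _ hi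
              rw [Pi.single_eq_of_ne hi, map_zero, zero_mul]
            · simp
        · obtain ⟨k, rfl⟩ : ∃ k : Fin 3, j = Fin.natAdd 3 k :=
            ⟨⟨(j : ℕ) - 3, by omega⟩, Fin.ext (by simp; omega)⟩
          refine ⟨Pi.single k.castSucc m, ?_, ?_⟩
          · intro i
            by_cases hi : i = k.castSucc
            · subst hi
              rw [Pi.single_eq_same]
              have : wt k.castSucc = 0 := by fin_cases k <;> rfl
              rw [this]
              exact hm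
            · rw [Pi.single_eq_of_ne hi]
              exact isHomogeneous_zero _ _ _
          · simp only [psi, LinearMap.coe_mk, AddHom.coe_mk]
            rw [Finset.sum_eq_single k.castSucc]
            · rw [Pi.single_eq_same]
              congr 1
              fin_cases k <;> rfl
            · intro i _ hi
              rw [Pi.single_eq_of_ne hi, map_zero, zero_mul]
            · simp
      | zero =>
        rw [mul_zero]
        exact zero_mem _
      | add y z _ _ hy hz =>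
        rw [mul_add]
        exact add_mem hy hz
      | smul c y _ hy =>
        rw [mul_smul_comm]
        exact Submodule.smul_mem _ c hy
    | zero =>
      intro a
      rw [mul_zero, map_zero]
      exact zero_mem _
    | add x y _ _ hx hy =>
      intro a
      rw [mul_add, map_add]
      exact add_mem (hx a) (hy a)
    | smul c x _ hx =>
      intro a
      rw [smul_eq_mul, ← mul_assoc]
      exact hx (a * c)

section Scroll

/-- The point `(w s, v)` of `ℂ⁶` with `(v, w) = y₀ p(s) + y₁ p'(s)`. -/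
noncomputable def scrollPt (p p' : Fin 4 → P3) (s : Fin 3 → ℂ) (y : Fin 2 → ℂ) : Fin 6 → ℂ :=
  ![(y 0 * eval s (p 3) + y 1 * eval s (p' 3)) * s 0,
    (y 0 * eval s (p 3) + y 1 * eval s (p' 3)) * s 1,
    (y 0 * eval s (p 3) + y 1 * eval s (p' 3)) * s 2,
    y 0 * eval s (p 0) + y 1 * eval s (p' 0),
    y 0 * eval s (p 1) + y 1 * eval s (p' 1),
    y 0 * eval s (p 2) + y 1 * eval s (p' 2)]

/-- The scroll: the union of the lines joining the points `p(s)` and `p'(s)` of the fibres over the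
points `s` of the plane curve `g = 0` (the affine cone over it). -/
def scroll (g : P3) (p p' : Fin 4 → P3) : Set (Fin 6 → ℂ) :=
  {x | ∃ (s : Fin 3 → ℂ) (y : Fin 2 → ℂ), eval s g = 0 ∧ x = scrollPt p p' s y}

/-- The dimension of the space of the restrictions to `T` of the forms of degree `n + 1` which
vanish with multiplicity at least `n` along the plane `x₀ = x₁ = x₂ = 0`. -/
noncomputable def hT (T : Set (Fin 6 → ℂ)) (n : ℕ) : ℕ :=
  finrank ℂ ((vForms n).map (Ideal.Quotient.mkₐ ℂ (vanishingIdeal ℂ T)).toLinearMap)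

variable {R : Type*} [CommRing R] [Algebra ℂ R] (ρ : P3 →ₐ[ℂ] R) {p p' : Fin 4 → P3}

/-- coordinates of the generic point of the line -/
noncomputable def sc (p p' : Fin 4 → P3) (i : Fin 4) : MvPolynomial (Fin 2) R :=
  X 0 * C (ρ (p i)) + X 1 * C (ρ (p' i))

/-- the generic point of the scroll -/
noncomputable def scrollHom (p p' : Fin 4 → P3) :
    MvPolynomial (Fin 6) ℂ →ₐ[ℂ] MvPolynomial (Fin 2) R :=
  aeval ![C (ρ (X 0)) * sc ρ p p' 3, C (ρ (X 1)) * sc ρ p p' 3, C (ρ (X 2)) * sc ρ p p' 3,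
    sc ρ p p' 0, sc ρ p p' 1, sc ρ p p' 2]

lemma eval_sc {s : Fin 3 → ℂ} (ε : R →ₐ[ℂ] ℂ) (hε : ∀ x, ε (ρ x) = eval s x) (y : Fin 2 → ℂ)
    (i : Fin 4) : eval y (MvPolynomial.map ε.toRingHom (sc ρ p p' i)) =
      y 0 * eval s (p i) + y 1 * eval s (p' i) := by
  have h : ∀ x, eval y (MvPolynomial.map ε.toRingHom (C (ρ x))) = eval s x := fun x => by
    rw [map_C, eval_C]
    exact hε x
  rw [sc, map_add, map_add, map_mul, map_mul, map_mul, map_mul, h, h, map_X, map_X,
    eval_X, eval_X]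

lemma eval_scrollPt {s : Fin 3 → ℂ} (ε : R →ₐ[ℂ] ℂ) (hε : ∀ x, ε (ρ x) = eval s x)
    (y : Fin 2 → ℂ) (F : MvPolynomial (Fin 6) ℂ) : aeval (scrollPt p p' s y) F =
      eval y (MvPolynomial.map ε.toRingHom (scrollHom ρ p p' F)) := by
  have h : (aeval (scrollPt p p' s y) : MvPolynomial (Fin 6) ℂ →ₐ[ℂ] ℂ) =
      (aeval y).comp ((mapAlgHom ε).comp (scrollHom ρ p p')) := by
    apply algHom_ext
    intro i
    have h1 : ((aeval y).comp ((mapAlgHom ε).comp (scrollHom ρ p p'))) (X i) =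
      eval y (MvPolynomial.map ε.toRingHom (scrollHom ρ p p' (X i))) := rfl
    have h2 : ∀ x, eval y (MvPolynomial.map ε.toRingHom (C (ρ x))) = eval s x := fun x => by
      rw [map_C, eval_C]
      exact hε x
    rw [h1, scrollHom, aeval_X, aeval_X]
    fin_cases i
    · change _ = eval y (MvPolynomial.map ε.toRingHom (C (ρ (X 0)) * sc ρ p p' 3))
      rw [map_mul, map_mul, h2, eval_sc ρ ε hε, eval_X, mul_comm]
      rfl
    · change _ = eval y (MvPolynomial.map ε.toRingHom (C (ρ (X 1)) * sc ρ p p' 3))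
      rw [map_mul, map_mul, h2, eval_sc ρ ε hε, eval_X, mul_comm]
      rfl
    · change _ = eval y (MvPolynomial.map ε.toRingHom (C (ρ (X 2)) * sc ρ p p' 3))
      rw [map_mul, map_mul, h2, eval_sc ρ ε hε, eval_X, mul_comm]
      rfl
    · exact (eval_sc ρ ε hε y 0).symm
    · exact (eval_sc ρ ε hε y 1).symm
    · exact (eval_sc ρ ε hε y 2).symm
  rw [h]
  rfl

lemma aeval_mul_right {σ A : Type*} [CommRing A] [Algebra ℂ A] {m : ℕ} {φ : MvPolynomial σ ℂ}
    (hφ : φ.IsHomogeneous m) (y : σ → A) (w : A) :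
    aeval (fun j => y j * w) φ = aeval y φ * w ^ m := by
  rw [aeval_def, aeval_def, eval₂_eq, eval₂_eq, Finset.sum_mul]
  refine Finset.sum_congr rfl fun d hd => ?_
  rw [mul_assoc]
  congr 1
  simp only [mul_pow]
  rw [Finset.prod_mul_distrib, Finset.prod_pow_eq_pow_sum, ← hφ.degree_eq_sum_deg_support hd]

lemma scrollHom_rename {m : ℕ} {φ : P3} (hφ : φ.IsHomogeneous m) :
    scrollHom ρ p p' (rename emb φ) = C (ρ φ) * sc ρ p p' 3 ^ m := by
  rw [scrollHom, aeval_rename]
  have h1 : (![C (ρ (X 0)) * sc ρ p p' 3, C (ρ (X 1)) * sc ρ p p' 3,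
      C (ρ (X 2)) * sc ρ p p' 3, sc ρ p p' 0, sc ρ p p' 1, sc ρ p p' 2] ∘ emb :
      Fin 3 → MvPolynomial (Fin 2) R) = fun j => C (ρ (X j)) * sc ρ p p' 3 := by
    funext j
    fin_cases j <;> rfl
  have h2 : (aeval (fun j => C (ρ (X j))) : P3 →ₐ[ℂ] MvPolynomial (Fin 2) R) =
      (Algebra.algHom ℂ R (MvPolynomial (Fin 2) R)).comp ρ := by
    apply algHom_ext
    intro j
    rw [aeval_X]
    rfl
  rw [h1, aeval_mul_right hφ (fun j => C (ρ (X j))) (sc ρ p p' 3), h2]
  rfl

omit [Algebra ℂ R] in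
lemma lin2_eq_zero {a b : R}
    (h : (X 0 * C a + X 1 * C b : MvPolynomial (Fin 2) R) = 0) : a = 0 ∧ b = 0 := by
  have h1 := congrArg (eval ![1, 0]) h
  have h2 := congrArg (eval ![0, 1]) h
  simp only [map_add, map_mul, eval_X, eval_C, Matrix.cons_val_zero, Matrix.cons_val_one,
    one_mul, zero_mul, add_zero, zero_add, map_zero] at h1 h2
  exact ⟨h1, h2⟩

lemma sc_ne_zero (h : ¬ (ρ (p 3) = 0 ∧ ρ (p' 3) = 0)) : sc ρ p p' 3 ≠ 0 := by
  intro h0
  exact h (lin2_eq_zero h0)

lemma scrollHom_vv (i : Fin 4) : scrollHom ρ p p' (vv i) * sc ρ p p' 3 ^ wt i = sc ρ p p' i := by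
  fin_cases i
  · change scrollHom ρ p p' (X 3) * sc ρ p p' 3 ^ 0 = _
    rw [pow_zero, mul_one, scrollHom, aeval_X]
    rfl
  · change scrollHom ρ p p' (X 4) * sc ρ p p' 3 ^ 0 = _
    rw [pow_zero, mul_one, scrollHom, aeval_X]
    rfl
  · change scrollHom ρ p p' (X 5) * sc ρ p p' 3 ^ 0 = _
    rw [pow_zero, mul_one, scrollHom, aeval_X]
    rfl
  · change scrollHom ρ p p' 1 * sc ρ p p' 3 ^ 1 = _
    rw [pow_one, map_one, one_mul]
    rfl

lemma sum_lin_aux {A : Type*} [CommRing A] (a b₀ b₁ : Fin 4 → A) (x₀ x₁ w : A) :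
    ∑ i, w * (a i * (x₀ * b₀ i + x₁ * b₁ i)) =
      w * (x₀ * ∑ i, a i * b₀ i + x₁ * ∑ i, a i * b₁ i) := by
  rw [Finset.mul_sum, Finset.mul_sum, ← Finset.sum_add_distrib, Finset.mul_sum]
  refine Finset.sum_congr rfl fun i _ => ?_
  ring

/-- restriction of the linear forms to the line -/
noncomputable def restrR (p p' : Fin 4 → P3) : (Fin 4 → P3) →ₗ[ℂ] R × R where
  toFun l := (∑ i, ρ (l i) * ρ (p i), ∑ i, ρ (l i) * ρ (p' i))
  map_add' l l' := by
    simp only [Pi.add_apply, map_add, add_mul, Finset.sum_add_distrib, Prod.mk_add_mk]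
  map_smul' c l := by
    simp only [Pi.smul_apply, map_smul, smul_mul_assoc, Finset.smul_sum, RingHom.id_apply,
      Prod.smul_mk]

lemma scrollHom_psi {n : ℕ} {φ : Fin 4 → P3} (hφ : φ ∈ hW n) :
    scrollHom ρ p p' (psi φ) = sc ρ p p' 3 ^ n *
      (X 0 * C (restrR ρ p p' φ).1 + X 1 * C (restrR ρ p p' φ).2) := by
  have h1 : scrollHom ρ p p' (psi φ) = ∑ i, scrollHom ρ p p' (rename emb (φ i) * vv i) := by
    rw [← map_sum]
    rfl
  have h2 : ∀ i, scrollHom ρ p p' (rename emb (φ i) * vv i) =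
      sc ρ p p' 3 ^ n * (C (ρ (φ i)) * sc ρ p p' i) := by
    intro i
    rw [map_mul, scrollHom_rename ρ (hφ i), ← scrollHom_vv ρ i, pow_add]
    ring
  have h4 : ∀ x : Fin 4 → P3, (C (∑ i, ρ (φ i) * ρ (x i)) : MvPolynomial (Fin 2) R) =
      ∑ i, C (ρ (φ i)) * C (ρ (x i)) := fun x => by
    simp only [map_sum, map_mul]
  rw [h1, restrR, LinearMap.coe_mk, AddHom.coe_mk, h4, h4]
  refine Eq.trans (Finset.sum_congr rfl fun i _ => h2 i) ?_
  exact sum_lin_aux (fun i => C (ρ (φ i))) (fun i => C (ρ (p i))) (fun i => C (ρ (p' i)))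
    (X 0) (X 1) (sc ρ p p' 3 ^ n)

lemma scrollHom_psi_eq_zero [IsDomain R] (h : ¬ (ρ (p 3) = 0 ∧ ρ (p' 3) = 0)) {n : ℕ}
    {φ : Fin 4 → P3} (hφ : φ ∈ hW n) :
    scrollHom ρ p p' (psi φ) = 0 ↔ restrR ρ p p' φ = 0 := by
  rw [scrollHom_psi ρ hφ]
  constructor
  · intro h0
    obtain ⟨h1, h2⟩ :=
      lin2_eq_zero ((mul_eq_zero.1 h0).resolve_left (pow_ne_zero n (sc_ne_zero ρ h)))
    exact Prod.ext h1 h2
  · intro h0
    rw [h0, Prod.fst_zero, Prod.snd_zero, map_zero, mul_zero, mul_zero, add_zero, mul_zero]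

lemma finrank_map_mk {A B : Type*} [CommRing A] [Algebra ℂ A] [CommRing B] [Algebra ℂ B]
    (f : A →ₐ[ℂ] B) (I : Ideal A) (h : ∀ a, a ∈ I ↔ f a = 0) (V : Submodule ℂ A) :
    finrank ℂ (V.map (Ideal.Quotient.mkₐ ℂ I).toLinearMap) = finrank ℂ (V.map f.toLinearMap) := by
  have h1 : f.toLinearMap = (Ideal.Quotient.liftₐ I f fun a ha => (h a).1 ha).toLinearMap.comp
      (Ideal.Quotient.mkₐ ℂ I).toLinearMap := rfl
  have h2 : Function.Injective (Ideal.Quotient.liftₐ I f fun a ha => (h a).1 ha).toLinearMap := by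
    rw [injective_iff_map_eq_zero]
    intro x hx
    obtain ⟨a, rfl⟩ := Ideal.Quotient.mk_surjective x
    exact Ideal.Quotient.eq_zero_iff_mem.2 ((h a).2 hx)
  rw [h1, Submodule.map_comp]
  exact (Submodule.equivMapOfInjective _ h2 _).finrank_eq

lemma finrank_map_congr {V B W : Type*} [AddCommGroup V] [Module ℂ V] [CommRing B]
    [Algebra ℂ B] [AddCommGroup W] [Module ℂ W] (S : Submodule ℂ V) (f₁ : V →ₗ[ℂ] B)
    (f₂ : V →ₗ[ℂ] W) (h : ∀ x ∈ S, f₁ x = 0 ↔ f₂ x = 0) :
    finrank ℂ (S.map f₁) = finrank ℂ (S.map f₂) := by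
  rw [← LinearMap.range_domRestrict, ← LinearMap.range_domRestrict]
  have hk : LinearMap.ker (f₁.domRestrict S) = LinearMap.ker (f₂.domRestrict S) := by
    ext x
    exact h x.1 x.2
  exact ((f₁.domRestrict S).quotKerEquivRange.symm.trans
    ((Submodule.quotEquivOfEq _ _ hk).trans (f₂.domRestrict S).quotKerEquivRange)).finrank_eq

theorem hT_eq [IsDomain R] (h : ¬ (ρ (p 3) = 0 ∧ ρ (p' 3) = 0)) {T : Set (Fin 6 → ℂ)}
    (hv : ∀ F, F ∈ vanishingIdeal ℂ T ↔ scrollHom ρ p p' F = 0) (n : ℕ) :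
    hT T n = finrank ℂ ((hW n).map (restrR ρ p p')) := by
  rw [hT, finrank_map_mk (scrollHom ρ p p') _ hv, ← map_psi, ← Submodule.map_comp]
  exact finrank_map_congr (hW n) ((scrollHom ρ p p').toLinearMap.comp psi) _
    fun φ hφ => scrollHom_psi_eq_zero ρ h hφ

variable {g : P3}

/-- evaluation of the functions on the curve at a point -/
noncomputable def evG {s : Fin 3 → ℂ} (hs : eval s g = 0) : RG g →ₐ[ℂ] ℂ :=
  Ideal.Quotient.liftₐ (Ideal.span {g}) (aeval s) fun a ha => by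
    obtain ⟨b, rfl⟩ := Ideal.mem_span_singleton.1 ha
    rw [map_mul, ← coe_aeval_eq_eval] at *
    rw [show aeval s g = 0 from hs, zero_mul]

lemma evG_q {s : Fin 3 → ℂ} (hs : eval s g = 0) (x : P3) : evG hs (q g x) = eval s x := by
  rw [← coe_aeval_eq_eval]
  rfl

/-- A polynomial is divisible by the prime `g` if it vanishes on the curve. -/
lemma dvd_of_eval_eq_zero (pg : Prime g) {c : P3} (h : ∀ s, eval s g = 0 → eval s c = 0) :
    g ∣ c := by
  have hp : (Ideal.span {g}).IsPrime := (Ideal.span_singleton_prime pg.ne_zero).2 pg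
  have h1 : c ∈ (Ideal.span {g}).radical := by
    rw [← vanishingIdeal_zeroLocus_eq_radical (k := ℂ) (K := ℂ), mem_vanishingIdeal_iff]
    intro z hz
    rw [zeroLocus_span] at hz
    exact h z (hz g rfl)
  rw [hp.radical, Ideal.mem_span_singleton] at h1
  exact h1

/-- reduction modulo `g` -/
noncomputable abbrev rgS (g : P3) : P3 →ₐ[ℂ] RG g := Ideal.Quotient.mkₐ ℂ (Ideal.span {g})

lemma mem_vanishingIdeal_scroll (pg : Prime g) (F : MvPolynomial (Fin 6) ℂ) :
    F ∈ vanishingIdeal ℂ (scroll g p p') ↔ scrollHom (rgS g) p p' F = 0 := by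
  rw [mem_vanishingIdeal_iff]
  constructor
  · intro h
    ext m
    rw [MvPolynomial.coeff_zero]
    obtain ⟨c, hc⟩ := Ideal.Quotient.mk_surjective (coeff m (scrollHom (rgS g) p p' F))
    rw [← hc]
    refine q_eq_zeroS.2 (dvd_of_eval_eq_zero pg fun s hs => ?_)
    have h1 : MvPolynomial.map (evG hs).toRingHom (scrollHom (rgS g) p p' F) = 0 := by
      apply MvPolynomial.funext
      intro y
      rw [← eval_scrollPt (rgS g) (evG hs) (evG_q hs) y, map_zero]
      exact h _ ⟨s, y, hs, rfl⟩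
    have h2 := congrArg (coeff m) h1
    rw [coeff_map, MvPolynomial.coeff_zero, ← hc] at h2
    rw [← evG_q hs]
    exact h2
  · rintro h x ⟨s, y, hs, rfl⟩
    rw [eval_scrollPt (rgS g) (evG hs) (evG_q hs), h, map_zero, map_zero]

lemma map_restrR (n : ℕ) : (hW n).map (restrR (rgS g) p p') = (grW g n).map (restr g p p') := by
  apply le_antisymm
  · rintro _ ⟨φ, hφ, rfl⟩
    exact ⟨qv g φ, fun i => ⟨φ i, hφ i, rfl⟩, rfl⟩
  · rintro _ ⟨l, hl, rfl⟩
    choose φ hφ1 hφ2 using hl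
    refine ⟨φ, hφ1, ?_⟩
    have h : l = qv g φ := (funext hφ2).symm
    rw [h]
    rfl

/-- The dimension of the space of the restrictions to the scroll. -/
theorem hT_scroll (pg : Prime g) (h : ¬ (g ∣ p 3 ∧ g ∣ p' 3)) (n : ℕ) :
    hT (scroll g p p') n = finrank ℂ ((grW g n).map (restr g p p')) := by
  have := isDomain_RGS pg
  rw [← map_restrR]
  refine hT_eq (rgS g) (fun h0 => h ⟨q_eq_zeroS.1 h0.1, q_eq_zeroS.1 h0.2⟩)
    (mem_vanishingIdeal_scroll pg) n

end Scroll

section Final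

variable {M : Matrix (Fin 4) (Fin 4) P3} {g : P3} {a b : ℕ} {p p' : Fin 4 → P3}

lemma scrollHom_cubicOf {R : Type*} [CommRing R] [Algebra ℂ R] (ρ : P3 →ₐ[ℂ] R)
    (hdeg : ∀ i j, (M i j).IsHomogeneous (1 + wt i + wt j)) :
    scrollHom ρ p p' (cubicOf M) =
      sc ρ p p' 3 * ∑ i, ∑ j, sc ρ p p' i * (C (ρ (M i j)) * sc ρ p p' j) := by
  rw [cubicOf_eq, map_sum, Finset.mul_sum]
  refine Finset.sum_congr rfl fun i _ => ?_
  rw [map_sum, Finset.mul_sum]
  refine Finset.sum_congr rfl fun j _ => ?_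
  rw [map_mul, map_mul, scrollHom_rename ρ (hdeg i j), ← scrollHom_vv ρ i, ← scrollHom_vv ρ j,
    pow_add, pow_add, pow_one]
  ring

/-- a quadratic form over the ring of polynomials in two variables -/
lemma quad_coeffs {R : Type*} [CommRing R] {x x' : Fin 4 → R} {A : Matrix (Fin 4) (Fin 4) R}
    (h2 : ∀ z : R, 2 * z = 0 → z = 0) (sA : ∀ i j, A i j = A j i)
    (h : ∑ i, ∑ j, (X 0 * C (x i) + X 1 * C (x' i)) *
      (C (A i j) * (X 0 * C (x j) + X 1 * C (x' j))) = (0 : MvPolynomial (Fin 2) R)) :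
    x ⬝ᵥ A *ᵥ x = 0 ∧ x ⬝ᵥ A *ᵥ x' = 0 ∧ x' ⬝ᵥ A *ᵥ x' = 0 := by
  have key : ∀ s t : R, ∑ i, ∑ j, (s * x i + t * x' i) * (A i j * (s * x j + t * x' j)) = 0 := by
    intro s t
    have h1 := congrArg (eval ![s, t]) h
    simp only [map_sum, map_mul, map_add, eval_X, eval_C, Matrix.cons_val_zero,
      Matrix.cons_val_one, map_zero] at h1
    exact h1
  have e : ∀ z w : Fin 4 → R, z ⬝ᵥ A *ᵥ w = ∑ i, ∑ j, z i * (A i j * w j) := by
    intro z w
    simp only [dotProduct, Matrix.mulVec, Finset.mul_sum]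
  have h11 : x ⬝ᵥ A *ᵥ x = 0 := by
    rw [e, ← key 1 0]
    simp
  have h22 : x' ⬝ᵥ A *ᵥ x' = 0 := by
    rw [e, ← key 0 1]
    simp
  refine ⟨h11, ?_, h22⟩
  apply h2
  have hs : ∑ i, ∑ j, x' i * (A i j * x j) = ∑ i, ∑ j, x i * (A i j * x' j) := by
    rw [Finset.sum_comm]
    refine Finset.sum_congr rfl fun i _ => Finset.sum_congr rfl fun j _ => ?_
    rw [sA j i]
    ring
  have h3 := key 1 1
  simp only [one_mul, mul_add, add_mul, Finset.sum_add_distrib] at h3
  rw [e] at h11 h22 ⊢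
  rw [hs] at h3
  linear_combination h3 - h11 - h22

theorem linePair_of_scroll (sM : M.IsSymm)
    (hdeg : ∀ i j, (M i j).IsHomogeneous (1 + wt i + wt j)) (pg : Prime g)
    (hp : ∀ i, (p i).IsHomogeneous (a + (1 - wt i)))
    (hp' : ∀ i, (p' i).IsHomogeneous (b + (1 - wt i)))
    (hind : ∃ s, eval s g = 0 ∧
      LinearIndependent ℂ ![fun i => eval s (p i), fun i => eval s (p' i)])
    (hP : ¬ (g ∣ p 3 ∧ g ∣ p' 3))
    (hX : ∀ x ∈ scroll g p p', eval x (cubicOf M) = 0) : LinePair M g a b p p' := by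
  have := isDomain_RGS pg
  have h1 : scrollHom (rgS g) p p' (cubicOf M) = 0 := by
    rw [← mem_vanishingIdeal_scroll pg, mem_vanishingIdeal_iff]
    intro x hx
    exact hX x hx
  rw [scrollHom_cubicOf (rgS g) hdeg] at h1
  have h2 := (mul_eq_zero.1 h1).resolve_left
    (sc_ne_zero (rgS g) fun h0 => hP ⟨q_eq_zeroS.1 h0.1, q_eq_zeroS.1 h0.2⟩)
  have h3 := quad_coeffs (x := qv g p) (x' := qv g p') (A := qm4 g M) (fun z hz => by
      have h4 : (2 : ℂ) • z = 0 := by rw [← hz, two_smul, two_mul]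
      exact (smul_eq_zero.1 h4).resolve_left two_ne_zero)
    (fun i j => congrArg (q g) (sM.apply j i)) h2
  refine ⟨hp, hp', ?_, ?_, ?_, ?_⟩
  · rw [← q_eq_zeroS, ← qv_dot, ← qm4_mulVec]
    exact h3.1
  · rw [← q_eq_zeroS, ← qv_dot, ← qm4_mulVec]
    exact h3.2.1
  · rw [← q_eq_zeroS, ← qv_dot, ← qm4_mulVec]
    exact h3.2.2
  · obtain ⟨s, hs, hi⟩ := hind
    by_contra hc
    push Not at hc
    have hm : ∀ i j, eval s (p i) * eval s (p' j) - eval s (p j) * eval s (p' i) = 0 := by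
      intro i j
      obtain ⟨c, hc'⟩ := hc i j
      have h5 := congrArg (eval s) hc'
      rw [map_sub, map_mul, map_mul, map_mul, hs, zero_mul] at h5
      exact h5
    rw [LinearIndependent.pair_iff] at hi
    have hp0 : ∃ j, eval s (p j) ≠ 0 := by
      by_contra h0
      push Not at h0
      exact one_ne_zero (hi 1 0 (by
        funext i
        simp [h0])).1
    obtain ⟨j, hj⟩ := hp0
    have h6 := hi (-eval s (p' j)) (eval s (p j)) (by
      funext i
      simp only [Pi.add_apply, Pi.smul_apply, smul_eq_mul, Pi.zero_apply]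
      linear_combination -(hm i j))
    exact hj h6.2

/-- **Line scrolls over a curve of even degree.** -/
theorem rational_of_scroll {r : ℕ} (sM : M.IsSymm)
    (hdeg : ∀ i j, (M i j).IsHomogeneous (1 + wt i + wt j)) (hs : SmoothForm (cubicOf M))
    (hsm : SmoothP M.det) (hg : Irreducible g) (hgr : g.IsHomogeneous (2 * r))
    (hgf : ¬ g ∣ M.det)
    (hp : ∀ i, (p i).IsHomogeneous (a + (1 - wt i)))
    (hp' : ∀ i, (p' i).IsHomogeneous (b + (1 - wt i)))
    (hind : ∃ s, eval s g = 0 ∧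
      LinearIndependent ℂ ![fun i => eval s (p i), fun i => eval s (p' i)])
    (hP : ∃ x ∈ scroll g p p', ¬ (x 0 = 0 ∧ x 1 = 0 ∧ x 2 = 0))
    (hX : ∀ x ∈ scroll g p p', eval x (cubicOf M) = 0)
    (hodd : ∀ n₀, ∃ n, n₀ ≤ n ∧ Odd (hT (scroll g p p') n + r)) :
    RationalHypersurface (cubicOf M) := by
  have hP' : ¬ (g ∣ p 3 ∧ g ∣ p' 3) := by
    rintro ⟨⟨c, hc⟩, ⟨c', hc'⟩⟩
    obtain ⟨x, ⟨s, y, hs, rfl⟩, hx⟩ := hP
    apply hx
    have h1 : eval s (p 3) = 0 := by rw [hc, map_mul, hs, zero_mul]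
    have h2 : eval s (p' 3) = 0 := by rw [hc', map_mul, hs, zero_mul]
    refine ⟨?_, ?_, ?_⟩
    · simp [scrollPt, h1, h2]
    · simp [scrollPt, h1, h2]
    · simp [scrollPt, h1, h2]
  refine rational_of_restr (linePair_of_scroll sM hdeg hg.prime hp hp' hind hP' hX) sM hdeg hs
    hsm hg hgr hgf fun n₀ => ?_
  obtain ⟨n, hn, h⟩ := hodd n₀
  rw [hT_scroll hg.prime hP' n] at h
  exact ⟨n, hn, h⟩

end Final

end Vale.Agent.P287.C8
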