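import Vale.Agent.P287.C8.BasicM
import Vale.Agent.P287.H925.Smooth
import Vale.Agent.P287.CommonZero

/-!
The discriminant sextic of a smooth cubic fourfold containing a plane is smooth if no other plane
of the cubic meets the given one in a line.
-/

namespace Vale.Agent.P287.C8

open MvPolynomial Module Matrix Vale.Agent.P287 Vale.Agent.P287.H925 Vale.Agent.P287.Theta

section Lin

/-- A square matrix with vanishing adjugate has a kernel of dimension at least two. -/
lemma exists_two_ker {n : ℕ} (N : Matrix (Fin (n + 1)) (Fin (n + 1)) ℂ) (h : N.adjugate = 0) :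
    ∃ (k w : Fin (n + 1) → ℂ) (i : Fin (n + 1)), N *ᵥ k = 0 ∧ N *ᵥ w = 0 ∧ k i ≠ 0 ∧ w i = 0 ∧
      w ≠ 0 := by
  have hdet : N.det = 0 := by
    have h1 := congrFun (congrFun (Matrix.mul_adjugate N) 0) 0
    rw [h, Matrix.mul_zero, Matrix.smul_apply, Matrix.one_apply_eq, smul_eq_mul, mul_one] at h1
    exact h1.symm
  obtain ⟨k, hk0, hk⟩ := (Matrix.exists_mulVec_eq_zero_iff).2 hdet
  obtain ⟨i, hi⟩ : ∃ i, k i ≠ 0 := by
    by_contra hc
    push Not at hc
    exact hk0 (funext hc)
  -- some basis vector is not in the range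
  obtain ⟨j, hj⟩ : ∃ j, ∀ x, N *ᵥ x ≠ Pi.single j 1 := by
    by_contra hc
    push Not at hc
    choose x hx using hc
    have h1 : N * (Matrix.of fun a b => x b a) = 1 := by
      ext a b
      have h2 := congrFun (hx b) a
      rw [Matrix.one_apply]
      rw [Pi.single_apply] at h2
      exact h2
    have h2 := congrArg Matrix.det h1
    rw [Matrix.det_mul, hdet, zero_mul, Matrix.det_one] at h2
    exact zero_ne_one h2
  have h1 : (N.updateRow j (Pi.single i 1)).det = 0 := by
    rw [← Matrix.adjugate_apply, h]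
    rfl
  obtain ⟨w, hw0, hw⟩ := (Matrix.exists_mulVec_eq_zero_iff).2 h1
  have hwi : w i = 0 := by
    have h2 := congrFun hw j
    rw [Matrix.mulVec, Matrix.updateRow_self, single_one_dotProduct] at h2
    exact h2
  have hwn : ∀ a, a ≠ j → (N *ᵥ w) a = 0 := by
    intro a ha
    have h2 := congrFun hw a
    rw [Matrix.mulVec, Matrix.updateRow_ne ha] at h2
    exact h2
  refine ⟨k, w, i, hk, ?_, hi, hwi, hw0⟩
  by_cases hwj : (N *ᵥ w) j = 0
  · funext a
    by_cases ha : a = j
    · rw [ha, hwj]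
      rfl
    · exact hwn a ha
  · exfalso
    apply hj (((N *ᵥ w) j)⁻¹ • w)
    rw [Matrix.mulVec_smul]
    funext a
    rw [Pi.smul_apply, smul_eq_mul, Pi.single_apply]
    split_ifs with ha
    · rw [ha, inv_mul_cancel₀ hwj]
    · rw [hwn a ha, mul_zero]

lemma dot_symm {N : Matrix (Fin 4) (Fin 4) ℂ} (sN : N.IsSymm) (x y : Fin 4 → ℂ) :
    x ⬝ᵥ N *ᵥ y = y ⬝ᵥ N *ᵥ x := by
  rw [dotProduct_mulVec, ← mulVec_transpose, sN.eq, dotProduct_comm]

/-- A symmetric matrix of rank at most two has isotropic subspaces of dimension three, not in the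
hyperplane `x₃ = 0` unless the form vanishes there. -/
lemma exists_isotropic3 {N : Matrix (Fin 4) (Fin 4) ℂ} (sN : N.IsSymm) (h : N.adjugate = 0)
    {a : Fin 4 → ℂ} (ha3 : a 3 = 0) (haa : a ⬝ᵥ N *ᵥ a ≠ 0) :
    ∃ U : Submodule ℂ (Fin 4 → ℂ), finrank ℂ U = 3 ∧ (∀ x ∈ U, x ⬝ᵥ N *ᵥ x = 0) ∧
      ∃ x ∈ U, x 3 ≠ 0 := by
  obtain ⟨k, w, i, hk, hw, hki, hwi, hw0⟩ := exists_two_ker N h
  have hli : LinearIndependent ℂ ![k, w] := by
    rw [LinearIndependent.pair_iff]
    intro s t hst
    have h1 := congrFun hst i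
    simp only [Pi.add_apply, Pi.smul_apply, smul_eq_mul, hwi, mul_zero, add_zero,
      Pi.zero_apply] at h1
    have hs : s = 0 := (mul_eq_zero.1 h1).resolve_right hki
    rw [hs, zero_smul, zero_add] at hst
    exact ⟨hs, (smul_eq_zero.1 hst).resolve_right hw0⟩
  set K : Submodule ℂ (Fin 4 → ℂ) := Submodule.span ℂ (Set.range ![k, w]) with hK
  have hK2 : finrank ℂ K = 2 := by
    rw [hK, finrank_span_eq_card hli, Fintype.card_fin]
  have hKN : ∀ x ∈ K, N *ᵥ x = 0 := by
    intro x hx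
    have h1 : K ≤ LinearMap.ker N.mulVecLin := by
      rw [hK, Submodule.span_le]
      rintro _ ⟨j, rfl⟩
      fin_cases j
      · exact hk
      · exact hw
    exact h1 hx
  set K' : Submodule ℂ (Fin 4 → ℂ) := K ⊔ Submodule.span ℂ {a} with hK'
  have hK'3 : finrank ℂ K' ≤ 3 := by
    have h1 := Submodule.finrank_sup_add_finrank_inf_eq K (Submodule.span ℂ {a})
    rw [← hK'] at h1
    have h2 := finrank_span_le_card (R := ℂ) ({a} : Set (Fin 4 → ℂ))
    simp only [Set.toFinset_singleton, Finset.card_singleton] at h2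
    omega
  -- a vector outside
  obtain ⟨b, hb, hb3⟩ : ∃ b, b ∉ K' ∧ ((∃ x ∈ K, x 3 ≠ 0) ∨ b 3 ≠ 0) := by
    by_cases hKx : ∃ x ∈ K, x 3 ≠ 0
    · have h1 : ∃ b, b ∉ K' := by
        by_contra hc
        push Not at hc
        have h2 : K' = ⊤ := by
          ext x
          simp [hc x]
        rw [h2, finrank_top, Module.finrank_fin_fun] at hK'3
        omega
      obtain ⟨b, hb⟩ := h1
      exact ⟨b, hb, Or.inl hKx⟩
    · push Not at hKx
      have h3 : K' ≤ LinearMap.ker (LinearMap.proj 3 : (Fin 4 → ℂ) →ₗ[ℂ] ℂ) := by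
        rw [hK', sup_le_iff, Submodule.span_singleton_le_iff_mem]
        exact ⟨fun x hx => hKx x hx, ha3⟩
      have h4 : (Pi.single 3 1 : Fin 4 → ℂ) 3 ≠ 0 := by
        rw [Pi.single_eq_same]
        exact one_ne_zero
      exact ⟨Pi.single 3 1, fun hc => h4 (h3 hc), Or.inr h4⟩
  obtain ⟨s, hs⟩ : ∃ s : ℂ, (a ⬝ᵥ N *ᵥ a) * s ^ 2 + 2 * (a ⬝ᵥ N *ᵥ b) * s + b ⬝ᵥ N *ᵥ b = 0 := by
    obtain ⟨δ, hδ⟩ := IsAlgClosed.exists_pow_nat_eq
      ((a ⬝ᵥ N *ᵥ b) ^ 2 - (a ⬝ᵥ N *ᵥ a) * (b ⬝ᵥ N *ᵥ b)) (n := 2) (by norm_num)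
    refine ⟨(δ - a ⬝ᵥ N *ᵥ b) / (a ⬝ᵥ N *ᵥ a), ?_⟩
    field_simp
    linear_combination hδ
  set u : Fin 4 → ℂ := s • a + b with hu
  have huu : u ⬝ᵥ N *ᵥ u = 0 := by
    rw [hu, Matrix.mulVec_add, Matrix.mulVec_smul]
    simp only [add_dotProduct, dotProduct_add, smul_dotProduct, dotProduct_smul, smul_eq_mul]
    rw [dot_symm sN b a]
    linear_combination hs
  have huK : u ∉ K := by
    intro hc
    apply hb
    have h1 : b = u - s • a := by
      rw [hu]
      abel
    rw [h1]
    refine sub_mem (Submodule.mem_sup_left hc) (Submodule.mem_sup_right ?_)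
    exact Submodule.smul_mem _ _ (Submodule.mem_span_singleton_self a)
  have hu0 : u ≠ 0 := fun h0 => huK (h0 ▸ zero_mem _)
  refine ⟨K ⊔ Submodule.span ℂ {u}, ?_, ?_, ?_⟩
  · have h1 := Submodule.finrank_sup_add_finrank_inf_eq K (Submodule.span ℂ {u})
    rw [finrank_span_singleton hu0, hK2] at h1
    have h2 : K ⊓ Submodule.span ℂ {u} = ⊥ := by
      rw [← disjoint_iff]
      exact (Submodule.disjoint_span_singleton' hu0).2 huK
    rw [h2, finrank_bot] at h1
    omega
  · intro x hx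
    obtain ⟨y, hy, z, hz, rfl⟩ := Submodule.mem_sup.1 hx
    obtain ⟨t, rfl⟩ := Submodule.mem_span_singleton.1 hz
    rw [Matrix.mulVec_add, hKN y hy, zero_add, add_dotProduct, dot_symm sN y, hKN y hy,
      dotProduct_zero, zero_add, Matrix.mulVec_smul, smul_dotProduct, dotProduct_smul, huu,
      smul_zero, smul_zero]
  · rcases hb3 with ⟨x, hx, hx3⟩ | hb3
    · exact ⟨x, Submodule.mem_sup_left hx, hx3⟩
    · refine ⟨u, Submodule.mem_sup_right (Submodule.mem_span_singleton_self u), ?_⟩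
      rw [hu, Pi.add_apply, Pi.smul_apply, ha3, smul_zero, zero_add]
      exact hb3

end Lin


section Points

variable {M : Matrix (Fin 4) (Fin 4) P3} {z : Fin 3 → ℂ}

/-- the point of the fibre over `z` with coordinates `w` -/
noncomputable def fibPt (z : Fin 3 → ℂ) : (Fin 4 → ℂ) →ₗ[ℂ] (Fin 6 → ℂ) where
  toFun w := Fin.append (fun k => w 3 * z k) (fun l : Fin 3 => w l.castSucc)
  map_add' w w' := by
    funext i
    refine Fin.addCases (m := 3) (n := 3) (fun k => ?_) (fun l => ?_) i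
    · simp only [Pi.add_apply, Fin.append_left, add_mul]
    · simp only [Pi.add_apply, Fin.append_right]
  map_smul' c w := by
    funext i
    refine Fin.addCases (m := 3) (n := 3) (fun k => ?_) (fun l => ?_) i
    · simp only [Pi.smul_apply, Fin.append_left, smul_eq_mul, mul_assoc, RingHom.id_apply]
    · simp only [Pi.smul_apply, Fin.append_right, RingHom.id_apply]

lemma fibPt_low (z : Fin 3 → ℂ) (w : Fin 4 → ℂ) (k : Fin 3) :
    fibPt z w (emb k) = w 3 * z k :=
  Fin.append_left (fun k => w 3 * z k) (fun l : Fin 3 => w l.castSucc) k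

lemma fibPt_high (z : Fin 3 → ℂ) (w : Fin 4 → ℂ) (l : Fin 3) :
    fibPt z w (Fin.natAdd 3 l) = w l.castSucc :=
  Fin.append_right (fun k => w 3 * z k) (fun l : Fin 3 => w l.castSucc) l

lemma fibPt_injective (hz : z ≠ 0) : Function.Injective (fibPt z) := by
  rw [injective_iff_map_eq_zero]
  intro w hw
  obtain ⟨k, hk⟩ : ∃ k, z k ≠ 0 := by
    by_contra hc
    push Not at hc
    exact hz (funext hc)
  have h3 : w 3 = 0 := by
    have h1 := congrFun hw (emb k)
    rw [fibPt_low] at h1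
    exact (mul_eq_zero.1 h1).resolve_right hk
  funext i
  refine Fin.lastCases ?_ (fun l => ?_) i
  · exact h3
  · have h1 := congrFun hw (Fin.natAdd 3 l)
    rw [fibPt_high] at h1
    exact h1

lemma eval_rename_fibPt (z : Fin 3 → ℂ) (w : Fin 4 → ℂ) {p : P3} {n : ℕ}
    (hp : p.IsHomogeneous n) : eval (fibPt z w) (rename emb p) = w 3 ^ n * eval z p := by
  rw [eval_rename]
  have h1 : fibPt z w ∘ emb = fun k => w 3 * z k := by
    funext k
    exact fibPt_low z w k
  rw [h1, H925.eval_eq_aeval, aeval_scale hp, H925.eval_eq_aeval]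

lemma eval_vv_fibPt (z : Fin 3 → ℂ) (w : Fin 4 → ℂ) (j : Fin 4) :
    w 3 ^ (wt j) * eval (fibPt z w) (vv j) = w j := by
  fin_cases j
  · change w 3 ^ 0 * eval (fibPt z w) (X 3) = w 0
    rw [eval_X, pow_zero, one_mul]
    exact fibPt_high z w 0
  · change w 3 ^ 0 * eval (fibPt z w) (X 4) = w 1
    rw [eval_X, pow_zero, one_mul]
    exact fibPt_high z w 1
  · change w 3 ^ 0 * eval (fibPt z w) (X 5) = w 2
    rw [eval_X, pow_zero, one_mul]
    exact fibPt_high z w 2
  · change w 3 ^ 1 * eval (fibPt z w) 1 = w 3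
    rw [map_one, pow_one, mul_one]

lemma eval_cubic_fibPt (hdeg : ∀ i j, (M i j).IsHomogeneous (1 + wt i + wt j))
    (z : Fin 3 → ℂ) (w : Fin 4 → ℂ) : eval (fibPt z w) (cubicOf M) =
      w 3 * (w ⬝ᵥ (M.map (eval z)) *ᵥ w) := by
  rw [cubicOf_eq]
  simp only [map_sum, map_mul, dotProduct, Matrix.mulVec, Finset.mul_sum, Matrix.map_apply]
  refine Finset.sum_congr rfl fun i _ => Finset.sum_congr rfl fun j _ => ?_
  rw [eval_rename_fibPt z w (hdeg i j), pow_add, pow_add, pow_one]
  have h3 := eval_vv_fibPt z w i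
  have h4 := eval_vv_fibPt z w j
  calc eval (fibPt z w) (vv i) * (w 3 * w 3 ^ wt i * w 3 ^ wt j * eval z (M i j) *
        eval (fibPt z w) (vv j))
      = w 3 * ((w 3 ^ wt i * eval (fibPt z w) (vv i)) * (eval z (M i j) *
            (w 3 ^ wt j * eval (fibPt z w) (vv j)))) := by ring
    _ = _ := by rw [h3, h4]

/-- A point of the kernel over `z`, at which the derivatives of the quadratic form vanish, is a
singular point of the cubic. -/
lemma no_sing (hM : M.IsSymm) (hdeg : ∀ i j, (M i j).IsHomogeneous (1 + wt i + wt j))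
    (hs : SmoothForm (cubicOf M)) (hz : z ≠ 0) {w : Fin 4 → ℂ} (hw : w ≠ 0)
    (h1 : ∀ l : Fin 3, ∑ j, eval z (M l.castSucc j) * w j = 0)
    (h2 : ∀ k, ∑ i, ∑ j, w i * (eval z (pderiv k (M i j)) * w j) = 0) : False := by
  apply hw
  apply fibPt_injective hz
  rw [map_zero]
  apply hs
  intro i
  rw [← H925.eval_eq_aeval]
  refine Fin.addCases (m := 3) (n := 3) (fun k => ?_) (fun l => ?_) i
  · change eval (fibPt z w) (pderiv (emb k) (cubicOf M)) = 0
    rw [pderiv_cubic_low, ← h2 k]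
    simp only [map_sum, map_mul]
    refine Finset.sum_congr rfl fun i _ => Finset.sum_congr rfl fun j _ => ?_
    have h3 : (pderiv k (M i j)).IsHomogeneous (wt i + wt j) := by
      have := (hdeg i j).pderiv (i := k)
      have e1 : 1 + wt i + wt j - 1 = wt i + wt j := by omega
      rwa [e1] at this
    rw [eval_rename_fibPt z w h3, pow_add]
    have h4 := eval_vv_fibPt z w i
    have h5 := eval_vv_fibPt z w j
    calc eval (fibPt z w) (vv i) * (w 3 ^ wt i * w 3 ^ wt j * eval z (pderiv k (M i j)) *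
          eval (fibPt z w) (vv j))
        = (w 3 ^ wt i * eval (fibPt z w) (vv i)) * (eval z (pderiv k (M i j)) *
          (w 3 ^ wt j * eval (fibPt z w) (vv j))) := by ring
      _ = _ := by rw [h4, h5]
  · rw [pderiv_cubic_high M hM]
    simp only [map_mul, map_sum]
    have h6 : ∑ j, eval (fibPt z w) (rename emb (M l.castSucc j)) * eval (fibPt z w) (vv j) =
        w 3 ^ (1 + wt l.castSucc) * ∑ j, eval z (M l.castSucc j) * w j := by
      rw [Finset.mul_sum]
      refine Finset.sum_congr rfl fun j _ => ?_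
      rw [eval_rename_fibPt z w (hdeg _ _), pow_add]
      have h4 := eval_vv_fibPt z w j
      calc w 3 ^ (1 + wt l.castSucc) * w 3 ^ wt j * eval z (M l.castSucc j) *
            eval (fibPt z w) (vv j)
          = w 3 ^ (1 + wt l.castSucc) * (eval z (M l.castSucc j) *
            (w 3 ^ wt j * eval (fibPt z w) (vv j))) := by ring
        _ = _ := by rw [h4]
    rw [h6, h1 l, mul_zero, mul_zero]

/-- If the form vanishes on the plane the cubic is singular. -/
lemma block_ne_zero (hM : M.IsSymm) (hdeg : ∀ i j, (M i j).IsHomogeneous (1 + wt i + wt j))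
    (hs : SmoothForm (cubicOf M)) (hz : z ≠ 0)
    (h : ∀ i j, i ≠ 3 → j ≠ 3 → eval z (M i j) = 0) : False := by
  obtain ⟨m, hm⟩ : ∃ k, z k ≠ 0 := by
    by_contra hc
    push Not at hc
    exact hz (funext hc)
  -- the partial derivatives on the plane
  set G : Fin 3 → P3 := fun k => ∑ i : Fin 3, ∑ j : Fin 3, X i *
    (C (eval z (pderiv k (M i.castSucc j.castSucc))) * X j) with hG
  have hGe : ∀ k (v : Fin 3 → ℂ), aeval v (G k) =
      ∑ i : Fin 3, ∑ j : Fin 3, v i * (eval z (pderiv k (M i.castSucc j.castSucc)) * v j) := by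
    intro k v
    simp only [hG, map_sum, map_mul, aeval_X, aeval_C, Algebra.algebraMap_self, RingHom.id_apply]
  obtain ⟨v, hv0, hv⟩ := exists_common_zero (n := 3) (r := 2) (by norm_num)
    (fun t => G (m.succAbove t)) (fun t => by
      rw [hGe]
      simp)
  have hsum : ∑ k, z k * aeval v (G k) = 0 := by
    have h1 : ∀ i j : Fin 3, ∑ k, z k * eval z (pderiv k (M i.castSucc j.castSucc)) = 0 := by
      intro i j
      have h2 := (hdeg i.castSucc j.castSucc).sum_X_mul_pderiv
      have h3 := congrArg (eval z) h2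
      simp only [map_sum, map_mul, eval_X, map_nsmul] at h3
      rw [h3, h _ _ (Fin.castSucc_lt_last i).ne (Fin.castSucc_lt_last j).ne, smul_zero]
    calc ∑ k, z k * aeval v (G k) = ∑ i : Fin 3, ∑ j : Fin 3, v i * v j *
          ∑ k, z k * eval z (pderiv k (M i.castSucc j.castSucc)) := by
          simp only [hGe, Finset.mul_sum]
          rw [Finset.sum_comm]
          refine Finset.sum_congr rfl fun i _ => ?_
          rw [Finset.sum_comm]
          refine Finset.sum_congr rfl fun j _ => Finset.sum_congr rfl fun k _ => ?_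
          ring
      _ = 0 := by
          simp only [h1, mul_zero, Finset.sum_const_zero]
  have hall : ∀ k, aeval v (G k) = 0 := by
    intro k
    by_cases hk : k = m
    · subst hk
      rw [Fin.sum_univ_succAbove _ k, Finset.sum_eq_zero (fun t _ => by rw [hv t, mul_zero]),
        add_zero] at hsum
      exact (mul_eq_zero.1 hsum).resolve_left hm
    · obtain ⟨t, rfl⟩ := Fin.exists_succAbove_eq hk
      exact hv t
  have hw3 : (Fin.snoc (α := fun _ => ℂ) v (0 : ℂ) : Fin 4 → ℂ) 3 = 0 :=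
    Fin.snoc_last (α := fun _ => ℂ) (0 : ℂ) v
  have hwl : ∀ l : Fin 3, (Fin.snoc (α := fun _ => ℂ) v (0 : ℂ) : Fin 4 → ℂ) l.castSucc = v l :=
    fun l => Fin.snoc_castSucc (α := fun _ => ℂ) (0 : ℂ) v l
  refine no_sing hM hdeg hs hz (w := Fin.snoc (α := fun _ => ℂ) v (0 : ℂ)) (fun hc => hv0 ?_)
    (fun l => ?_) fun k => ?_
  · funext l
    rw [← hwl l, hc]
    rfl
  · rw [Fin.sum_univ_castSucc]
    have h3 : (Fin.snoc (α := fun _ => ℂ) v (0 : ℂ) : Fin 4 → ℂ) (Fin.last 3) = 0 := hw3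
    rw [h3, mul_zero, add_zero]
    exact Finset.sum_eq_zero fun j _ => by
      rw [h _ _ (Fin.castSucc_lt_last l).ne (Fin.castSucc_lt_last j).ne, zero_mul]
  · have h3 : (Fin.snoc (α := fun _ => ℂ) v (0 : ℂ) : Fin 4 → ℂ) (Fin.last 3) = 0 := hw3
    rw [Fin.sum_univ_castSucc, h3]
    simp only [zero_mul, Finset.sum_const_zero, add_zero]
    have h5 := hall k
    rw [hGe] at h5
    refine Eq.trans (Finset.sum_congr rfl fun i _ => ?_) h5
    rw [Fin.sum_univ_castSucc, h3]
    simp only [mul_zero, add_zero, hwl]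

/-- The adjugate does not vanish at the singular points of the discriminant. -/
lemma adjugate_eq_zero_of_sing (hM : M.IsSymm)
    (hdeg : ∀ i j, (M i j).IsHomogeneous (1 + wt i + wt j)) (hs : SmoothForm (cubicOf M))
    (hz : z ≠ 0) (hd0 : eval z M.det = 0) (hd : ∀ k, eval z (pderiv k M.det) = 0) :
    (M.map (eval z)).adjugate = 0 := by
  by_contra hne
  obtain ⟨i₀, j₀, h0⟩ : ∃ i j, (M.map (eval z)).adjugate i j ≠ 0 := by
    by_contra hc
    push Not at hc
    exact hne (Matrix.ext hc)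
  have hadj : ∀ i j, (M.map (eval z)).adjugate i j = eval z (M.adjugate i j) := by
    intro i j
    have h1 : (M.map (eval z)).adjugate = (M.adjugate).map (eval z) :=
      ((eval z).map_adjugate M).symm
    rw [h1, Matrix.map_apply]
  have hMt : ∀ i j, M i j = M j i := fun i j => (hM.apply j i)
  -- `M * adj M = det M`
  have h1 : ∀ i, ∑ l, M i l * M.adjugate l j₀ = M.det * (1 : Matrix (Fin 4) (Fin 4) P3) i j₀ := by
    intro i
    have := congrFun (congrFun (Matrix.mul_adjugate M) i) j₀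
    rw [Matrix.mul_apply] at this
    exact this
  set w : Fin 4 → ℂ := fun l => eval z (M.adjugate l j₀) with hw
  have hker : (M.map (eval z)) *ᵥ w = 0 := by
    funext i
    have h2 := congrArg (eval z) (h1 i)
    simp only [map_sum, map_mul, hd0, zero_mul] at h2
    exact h2
  refine no_sing hM hdeg hs hz (w := w) (fun hc => h0 ?_) (fun l => congrFun hker l.castSucc)
    fun k => ?_
  · rw [hadj]
    exact congrFun hc i₀
  · have h2 : ∀ i, ∑ l, (eval z (pderiv k (M i l)) * w l +
        eval z (M i l) * eval z (pderiv k (M.adjugate l j₀))) = 0 := by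
      intro i
      have h3 := congrArg (fun p => eval z (pderiv k p)) (h1 i)
      simp only [map_sum, pderiv_mul, map_add, map_mul, hd0, hd k, zero_mul, zero_add] at h3
      rw [← h3]
    have h3 : ∑ i, w i * ∑ l, eval z (M i l) * eval z (pderiv k (M.adjugate l j₀)) = 0 := by
      simp only [Finset.mul_sum]
      rw [Finset.sum_comm]
      refine Finset.sum_eq_zero fun l _ => ?_
      have h4 : ∑ i, eval z (M l i) * w i = 0 := congrFun hker l
      calc ∑ i, w i * (eval z (M i l) * eval z (pderiv k (M.adjugate l j₀))) =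
            (∑ i, eval z (M l i) * w i) * eval z (pderiv k (M.adjugate l j₀)) := by
            rw [Finset.sum_mul]
            refine Finset.sum_congr rfl fun i _ => ?_
            rw [hMt i l]
            ring
        _ = 0 := by rw [h4, zero_mul]
    have h5 : ∑ i, w i * ∑ l, (eval z (pderiv k (M i l)) * w l +
        eval z (M i l) * eval z (pderiv k (M.adjugate l j₀))) = 0 :=
      Finset.sum_eq_zero fun i _ => by rw [h2 i, mul_zero]
    simp only [Finset.sum_add_distrib, mul_add] at h5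
    rw [h3, add_zero] at h5
    simp only [Finset.mul_sum] at h5
    exact h5

end Points

section Final

/-- The plane `x₀ = x₁ = x₂ = 0`. -/
def Pl : Submodule ℂ (Fin 6 → ℂ) where
  carrier := {x | x 0 = 0 ∧ x 1 = 0 ∧ x 2 = 0}
  add_mem' {x y} hx hy := by
    refine ⟨?_, ?_, ?_⟩
    · rw [Pi.add_apply, hx.1, hy.1, add_zero]
    · rw [Pi.add_apply, hx.2.1, hy.2.1, add_zero]
    · rw [Pi.add_apply, hx.2.2, hy.2.2, add_zero]
  zero_mem' := ⟨rfl, rfl, rfl⟩
  smul_mem' c x hx := by
    refine ⟨?_, ?_, ?_⟩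
    · rw [Pi.smul_apply, hx.1, smul_zero]
    · rw [Pi.smul_apply, hx.2.1, smul_zero]
    · rw [Pi.smul_apply, hx.2.2, smul_zero]

variable {M : Matrix (Fin 4) (Fin 4) P3} {z : Fin 3 → ℂ}

lemma fibPt_mem_Pl (hz : z ≠ 0) (w : Fin 4 → ℂ) : fibPt z w ∈ Pl ↔ w 3 = 0 := by
  obtain ⟨k, hk⟩ : ∃ k, z k ≠ 0 := by
    by_contra hc
    push Not at hc
    exact hz (funext hc)
  constructor
  · rintro ⟨h0, h1, h2⟩
    have h3 : fibPt z w (emb k) = 0 := by
      fin_cases k
      · exact h0
      · exact h1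
      · exact h2
    rw [fibPt_low] at h3
    exact (mul_eq_zero.1 h3).resolve_right hk
  · intro h
    have h3 : ∀ k, fibPt z w (emb k) = 0 := fun k => by rw [fibPt_low, h, zero_mul]
    exact ⟨h3 0, h3 1, h3 2⟩

/-- The discriminant is smooth if no plane of the cubic meets the plane `x₀ = x₁ = x₂ = 0` in a
line. -/
theorem smoothP_det_of_no_plane (hM : M.IsSymm)
    (hdeg : ∀ i j, (M i j).IsHomogeneous (1 + wt i + wt j)) (hs : SmoothForm (cubicOf M))
    (hno : ∀ V : Submodule ℂ (Fin 6 → ℂ), finrank ℂ V = 3 →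
      (∀ x ∈ V, eval x (cubicOf M) = 0) → finrank ℂ (V ⊓ Pl : Submodule ℂ (Fin 6 → ℂ)) ≠ 2) :
    SmoothP M.det := by
  intro z hd
  by_contra hz
  have hd0 : eval z M.det = 0 := by
    have h1 := (det_hom6 hdeg).sum_X_mul_pderiv
    have h2 := congrArg (eval z) h1
    simp only [map_sum, map_mul, hd, mul_zero, Finset.sum_const_zero, map_nsmul] at h2
    exact (smul_eq_zero.1 h2.symm).resolve_left (by norm_num)
  have hadj := adjugate_eq_zero_of_sing hM hdeg hs hz hd0 hd
  have sN : (M.map (eval z)).IsSymm := by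
    rw [Matrix.IsSymm, ← Matrix.transpose_map, hM.eq]
  obtain ⟨a, ha3, haa⟩ : ∃ a : Fin 4 → ℂ, a 3 = 0 ∧ a ⬝ᵥ (M.map (eval z)) *ᵥ a ≠ 0 := by
    by_contra hc
    push Not at hc
    apply block_ne_zero hM hdeg hs hz
    intro i j hi hj
    have h1 := hc (Pi.single i 1) (Pi.single_eq_of_ne hi.symm _)
    have h2 := hc (Pi.single j 1) (Pi.single_eq_of_ne hj.symm _)
    have h3 := hc (Pi.single i 1 + Pi.single j 1) (by
      rw [Pi.add_apply, Pi.single_eq_of_ne hi.symm, Pi.single_eq_of_ne hj.symm, add_zero])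
    rw [Matrix.mulVec_add, add_dotProduct, dotProduct_add, dotProduct_add, h1, h2,
      dot_symm sN (Pi.single j 1), zero_add, add_zero, ← two_mul] at h3
    have h4 := (mul_eq_zero.1 h3).resolve_left two_ne_zero
    rw [single_one_dotProduct, Matrix.mulVec_single_one] at h4
    exact h4
  obtain ⟨U, hU3, hU, x, hx, hx3⟩ := exists_isotropic3 sN hadj ha3 haa
  refine hno (U.map (fibPt z)) ?_ ?_ ?_
  · rw [← hU3]
    exact (Submodule.equivMapOfInjective _ (fibPt_injective hz) U).finrank_eq.symm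
  · rintro _ ⟨w, hw, rfl⟩
    rw [eval_cubic_fibPt hdeg, hU w hw, mul_zero]
  · -- the intersection
    set φ : U →ₗ[ℂ] ℂ := (LinearMap.proj 3 : (Fin 4 → ℂ) →ₗ[ℂ] ℂ).comp U.subtype with hφ
    have h1 : (U.map (fibPt z) ⊓ Pl : Submodule ℂ (Fin 6 → ℂ)) =
        (LinearMap.ker φ).map ((fibPt z).comp U.subtype) := by
      ext y
      constructor
      · rintro ⟨⟨w, hw, rfl⟩, hy⟩
        exact ⟨⟨w, hw⟩, (fibPt_mem_Pl hz w).1 hy, rfl⟩
      · rintro ⟨⟨w, hw⟩, hk, rfl⟩
        exact ⟨⟨w, hw, rfl⟩, (fibPt_mem_Pl hz w).2 hk⟩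
    have hinj : Function.Injective ((fibPt z).comp U.subtype) :=
      (fibPt_injective hz).comp U.injective_subtype
    rw [h1, ← (Submodule.equivMapOfInjective _ hinj (LinearMap.ker φ)).finrank_eq]
    have h2 := LinearMap.finrank_range_add_finrank_ker φ
    have h3 : finrank ℂ (LinearMap.range φ) = 1 := by
      have h4 : LinearMap.range φ = ⊤ := by
        rw [LinearMap.range_eq_top]
        intro c
        refine ⟨(c / x 3) • ⟨x, hx⟩, ?_⟩
        change (c / x 3) * x 3 = c
        rw [div_mul_cancel₀ _ hx3]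
      rw [h4, finrank_top, Module.finrank_self]
    omega

end Final

end Vale.Agent.P287.C8
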