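import Vale.Agent.P287.C8.Ops

/-!
The operators preserve the image of `N`, and the square of `∑ x i • r i` kills the cokernel for
every `(r, 0)` in `N`.
-/

namespace Vale.Agent.P287.C8

open MvPolynomial Module Vale.Agent.P287 Vale.Agent.P287.H925 Vale.Agent.P287.Theta
open scoped TensorProduct

section

variable {f g : P3} {Q : Matrix (Fin 3) (Fin 3) P3} {l : Fin 3 → RG g}
  {B : Type} [CommRing B] [Algebra ℂ B] (D : AffChart g B)
  {k : Type} [Field k] [Algebra ℂ k] (x : Fin 3 → k)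

/-- `c ⊗ (b, 0)` -/
noncomputable def FL (f : P3) (c : k) : B →ₗ[ℂ] ZZ D f k :=
  (TensorProduct.mk ℂ k (B × ↥(D.JB f)) c).comp (LinearMap.inl ℂ B ↥(D.JB f))

/-- `c ⊗ (0, s)` -/
noncomputable def GJ (f : P3) (c : k) : ↥(D.JB f) →ₗ[ℂ] ZZ D f k :=
  (TensorProduct.mk ℂ k (B × ↥(D.JB f)) c).comp (LinearMap.inr ℂ B ↥(D.JB f))

lemma FL_apply (c : k) (b : B) : FL D f c b = c ⊗ₜ[ℂ] ((b, 0) : B × ↥(D.JB f)) := rfl

lemma GJ_apply (c : k) (s : ↥(D.JB f)) : GJ D f c s = c ⊗ₜ[ℂ] ((0, s) : B × ↥(D.JB f)) := rfl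

lemma tmul_eq (c : k) (m : B × ↥(D.JB f)) : c ⊗ₜ[ℂ] m = FL D f c m.1 + GJ D f c m.2 := by
  rw [FL_apply, GJ_apply, ← TensorProduct.tmul_add]
  congr 1
  exact Prod.ext (add_zero _).symm (zero_add _).symm

lemma PiB_tmul (c : k) (v : ↥(D.NB f Q l)) : PiB D f Q l x (c ⊗ₜ[ℂ] v) =
    (∑ i, x i • FL D f c (v.1.1 i)) + GJ D f c ⟨v.1.2, v.2.2.1⟩ := by
  rw [PiB, LinearMap.sum_apply, Fintype.sum_option, add_comm]
  congr 1
  change (1 : k) • (c ⊗ₜ[ℂ] ((0, ⟨v.1.2, v.2.2.1⟩) : B × ↥(D.JB f))) = _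
  rw [one_smul]
  rfl

lemma sZ_FL (b : B) (c : k) (a : B) : sZ D k f b (FL D f c a) = FL D f c (b * a) := by
  rw [FL_apply, FL_apply, sZ_tmul]
  congr 1
  exact Prod.ext rfl (smul_zero b)

lemma sZ_GJ (b : B) (c : k) (s : ↥(D.JB f)) : sZ D k f b (GJ D f c s) = GJ D f c (b • s) := by
  rw [GJ_apply, GJ_apply, sZ_tmul]
  congr 1
  exact Prod.ext (smul_zero b) rfl

lemma thZ_FL (c : k) (a : B) : thZ D k f (FL D f c a) = 0 := by
  rw [FL_apply, thZ_tmul]
  have : thM D f (a, 0) = 0 := rfl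
  rw [this, TensorProduct.tmul_zero]

lemma thZ_GJ (c : k) (s : ↥(D.JB f)) : thZ D k f (GJ D f c s) = FL D f c s := rfl

lemma etZ_GJ (c : k) (s : ↥(D.JB f)) : etZ D k f (GJ D f c s) = 0 := by
  rw [GJ_apply, etZ_tmul]
  have : etM D f (0, s) = 0 := by
    refine Prod.ext rfl (Subtype.ext ?_)
    change -(D.psi f * 0) = 0
    rw [mul_zero, neg_zero]
  rw [this, TensorProduct.tmul_zero]

lemma etZ_FL (c : k) (a : B) : etZ D k f (FL D f c a) =
    GJ D f c ⟨-(D.psi f * a), neg_mem (D.f_mul_mem_JB _)⟩ := rfl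

lemma sZ_stable (b : B) : ∀ z ∈ LinearMap.range (PiB D f Q l x),
    sZ D k f b z ∈ LinearMap.range (PiB D f Q l x) := by
  rintro _ ⟨ν, rfl⟩
  induction ν using TensorProduct.induction_on with
  | zero => rw [map_zero, map_zero]; exact zero_mem _
  | tmul c v =>
    refine ⟨c ⊗ₜ[ℂ] (b • v), ?_⟩
    rw [PiB_tmul, PiB_tmul, map_add, map_sum, sZ_GJ]
    congr 1
    refine Finset.sum_congr rfl fun i _ => ?_
    rw [map_smul, sZ_FL]
    rfl
  | add a b ha hb => rw [map_add, map_add]; exact add_mem ha hb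

lemma yZ_stable (sQ : Q.IsSymm) (hdet : Q.det = f) : ∀ z ∈ LinearMap.range (PiB D f Q l x),
    yZ D k f Q x z ∈ LinearMap.range (PiB D f Q l x) := by
  rintro _ ⟨ν, rfl⟩
  induction ν using TensorProduct.induction_on with
  | zero => rw [map_zero, map_zero]; exact zero_mem _
  | add a b ha hb => rw [map_add, map_add]; exact add_mem ha hb
  | tmul c v =>
    have sB := D.QB_isSymm sQ
    have hdB : (D.QB Q).det = D.psi f := by rw [D.QB_det, hdet]
    set w := (D.QB Q).adjugate.mulVec v.1.1 with hw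
    let τ : Fin 3 → ↥(D.NB f Q l) := fun j =>
      ⟨qmul (D.QB Q) ((D.QB Q).mulVec (Pi.single j 1), 0) v.1,
        D.qmul_mem_NB sQ hdet (Pi.single j 1) v.2⟩
    refine ⟨∑ j, x j • (c ⊗ₜ[ℂ] τ j), ?_⟩
    have e1 : ∀ i j, (τ j).1.1 i = D.QB Q i j * v.1.2 +
        (crossProduct (Pi.single j 1 : Fin 3 → B) w) i := by
      intro i j
      change (qmul (D.QB Q) ((D.QB Q).mulVec (Pi.single j 1), 0) v.1).1 i = _
      rw [qmul_left sB]
      change v.1.2 * ((D.QB Q).mulVec (Pi.single j 1)) i + _ = _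
      rw [Matrix.mulVec_single_one, mul_comm]
      rfl
    have e2 : ∀ j, (⟨(τ j).1.2, (τ j).2.2.1⟩ : ↥(D.JB f)) =
        ⟨-(D.psi f * v.1.1 j), neg_mem (D.f_mul_mem_JB _)⟩ := by
      intro j
      apply Subtype.ext
      change (qmul (D.QB Q) ((D.QB Q).mulVec (Pi.single j 1), 0) v.1).2 = _
      rw [qmul_left sB, hdB]
      simp
    have e3 : ∑ j, x j • ∑ i, x i • FL D f c ((crossProduct (Pi.single j 1 : Fin 3 → B) w) i) =
        0 := by
      simp only [Fin.sum_univ_three, cross_apply, Matrix.cons_val_zero, Matrix.cons_val_one,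
        Matrix.cons_val, Pi.single_eq_same, Pi.single_apply]
      simp only [Fin.isValue, Fin.reduceEq, if_true, if_false, zero_mul, one_mul, sub_zero, zero_sub,
        sub_self, map_zero, map_neg, smul_zero, zero_ne_one, one_ne_zero]
      module
    have e4 : ∀ j, PiB D f Q l x (c ⊗ₜ[ℂ] τ j) =
        (∑ i, x i • FL D f c (D.QB Q i j * v.1.2)) +
        (∑ i, x i • FL D f c ((crossProduct (Pi.single j 1 : Fin 3 → B) w) i)) +
        GJ D f c ⟨-(D.psi f * v.1.1 j), neg_mem (D.f_mul_mem_JB _)⟩ := by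
      intro j
      rw [PiB_tmul, e2, ← Finset.sum_add_distrib]
      congr 1
      refine Finset.sum_congr rfl fun i _ => ?_
      rw [e1, map_add, smul_add]
    have e5 : yZ D k f Q x (PiB D f Q l x (c ⊗ₜ[ℂ] v)) =
        (∑ i, ∑ j, (x i * x j) • FL D f c (D.QB Q i j * v.1.2)) +
        ∑ j, x j • GJ D f c ⟨-(D.psi f * v.1.1 j), neg_mem (D.f_mul_mem_JB _)⟩ := by
      rw [PiB_tmul, yZ, LinearMap.add_apply, Module.End.mul_apply]
      congr 1
      · rw [map_add, map_sum, thZ_GJ]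
        have e6 : ∑ i, thZ D k f (x i • FL D f c (v.1.1 i)) = 0 := by
          refine Finset.sum_eq_zero fun i _ => ?_
          rw [map_smul, thZ_FL, smul_zero]
        rw [e6, zero_add, qxZ, LinearMap.sum_apply]
        refine Finset.sum_congr rfl fun i _ => ?_
        rw [LinearMap.sum_apply]
        refine Finset.sum_congr rfl fun j _ => ?_
        rw [LinearMap.smul_apply, sZ_FL]
      · rw [map_add, map_sum, etZ_GJ, add_zero]
        refine Finset.sum_congr rfl fun j _ => ?_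
        rw [map_smul, etZ_FL]
    rw [e5, map_sum]
    have e7 : ∀ j, PiB D f Q l x (x j • (c ⊗ₜ[ℂ] τ j)) =
        (∑ i, (x i * x j) • FL D f c (D.QB Q i j * v.1.2)) +
        x j • (∑ i, x i • FL D f c ((crossProduct (Pi.single j 1 : Fin 3 → B) w) i)) +
        x j • GJ D f c ⟨-(D.psi f * v.1.1 j), neg_mem (D.f_mul_mem_JB _)⟩ := by
      intro j
      rw [map_smul, e4, smul_add, smul_add, Finset.smul_sum]
      congr 2
      refine Finset.sum_congr rfl fun i _ => ?_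
      rw [smul_smul, mul_comm]
    rw [Finset.sum_congr rfl fun j _ => e7 j, Finset.sum_add_distrib, Finset.sum_add_distrib, e3,
      add_zero, Finset.sum_comm]

/-- `∑ x i • r i` as an operator -/
noncomputable def xrZ (f : P3) (r : Fin 3 → B) : Module.End k (ZZ D f k) :=
  ∑ i, x i • sZ D k f (r i)

lemma xrZ_apply (r : Fin 3 → B) (z : ZZ D f k) : xrZ D x f r z = ∑ i, x i • sZ D k f (r i) z := by
  rw [xrZ, LinearMap.sum_apply]
  rfl

lemma xrZ_stable (r : Fin 3 → B) : ∀ z ∈ LinearMap.range (PiB D f Q l x),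
    xrZ D x f r z ∈ LinearMap.range (PiB D f Q l x) := by
  intro z hz
  rw [xrZ_apply]
  exact Submodule.sum_mem _ fun i _ => Submodule.smul_mem _ _ (sZ_stable D x (r i) z hz)

lemma xrZ_FL {r : Fin 3 → B} (hr : (r, 0) ∈ D.NB f Q l) (c : k) (a : B) :
    xrZ D x f r (FL D f c a) ∈ LinearMap.range (PiB D f Q l x) := by
  refine ⟨c ⊗ₜ[ℂ] (a • (⟨(r, 0), hr⟩ : ↥(D.NB f Q l))), ?_⟩
  rw [PiB_tmul, xrZ_apply]
  have e1 : (⟨(a • (⟨(r, 0), hr⟩ : ↥(D.NB f Q l))).1.2,
      (a • (⟨(r, 0), hr⟩ : ↥(D.NB f Q l))).2.2.1⟩ : ↥(D.JB f)) = 0 := by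
    apply Subtype.ext
    exact mul_zero a
  rw [e1, map_zero, add_zero]
  refine Finset.sum_congr rfl fun i _ => ?_
  rw [sZ_FL]
  congr 2
  exact mul_comm a (r i)

/-- the square of `∑ x i • r i` kills the cokernel -/
lemma xrZ_sq [IsDomain B] {e : ℕ} (H : EvenOn f g e)
    (hX : ∀ z : Fin 3 → ℂ, eval z f = 0 → eval z g = 0 → z 0 = 0 → z = 0)
    (hf0 : D.psi f ≠ 0) (sQ : Q.IsSymm) (hdet : Q.det = f)
    {r : Fin 3 → B} (hr : (r, 0) ∈ D.NB f Q l) (z : ZZ D f k) :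
    (xrZ D x f r * xrZ D x f r) z ∈ LinearMap.range (PiB D f Q l x) := by
  rw [Module.End.mul_apply]
  induction z using TensorProduct.induction_on with
  | zero => rw [map_zero, map_zero]; exact zero_mem _
  | add a b ha hb => rw [map_add, map_add]; exact add_mem ha hb
  | tmul c m =>
    rw [tmul_eq, map_add, map_add]
    refine add_mem (xrZ_stable D x r _ (xrZ_FL D x hr c m.1)) ?_
    rw [xrZ_apply D x r (GJ D f c m.2), map_sum]
    refine Submodule.sum_mem _ fun j _ => ?_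
    rw [map_smul, sZ_GJ]
    refine Submodule.smul_mem _ _ ?_
    obtain ⟨u, hu⟩ := D.exists_div_mem_NB H hX hf0 sQ hdet hr (Pi.single j 1) m.2.2
    have e1 := PiB_tmul D x c (⟨_, hu⟩ : ↥(D.NB f Q l))
    have e2 : (⟨(⟨_, hu⟩ : ↥(D.NB f Q l)).1.2, (⟨_, hu⟩ : ↥(D.NB f Q l)).2.2.1⟩ : ↥(D.JB f)) =
        -(r j • m.2) := by
      apply Subtype.ext
      change -((m.2 : B) * dotProduct (Pi.single j 1) r) = -(r j * (m.2 : B))
      rw [single_one_dotProduct, mul_comm]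
    rw [e2, map_neg] at e1
    have e3 : GJ D f c (r j • m.2) = (∑ i, x i • FL D f c (u i)) -
        PiB D f Q l x (c ⊗ₜ[ℂ] (⟨_, hu⟩ : ↥(D.NB f Q l))) := by
      rw [e1]
      abel
    rw [e3, map_sub, map_sum]
    refine sub_mem (Submodule.sum_mem _ fun i _ => ?_) (xrZ_stable D x r _ ⟨_, rfl⟩)
    rw [map_smul]
    exact Submodule.smul_mem _ _ (xrZ_FL D x hr c (u i))

end

end Vale.Agent.P287.C8
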