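import Vale.Agent.P287.C8.Deh
import Vale.Agent.P287.C8.CokerDim

/-!
The lattice `N`, its projections, and the behaviour at infinity of `∑ x i • l i + s` over an
extension field.
-/

namespace Vale.Agent.P287.C8

open MvPolynomial Module Vale.Agent.P287 Vale.Agent.P287.H925 Vale.Agent.P287.Theta
open scoped TensorProduct

section Graded

variable (f g : P3) (Q : Matrix (Fin 3) (Fin 3) P3) (l : Fin 3 → RG g)

/-- the graded pieces of the lattice `N` -/
abbrev NT (d : ℕ) : Type := ↥(Nq f g Q Q.adjugate l d)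

/-- the graded pieces of the target -/
abbrev MT (d : ℕ) : Type := ↥(gr g d) × ↥(Jq f g (d + 2))

/-- the coordinates of the vector part -/
noncomputable def cl (d : ℕ) (i : Fin 3) : NT f g Q l d →ₗ[ℂ] gr g d where
  toFun w := ⟨w.1.1 i, w.2.1.1 i⟩
  map_add' _ _ := rfl
  map_smul' _ _ := rfl

/-- the scalar part -/
noncomputable def cs (d : ℕ) : NT f g Q l d →ₗ[ℂ] Jq f g (d + 2) where
  toFun w := ⟨w.1.2, w.2.2.1⟩
  map_add' _ _ := rfl
  map_smul' _ _ := rfl

/-- the four projections -/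
noncomputable def pN (d : ℕ) : Option (Fin 3) → NT f g Q l d →ₗ[ℂ] MT f g d
  | none => (LinearMap.inr ℂ _ _).comp (cs f g Q l d)
  | some i => (LinearMap.inl ℂ _ _).comp (cl f g Q l d i)

variable {BB : Type*} [CommRing BB] [Algebra ℂ BB] (φ : RG g →ₐ[ℂ] BB)

/-- reduction of a form -/
noncomputable def rg (d : ℕ) : gr g d →ₗ[ℂ] BB := φ.toLinearMap.comp (gr g d).subtype

noncomputable def rj (d : ℕ) : Jq f g d →ₗ[ℂ] BB := φ.toLinearMap.comp (Jq f g d).subtype

variable {k : Type*} [Field k] [Algebra ℂ k]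

/-- the element of `(k ⊗ BB)³ × (k ⊗ BB)` attached to an element of `k ⊗ N` -/
noncomputable def redK (d : ℕ) (ν : k ⊗[ℂ] NT f g Q l d) :
    (Fin 3 → k ⊗[ℂ] BB) × (k ⊗[ℂ] BB) :=
  (fun i => ((rg g φ d).comp (cl f g Q l d i)).baseChange k ν,
    ((rj f g φ (d + 2)).comp (cs f g Q l d)).baseChange k ν)

/-- the coordinates of the isotropic vector at infinity -/
noncomputable def lK (k : Type*) [Field k] [Algebra ℂ k] (i : Fin 3) : k ⊗[ℂ] BB :=
  1 ⊗ₜ[ℂ] φ (l i)

/-- `Q` at infinity -/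
noncomputable def QK (k : Type*) [Field k] [Algebra ℂ k] :
    Matrix (Fin 3) (Fin 3) (k ⊗[ℂ] BB) :=
  (qm g Q).map ((Algebra.TensorProduct.includeRight.comp φ : RG g →ₐ[ℂ] k ⊗[ℂ] BB))

lemma qmul_redK (d : ℕ) (ν : k ⊗[ℂ] NT f g Q l d) :
    qmul (QK g Q φ k) (redK f g Q l φ d ν) (lK g l φ k, 0) = 0 := by
  induction ν using TensorProduct.induction_on with
  | zero =>
    have h1 : redK f g Q l φ d (0 : k ⊗[ℂ] NT f g Q l d) = 0 := by
      refine Prod.ext (funext fun i => ?_) ?_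
      · exact map_zero _
      · exact map_zero _
    rw [h1]
    exact (rho _ _).map_zero
  | tmul c w =>
    have h1 : redK f g Q l φ d (c ⊗ₜ[ℂ] w) = (c ⊗ₜ[ℂ] (1 : BB)) •
        ((fun i => (Algebra.TensorProduct.includeRight.comp φ : RG g →ₐ[ℂ] k ⊗[ℂ] BB) (w.1.1 i),
          (Algebra.TensorProduct.includeRight.comp φ : RG g →ₐ[ℂ] k ⊗[ℂ] BB) w.1.2) :
          (Fin 3 → k ⊗[ℂ] BB) × (k ⊗[ℂ] BB)) := by
      refine Prod.ext (funext fun i => ?_) ?_
      · change ((rg g φ d).comp (cl f g Q l d i)).baseChange k (c ⊗ₜ[ℂ] w) =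
          (c ⊗ₜ[ℂ] (1 : BB)) * (1 ⊗ₜ[ℂ] φ (w.1.1 i))
        rw [LinearMap.baseChange_tmul, Algebra.TensorProduct.tmul_mul_tmul, mul_one, one_mul]
        rfl
      · change ((rj f g φ (d + 2)).comp (cs f g Q l d)).baseChange k (c ⊗ₜ[ℂ] w) =
          (c ⊗ₜ[ℂ] (1 : BB)) * (1 ⊗ₜ[ℂ] φ w.1.2)
        rw [LinearMap.baseChange_tmul, Algebra.TensorProduct.tmul_mul_tmul, mul_one, one_mul]
        rfl
    have h2 := qmul_map ((Algebra.TensorProduct.includeRight.comp φ : RG g →ₐ[ℂ] k ⊗[ℂ] BB) :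
      RG g →+* k ⊗[ℂ] BB) (qm g Q) w.1 (l, 0)
    have h3 : qmul (qm g Q) w.1 (l, 0) = 0 := by
      rw [qmul_pure_eq_zero_iff]
      have hadjq : qm g Q.adjugate = (qm g Q).adjugate := RingHom.map_adjugate _ Q
      rw [← hadjq]
      exact w.2.2.2
    rw [h3] at h2
    have h4 : ((fun i => ((Algebra.TensorProduct.includeRight.comp φ : RG g →ₐ[ℂ] k ⊗[ℂ] BB) :
        RG g →+* k ⊗[ℂ] BB) ((l, (0 : RG g)).1 i)),
        ((Algebra.TensorProduct.includeRight.comp φ : RG g →ₐ[ℂ] k ⊗[ℂ] BB) :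
        RG g →+* k ⊗[ℂ] BB) (l, (0 : RG g)).2) = ((lK g l φ k, 0) :
          (Fin 3 → k ⊗[ℂ] BB) × (k ⊗[ℂ] BB)) := by
      refine Prod.ext rfl ?_
      exact map_zero _
    rw [h4] at h2
    rw [h1, qmul_smul_left]
    have h5 : qmul (QK g Q φ k)
        ((fun i => (Algebra.TensorProduct.includeRight.comp φ : RG g →ₐ[ℂ] k ⊗[ℂ] BB) (w.1.1 i),
          (Algebra.TensorProduct.includeRight.comp φ : RG g →ₐ[ℂ] k ⊗[ℂ] BB) w.1.2) :
          (Fin 3 → k ⊗[ℂ] BB) × (k ⊗[ℂ] BB)) (lK g l φ k, 0) = 0 := by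
      refine Eq.trans h2 ?_
      refine Prod.ext (funext fun i => ?_) ?_
      · exact map_zero _
      · exact map_zero _
    rw [h5, smul_zero]
  | add a b ha hb =>
    have h1 : redK f g Q l φ d (a + b) = redK f g Q l φ d a + redK f g Q l φ d b := by
      refine Prod.ext (funext fun i => ?_) ?_
      · exact map_add _ _ _
      · exact map_add _ _ _
    rw [h1, qmul_add_left, ha, hb, add_zero]

variable {f g Q l φ}

lemma QK_isSymm (sQ : Q.IsSymm) : (QK g Q φ k).IsSymm := by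
  rw [Matrix.IsSymm, QK, ← Matrix.transpose_map, ← Matrix.transpose_map, sQ.eq]

lemma QK_det : (QK g Q φ k).det = 1 ⊗ₜ[ℂ] φ (q g Q.det) := by
  have h1 : (QK g Q φ k).det =
      (Algebra.TensorProduct.includeRight.comp φ : RG g →ₐ[ℂ] k ⊗[ℂ] BB) (qm g Q).det :=
    (RingHom.map_det ((Algebra.TensorProduct.includeRight.comp φ : RG g →ₐ[ℂ] k ⊗[ℂ] BB) :
      RG g →+* k ⊗[ℂ] BB) (qm g Q)).symm
  have h2 : (qm g Q).det = q g Q.det := (RingHom.map_det _ Q).symm
  rw [h1, h2]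
  rfl

/-- The key fact at infinity: if `∑ x i • l i = 0` and `s = 0` there, then `l = 0` there. -/
lemma redK_eq_zero (x : Fin 3 → k)
    (hx : ∀ y : k ⊗[ℂ] BB, (∑ i, x i ⊗ₜ[ℂ] φ (l i)) * y = 0 → y = 0)
    (hu : IsUnit (φ (q g Q.det))) (d : ℕ) (ν : k ⊗[ℂ] NT f g Q l d)
    (h1 : ∑ i, x i • (redK f g Q l φ d ν).1 i = 0) (h2 : (redK f g Q l φ d ν).2 = 0) :
    redK f g Q l φ d ν = 0 := by
  set a := (redK f g Q l φ d ν).1 with ha
  have key := qmul_redK f g Q l φ d ν
  rw [qmul_pure_eq_zero_iff, h2] at key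
  have h3 : (QK g Q φ k).mulVec (crossProduct a (lK g l φ k)) = 0 := by
    funext i
    have := key.1 i
    rwa [zero_mul, add_zero] at this
  have h4 : crossProduct a (lK g l φ k) = 0 := by
    have h5 := congrArg (fun v => (QK g Q φ k).adjugate.mulVec v) h3
    simp only [Matrix.mulVec_mulVec, Matrix.adjugate_mul, Matrix.mulVec_zero, Matrix.smul_mulVec,
      Matrix.one_mulVec] at h5
    have h6 : IsUnit (QK g Q φ k).det := by
      rw [QK_det]
      exact hu.map (Algebra.TensorProduct.includeRight : BB →ₐ[ℂ] k ⊗[ℂ] BB)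
    obtain ⟨c, hc⟩ := h6.exists_left_inv
    have h7 := congrArg (fun v => c • v) h5
    simp only [smul_smul, hc, one_smul, smul_zero] at h7
    exact h7
  have h5 : ∀ i j, a i * lK g l φ k j = a j * lK g l φ k i := by
    rw [cross_apply] at h4
    have e0 := congrFun h4 0
    have e1 := congrFun h4 1
    have e2 := congrFun h4 2
    simp only [Matrix.cons_val_zero, Matrix.cons_val_one, Matrix.cons_val, Pi.zero_apply] at e0 e1 e2
    intro i j
    fin_cases i <;> fin_cases j <;>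
      simp only [Fin.zero_eta, Fin.mk_one, Fin.reduceFinMk]
    · linear_combination e2
    · linear_combination -e1
    · linear_combination -e2
    · linear_combination e0
    · linear_combination e1
    · linear_combination -e0
  have h6 : ∀ j, a j = 0 := by
    intro j
    apply hx
    rw [Finset.sum_mul]
    have h7 : ∀ i, (x i ⊗ₜ[ℂ] φ (l i) : k ⊗[ℂ] BB) * a j =
        (x i • a i) * lK g l φ k j := by
      intro i
      have h8 : (x i ⊗ₜ[ℂ] φ (l i) : k ⊗[ℂ] BB) = x i • lK g l φ k i := by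
        rw [lK, TensorProduct.smul_tmul', smul_eq_mul, mul_one]
      rw [h8, smul_mul_assoc, smul_mul_assoc, mul_comm, ← h5]
    rw [Finset.sum_congr rfl fun i _ => h7 i, ← Finset.sum_mul, h1, zero_mul]
  exact Prod.ext (funext h6) h2

end Graded

end Vale.Agent.P287.C8
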