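import Vale.Agent.P287.C8.ParityM
import Vale.Agent.P287.C8.DimWM

/-!
The parity of the theta characteristic defined by a splitting curve of even degree, in terms of the
line scroll.
-/

namespace Vale.Agent.P287.C8

open MvPolynomial Module Vale.Agent.P287 Vale.Agent.P287.H925 Vale.Agent.P287.Theta

variable {g : P3} {s a b : ℕ} {M : Matrix (Fin 4) (Fin 4) P3}

lemma choose_sq (s : ℕ) : (s + 1).choose 2 + s.choose 2 = s ^ 2 := by
  have h1 := Nat.choose_two_right (s + 1)
  have h2 := Nat.choose_two_right s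
  have h3 : 2 ∣ s * (s - 1) := (Nat.even_mul_pred_self s).two_dvd
  have h4 : 2 ∣ (s + 1) * s := by
    rw [mul_comm]
    exact (Nat.even_mul_succ_self s).two_dvd
  rw [h1, h2, Nat.add_sub_cancel, ← Nat.add_div_of_dvd_right h4]
  rcases s with _ | s
  · rfl
  · rw [Nat.add_sub_cancel]
    apply Nat.div_eq_of_eq_mul_left two_pos
    ring

/-- **The parity of the theta characteristic**, for a curve over which the quadric surface
contains a line with equations `u`, `v`. -/
theorem even_theta_KM (H : FourData M g s)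
    {u v : Fin 4 → RG g} (hu : ∀ i, u i ∈ gr g (a + wt i)) (hv : ∀ i, v i ∈ gr g (b + wt i))
    (huu : dotProduct ((qm4 g M.adjugate).mulVec u) u = 0)
    (huv : dotProduct ((qm4 g M.adjugate).mulVec u) v = 0)
    (hvv : dotProduct ((qm4 g M.adjugate).mulVec v) v = 0)
    {i₀ j₀ : Fin 4} (hD : u i₀ * v j₀ - u j₀ * v i₀ ≠ 0) :
    ∃ n₀, ∀ n, n₀ ≤ n → Even (finrank ℂ (thetaSp M.det (M.adjugate 3 3 * g) (s + 4)) + s +
      finrank ℂ (KM g u v n)) := by
  obtain ⟨n₀, hn₀⟩ := parityM H.even H.pg H.sM H.hM rfl H.hfδ hu hv huu huv hvv hD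
  refine ⟨s + n₀, fun n hn => ?_⟩
  obtain ⟨k, rfl⟩ := Nat.exists_eq_add_of_le hn
  have h1 := hn₀ (n₀ + k) (Nat.le_add_right _ _)
  rw [H.finrank_WM, ← add_assoc] at h1
  have h2 := choose_sq s
  have h3 : s ^ 2 % 2 = s % 2 := by
    rcases Nat.even_or_odd s with h | h
    · rw [Nat.even_iff.1 h, Nat.even_iff.1 (h.pow_of_ne_zero two_ne_zero)]
    · rw [Nat.odd_iff.1 h, Nat.odd_iff.1 h.pow]
  rw [Nat.even_iff] at h1 ⊢
  omega

end Vale.Agent.P287.C8
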