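import Vale.Agent.P287.C8.NetCase

/-!
Rationality from a Verra fourfold with the same discriminant and a compatible square root, whose
second fibration has a point of odd degree.
-/

namespace Vale.Agent.P287.C8

open MvPolynomial Module Vale.Agent.P287 Vale.Agent.P287.H925 Vale.Agent.P287.H925.NetResult
  Vale.Agent.P287.Theta Vale.Agent.P287.H139

lemma pderiv_comm' {σ : Type*} (i j : σ) (p : MvPolynomial σ ℂ) :
    pderiv i (pderiv j p) = pderiv j (pderiv i p) := by
  induction p using MvPolynomial.induction_on with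
  | C a => simp
  | add p q hp hq => simp only [map_add, hp, hq]
  | mul_X p k hp =>
    simp only [pderiv_mul, map_add, pderiv_mul, hp]
    classical
    simp only [pderiv_X]
    simp only [Pi.single_apply]
    split_ifs <;> simp <;> ring

lemma homog_zero_eq {p : P3} (hp : p.IsHomogeneous 0) : p = C (coeff 0 p) := by
  rw [← totalDegree_eq_zero_iff_eq_C]
  exact Nat.le_zero.1 hp.totalDegree_le

/-- the tensor of a matrix of quadratic forms -/
noncomputable def tens (Q : Matrix (Fin 3) (Fin 3) P3) (a b i j : Fin 3) : ℂ :=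
  coeff 0 (pderiv j (pderiv i (Q a b))) / 2

lemma tens_bisymm {Q : Matrix (Fin 3) (Fin 3) P3} (hQ : Q.IsSymm) : IsBisymm (tens Q) where
  symm1 a b i j := by rw [tens, tens, hQ.apply]
  symm2 a b i j := by rw [tens, tens, pderiv_comm']

lemma quad_eq {p : P3} (hp : p.IsHomogeneous 2) :
    p = ∑ i, ∑ j, C (coeff 0 (pderiv j (pderiv i p)) / 2) * (X i * X j) := by
  have h1 : ∀ i, pderiv i p = ∑ j, X j * pderiv j (pderiv i p) := by
    intro i
    have := (hp.pderiv (i := i)).sum_X_mul_pderiv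
    rw [this]
    simp
  have h2 : (2 : P3) * p = ∑ i, X i * pderiv i p := by
    rw [hp.sum_X_mul_pderiv]
    simp
  have h3 : ∀ i j, pderiv j (pderiv i p) = C (coeff 0 (pderiv j (pderiv i p))) := fun i j =>
    homog_zero_eq (by simpa using (hp.pderiv (i := i)).pderiv (i := j))
  have h4 : (2 : P3) * p = (2 : P3) * ∑ i, ∑ j, C (coeff 0 (pderiv j (pderiv i p)) / 2) *
      (X i * X j) := by
    rw [h2, Finset.mul_sum]
    refine Finset.sum_congr rfl fun i _ => ?_
    conv_lhs => rw [h1 i]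
    rw [Finset.mul_sum, Finset.mul_sum]
    refine Finset.sum_congr rfl fun j _ => ?_
    conv_lhs => rw [h3 i j]
    have h5 : (C (coeff 0 (pderiv j (pderiv i p))) : P3) =
        2 * C (coeff 0 (pderiv j (pderiv i p)) / 2) := by
      have : (2 : P3) = C 2 := (map_ofNat C 2).symm
      rw [this, ← C_mul]
      congr 1
      ring
    rw [h5]
    ring
  exact mul_left_cancel₀ two_ne_zero h4

lemma matA_tens {Q : Matrix (Fin 3) (Fin 3) P3} (hQ : ∀ i j, (Q i j).IsHomogeneous 2) :
    matA (tens Q) (X : Fin 3 → P3) = Q := by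
  refine Matrix.ext fun a b => ?_
  conv_rhs => rw [quad_eq (hQ a b)]
  rfl

lemma matA_tens_tvec {Q : Matrix (Fin 3) (Fin 3) P3} (hQ : ∀ i j, (Q i j).IsHomogeneous 2) :
    matA (tens Q) tvec = Q.map (aeval tvec : P3 →ₐ[ℂ] RatK) := by
  have h := map_matA (aeval tvec : P3 →ₐ[ℂ] RatK) (tens Q) (X : Fin 3 → P3)
  rw [matA_tens hQ] at h
  rw [h]
  congr 1
  funext i
  simp

/-- `Q ⊥ ⟨-1⟩` -/
noncomputable def ext4 (Q : Matrix (Fin 3) (Fin 3) P3) (c : P3) : Matrix (Fin 4) (Fin 4) P3 :=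
  !![Q 0 0, Q 0 1, Q 0 2, 0; Q 1 0, Q 1 1, Q 1 2, 0; Q 2 0, Q 2 1, Q 2 2, 0; 0, 0, 0, c]

lemma ext4_symm {Q : Matrix (Fin 3) (Fin 3) P3} (hQ : Q.IsSymm) (c : P3) : (ext4 Q c).IsSymm := by
  have h : ∀ i j, Q i j = Q j i := fun i j => (hQ.apply i j).symm
  ext1 i j
  fin_cases i <;> fin_cases j <;> simp [ext4, h 1 0, h 2 0, h 2 1]

lemma ext4_mul (Q A : Matrix (Fin 3) (Fin 3) P3) (c c' f : P3) (h : Q * A = f • 1)
    (hc : c * c' = f) : ext4 Q c * ext4 A c' = f • (1 : Matrix (Fin 4) (Fin 4) P3) := by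
  have h1 : ∀ i j, Q i 0 * A 0 j + Q i 1 * A 1 j + Q i 2 * A 2 j =
      f * (1 : Matrix (Fin 3) (Fin 3) P3) i j := by
    intro i j
    have := congrFun (congrFun h i) j
    rw [Matrix.mul_apply, Fin.sum_univ_three] at this
    rw [this]
    rfl
  ext1 i j
  fin_cases i <;> fin_cases j <;>
    simp [ext4, Matrix.mul_apply, Fin.sum_univ_four, h1, hc, Matrix.one_apply]

lemma ext4_det (Q : Matrix (Fin 3) (Fin 3) P3) (c : P3) : (ext4 Q c).det = Q.det * c := by
  rw [Matrix.det_succ_row_zero]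
  simp [ext4, Fin.sum_univ_succ, Matrix.det_fin_three, Fin.succAbove]
  ring

lemma map_ext4_dot {Q : Matrix (Fin 3) (Fin 3) P3} (hQ : ∀ i j, (Q i j).IsHomogeneous 2)
    (v : Fin 4 → RatK) : qf (amat (tens Q)) v =
      v ⬝ᵥ ((ext4 Q (-1)).map (aeval tvec : P3 →ₐ[ℂ] RatK)).mulVec v := by
  have h : amat (tens Q) = (ext4 Q (-1)).map (aeval tvec : P3 →ₐ[ℂ] RatK) := by
    rw [amat, matA_tens_tvec hQ]
    ext1 i j
    fin_cases i <;> fin_cases j <;> simp [ext4]
  rw [h]
  simp only [qf, dotProduct, Matrix.mulVec, Finset.mul_sum, Algebra.algebraMap_self,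
    RingHom.id_apply]
  refine Finset.sum_congr rfl fun i _ => Finset.sum_congr rfl fun j _ => ?_
  ring

section

variable {M : Matrix (Fin 4) (Fin 4) P3} {g : P3} {m : ℕ}

/-- **The Verra case.** -/
theorem rational_of_verra_matrix (hM : M.IsSymm)
    (hdeg : ∀ i j, (M i j).IsHomogeneous (1 + wt i + wt j)) (hs : SmoothForm (cubicOf M))
    (hsm : SmoothP M.det) (hg : Irreducible g) (hgm : g.IsHomogeneous m) (hm : 2 ≤ m)
    (hgf : ¬ g ∣ M.det)
    (hsq : ∃ (e : ℕ) (s c : P3), c.IsHomogeneous e ∧ ¬ g ∣ c ∧ g ∣ c ^ 2 * M.det - s ^ 2)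
    {Q A : Matrix (Fin 3) (Fin 3) P3} (sQ : Q.IsSymm) (sA : A.IsSymm)
    (hQ : ∀ i j, (Q i j).IsHomogeneous 2)
    (hQA : Q * A = M.det • (1 : Matrix (Fin 3) (Fin 3) P3)) {c0 : ℂ} (hc0 : c0 ≠ 0)
    (hdet : Q.det = C c0 * M.det) {b : Fin 3 → P3} {a : ℕ} (hAh : ∀ i j, (A i j).IsHomogeneous a)
    (hbA : ∀ i j, M.det ∣ b i * b j - (M.adjugate 3 3 * g) * A i j) {e : Fin 3}
    (hb : ¬ M.det ∣ b e)
    (hodd : ∃ v : Fin 4 → RatK, v ≠ 0 ∧ qf (vmat (tens Q)) v = 0) :
    RationalHypersurface (cubicOf M) := by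
  have hchar : CharZero RatK := charZero_of_injective_algebraMap (algebraMap ℂ RatK).injective
  have hdet' : (M.submatrix sw sw).det = M.det := Matrix.det_submatrix_equiv_self sw M
  have hadj : (M.submatrix sw sw).adjugate 0 0 = M.adjugate 3 3 := by
    rw [Matrix.adjugate_submatrix_equiv_self]
    rfl
  have pf := prime_of_smoothP (det_hom6 hdeg) (by norm_num) hsm
  have hisoc : ∀ v : Fin 4 → RatK, v ≠ 0 → v ⬝ᵥ ((M.submatrix sw sw).map
      (aeval tvec : P3 →ₐ[ℂ] RatK)).mulVec v = 0 → RationalHypersurface (cubicOf M) := by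
    intro v hv hqv
    refine rational_of_isotropic_matrix M hdeg hs (v ∘ sw) ?_ ?_
    · intro h
      apply hv
      funext i
      have := congrFun h (sw i)
      simpa using this
    · rw [← hqv, ← sw_dot]
      have : (v ∘ sw) ∘ sw = v := by
        funext i
        simp
      rw [this]
      rfl
  by_cases hδ : M.adjugate 3 3 = 0
  · obtain ⟨v, hv, hqv⟩ := isotropic_of_minor (M := M.submatrix sw sw) (by rw [hadj, hδ])
    exact hisoc v hv hqv
  have hfu : ¬ M.det ∣ M.adjugate 3 3 * g := by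
    intro h
    rcases pf.dvd_or_dvd h with h1 | h1
    · exact not_dvd_of_degree (det_hom6 hdeg) (adj_hom3 hdeg) hδ (by norm_num) h1
    · exact hgf (pf.irreducible.associated_of_dvd hg h1).symm.dvd
  have hAe : ext4 A (-M.det) e.castSucc e.castSucc = A e e := by
    fin_cases e <;> simp [ext4]
  have hr := rank_one pf hfu hbA
  have H := chartData (M := M.submatrix sw sw) (M' := ext4 Q (-1)) (A := ext4 A (-M.det)) (g := g)
    (b := b e) (e := e.castSucc) (a := a) (c0 := -c0) (neg_ne_zero.2 hc0) (hM.submatrix sw)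
    (ext4_symm sQ _) (ext4_symm sA _)
    (by rw [hdet']; exact ext4_mul Q A _ _ _ hQA (by ring))
    (by rw [hdet']; exact det_hom6 hdeg) (by rw [hdet']; exact pf)
    (by rw [hadj]; exact adj_hom3 hdeg) (by rw [hadj]; exact hδ) hgm hm hg.prime
    (by rw [hdet']; exact hgf) (by rw [hAe]; exact hAh e e)
    (by rw [hdet', hAe]; exact not_dvd_diag pf hbA hb)
    (by
      rw [hdet', hAe]
      intro i j
      have h0 : ∀ i : Fin 3, ext4 A (-M.det) i.castSucc e.castSucc = A i e := by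
        intro i
        fin_cases i <;> fin_cases e <;> simp [ext4]
      have h1 : ∀ i : Fin 3, ext4 A (-M.det) e.castSucc i.castSucc = A e i := by
        intro i
        fin_cases i <;> fin_cases e <;> simp [ext4]
      have h2 : ∀ i j : Fin 3, ext4 A (-M.det) i.castSucc j.castSucc = A i j := by
        intro i j
        fin_cases i <;> fin_cases j <;> simp [ext4]
      have h3 : ∀ i : Fin 3, ext4 A (-M.det) i.castSucc (Fin.last 3) = 0 := by
        intro i
        fin_cases i <;> simp [ext4, Fin.last]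
      have h4 : ∀ i : Fin 3, ext4 A (-M.det) (Fin.last 3) i.castSucc = 0 := by
        intro i
        fin_cases i <;> simp [ext4, Fin.last]
      have h5 : ext4 A (-M.det) (Fin.last 3) (Fin.last 3) = -M.det := by
        simp [ext4, Fin.last]
      refine Fin.lastCases ?_ (fun i => ?_) i <;> refine Fin.lastCases ?_ (fun j => ?_) j
      · rw [h5, h4, h3, mul_zero, sub_zero]
        exact ((dvd_refl _).neg_right).mul_left _
      · rw [h4, h4, mul_zero, zero_mul, sub_zero]
        exact dvd_zero _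
      · rw [h3, h3, mul_zero, mul_zero, sub_zero]
        exact dvd_zero _
      · rw [h0, h1, h2]
        exact hr e i j)
    (by
      rw [hdet', hadj, hAe]
      have := hbA e e
      rwa [← pow_two] at this)
    (by
      rw [hdet', ext4_det, hdet, C_neg]
      ring) (by rw [hdet']; exact hsq)
  obtain ⟨U, hU, hUd⟩ := ChartData.lagrangian (n := 2) H
  simp only [map_cr_crMap, crMap_cr] at hU
  have hG0 : ((ext4 Q (-1)).map (aeval tvec : P3 →ₐ[ℂ] RatK)).det ≠ 0 := by
    have h1 : ((ext4 Q (-1)).map (aeval tvec : P3 →ₐ[ℂ] RatK)).det =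
        aeval tvec (ext4 Q (-1)).det :=
      (AlgHom.map_det (aeval tvec : P3 →ₐ[ℂ] RatK) (ext4 Q (-1))).symm
    rw [h1, ext4_det, hdet, map_mul, map_mul, aeval_C, map_neg, map_one]
    refine mul_ne_zero (mul_ne_zero ?_ (aeval_tvec_ne_zero (det_hom6 hdeg) pf.ne_zero))
      (neg_ne_zero.2 one_ne_zero)
    exact fun h => hc0 ((map_eq_zero _).1 h)
  have hγ : aeval tvec g ≠ (0 : RatK) := aeval_tvec_ne_zero hgm hg.ne_zero
  rcases exists_similarity4 (Q := (M.submatrix sw sw).map (aeval tvec : P3 →ₐ[ℂ] RatK))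
    hG0 hγ U hU hUd with ⟨v, hv, hqv⟩ | ⟨φ, hφ⟩
  · exact hisoc v hv hqv
  · obtain ⟨w, hw, hqw⟩ := hodd
    have hdQ : SmoothP (matA (tens Q) (X : Fin 3 → P3)).det := by
      rw [matA_tens hQ, hdet]
      intro z hz
      apply hsm z
      intro i
      have := hz i
      rw [pderiv_C_mul, map_mul, eval_C] at this
      exact (mul_eq_zero.1 this).resolve_left hc0
    refine H754.rational_of_verra_similar M hdeg hs (c := tens Q) (tens_bisymm sQ) hdQ
      (l := (aeval tvec g)⁻¹)
      ((LinearEquiv.funCongrLeft RatK RatK sw).trans φ) (fun v => ?_) (R := RatK)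
      (by rw [Module.finrank_self]; exact odd_one) w ?_ hqw
    · rw [map_ext4_dot hQ, LinearEquiv.trans_apply, hφ, ← sw_dot (M.map _) v]
      rfl
    · obtain ⟨i, hi⟩ : ∃ i, w i ≠ 0 := by
        by_contra hcon
        push Not at hcon
        exact hw (funext hcon)
      exact Ideal.eq_top_of_isUnit_mem _ (Ideal.subset_span ⟨i, rfl⟩) (isUnit_iff_ne_zero.2 hi)

end

end Vale.Agent.P287.C8
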