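import Vale.Agent.P287.C8.TypeA
import Vale.Agent.P287.C8.VerraCase
import Vale.Agent.P287.C8.DimW
import Vale.Agent.P287.C8.Odd
import Vale.Agent.P287.C8.IsoVec
import Vale.Agent.P287.C8.Quat
import Vale.Agent.P287.C8.DetZero

/-!
Splitting curves of odd degree: reduction to the parity theorem.
-/

namespace Vale.Agent.P287.C8

open MvPolynomial Module Vale.Agent.P287 Vale.Agent.P287.H925 Vale.Agent.P287.H925.NetResult
  Vale.Agent.P287.Theta Vale.Agent.P287.H139

section

variable {M : Matrix (Fin 4) (Fin 4) P3} {g : P3} {r : ℕ}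

/-- a sixth root -/
lemma exists_root6 {x : ℂ} (hx : x ≠ 0) : ∃ s : ℂ, s ≠ 0 ∧ s ^ 6 = x := by
  obtain ⟨s, hs⟩ := IsAlgClosed.exists_pow_nat_eq x (n := 6) (by norm_num)
  refine ⟨s, ?_, hs⟩
  rintro rfl
  apply hx
  rw [← hs, zero_pow (by norm_num)]

/-- Three sections of the twisted theta characteristic. -/
theorem exists_three (H : EvenOn M.det (M.adjugate 3 3 * g) (3 + (2 * r + 1))) (hr : 1 ≤ r) :
    ∃ b : Fin 3 → P3, (∀ i, b i ∈ rt M.det (M.adjugate 3 3 * g) (r + 4)) ∧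
      ∀ c : Fin 3 → ℂ, M.det ∣ ∑ i, C (c i) * b i → c = 0 := by
  apply exists_sections H
  have hcount := H.count (r + 4)
  rw [finrank_homog] at hcount
  rcases Nat.lt_or_ge r 2 with hr2 | hr2
  · have h7 := H.finrank_rt_of_lt (d := r + 4) (by omega)
    obtain rfl : r = 1 := by omega
    have h8 : (1 + 4 + 2).choose 2 = 21 := by decide
    omega
  · obtain ⟨k, rfl⟩ := Nat.exists_eq_add_of_le hr2
    have h7 := H.finrank_rt_le k
    have h8 : 2 + k + 4 = 6 + k := by omega
    rw [h8] at hcount ⊢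
    have h9 := choose_two_mul (6 + k)
    have h10 := choose_two_mul k
    nlinarith

/-- In the odd case either the cubic is rational or there are three sections with a matrix of
quadrics of discriminant `f`. -/
theorem exists_threeData (hM : M.IsSymm) (hdeg : ∀ i j, (M i j).IsHomogeneous (1 + wt i + wt j))
    (hs : SmoothForm (cubicOf M)) (hsm : SmoothP M.det) (hg : Irreducible g)
    (hgr : g.IsHomogeneous (2 * r + 1)) (hr : 1 ≤ r) (hgf : ¬ g ∣ M.det)
    (hsq : ∃ (e : ℕ) (s c : P3), c.IsHomogeneous e ∧ ¬ g ∣ c ∧ g ∣ c ^ 2 * M.det - s ^ 2)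
    (hδ : M.adjugate 3 3 ≠ 0) :
    RationalHypersurface (cubicOf M) ∨ ∃ (b : Fin 3 → P3) (Q : Matrix (Fin 3) (Fin 3) P3),
      ThreeData M.det (M.adjugate 3 3) g r b Q Q.adjugate ∧ Q.det = M.det ∧
      ∃ e, ¬ M.det ∣ b e := by
  have H2 : EvenOn M.det g (2 * r + 1) := evenOn_split (det_hom6 hdeg) hsm hgr hg.prime hgf hsq
  have H : EvenOn M.det (M.adjugate 3 3 * g) (3 + (2 * r + 1)) :=
    (evenOn_adj hM (det_hom6 hdeg) hsm (adj_hom3 hdeg) hδ).mul H2
  obtain ⟨b, hb, hb'⟩ := exists_three H hr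
  obtain ⟨A, sA, hA, hbA⟩ := exists_gram (n := 3) (d := r + 4) (e := 3 + (2 * r + 1)) (a := 4)
    H.hf H.sf H.hu H.hfu (by omega) b (fun i => (H.mem_rt.1 (hb i)).1)
    (fun i => (H.mem_rt.1 (hb i)).2)
  by_cases hdet : A.det = 0
  · exact Or.inl (rational_of_det_zero hM hdeg hs hsm hg hgr (by omega) hgf hsq
      (fun i => (H.mem_rt.1 (hb i)).1) hb' sA hA hbA hdet)
  right
  obtain ⟨Q, sQ, hQ, hQA, -, ⟨x, hx, hxQ⟩, -⟩ := dixon_three H.hf H.pf H.hfu b A sA hA hbA hdet
  obtain ⟨s, hs0, hsx⟩ := exists_root6 hx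
  -- rescale
  set c₁ : P3 := C (s⁻¹ ^ 2) with hc₁
  set c₂ : P3 := C (s ^ 2) with hc₂
  have hss : c₁ * c₂ = 1 := by
    rw [hc₁, hc₂, ← map_mul, inv_pow, inv_mul_cancel₀ (pow_ne_zero 2 hs0), map_one]
  have hdetQ : (c₁ • Q).det = M.det := by
    rw [Matrix.det_smul, Fintype.card_fin, hxQ, ← hsx, hc₁, ← map_pow, ← mul_assoc, ← map_mul]
    have : (s⁻¹ ^ 2) ^ 3 * s ^ 6 = 1 := by
      field_simp
    rw [this, map_one, one_mul]
  have hQA' : (c₁ • Q) * (c₂ • A) = M.det • (1 : Matrix (Fin 3) (Fin 3) P3) := by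
    rw [Matrix.smul_mul, Matrix.mul_smul, smul_smul, hss, one_smul, hQA]
  have hadj : (c₁ • Q).adjugate = c₂ • A :=
    (eq_adjugate_of_mul (by rw [hdetQ]; exact H.pf.ne_zero) (by rw [hdetQ, hQA'])).symm
  refine ⟨fun i => C s * b i, c₁ • Q, ?_, hdetQ, ?_⟩
  · rw [hadj]
    refine ⟨H2, hg.prime, adj_hom3 hdeg, ?_, ?_, ?_, ?_, ?_, ?_, ?_, ?_, hQA', ?_⟩
    · exact not_dvd_of_degree (det_hom6 hdeg) (adj_hom3 hdeg) hδ (by norm_num)
    · intro a ha ha2
      exact odd_theta hM hdeg hsm hδ ha ha2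
    · intro i
      have := (isHomogeneous_C (Fin 3) s).mul (H.mem_rt.1 (hb i)).1
      rwa [zero_add] at this
    · exact sQ.smul _
    · exact sA.smul _
    · intro i j
      have := (isHomogeneous_C (Fin 3) (s⁻¹ ^ 2)).mul (hQ i j)
      rwa [zero_add] at this
    · intro i j
      have := (isHomogeneous_C (Fin 3) (s ^ 2)).mul (hA i j)
      rwa [zero_add] at this
    · intro i j
      refine ((hbA i j).mul_left (C (s ^ 2))).trans (dvd_of_eq ?_)
      rw [Matrix.smul_apply, smul_eq_mul, hc₂, map_pow]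
      ring
    · rw [hdetQ]
  · refine ⟨0, fun h => ?_⟩
    have hu : IsUnit (C s : P3) := (isUnit_iff_ne_zero.2 hs0).map C
    have h1 : M.det ∣ b 0 := by
      rwa [hu.dvd_mul_left] at h
    have h3 := hb' (Pi.single 0 1) (by
      rw [Finset.sum_eq_single 0]
      · simpa using h1
      · intro j _ hj
        rw [Pi.single_eq_of_ne hj, map_zero, zero_mul]
      · simp)
    have h4 := congrFun h3 0
    simp at h4

/-- The arithmetic of the parities. -/
lemma even_of_parity {r N W J T : ℕ} (hr : 1 ≤ r) (hW : W = 1 + 3 * r.choose 2)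
    (hJ : J + (if r = 1 then 1 else 0) = T + (r - 2).choose 2) (h : Even (N + W + J))
    (hT : Even T) : Even N := by
  rcases Nat.lt_or_ge r 2 with hr2 | hr2
  · obtain rfl : r = 1 := by omega
    have h1 : Nat.choose 1 2 = 0 := by decide
    have h2 : Nat.choose (1 - 2) 2 = 0 := by decide
    rw [h1] at hW
    rw [h2, if_pos rfl] at hJ
    obtain ⟨a, ha⟩ := h
    obtain ⟨b, hb⟩ := hT
    exact ⟨a - b, by omega⟩
  · obtain ⟨k, rfl⟩ := Nat.exists_eq_add_of_le hr2
    rw [if_neg (by omega), add_zero, Nat.add_sub_cancel_left] at hJ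
    have h1 : (2 + k).choose 2 * 2 = (k + 2) * (k + 1) := by
      rw [add_comm 2 k]
      exact choose_two_mul k
    have h2 : k.choose 2 * 2 = k * (k - 1) := by
      rw [Nat.choose_two_right, Nat.div_mul_cancel]
      exact even_iff_two_dvd.1 (Nat.even_mul_pred_self k)
    have h3 : 1 + 3 * (2 + k).choose 2 + k.choose 2 = 2 * (k ^ 2 + 2 * k + 2) := by
      rcases Nat.eq_zero_or_pos k with h0 | h0
      · subst h0
        decide
      · obtain ⟨j, rfl⟩ := Nat.exists_eq_add_of_le h0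
        rw [Nat.add_sub_cancel_left] at h2
        nlinarith
    obtain ⟨a, ha⟩ := h
    obtain ⟨b, hb⟩ := hT
    refine ⟨a + (2 + k).choose 2 * 0 - b - (k ^ 2 + 2 * k + 2) + k.choose 2 * 0, ?_⟩
    omega

/-- **Splitting curves of odd degree**, modulo the parity theorem: the cubic fourfold is rational
if the theta characteristic of the splitting curve has an even number of sections. -/
theorem typeC_of (hM : M.IsSymm) (hdeg : ∀ i j, (M i j).IsHomogeneous (1 + wt i + wt j))
    (hs : SmoothForm (cubicOf M)) (hsm : SmoothP M.det) (hg : Irreducible g)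
    (hgr : g.IsHomogeneous (2 * r + 1)) (hr : 1 ≤ r) (hgf : ¬ g ∣ M.det)
    (hsq : ∃ (e : ℕ) (s c : P3), c.IsHomogeneous e ∧ ¬ g ∣ c ∧ g ∣ c ^ 2 * M.det - s ^ 2)
    (hpt : ∀ (b : Fin 3 → P3) (Q : Matrix (Fin 3) (Fin 3) P3),
      ThreeData M.det (M.adjugate 3 3) g r b Q Q.adjugate → Q.det = M.det →
      ∃ v : Fin 4 → RatK, v ≠ 0 ∧ qf (vmat (tens Q)) v = 0) :
    RationalHypersurface (cubicOf M) := by
  by_cases hδ : M.adjugate 3 3 = 0
  · have hadj : (M.submatrix sw sw).adjugate 0 0 = M.adjugate 3 3 := by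
      rw [Matrix.adjugate_submatrix_equiv_self]
      rfl
    obtain ⟨v, hv, hqv⟩ := isotropic_of_minor (M := M.submatrix sw sw) (by rw [hadj, hδ])
    refine rational_of_isotropic_matrix M hdeg hs (v ∘ sw) ?_ ?_
    · intro h
      apply hv
      funext i
      have := congrFun h (sw i)
      simpa using this
    · rw [← hqv, ← sw_dot]
      have : (v ∘ sw) ∘ sw = v := by
        funext i
        simp
      rw [this]
      rfl
  rcases exists_threeData hM hdeg hs hsm hg hgr hr hgf hsq hδ with h | ⟨b, Q, H, hdet, e, he⟩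
  · exact h
  · exact rational_of_verra_matrix hM hdeg hs hsm hg hgr (by omega) hgf hsq H.sQ H.sA H.hQ H.hQA
      (c0 := 1) one_ne_zero (by rw [map_one, one_mul, hdet]) H.hA H.h he (hpt b Q H hdet)

end

end Vale.Agent.P287.C8
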